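import Crest.Agent.GQ.Gauss

/-! # GQ Arith: ideals of R: divisors, Möbius inversion, powerful ideals -/

set_option autoImplicit false

noncomputable section

open NumberField Complex
open scoped ComplexConjugate

namespace Crest.Agent.GQ

variable {K : Type} [Field K] [NumberField K] [P : Pre K]

open Classical in
/-- the divisors of a non-zero ideal -/
def divs (I : Ideal (R K)) : Finset (Ideal (R K)) := (rows K (nmI I)).filter (fun J => J ∣ I)
open Classical in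
/-- the prime divisors of a non-zero ideal -/
def pfs (I : Ideal (R K)) : Finset (Ideal (R K)) := (divs I).filter (fun J => Prime J)
/-- the radical -/
def radI (I : Ideal (R K)) : Ideal (R K) := ∏ p ∈ pfs I, p
/-- powerful ideals -/
def Pow2 (I : Ideal (R K)) : Prop := I ≠ ⊥ ∧ ∀ p : Ideal (R K), Prime p → p ∣ I → p ^ 2 ∣ I
/-- Möbius function on ideals of `R` -/
def muR (I : Ideal (R K)) : ℂ := mu (gen I)

theorem mem_divs {I J : Ideal (R K)} (hI : I ≠ ⊥) : J ∈ divs I ↔ J ∣ I := by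
  classical
  unfold divs
  rw [Finset.mem_filter, mem_rows]
  exact ⟨fun h => h.2, fun h => ⟨⟨ne_zero_of_dvd_ne_zero hI h,
    Nat.cast_le.2 (nmI_le_of_dvd hI h)⟩, h⟩⟩
theorem mem_pfs {I J : Ideal (R K)} (hI : I ≠ ⊥) : J ∈ pfs I ↔ Prime J ∧ J ∣ I := by
  classical
  unfold pfs
  rw [Finset.mem_filter, mem_divs hI, and_comm]
theorem ar_of_mem_pfs {I J : Ideal (R K)} (h : J ∈ pfs I) : Prime J ∧ J ∣ I := by
  classical
  unfold pfs divs at h
  exact ⟨(Finset.mem_filter.1 h).2, (Finset.mem_filter.1 (Finset.mem_filter.1 h).1).2⟩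
theorem prime_gen {I : Ideal (R K)} : Prime (gen I) ↔ Prime I := by
  conv_rhs => rw [← span_gen I]
  exact Ideal.prime_span_singleton_iff.symm
theorem ar_coprime_iff {I J : Ideal (R K)} (hI : I ≠ ⊥) :
    IsCoprime I J ↔ ∀ p : Ideal (R K), Prime p → p ∣ I → ¬ p ∣ J := by
  refine ⟨fun h p hp h1 h2 => hp.not_isUnit (h.isUnit_of_dvd' h1 h2), fun h => ?_⟩
  rw [Ideal.isCoprime_iff_sup_eq]
  by_contra hne
  obtain ⟨m, hm, hle⟩ := Ideal.exists_le_maximal _ hne
  have hm0 : m ≠ ⊥ := fun h0 => hI (le_bot_iff.1 (h0 ▸ le_sup_left.trans hle))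
  exact h m (Ideal.prime_of_isPrime hm0 hm.isPrime) (Ideal.dvd_iff_le.2 (le_sup_left.trans hle))
    (Ideal.dvd_iff_le.2 (le_sup_right.trans hle))
theorem ar_prime_coprime {p J : Ideal (R K)} (hp : Prime p) (h : ¬ p ∣ J) : IsCoprime p J :=
  (ar_coprime_iff hp.ne_zero).2 fun q hq h1 h2 =>
    h (by rwa [associated_iff_eq.1 (hq.associated_of_dvd hp h1)] at h2)
theorem ar_coprime {p q : Ideal (R K)} (hp : Prime p) (hq : Prime q) (h : p ≠ q) : IsCoprime p q :=
  ar_prime_coprime hp fun hd => h (associated_iff_eq.1 (hp.associated_of_dvd hq hd))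
theorem ar_rad_dvd_of {I Z : Ideal (R K)} (h : ∀ p, Prime p → p ∣ I → p ∣ Z) : radI I ∣ Z :=
  Finset.prod_dvd_of_coprime (s := fun p : Ideal (R K) => p)
    (fun _ hp _ hq hne => ar_coprime (ar_of_mem_pfs hp).1 (ar_of_mem_pfs hq).1 hne)
    (fun p hp => h p (ar_of_mem_pfs hp).1 (ar_of_mem_pfs hp).2)
theorem radI_ne_bot (I : Ideal (R K)) : radI I ≠ ⊥ :=
  Finset.prod_ne_zero_iff.2 fun _ hp => (ar_of_mem_pfs hp).1.ne_zero
theorem radI_dvd {I : Ideal (R K)} (hI : I ≠ ⊥) : radI I ∣ I := by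
  have _ := hI
  exact ar_rad_dvd_of fun _ _ h => h
theorem squarefree_radI (I : Ideal (R K)) : Squarefree (radI I) :=
  Finset.squarefree_prod_of_pairwise_isCoprime (f := fun p : Ideal (R K) => p)
    (fun _ hp _ hq hne => (ar_coprime (ar_of_mem_pfs hp).1 (ar_of_mem_pfs hq).1 hne).isRelPrime)
    (fun _ hp => (ar_of_mem_pfs hp).1.squarefree)
theorem prime_dvd_radI {I p : Ideal (R K)} (hI : I ≠ ⊥) (hp : Prime p) : p ∣ radI I ↔ p ∣ I :=
  ⟨fun h => h.trans (radI_dvd hI), fun h =>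
    Finset.dvd_prod_of_mem (fun p : Ideal (R K) => p) ((mem_pfs hI).2 ⟨hp, h⟩)⟩
theorem radI_mul_dvd {I J : Ideal (R K)} (hI : I ≠ ⊥) (hJ : J ≠ ⊥) :
    radI (I * J) ∣ radI I * radI J :=
  ar_rad_dvd_of fun _ hp h => (hp.dvd_or_dvd h).elim
    (fun h1 => ((prime_dvd_radI hI hp).2 h1).mul_right _)
    (fun h1 => ((prime_dvd_radI hJ hp).2 h1).mul_left _)
theorem radI_pow {I : Ideal (R K)} {k : ℕ} (hk : k ≠ 0) : radI (I ^ k) = radI I := by
  by_cases hI : I = ⊥
  · rw [hI, ← Ideal.zero_eq_bot, zero_pow hk]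
  · have : pfs (I ^ k) = pfs I := by
      ext p
      rw [mem_pfs hI, mem_pfs (pow_ne_zero k hI)]
      exact ⟨fun h => ⟨h.1, h.1.dvd_of_dvd_pow h.2⟩, fun h => ⟨h.1, h.2.pow hk⟩⟩
    unfold radI
    rw [this]

theorem ar_mul {p x y : Ideal (R K)} (hp : Prime p) (hx : x ≠ ⊥) (hy : y ≠ ⊥) :
    multiplicity p (x * y) = multiplicity p x + multiplicity p y :=
  multiplicity_mul hp (.of_prime_left hp (mul_ne_zero hx hy))
theorem ar_pow {p x : Ideal (R K)} (hp : Prime p) (hx : x ≠ ⊥) (k : ℕ) :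
    multiplicity p (x ^ k) = k * multiplicity p x :=
  (FiniteMultiplicity.of_prime_left hp hx).multiplicity_pow hp
theorem ar_pow_dvd {p x : Ideal (R K)} (hp : Prime p) (hx : x ≠ ⊥) (k : ℕ) :
    p ^ k ∣ x ↔ k ≤ multiplicity p x :=
  (FiniteMultiplicity.of_prime_left hp hx).pow_dvd_iff_le_multiplicity
theorem ar_dvd_iff {x y : Ideal (R K)} (hx : x ≠ ⊥) (hy : y ≠ ⊥) :
    x ∣ y ↔ ∀ p : Ideal (R K), Prime p → multiplicity p x ≤ multiplicity p y := by
  rw [UniqueFactorizationMonoid.dvd_iff_emultiplicity_le hx]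
  refine forall_congr' fun p => forall_congr' fun hp => ?_
  rw [(FiniteMultiplicity.of_prime_left hp hx).emultiplicity_eq_multiplicity,
    (FiniteMultiplicity.of_prime_left hp hy).emultiplicity_eq_multiplicity, Nat.cast_le]
theorem ar_ext {x y : Ideal (R K)} (hx : x ≠ ⊥) (hy : y ≠ ⊥)
    (h : ∀ p : Ideal (R K), Prime p → multiplicity p x = multiplicity p y) : x = y :=
  associated_iff_eq.1 (associated_of_dvd_dvd ((ar_dvd_iff hx hy).mpr fun p hp => (h p hp).le)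
    ((ar_dvd_iff hy hx).mpr fun p hp => (h p hp).ge))
theorem ar_sqf {x : Ideal (R K)} (hx : x ≠ ⊥) :
    Squarefree x ↔ ∀ p : Ideal (R K), Prime p → multiplicity p x ≤ 1 := by
  rw [squarefree_iff_no_irreducibles hx]
  refine forall_congr' fun p => ?_
  rw [UniqueFactorizationMonoid.irreducible_iff_prime]
  refine forall_congr' fun hp => ?_
  rw [← sq, ar_pow_dvd hp hx]
  omega
theorem ar_pow2 {x : Ideal (R K)} (hx : x ≠ ⊥) :
    Pow2 x ↔ ∀ p : Ideal (R K), Prime p → multiplicity p x = 0 ∨ 2 ≤ multiplicity p x := by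
  unfold Pow2
  rw [and_iff_right hx]
  refine forall_congr' fun p => forall_congr' fun hp => ?_
  rw [multiplicity_eq_zero, ar_pow_dvd hp hx, imp_iff_not_or]
theorem ar_coprime_mult {x y : Ideal (R K)} (hx : x ≠ ⊥) :
    IsCoprime x y ↔
      ∀ p : Ideal (R K), Prime p → multiplicity p x = 0 ∨ multiplicity p y = 0 := by
  rw [ar_coprime_iff hx]
  refine forall_congr' fun p => ?_
  rw [multiplicity_eq_zero, multiplicity_eq_zero]
  tauto
theorem ar_rad {x p : Ideal (R K)} (hx : x ≠ ⊥) (hp : Prime p) :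
    multiplicity p (radI x) = 0 ↔ multiplicity p x = 0 := by
  rw [multiplicity_eq_zero, multiplicity_eq_zero, prime_dvd_radI hx hp]
theorem ar_rad_dvd {x t : Ideal (R K)} (hx : x ≠ ⊥) (ht : t ≠ ⊥) :
    radI x ∣ t ↔ ∀ p : Ideal (R K), Prime p → multiplicity p t = 0 → multiplicity p x = 0 := by
  rw [ar_dvd_iff (radI_ne_bot x) ht]
  refine forall_congr' fun p => forall_congr' fun hp => ?_
  have h1 := (ar_sqf (radI_ne_bot x)).mp (squarefree_radI x) p hp
  have h2 := ar_rad hx hp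
  omega
theorem ar_prod {p : Ideal (R K)} (hp : Prime p) (s : Finset (Ideal (R K)))
    (f : Ideal (R K) → Ideal (R K)) (hf : ∀ x ∈ s, f x ≠ ⊥) :
    multiplicity p (∏ x ∈ s, f x) = ∑ x ∈ s, multiplicity p (f x) := by
  classical
  induction s using Finset.induction with
  | empty =>
    rw [Finset.prod_empty, Finset.sum_empty, multiplicity_eq_zero]
    exact hp.not_dvd_one
  | insert a s has ih =>
    rw [Finset.prod_insert has, Finset.sum_insert has, ar_mul hp (hf a (Finset.mem_insert_self _ _))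
      (Finset.prod_ne_zero_iff.mpr fun x hx => hf x (Finset.mem_insert_of_mem hx)),
      ih fun x hx => hf x (Finset.mem_insert_of_mem hx)]
theorem ar_build {n : Ideal (R K)} (hn : n ≠ ⊥) (t : Ideal (R K)) (g : ℕ → ℕ → ℕ)
    (hg : ∀ l, g 0 l = 0) : ∃ m : Ideal (R K), m ≠ ⊥ ∧
      ∀ q : Ideal (R K), Prime q → multiplicity q m = g (multiplicity q n) (multiplicity q t) := by
  have hne : ∀ p ∈ pfs n, p ^ g (multiplicity p n) (multiplicity p t) ≠ ⊥ := fun p hp =>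
    pow_ne_zero _ (ar_of_mem_pfs hp).1.ne_zero
  refine ⟨∏ p ∈ pfs n, p ^ g (multiplicity p n) (multiplicity p t),
    Finset.prod_ne_zero_iff.mpr hne, fun q hq => ?_⟩
  rw [ar_prod hq _ _ hne, Finset.sum_eq_single q]
  · rw [multiplicity_pow_self_of_prime hq]
  · intro p hp hpq
    rw [multiplicity_eq_zero]
    intro h
    exact hpq (associated_iff_eq.1
      (hq.associated_of_dvd (ar_of_mem_pfs hp).1 (hq.dvd_of_dvd_pow h))).symm
  · intro h
    have h1 : multiplicity q n = 0 :=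
      multiplicity_eq_zero.mpr fun h2 => h ((mem_pfs hn).mpr ⟨hq, h2⟩)
    rw [h1, hg, pow_zero, multiplicity_eq_zero]
    exact hq.not_dvd_one

theorem radI_eq_self {I : Ideal (R K)} (hs : Squarefree I) : radI I = I := by
  have hI : I ≠ ⊥ := hs.ne_zero
  refine ar_ext (radI_ne_bot I) hI fun p hp => ?_
  have h1 := (ar_sqf (radI_ne_bot I)).mp (squarefree_radI I) p hp
  have h2 := ar_rad hI hp
  have h3 := (ar_sqf hI).mp hs p hp
  omega
theorem Pow2.radI_sq_dvd {I : Ideal (R K)} (h : Pow2 I) : radI I ^ 2 ∣ I := by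
  have hs := h.1
  refine (ar_dvd_iff (pow_ne_zero 2 (radI_ne_bot I)) hs).mpr fun p hp => ?_
  rw [ar_pow hp (radI_ne_bot I)]
  have h1 := (ar_sqf (radI_ne_bot I)).mp (squarefree_radI I) p hp
  have h2 := (ar_pow2 hs).mp h p hp
  have h3 := ar_rad hs hp
  omega
theorem exists_sqf_pow2 {I : Ideal (R K)} (hI : I ≠ ⊥) : ∃ A B : Ideal (R K),
    Squarefree A ∧ Pow2 B ∧ IsCoprime A B ∧ I = A * B := by
  obtain ⟨a, ha0, hav⟩ := ar_build hI 1 (fun k _ => if k = 1 then 1 else 0) (by simp)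
  obtain ⟨b, hb0, hbv⟩ := ar_build hI 1 (fun k _ => if k = 1 then 0 else k) (by simp)
  refine ⟨a, b, (ar_sqf ha0).mpr fun p hp => ?_, (ar_pow2 hb0).mpr fun p hp => ?_,
    (ar_coprime_mult ha0).mpr fun p hp => ?_, ar_ext hI (mul_ne_zero ha0 hb0) fun p hp => ?_⟩
  · rw [hav p hp]; split_ifs <;> omega
  · rw [hbv p hp]; split_ifs <;> omega
  · rw [hav p hp, hbv p hp]; split_ifs <;> omega
  · rw [ar_mul hp ha0 hb0, hav p hp, hbv p hp]; split_ifs <;> omega
theorem ar_sq_cube {x : Ideal (R K)} (h : Pow2 x) : ∃ a b : Ideal (R K), x = a ^ 2 * b ^ 3 := by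
  have hx := h.1
  obtain ⟨a, ha0, hav⟩ := ar_build hx 1 (fun k _ => (k - 3 * (k % 2)) / 2) (by simp)
  obtain ⟨b, hb0, hbv⟩ := ar_build hx 1 (fun k _ => k % 2) (by simp)
  refine ⟨a, b, ar_ext hx (mul_ne_zero (pow_ne_zero _ ha0) (pow_ne_zero _ hb0)) fun p hp => ?_⟩
  have h1 := (ar_pow2 hx).mp h p hp
  rw [ar_mul hp (pow_ne_zero _ ha0) (pow_ne_zero _ hb0), ar_pow hp ha0, ar_pow hp hb0, hav p hp,
    hbv p hp]
  omega
theorem ar_exists_part {n t : Ideal (R K)} (hn : n ≠ ⊥) (ht : t ≠ ⊥) :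
    ∃ a b : Ideal (R K), radI a ∣ t ∧ IsCoprime b t ∧ n = a * b := by
  obtain ⟨a, ha0, hav⟩ := ar_build hn t (fun k l => if l = 0 then 0 else k) (by simp)
  obtain ⟨b, hb0, hbv⟩ := ar_build hn t (fun k l => if l = 0 then k else 0) (by simp)
  refine ⟨a, b, (ar_rad_dvd ha0 ht).mpr fun p hp => ?_,
    (ar_coprime_mult hb0).mpr fun p hp => ?_, ar_ext hn (mul_ne_zero ha0 hb0) fun p hp => ?_⟩
  · rw [hav p hp]; split_ifs <;> omega
  · rw [hbv p hp]; split_ifs <;> omega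
  · rw [ar_mul hp ha0 hb0, hav p hp, hbv p hp]; split_ifs <;> omega

theorem ar_one_le_nmI {I : Ideal (R K)} (hI : I ≠ ⊥) : (1 : ℝ) ≤ nmI I := by
  exact_mod_cast nmI_pos hI
theorem ar_seven_le {p : Ideal (R K)} (hp : Prime p) : (7 : ℝ) ≤ nmI p := by
  have h := seven_le_nm (prime_gen.2 hp)
  unfold nm at h
  rw [span_gen] at h
  exact_mod_cast h
theorem ar_nmI_prod (s : Finset (Ideal (R K))) :
    (nmI (∏ p ∈ s, p) : ℝ) = ∏ p ∈ s, (nmI p : ℝ) := by
  classical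
  induction s using Finset.induction with
  | empty => rw [Finset.prod_empty, Finset.prod_empty, Ideal.one_eq_top, nmI_top, Nat.cast_one]
  | insert a s has ih => rw [Finset.prod_insert has, Finset.prod_insert has, nmI_mul, Nat.cast_mul, ih]
theorem ar_prod_pfs_le {t : Ideal (R K)} (ht : t ≠ ⊥) :
    ∏ p ∈ pfs t, (nmI p : ℝ) ≤ nmI t := by
  rw [← ar_nmI_prod]
  exact Nat.cast_le.2 (nmI_le_of_dvd ht (radI_dvd ht))

theorem ar_pow_card {ε A : ℝ} (hε : 0 < ε) (hA : 0 ≤ A) : ∃ C : ℝ, ∀ I : Ideal (R K), I ≠ ⊥ →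
    A ^ (pfs I).card ≤ C * (nmI I : ℝ) ^ ε := by
  classical
  set B := max A 1 with hB
  have hB1 : 1 ≤ B := le_max_right _ _
  set Y := B ^ ε⁻¹ with hY
  refine ⟨B ^ (rows K Y).card, fun t ht => ?_⟩
  have h1 : ∀ p ∈ pfs t, A ≤ (if p ∈ rows K Y then B else 1) * (nmI p : ℝ) ^ ε := by
    intro p hp
    have hp0 : p ≠ ⊥ := (ar_of_mem_pfs hp).1.ne_zero
    have h2 : 1 ≤ (nmI p : ℝ) ^ ε := Real.one_le_rpow (ar_one_le_nmI hp0) hε.le
    split_ifs with h
    · calc A ≤ B * 1 := by rw [mul_one]; exact le_max_left _ _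
        _ ≤ _ := by gcongr
    · rw [mem_rows, not_and, not_le] at h
      have h3 : Y ^ ε ≤ (nmI p : ℝ) ^ ε := Real.rpow_le_rpow (by positivity) (h hp0).le hε.le
      rw [hY, Real.rpow_inv_rpow (by linarith) hε.ne'] at h3
      rw [one_mul]
      exact (le_max_left _ _).trans h3
  calc A ^ (pfs t).card = ∏ p ∈ pfs t, A := by rw [Finset.prod_const]
    _ ≤ ∏ p ∈ pfs t, (if p ∈ rows K Y then B else 1) * (nmI p : ℝ) ^ ε :=
        Finset.prod_le_prod (fun _ _ => hA) h1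
    _ = B ^ (pfs t ∩ rows K Y).card * (∏ p ∈ pfs t, (nmI p : ℝ)) ^ ε := by
        rw [Finset.prod_mul_distrib, Finset.prod_ite_mem, Finset.prod_const,
          Real.finsetProd_rpow _ _ fun p _ => Nat.cast_nonneg _]
    _ ≤ _ := by
        gcongr
        · exact Finset.inter_subset_right
        · exact ar_prod_pfs_le ht

open Classical in
theorem ar_smooth_box {σ : ℝ} (hσ : 0 < σ) (Y : ℝ) (S : Finset (Ideal (R K)))
    (hP : ∀ p ∈ S, (7 : ℝ) ≤ nmI p) :
    ∑ x ∈ (rows K Y).filter (fun x => ∀ p, Prime p → p ∣ x → p ∈ S), (nmI x : ℝ) ^ (-σ) ≤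
      ((1 - (7 : ℝ) ^ (-σ))⁻¹) ^ S.card := by
  have h3 : (7 : ℝ) ^ (-σ) < 1 := Real.rpow_lt_one_of_one_lt_of_neg (by norm_num) (by linarith)
  have hnn : ∀ x : Ideal (R K), 0 ≤ (nmI x : ℝ) ^ (-σ) := fun x =>
    Real.rpow_nonneg (Nat.cast_nonneg _) _
  induction S using Finset.induction_on with
  | empty =>
    have h1 : (rows K Y).filter (fun x => ∀ p, Prime p → p ∣ x → p ∈ (∅ : Finset (Ideal (R K)))) ⊆
        {⊤} := by
      intro x hx
      obtain ⟨hx1, hx2⟩ := Finset.mem_filter.1 hx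
      have hx0 := (mem_rows.1 hx1).1
      rw [Finset.mem_singleton, ← Ideal.isUnit_iff]
      by_contra hu
      obtain ⟨q, hq, hqx⟩ := WfDvdMonoid.exists_irreducible_factor hu hx0
      exact Finset.notMem_empty _ (hx2 q hq.prime hqx)
    refine (Finset.sum_le_sum_of_subset_of_nonneg h1 fun x _ _ => hnn x).trans ?_
    rw [Finset.sum_singleton, nmI_top, Nat.cast_one, Real.one_rpow, Finset.card_empty, pow_zero]
  | insert q S hq ih =>
    have ih' := ih fun p hp => hP p (Finset.mem_insert_of_mem hp)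
    have hq3 := hP q (Finset.mem_insert_self _ _)
    have hq0 : q ≠ ⊥ := by
      rintro rfl
      rw [nmI_bot, Nat.cast_zero] at hq3
      linarith
    set T := (rows K Y).filter (fun x => ∀ p, Prime p → p ∣ x → p ∈ insert q S) with hT
    have h0 : ∑ x ∈ T.filter (fun x => ¬ q ∣ x), (nmI x : ℝ) ^ (-σ) ≤
        ((1 - (7 : ℝ) ^ (-σ))⁻¹) ^ S.card := by
      refine le_trans (Finset.sum_le_sum_of_subset_of_nonneg (fun x hx => ?_) fun x _ _ => hnn x) ih'
      obtain ⟨hx1, hx2⟩ := Finset.mem_filter.1 hx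
      obtain ⟨hx3, hx4⟩ := Finset.mem_filter.1 hx1
      refine Finset.mem_filter.2 ⟨hx3, fun p hp hpx => ?_⟩
      rcases Finset.mem_insert.1 (hx4 p hp hpx) with h | h
      · exact absurd (h ▸ hpx) hx2
      · exact h
    have h1 : ∑ x ∈ T.filter (fun x => q ∣ x), (nmI x : ℝ) ^ (-σ) ≤
        (7 : ℝ) ^ (-σ) * ∑ x ∈ T, (nmI x : ℝ) ^ (-σ) := by
      have hsub : T.filter (fun x => q ∣ x) ⊆ T.image (fun y => q * y) := by
        intro x hx
        obtain ⟨hx1, y, rfl⟩ := Finset.mem_filter.1 hx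
        obtain ⟨hx3, hx4⟩ := Finset.mem_filter.1 hx1
        obtain ⟨hx5, hx6⟩ := mem_rows.1 hx3
        refine Finset.mem_image.2 ⟨y, Finset.mem_filter.2 ⟨mem_rows.2 ⟨right_ne_zero_of_mul hx5,
          (Nat.cast_le.2 (nmI_le_of_dvd hx5 (dvd_mul_left y q))).trans hx6⟩,
          fun p hp hpy => ?_⟩, rfl⟩
        exact hx4 p hp (hpy.mul_left q)
      refine (Finset.sum_le_sum_of_subset_of_nonneg hsub fun x _ _ => hnn x).trans ?_
      rw [Finset.sum_image fun x _ y _ h => mul_left_cancel₀ hq0 h, Finset.mul_sum]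
      refine Finset.sum_le_sum fun y _ => ?_
      rw [nmI_mul, Nat.cast_mul, Real.mul_rpow (Nat.cast_nonneg _) (Nat.cast_nonneg _)]
      exact mul_le_mul_of_nonneg_right
        (Real.rpow_le_rpow_of_nonpos (by norm_num) hq3 (by linarith)) (hnn y)
    have h2 := Finset.sum_filter_add_sum_filter_not T (fun x => q ∣ x)
      (fun x => (nmI x : ℝ) ^ (-σ))
    rw [Finset.card_insert_of_notMem hq, pow_succ, ← div_eq_mul_inv,
      le_div_iff₀ (by linarith)]
    linarith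

theorem ar_smooth_sum {ε σ : ℝ} (hε : 0 < ε) (hσ : 0 < σ) :
    ∃ C : ℝ, ∀ t : Ideal (R K), t ≠ ⊥ → ∀ S : Finset (Ideal (R K)),
      (∀ x ∈ S, x ≠ ⊥ ∧ radI x ∣ t) → ∑ x ∈ S, (nmI x : ℝ) ^ (-σ) ≤ C * (nmI t : ℝ) ^ ε := by
  classical
  have h3 : (7 : ℝ) ^ (-σ) < 1 := Real.rpow_lt_one_of_one_lt_of_neg (by norm_num) (by linarith)
  obtain ⟨C, hC⟩ := ar_pow_card (K := K) (A := (1 - (7 : ℝ) ^ (-σ))⁻¹) hε
    (inv_nonneg.2 (by linarith))
  refine ⟨C, fun t ht S hS => ?_⟩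
  have h1 := ar_smooth_box hσ (∑ x ∈ S, (nmI x : ℝ)) (pfs t)
    fun p hp => ar_seven_le (ar_of_mem_pfs hp).1
  refine le_trans (Finset.sum_le_sum_of_subset_of_nonneg (fun x hx => ?_)
    fun x _ _ => Real.rpow_nonneg (Nat.cast_nonneg _) _) (h1.trans (hC t ht))
  obtain ⟨hx0, hxt⟩ := hS x hx
  refine Finset.mem_filter.2 ⟨mem_rows.2 ⟨hx0,
    Finset.single_le_sum (f := fun x : Ideal (R K) => (nmI x : ℝ))
      (fun y _ => Nat.cast_nonneg _) hx⟩, fun p hp hpx => ?_⟩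
  exact (mem_pfs ht).2 ⟨hp, ((prime_dvd_radI hx0 hp).2 hpx).trans hxt⟩

theorem card_divs_le {ε : ℝ} (hε : 0 < ε) : ∃ C : ℝ, ∀ I : Ideal (R K), I ≠ ⊥ →
    ((divs I).card : ℝ) ≤ C * (nmI I : ℝ) ^ ε := by
  obtain ⟨C, hC⟩ := ar_smooth_sum (K := K) (half_pos hε) (half_pos hε)
  refine ⟨C, fun t ht => ?_⟩
  have h1 := hC t ht (divs t) fun x hx => by
    have hd := (mem_divs ht).1 hx
    have hx0 : x ≠ ⊥ := ne_zero_of_dvd_ne_zero ht hd
    exact ⟨hx0, (radI_dvd hx0).trans hd⟩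
  have ht0 : (0 : ℝ) < nmI t := Nat.cast_pos.2 (nmI_pos ht)
  have hY0 : 0 ≤ (nmI t : ℝ) ^ (ε / 2) := Real.rpow_nonneg ht0.le _
  calc ((divs t).card : ℝ) = ∑ x ∈ divs t, (1 : ℝ) := by simp
    _ ≤ ∑ x ∈ divs t, (nmI x : ℝ) ^ (-(ε / 2)) * (nmI t : ℝ) ^ (ε / 2) := by
        refine Finset.sum_le_sum fun x hx => ?_
        have hd := (mem_divs ht).1 hx
        have h2 : (0 : ℝ) < nmI x := Nat.cast_pos.2 (nmI_pos (ne_zero_of_dvd_ne_zero ht hd))
        rw [Real.rpow_neg h2.le, inv_mul_eq_div, one_le_div (Real.rpow_pos_of_pos h2 _)]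
        exact Real.rpow_le_rpow h2.le (Nat.cast_le.2 (nmI_le_of_dvd ht hd)) (half_pos hε).le
    _ ≤ C * (nmI t : ℝ) ^ (ε / 2) * (nmI t : ℝ) ^ (ε / 2) := by
        rw [← Finset.sum_mul]; exact mul_le_mul_of_nonneg_right h1 hY0
    _ = _ := by rw [mul_assoc, ← Real.rpow_add ht0, add_halves]
theorem pow_card_pfs_le {ε A : ℝ} (hε : 0 < ε) (hA : 0 ≤ A) : ∃ C : ℝ, ∀ I : Ideal (R K), I ≠ ⊥ →
    A ^ (pfs I).card ≤ C * (nmI I : ℝ) ^ ε := ar_pow_card hε hA
theorem ar_pow2_sum_le {σ : ℝ} (hσ : 1 / 2 < σ) :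
    ∃ C : ℝ, ∀ S : Finset (Ideal (R K)), (∀ x ∈ S, Pow2 x) → ∑ x ∈ S, (nmI x : ℝ) ^ (-σ) ≤ C := by
  classical
  have hs : Summable fun y : Ideal (R K) × Ideal (R K) =>
      (nmI y.1 : ℝ) ^ (-(2 * σ)) * (nmI y.2 : ℝ) ^ (-(3 * σ)) :=
    (summable_nmI (K := K) (σ := 2 * σ) (by linarith)).mul_of_nonneg
      (summable_nmI (K := K) (σ := 3 * σ) (by linarith))
      (fun x => Real.rpow_nonneg (Nat.cast_nonneg _) _)
      (fun x => Real.rpow_nonneg (Nat.cast_nonneg _) _)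
  refine ⟨∑' y : Ideal (R K) × Ideal (R K),
    (nmI y.1 : ℝ) ^ (-(2 * σ)) * (nmI y.2 : ℝ) ^ (-(3 * σ)), fun S hS => ?_⟩
  have hex : ∀ x : Ideal (R K), ∃ y : Ideal (R K) × Ideal (R K), Pow2 x → x = y.1 ^ 2 * y.2 ^ 3 := by
    intro x
    by_cases hx : Pow2 x
    · obtain ⟨a, b, h⟩ := ar_sq_cube hx
      exact ⟨(a, b), fun _ => h⟩
    · exact ⟨0, fun h => absurd h hx⟩
  choose φ hφ using hex
  have hinj : Set.InjOn φ S := fun x hx y hy h => by rw [hφ x (hS x hx), hφ y (hS y hy), h]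
  calc ∑ x ∈ S, (nmI x : ℝ) ^ (-σ)
      = ∑ x ∈ S, (nmI (φ x).1 : ℝ) ^ (-(2 * σ)) * (nmI (φ x).2 : ℝ) ^ (-(3 * σ)) := by
        refine Finset.sum_congr rfl fun x hx => ?_
        conv_lhs => rw [hφ x (hS x hx)]
        rw [nmI_mul, nmI_pow, nmI_pow, Nat.cast_mul, Nat.cast_pow, Nat.cast_pow,
          Real.mul_rpow (pow_nonneg (Nat.cast_nonneg _) _)
          (pow_nonneg (Nat.cast_nonneg _) _), ← Real.rpow_natCast, ← Real.rpow_natCast,
          ← Real.rpow_mul (Nat.cast_nonneg _), ← Real.rpow_mul (Nat.cast_nonneg _)]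
        norm_num
    _ = ∑ y ∈ S.image φ, (nmI y.1 : ℝ) ^ (-(2 * σ)) * (nmI y.2 : ℝ) ^ (-(3 * σ)) :=
        (Finset.sum_image (f := fun y : Ideal (R K) × Ideal (R K) =>
          (nmI y.1 : ℝ) ^ (-(2 * σ)) * (nmI y.2 : ℝ) ^ (-(3 * σ))) hinj).symm
    _ ≤ _ := hs.sum_le_tsum _ fun y _ =>
        mul_nonneg (Real.rpow_nonneg (Nat.cast_nonneg _) _) (Real.rpow_nonneg (Nat.cast_nonneg _) _)
open Classical in
theorem summable_pow2 {σ : ℝ} (hσ : 1 / 2 < σ) :
    Summable (fun I : Ideal (R K) => if Pow2 I then (nmI I : ℝ) ^ (-σ) else 0) := by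
  obtain ⟨C, hC⟩ := ar_pow2_sum_le (K := K) hσ
  refine summable_of_sum_le (c := C) (fun I => ?_) fun S => ?_
  · dsimp only
    split_ifs
    · exact Real.rpow_nonneg (Nat.cast_nonneg _) _
    · exact le_rfl
  · rw [← Finset.sum_filter]
    exact hC _ fun x hx => (Finset.mem_filter.1 hx).2
open Classical in
/-- Rankin sum over ideals supported on the primes dividing `W` -/
theorem smooth_sum_le {ε σ : ℝ} (hε : 0 < ε) (hσ : 0 < σ) : ∃ C : ℝ, ∀ W : Ideal (R K), W ≠ ⊥ →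
    Summable (fun I : Ideal (R K) => if I ≠ ⊥ ∧ radI I ∣ W then (nmI I : ℝ) ^ (-σ) else 0) ∧
    ∑' I : Ideal (R K), (if I ≠ ⊥ ∧ radI I ∣ W then (nmI I : ℝ) ^ (-σ) else 0) ≤
      C * (nmI W : ℝ) ^ ε := by
  obtain ⟨C, hC⟩ := ar_smooth_sum (K := K) hε hσ
  refine ⟨C, fun W hW => ?_⟩
  have h1 : ∀ S : Finset (Ideal (R K)),
      ∑ I ∈ S, (if I ≠ ⊥ ∧ radI I ∣ W then (nmI I : ℝ) ^ (-σ) else 0) ≤ C * (nmI W : ℝ) ^ ε := by
    intro S
    rw [← Finset.sum_filter]
    exact hC W hW _ fun x hx => (Finset.mem_filter.1 hx).2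
  have h2 : Summable (fun I : Ideal (R K) =>
      if I ≠ ⊥ ∧ radI I ∣ W then (nmI I : ℝ) ^ (-σ) else 0) := by
    refine summable_of_sum_le (fun I => ?_) h1
    dsimp only
    split_ifs
    · exact Real.rpow_nonneg (Nat.cast_nonneg _) _
    · exact le_rfl
  exact ⟨h2, h2.tsum_le_of_sum_le h1⟩
theorem muR_span (n : R K) : muR (Ideal.span {n}) = mu n :=
  mu_associated (associated_gen_span n)
theorem ar_muR_mul {I J : Ideal (R K)} (h : IsCoprime I J) : muR (I * J) = muR I * muR J := by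
  unfold muR
  rw [mu_associated (associated_gen_mul I J), mu_mul (isCoprime_gen.2 h)]
theorem ar_muR_eq_zero {I : Ideal (R K)} : muR I = 0 ↔ ¬ Squarefree I := by
  unfold muR
  rw [mu_eq_zero, squarefree_gen]
theorem ar_muR_top : muR (⊤ : Ideal (R K)) = 1 := by
  rw [← Ideal.span_singleton_one, muR_span, mu_unit isUnit_one]
open Classical in
theorem sum_divs_muR {I : Ideal (R K)} (hI : I ≠ ⊥) :
    ∑ J ∈ divs I, muR J = if I = ⊤ then 1 else 0 := by
  split_ifs with h1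
  · subst h1
    have : divs (⊤ : Ideal (R K)) = {⊤} := by
      ext d
      rw [mem_divs hI, Finset.mem_singleton, Ideal.dvd_iff_le, top_le_iff]
    rw [this, Finset.sum_singleton, ar_muR_top]
  · obtain ⟨p, hp0, hpn⟩ := WfDvdMonoid.exists_irreducible_factor
      (fun hu => h1 (Ideal.isUnit_iff.1 hu)) hI
    have hp : Prime p := hp0.prime
    rw [← Finset.sum_filter_add_sum_filter_not (divs I) (fun d => p ∣ d)]
    have key : ∑ e ∈ (divs I).filter (fun d => ¬ p ∣ d), muR (p * e) =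
        ∑ d ∈ (divs I).filter (fun d => p ∣ d), muR d := by
      refine Finset.sum_bij_ne_zero (fun e _ _ => p * e) ?_ ?_ ?_ ?_
      · intro e he _
        rw [Finset.mem_filter, mem_divs hI] at he ⊢
        exact ⟨(ar_prime_coprime hp he.2).mul_dvd hpn he.1, dvd_mul_right p e⟩
      · intro a _ _ b _ _ hab
        exact mul_left_cancel₀ hp.ne_zero hab
      · intro d hd hd0
        rw [Finset.mem_filter, mem_divs hI] at hd
        obtain ⟨hd2, e, rfl⟩ := hd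
        have hsq : Squarefree (p * e) := by
          by_contra hns
          exact hd0 (ar_muR_eq_zero.2 hns)
        refine ⟨e, ?_, hd0, rfl⟩
        rw [Finset.mem_filter, mem_divs hI]
        exact ⟨(dvd_mul_left e p).trans hd2,
          fun hpe => hp.not_isUnit (hsq p (mul_dvd_mul_left p hpe))⟩
      · intro _ _ _
        rfl
    rw [← key, ← Finset.sum_add_distrib]
    refine Finset.sum_eq_zero fun e he => ?_
    rw [ar_muR_mul (ar_prime_coprime hp (Finset.mem_filter.1 he).2)]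
    have : muR p = -1 := mu_prime (prime_gen.2 hp)
    rw [this]
    ring
theorem ar_coprime_gen {I : Ideal (R K)} {x : R K} :
    IsCoprime (gen I) x ↔ IsCoprime I (Ideal.span {x}) := by
  conv_rhs => rw [← span_gen I]
  exact Ideal.isCoprime_span_singleton_iff _ _ |>.symm
theorem ar_coprime_gen_span {n x : R K} : IsCoprime (gen (Ideal.span {n})) x ↔ IsCoprime n x :=
  ⟨fun h => h.of_isCoprime_of_dvd_left (associated_gen_span n).symm.dvd,
    fun h => h.of_isCoprime_of_dvd_left (associated_gen_span n).dvd⟩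
open Classical in
theorem sum_divs_muR_dvd {I : Ideal (R K)} (hI : I ≠ ⊥) (x : R K) :
    ∑ J ∈ divs I, (if gen J ∣ x then muR J else 0) = if IsCoprime (gen I) x then 1 else 0 := by
  have hg : I ⊔ Ideal.span {x} ≠ ⊥ := fun h => hI (le_bot_iff.1 (h ▸ le_sup_left))
  have h1 : (divs I).filter (fun d => gen d ∣ x) = divs (I ⊔ Ideal.span {x}) := by
    ext d
    rw [Finset.mem_filter, mem_divs hI, mem_divs hg, gen_dvd_iff, Ideal.dvd_iff_le,
      Ideal.dvd_iff_le, Ideal.dvd_iff_le, sup_le_iff]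
  rw [← Finset.sum_filter, h1, sum_divs_muR hg]
  refine if_congr ?_ rfl rfl
  rw [ar_coprime_gen, Ideal.isCoprime_iff_sup_eq]
open Classical in
theorem ar_count {d m : R K} (hd : d ≠ 0) (hm : m ≠ 0) :
    ∑ x ∈ reps (d * m), (if d ∣ x then (1 : ℂ) else 0) = nm m := by
  rw [sum_reps_tower hd hm _ (fun x y h => by
    have h' : d ∣ x - y := (dvd_mul_right d m).trans h
    refine if_congr ⟨fun hx => ?_, fun hy => ?_⟩ rfl rfl
    · have := dvd_sub hx h'
      rwa [sub_sub_cancel] at this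
    · have := dvd_add h' hy
      rwa [sub_add_cancel] at this)]
  have h1 : ∀ x y : R K, d ∣ x + d * y ↔ d ∣ x := fun x y => dvd_add_left (dvd_mul_right d y)
  simp only [h1, Finset.sum_const, card_reps hm, nsmul_eq_mul]
  obtain ⟨x₀, hx₀, hu⟩ := reps_existsUnique hd 0
  rw [Finset.sum_eq_single_of_mem x₀ hx₀.1]
  · rw [if_pos (by simpa using hx₀.2), mul_one]
  · intro y hy hne
    rw [if_neg (fun h => hne (hu y ⟨hy, by simpa using h⟩)), mul_zero]
theorem phiN_eq {n : R K} (hn : n ≠ 0) :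
    (phiN n : ℂ) = ∑ J ∈ divs (Ideal.span {n}), muR J / (nmI J : ℂ) := by
  classical
  have hN : Ideal.span {n} ≠ (⊥ : Ideal (R K)) := by rwa [Ne, Ideal.span_singleton_eq_bot]
  have h0 : (nm n : ℂ) ≠ 0 := Nat.cast_ne_zero.2 (nmI_pos hN).ne'
  unfold phiN Nr
  push_cast
  rw [div_eq_iff h0, Finset.card_filter, Nat.cast_sum, Finset.sum_mul]
  have h1 : ∀ x ∈ reps n, (((if IsCoprime n x then 1 else 0 : ℕ)) : ℂ) =
      ∑ J ∈ divs (Ideal.span {n}), (if gen J ∣ x then muR J else 0) := by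
    intro x _
    rw [sum_divs_muR_dvd hN, ar_coprime_gen_span]
    split_ifs <;> simp
  rw [Finset.sum_congr rfl h1, Finset.sum_comm]
  refine Finset.sum_congr rfl fun J hJ => ?_
  have hd := (mem_divs hN).1 hJ
  have hJ0 : J ≠ ⊥ := ne_zero_of_dvd_ne_zero hN hd
  obtain ⟨m, hm⟩ := gen_dvd_iff.2 hd
  have hm0 : m ≠ 0 := by
    rintro rfl
    exact hn (by rw [hm, mul_zero])
  have h2 := ar_count (gen_ne_zero hJ0) hm0
  rw [← hm] at h2
  have h3 : nm n = nmI J * nm m := by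
    rw [hm, nm_mul]
    congr 1
    unfold nm
    rw [span_gen]
  have h4 : (nmI J : ℂ) ≠ 0 := Nat.cast_ne_zero.2 (nmI_pos hJ0).ne'
  calc ∑ x ∈ reps n, (if gen J ∣ x then muR J else 0)
      = muR J * ∑ x ∈ reps n, (if gen J ∣ x then (1 : ℂ) else 0) := by
        rw [Finset.mul_sum]
        refine Finset.sum_congr rfl fun x _ => ?_
        split_ifs <;> simp
    _ = _ := by
        rw [h2, h3, Nat.cast_mul]
        field_simp
open Classical in
/-- `Gf = Gsf * (√N on cubes)` -/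
theorem Gf_eq_sum {r : R K} (hr : r ≠ 0) : Gf r = ∑ I ∈ divs (Ideal.span {r}),
    if gen I ^ 3 ∣ r then (Real.sqrt (nmI I) : ℂ) * Gsf (rdiv r (gen I ^ 3)) else 0 := by
  have hN : Ideal.span {r} ≠ (⊥ : Ideal (R K)) := by rwa [Ne, Ideal.span_singleton_eq_bot]
  unfold Gf
  refine finsum_eq_sum_of_support_subset _ fun I hI => ?_
  rw [Finset.mem_coe, mem_divs hN, ← gen_dvd_iff]
  by_contra h
  exact hI (if_neg fun h3 => h ((dvd_pow_self _ (by norm_num)).trans h3))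
theorem ar_cube_dvd {n m d : R K} (hs : Squarefree n) (hm : m ≠ 0) (hd : d ≠ 0) :
    d ^ 3 ∣ n * m ^ 3 ↔ d ∣ m := by
  refine ⟨fun h => ?_, fun h => (pow_dvd_pow_of_dvd h 3).mul_left n⟩
  have hn := hs.ne_zero
  have e : ∀ x : R K, x ≠ 0 → Ideal.span {x} ≠ (⊥ : Ideal (R K)) := fun x hx => by
    rwa [Ne, Ideal.span_singleton_eq_bot]
  rw [← Ideal.span_singleton_dvd_span_singleton_iff_dvd] at h ⊢
  rw [← Ideal.span_singleton_mul_span_singleton, ← Ideal.span_singleton_pow,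
    ← Ideal.span_singleton_pow, ar_dvd_iff (pow_ne_zero _ (e d hd))
      (mul_ne_zero (e n hn) (pow_ne_zero _ (e m hm)))] at h
  rw [ar_dvd_iff (e d hd) (e m hm)]
  intro p hp
  have h1 := h p hp
  rw [ar_mul hp (e n hn) (pow_ne_zero _ (e m hm)), ar_pow hp (e d hd), ar_pow hp (e m hm)] at h1
  have hs' : Squarefree (Ideal.span {n} : Ideal (R K)) :=
    squarefree_gen.1 ((associated_gen_span n).squarefree_iff.2 hs)
  have h2 := (ar_sqf (e n hn)).1 hs' p hp
  omega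
open Classical in
/-- `Gsf = Gf * (μ √N on cubes)` -/
theorem Gsf_eq_sum {r : R K} (hr : r ≠ 0) : Gsf r = ∑ I ∈ divs (Ideal.span {r}),
    if gen I ^ 3 ∣ r then muR I * (Real.sqrt (nmI I) : ℂ) * Gf (rdiv r (gen I ^ 3)) else 0 := by
  have hN : Ideal.span {r} ≠ (⊥ : Ideal (R K)) := by rwa [Ne, Ideal.span_singleton_eq_bot]
  have h1 : ∀ I ∈ divs (Ideal.span {r}),
      (if gen I ^ 3 ∣ r then muR I * (Real.sqrt (nmI I) : ℂ) * Gf (rdiv r (gen I ^ 3)) else 0) =
      (if gen I ^ 3 ∣ r then muR I else 0) * Gf r := by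
    intro I hI
    have hI0 : I ≠ ⊥ := ne_zero_of_dvd_ne_zero hN ((mem_divs hN).1 hI)
    split_ifs with h
    · conv_rhs => rw [rdiv_spec h, mul_comm (gen I ^ 3), Gf_cube _ (gen_ne_zero hI0), Nr_gen]
      ring
    · rw [zero_mul]
  rw [Finset.sum_congr rfl h1, ← Finset.sum_mul]
  by_cases hex : ∃ n m : R K, Squarefree n ∧ m ≠ 0 ∧ r = n * m ^ 3
  · obtain ⟨n, m, hs, hm, hrnm⟩ := hex
    have h2 : ∀ I ∈ divs (Ideal.span {r}), (if gen I ^ 3 ∣ r then muR I else 0) =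
        (if gen I ∣ m then muR I else 0) := by
      intro I hI
      have hI0 : I ≠ ⊥ := ne_zero_of_dvd_ne_zero hN ((mem_divs hN).1 hI)
      refine if_congr ?_ rfl rfl
      conv_lhs => rw [hrnm]
      exact ar_cube_dvd hs hm (gen_ne_zero hI0)
    rw [Finset.sum_congr rfl h2, sum_divs_muR_dvd hN, ar_coprime_gen_span]
    have hmr : m ∣ r := by
      rw [hrnm]
      exact (dvd_pow_self m (by norm_num)).mul_left n
    split_ifs with hc
    · have hu : IsUnit m := hc.isUnit_of_dvd' hmr dvd_rfl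
      rw [hrnm, Gf_eq hs hm, Gsf_unit_cube n hu, Nr_eq_one.2 hu]
      simp
    · rw [zero_mul]
      refine Gsf_eq_zero fun hsq => hc ?_
      have hu : IsUnit m := hsq m (by
        rw [hrnm]
        exact ⟨n * m, by ring⟩)
      exact (isCoprime_zero_left.2 hu).of_isCoprime_of_dvd_left (dvd_zero r)
  · rw [Gf_eq_zero hex, mul_zero]
    exact Gsf_eq_zero fun hsq => hex ⟨r, 1, hsq, one_ne_zero, by ring⟩
theorem ar_span_rdiv {I : Ideal (R K)} {n : R K} (h : I ∣ Ideal.span {n}) :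
    I * Ideal.span {rdiv n (gen I)} = Ideal.span {n} := by
  conv_rhs => rw [rdiv_spec (gen_dvd_iff.2 h), ← Ideal.span_singleton_mul_span_singleton, span_gen]
open Classical in
/-- `μ 1_{(·,w)=1} = μ * 1_{w^∞}` -/
theorem mu_coprime_eq_sum {W : Ideal (R K)} (hW : W ≠ ⊥) {n : R K} (hn : n ≠ 0) :
    (if IsCoprime (gen W) n then mu n else 0) = ∑ I ∈ divs (Ideal.span {n}),
      if radI I ∣ W then mu (rdiv n (gen I)) else 0 := by
  have hN : Ideal.span {n} ≠ (⊥ : Ideal (R K)) := by rwa [Ne, Ideal.span_singleton_eq_bot]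
  obtain ⟨A, B, hA, hB, hAB⟩ := ar_exists_part hN hW
  have hA0 : A ≠ ⊥ := fun h => hN (by rw [hAB, h, Ideal.bot_mul])
  have hB0 : B ≠ ⊥ := fun h => hN (by rw [hAB, h, Ideal.mul_bot])
  have hcop : ∀ I : Ideal (R K), I ≠ ⊥ → radI I ∣ W → IsCoprime I B := fun I hI h =>
    (ar_coprime_iff hI).2 fun p hp h1 h2 =>
      hp.not_isUnit (hB.isUnit_of_dvd' h2 (((prime_dvd_radI hI hp).2 h1).trans h))
  have key : ∑ I ∈ (divs (Ideal.span {n})).filter (fun I => radI I ∣ W), mu (rdiv n (gen I)) =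
      ∑ J ∈ divs A, muR J * muR B := by
    symm
    refine Finset.sum_bij (fun J _ => Ideal.span {rdiv (gen A) (gen J)}) ?_ ?_ ?_ ?_
    · intro J hJ
      have h1 := ar_span_rdiv (I := J) (n := gen A) (by rw [span_gen]; exact (mem_divs hA0).1 hJ)
      rw [span_gen] at h1
      have h2 : Ideal.span {rdiv (gen A) (gen J)} ∣ A := Dvd.intro_left J h1
      rw [Finset.mem_filter, mem_divs hN, hAB]
      refine ⟨h2.mul_right B, ar_rad_dvd_of fun p hp h3 => ?_⟩
      exact ((prime_dvd_radI hA0 hp).2 (h3.trans h2)).trans hA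
    · intro J hJ J' hJ' h
      have h1 := ar_span_rdiv (I := J) (n := gen A) (by rw [span_gen]; exact (mem_divs hA0).1 hJ)
      have h2 := ar_span_rdiv (I := J') (n := gen A) (by rw [span_gen]; exact (mem_divs hA0).1 hJ')
      rw [span_gen] at h1 h2
      rw [h] at h1
      have h3 : Ideal.span {rdiv (gen A) (gen J')} ≠ (⊥ : Ideal (R K)) := fun h0 =>
        hA0 (by rw [← h2, h0, Ideal.mul_bot])
      exact mul_right_cancel₀ h3 (h1.trans h2.symm)
    · intro I hI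
      rw [Finset.mem_filter, mem_divs hN] at hI
      have hI0 : I ≠ ⊥ := ne_zero_of_dvd_ne_zero hN hI.1
      have h1 : I ∣ A := (hcop I hI0 hI.2).dvd_of_dvd_mul_right (hAB ▸ hI.1)
      obtain ⟨J, hJ⟩ := h1
      have hJA : J ∣ A := Dvd.intro_left I hJ.symm
      have hJ0 : J ≠ ⊥ := ne_zero_of_dvd_ne_zero hA0 hJA
      refine ⟨J, (mem_divs hA0).2 hJA, ?_⟩
      have h2 := ar_span_rdiv (I := J) (n := gen A) (by rw [span_gen]; exact hJA)
      rw [span_gen] at h2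
      exact mul_left_cancel₀ hJ0 (h2.trans (hJ.trans (mul_comm _ _)))
    · intro J hJ
      have hJA := (mem_divs hA0).1 hJ
      have hJ0 : J ≠ ⊥ := ne_zero_of_dvd_ne_zero hA0 hJA
      have h1 := ar_span_rdiv (I := J) (n := gen A) (by rw [span_gen]; exact hJA)
      rw [span_gen] at h1
      set I := Ideal.span {rdiv (gen A) (gen J)} with hI
      have hI0 : I ≠ ⊥ := fun h0 => hA0 (by rw [← h1, h0, Ideal.mul_bot])
      have h2 : I ∣ Ideal.span {n} := by
        rw [hAB]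
        exact (Dvd.intro_left J h1).mul_right B
      have h3 := ar_span_rdiv h2
      have h4 : Ideal.span {rdiv n (gen I)} = J * B := by
        refine mul_left_cancel₀ hI0 (h3.trans ?_)
        rw [hAB, ← h1]
        ring
      rw [← muR_span, h4, ar_muR_mul]
      exact (hcop A hA0 hA).of_isCoprime_of_dvd_left hJA
  rw [← Finset.sum_filter, key, ← Finset.sum_mul, sum_divs_muR hA0, ar_coprime_gen]
  by_cases hc : IsCoprime W (Ideal.span {n})
  · have hAt : A = ⊤ := by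
      by_contra hne
      obtain ⟨p, hp0, hpA⟩ := WfDvdMonoid.exists_irreducible_factor
        (fun hu => hne (Ideal.isUnit_iff.1 hu)) hA0
      exact hp0.not_isUnit (hc.isUnit_of_dvd' (((prime_dvd_radI hA0 hp0.prime).2 hpA).trans hA)
        (hAB ▸ hpA.mul_right B))
    rw [if_pos hc, if_pos hAt, one_mul, ← muR_span, hAB, hAt, Ideal.top_mul]
  · rw [if_neg hc, if_neg, zero_mul]
    intro hAt
    refine hc ?_
    rw [hAB, hAt, Ideal.top_mul]
    exact hB.symm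
open Classical in
/-- `μ(n) = ∑_{e ∣ (a, n)} μ(e) μ(n/e) 1_{(n/e, a) = 1}` -/
theorem mu_eq_sum_coprime {A : Ideal (R K)} (hA : A ≠ ⊥) (n : R K) :
    mu n = ∑ E ∈ divs A, if gen E ∣ n ∧ IsCoprime (gen A) (rdiv n (gen E)) then
      muR E * mu (rdiv n (gen E)) else 0 := by
  have h1 : ∀ E ∈ divs A, gen E ∣ n ∧ IsCoprime (gen A) (rdiv n (gen E)) →
      muR E * mu (rdiv n (gen E)) = mu n := by
    intro E hE h
    conv_rhs => rw [rdiv_spec h.1]
    rw [mu_mul (h.2.of_isCoprime_of_dvd_left (gen_dvd_gen.2 ((mem_divs hA).1 hE)))]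
    rfl
  by_cases hs : Squarefree n
  · have hg : A ⊔ Ideal.span {n} ≠ ⊥ := fun h => hA (le_bot_iff.1 (h ▸ le_sup_left))
    have hE : A ⊔ Ideal.span {n} ∈ divs A := (mem_divs hA).2 (Ideal.dvd_iff_le.2 le_sup_left)
    have hEn : A ⊔ Ideal.span {n} ∣ Ideal.span {n} := Ideal.dvd_iff_le.2 le_sup_right
    have hs' : Squarefree (Ideal.span {n} : Ideal (R K)) :=
      squarefree_gen.1 ((associated_gen_span n).squarefree_iff.2 hs)
    have hc : gen (A ⊔ Ideal.span {n}) ∣ n ∧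
        IsCoprime (gen A) (rdiv n (gen (A ⊔ Ideal.span {n}))) := by
      refine ⟨gen_dvd_iff.2 hEn, ar_coprime_gen.2 ((ar_coprime_iff hA).2 fun p hp h2 h3 => ?_)⟩
      have h4 := ar_span_rdiv hEn
      have h5 : p ∣ Ideal.span {n} := h4 ▸ h3.mul_left _
      have h6 : p ∣ A ⊔ Ideal.span {n} :=
        Ideal.dvd_iff_le.2 (sup_le (Ideal.dvd_iff_le.1 h2) (Ideal.dvd_iff_le.1 h5))
      exact hp.not_isUnit (hs' p (h4 ▸ mul_dvd_mul h6 h3))
    rw [Finset.sum_eq_single_of_mem _ hE, if_pos hc, h1 _ hE hc]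
    intro E hE' hne
    refine if_neg fun h => hne ?_
    have hEA := (mem_divs hA).1 hE'
    have h2 : E ∣ Ideal.span {n} := gen_dvd_iff.1 h.1
    have h3 := ar_span_rdiv h2
    have h4 : IsCoprime (A ⊔ Ideal.span {n}) (Ideal.span {rdiv n (gen E)}) :=
      (ar_coprime_gen.1 h.2).of_isCoprime_of_dvd_left (Ideal.dvd_iff_le.2 le_sup_left)
    refine associated_iff_eq.1 (associated_of_dvd_dvd
      (Ideal.dvd_iff_le.2 (sup_le (Ideal.dvd_iff_le.1 hEA) (Ideal.dvd_iff_le.1 h2))) ?_)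
    exact h4.dvd_of_dvd_mul_right (h3 ▸ hEn)
  · rw [mu_eq_zero.2 hs]
    symm
    refine Finset.sum_eq_zero fun E hE => ?_
    split_ifs with h
    · rw [h1 E hE h, mu_eq_zero.2 hs]
    · rfl

end Crest.Agent.GQ
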