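import Crest.Agent.GQ.Defs

/-! # GQ Base1: the rings R, T and the classes -/

set_option autoImplicit false

noncomputable section

open NumberField Complex
open scoped ComplexConjugate

namespace Crest.Agent.GQ

variable {K : Type} [Field K] [NumberField K] [P : Pre K]

theorem mem_R_of_int {x : K} (h : IsIntegral ℤ x) : x ∈ R K := ⟨0, by simpa using h⟩
theorem mem_T_of_int {x : K} (h : IsIntegral ℤ x) : x ∈ T K := ⟨1, by simp, by simpa using h⟩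
theorem b1_bez {b : ℕ} (hb : Nat.Coprime b P.M) (k : ℕ) : ∃ u v : ℤ, (u : K) * b + v * MK K ^ k = 1 := by
  obtain ⟨u, v, h⟩ := Nat.isCoprime_iff_coprime.2 (hb.pow_right k)
  exact ⟨u, v, by exact_mod_cast congrArg (Int.cast : ℤ → K) h⟩
theorem b1_ne {b : ℕ} (hb : Nat.Coprime b P.M) : b ≠ 0 := by
  rintro rfl
  have := P.six
  rw [Nat.coprime_zero_left] at hb
  omega
theorem int_of_mem {x : K} (hR : x ∈ R K) (hT : x ∈ T K) : IsIntegral ℤ x := by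
  obtain ⟨k, hk⟩ := hR
  obtain ⟨b, hb, hb'⟩ := hT
  obtain ⟨u, v, h⟩ := b1_bez (K := K) hb k
  have := ((isIntegral_intCast u).mul hb').add ((isIntegral_intCast v).mul hk)
  rwa [← mul_assoc, ← mul_assoc, ← add_mul, h, one_mul] at this
theorem MK_ne_zero : MK K ≠ 0 := Nat.cast_ne_zero.2 P.M0
theorem MK_mem_R : MK K ∈ R K := natCast_mem _ _
theorem MK_mem_T : MK K ∈ T K := natCast_mem _ _
theorem MK_inv_mem_R : (MK K)⁻¹ ∈ R K := ⟨1, by rw [pow_one, mul_inv_cancel₀ MK_ne_zero]; exact isIntegral_one⟩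
theorem MK_zpow_mem_R (k : ℤ) : MK K ^ k ∈ R K := by
  obtain ⟨n, rfl | rfl⟩ := k.eq_nat_or_neg
  · rw [zpow_natCast]; exact pow_mem MK_mem_R n
  · rw [zpow_neg, zpow_natCast, ← inv_pow]; exact pow_mem MK_inv_mem_R n
theorem b1_unit {a : ℕ} (h : a ∣ P.M) : IsUnit (a : R K) :=
  isUnit_of_dvd_unit (Nat.cast_dvd_cast h)
    (IsUnit.of_mul_eq_one ⟨_, MK_inv_mem_R⟩ (Subtype.ext (mul_inv_cancel₀ MK_ne_zero)))
theorem isUnit_two : IsUnit (2 : R K) := b1_unit (a := 2) (dvd_trans (by norm_num) P.six)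
theorem isUnit_three : IsUnit (3 : R K) := b1_unit (a := 3) (dvd_trans (by norm_num) P.six)
theorem inv_nat_mem_T {b : ℕ} (hb : Nat.Coprime b P.M) : ((b : K))⁻¹ ∈ T K := by
  refine ⟨b, hb, ?_⟩
  by_cases h : (b : K) = 0
  · rw [h, zero_mul]; exact isIntegral_zero
  · rw [mul_inv_cancel₀ h]; exact isIntegral_one
theorem b1_split (M : ℕ) {n : ℕ} (hn : n ≠ 0) : ∃ k b : ℕ, Nat.Coprime b M ∧ n ∣ b * M ^ k := by
  induction n using induction_on_primes with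
  | zero => exact absurd rfl hn
  | one => exact ⟨0, 1, by simp, one_dvd _⟩
  | prime_mul p a hp ih =>
    obtain ⟨k, b, hb, h⟩ := ih (right_ne_zero_of_mul hn)
    by_cases e : p ∣ M
    · exact ⟨k + 1, b, hb, by rw [pow_succ', mul_left_comm]; exact mul_dvd_mul e h⟩
    · exact ⟨k, p * b, Nat.Coprime.mul_left (hp.coprime_iff_not_dvd.2 e) hb,
        mul_assoc p b _ ▸ mul_dvd_mul_left p h⟩
theorem b1_den (x : K) : ∃ k b : ℕ, Nat.Coprime b P.M ∧ IsIntegral ℤ ((b : K) * (MK K ^ k * x)) := by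
  obtain ⟨n, hn, h⟩ := ((IsFractionRing.isAlgebraic_iff ℤ ℚ K).2
    (Algebra.IsAlgebraic.isAlgebraic x)).exists_integral_multiple
  obtain ⟨k, b, hb, h1⟩ := b1_split P.M (Int.natAbs_ne_zero.2 hn)
  obtain ⟨c, hc⟩ := Int.natAbs_dvd.1 (Int.natCast_dvd_natCast.2 h1)
  have h2 : (b : K) * MK K ^ k = n * c := by exact_mod_cast congrArg (Int.cast : ℤ → K) hc
  refine ⟨k, b, hb, ?_⟩
  rw [← mul_assoc, h2, mul_right_comm, ← zsmul_eq_mul]
  exact h.mul (isIntegral_intCast c)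
theorem exists_pow_mul_mem_T (x : K) : ∃ k : ℕ, MK K ^ k * x ∈ T K := by
  obtain ⟨k, b, hb, h⟩ := b1_den x
  exact ⟨k, b, hb, h⟩
theorem exists_pow_InT {x : K} (hx : x ≠ 0) : ∃ k : ℕ, InT x (MK K ^ k) := by
  obtain ⟨k, h⟩ := exists_pow_mul_mem_T x⁻¹
  exact ⟨k, _, h, by field_simp⟩
/-- strong approximation `K = R + x T` -/
theorem exists_decomp {x : K} (hx : x ≠ 0) (z : K) : ∃ ρ : R K, InT x (z - ρ) := by
  obtain ⟨j, t, ht, e⟩ := exists_pow_InT hx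
  obtain ⟨k, b, hb, h⟩ := b1_den (z / MK K ^ j)
  obtain ⟨u, v, h1⟩ := b1_bez (K := K) hb k
  have h2 : (b : K) * (z / MK K ^ j) ∈ R K := ⟨k, by rwa [mul_left_comm]⟩
  refine ⟨⟨_, mul_mem (mul_mem (pow_mem MK_mem_R j) (intCast_mem _ u)) h2⟩, _,
    mul_mem (mul_mem ht (intCast_mem _ v)) (show MK K ^ k * (z / MK K ^ j) ∈ T K from ⟨b, hb, h⟩), ?_⟩
  have h3 : MK K ^ j * (z / MK K ^ j) = z := mul_div_cancel₀ _ (pow_ne_zero _ MK_ne_zero)
  linear_combination (-1 : K) * h3 - MK K ^ j * (z / MK K ^ j) * h1 + v * MK K ^ k * (z / MK K ^ j) * e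
theorem exists_frac (x : K) : ∃ a b : R K, b ≠ 0 ∧ IsCoprime a b ∧ x * b = a := by
  obtain ⟨k, b, hb, h⟩ := b1_den x
  have hb0 : (b : R K) ≠ 0 := Nat.cast_ne_zero.2 (b1_ne hb)
  obtain ⟨b', a', g, h1, h2, h3⟩ := UniqueFactorizationMonoid.exists_reduced_factors (b : R K) hb0
    ⟨b * x, k, by rwa [mul_left_comm]⟩
  rw [← h2] at hb0
  refine ⟨a', b', right_ne_zero_of_mul hb0, (isRelPrime_iff_isCoprime.1 h1).symm, ?_⟩
  have h4 : (g : K) * b' = b := congrArg Subtype.val h2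
  have h5 : (g : K) * a' = b * x := congrArg Subtype.val h3
  refine mul_left_cancel₀ (a := (g : K)) (fun e => left_ne_zero_of_mul hb0 (Subtype.ext e)) ?_
  rw [h5, ← h4]; ring
instance isFractionRing_R : IsFractionRing (R K) K := IsFractionRing.of_field _ _ fun z => by
  obtain ⟨a, b, hb, -, h⟩ := exists_frac z
  exact ⟨a, b, eq_div_of_mul_eq (fun e => hb (Subtype.ext e)) h⟩
theorem not_InT_M_one : ¬ InT (MK K) 1 := by
  rintro ⟨t, ht, e⟩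
  rw [eq_inv_of_mul_eq_one_right e.symm] at ht
  have h1 : IsIntegral ℤ (algebraMap ℚ K ((P.M : ℚ))⁻¹) := by simpa using int_of_mem MK_inv_mem_R ht
  obtain ⟨y, hy⟩ := IsIntegrallyClosed.isIntegral_iff.1
    ((isIntegral_algebraMap_iff (algebraMap ℚ K).injective).1 h1)
  have h2 : (y : ℚ) * P.M = 1 := by
    rw [show (y : ℚ) = _ from hy, inv_mul_cancel₀ (Nat.cast_ne_zero.2 P.M0)]
  have h3 : y * P.M = 1 := by exact_mod_cast h2
  obtain ⟨m, hm⟩ := P.six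
  rw [hm] at h3
  push_cast at h3
  rw [mul_left_comm] at h3
  omega

theorem InT.refl (x : K) : InT x x := ⟨1, one_mem _, (mul_one x).symm⟩
theorem InT.zero (x : K) : InT x 0 := ⟨0, zero_mem _, (mul_zero x).symm⟩
theorem InT.trans {x y z : K} (h1 : InT x y) (h2 : InT y z) : InT x z := by
  obtain ⟨s, hs, rfl⟩ := h1
  obtain ⟨t, ht, rfl⟩ := h2
  exact ⟨_, mul_mem hs ht, mul_assoc _ _ _⟩
theorem InT.add {x y z : K} (h1 : InT x y) (h2 : InT x z) : InT x (y + z) := by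
  obtain ⟨s, hs, rfl⟩ := h1
  obtain ⟨t, ht, rfl⟩ := h2
  exact ⟨_, add_mem hs ht, (mul_add _ _ _).symm⟩
theorem InT.neg {x y : K} (h : InT x y) : InT x (-y) := by
  obtain ⟨s, hs, rfl⟩ := h
  exact ⟨_, neg_mem hs, (mul_neg _ _).symm⟩
theorem InT.sub {x y z : K} (h1 : InT x y) (h2 : InT x z) : InT x (y - z) := sub_eq_add_neg y z ▸ h1.add h2.neg
theorem InT.mul {x y x' y' : K} (h1 : InT x y) (h2 : InT x' y') : InT (x * x') (y * y') := by
  obtain ⟨s, hs, rfl⟩ := h1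
  obtain ⟨t, ht, rfl⟩ := h2
  exact ⟨_, mul_mem hs ht, mul_mul_mul_comm _ _ _ _⟩
theorem InT.mul_T {x y t : K} (h : InT x y) (ht : t ∈ T K) : InT x (y * t) := h.trans ⟨t, ht, rfl⟩
theorem InT.pow {x y : K} (h : InT x y) (k : ℕ) : InT (x ^ k) (y ^ k) := by
  obtain ⟨s, hs, rfl⟩ := h
  exact ⟨_, pow_mem hs k, mul_pow _ _ _⟩
theorem InT_one_iff {y : K} : InT 1 y ↔ y ∈ T K := ⟨fun ⟨t, ht, e⟩ => by rwa [e, one_mul], fun h => ⟨y, h, (one_mul y).symm⟩⟩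
theorem InT_iff_div {x y : K} (hx : x ≠ 0) : InT x y ↔ y / x ∈ T K :=
  ⟨fun ⟨t, ht, e⟩ => by rwa [e, mul_div_cancel_left₀ _ hx], fun h => ⟨_, h, (mul_div_cancel₀ _ hx).symm⟩⟩
theorem InT_mul_iff {d x y : K} (hd : d ≠ 0) : InT (d * x) (d * y) ↔ InT x y :=
  ⟨fun ⟨t, ht, e⟩ => ⟨t, ht, mul_left_cancel₀ hd (e.trans (mul_assoc _ _ _))⟩, (InT.refl d).mul⟩
theorem InT_inv {x y : K} (hx : x ≠ 0) (hy : y ≠ 0) : InT x⁻¹ y⁻¹ ↔ InT y x := by
  rw [InT_iff_div (inv_ne_zero hx), InT_iff_div hy, inv_div_inv]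
theorem InT_pow_mono (x : K) {i j : ℕ} (h : i ≤ j) : InT (x * MK K ^ i) (x * MK K ^ j) := by
  obtain ⟨k, rfl⟩ := Nat.exists_eq_add_of_le h
  exact ⟨_, pow_mem MK_mem_T k, by rw [pow_add, mul_assoc]⟩

theorem one_mem_U (j : ℕ) : (1 : K) ∈ U j := ⟨0, zero_mem _, by simp⟩
theorem U_mem_T {j : ℕ} {u : K} (h : u ∈ U j) : u ∈ T K := by
  obtain ⟨t, ht, e⟩ := h
  rw [eq_add_of_sub_eq e]
  exact add_mem (mul_mem (pow_mem MK_mem_T j) ht) (one_mem _)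
theorem U_ne_zero {j : ℕ} (hj : 1 ≤ j) {u : K} (h : u ∈ U j) : u ≠ 0 := by
  rintro rfl
  have h1 := InT_pow_mono (K := K) 1 hj
  rw [one_mul, one_mul, pow_one] at h1
  have h2 := (h1.trans h).neg
  rw [zero_sub, neg_neg] at h2
  exact not_InT_M_one h2
theorem b1_key {b : ℕ} (hb : Nat.Coprime b P.M) (a : 𝓞 K) :
    ∃ N : ℕ, Nat.Coprime N P.M ∧ (b + P.M * a : 𝓞 K) ∣ N := by
  obtain ⟨g, hg⟩ := (IsPrincipalIdealRing.principal
    ((Ideal.span {(b + P.M * a : 𝓞 K)}).comap (algebraMap ℤ (𝓞 K)))).principal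
  refine ⟨g.natAbs, ?_, ?_⟩
  · by_contra h
    obtain ⟨p, hp, h1, h2⟩ := Nat.Prime.not_coprime_iff_dvd.1 h
    have : (Ideal.span {(p : ℤ)}).IsPrime :=
      (Ideal.span_singleton_prime (Nat.cast_ne_zero.2 hp.ne_zero)).2 (Nat.prime_iff_prime_int.1 hp)
    obtain ⟨Q, h3, -, h4⟩ := Ideal.exists_ideal_over_prime_of_isIntegral (Ideal.span {(p : ℤ)})
      (Ideal.span {(b + P.M * a : 𝓞 K)})
      (hg.trans_le (Ideal.span_singleton_le_span_singleton.2 (Int.natCast_dvd.2 h1)))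
    have h5 : ∀ n : ℕ, (n : 𝓞 K) ∈ Q ↔ p ∣ n := fun n => by
      rw [← Int.natCast_dvd_natCast, ← Ideal.mem_span_singleton, ← h4, Ideal.mem_comap, map_natCast]
    have h6 := Q.sub_mem (h3 (Ideal.mem_span_singleton_self _)) (Q.mul_mem_right a ((h5 _).2 h2))
    rw [add_sub_cancel_right, h5] at h6
    exact Nat.Prime.not_coprime_iff_dvd.2 ⟨p, hp, h6, h2⟩ hb
  · have h1 : ((g.natAbs : ℕ) : ℤ) ∈ (Ideal.span {(b + P.M * a : 𝓞 K)}).comap (algebraMap ℤ (𝓞 K)) :=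
      hg ▸ Ideal.mem_span_singleton.2 (Int.dvd_natAbs.2 dvd_rfl)
    rwa [Ideal.mem_comap, map_natCast, Ideal.mem_span_singleton] at h1
theorem U_inv {j : ℕ} (hj : 1 ≤ j) {u : K} (h : u ∈ U j) : u⁻¹ ∈ U j := by
  have h0 := U_ne_zero hj h
  have h1 : u⁻¹ ∈ T K := by
    obtain ⟨t, ⟨b, hb, ht⟩, e⟩ := h
    obtain ⟨i, rfl⟩ := Nat.exists_eq_add_of_le' hj
    obtain ⟨a, ha⟩ : ∃ a : 𝓞 K, algebraMap (𝓞 K) K a = b * t := ⟨⟨_, ht⟩, rfl⟩
    obtain ⟨N, hN, c, hc⟩ := b1_key hb ((P.M : 𝓞 K) ^ i * a)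
    have h2 : (N : K) = b * u * c := by
      have := congrArg (algebraMap (𝓞 K) K) hc
      simp only [map_natCast, map_mul, map_add, map_pow, ha] at this
      rw [this, eq_add_of_sub_eq e]
      exact congrArg (· * _) (by ring)
    refine ⟨N, hN, ?_⟩
    rw [h2, mul_right_comm, mul_inv_cancel_right₀ h0]
    exact (isIntegral_natCast b).mul c.isIntegral_coe
  have h2 := (InT.mul_T h h1).neg
  rwa [sub_mul, mul_inv_cancel₀ h0, one_mul, neg_sub] at h2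
theorem U_mul {j : ℕ} {u u' : K} (h : u ∈ U j) (h' : u' ∈ U j) : u * u' ∈ U j := by
  have := (InT.mul_T h (U_mem_T h')).add h'
  rwa [show (u - 1) * u' + (u' - 1) = u * u' - 1 by ring] at this
theorem U_pow {j : ℕ} {u : K} (h : u ∈ U j) (m : ℕ) : u ^ m ∈ U j := by
  induction m with
  | zero => simpa using one_mem_U j
  | succ m ih => exact pow_succ u m ▸ U_mul ih h
theorem U_mono {i j : ℕ} (hij : i ≤ j) {u : K} (h : u ∈ U j) : u ∈ U i := by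
  have := InT_pow_mono (K := K) 1 hij
  rw [one_mul, one_mul] at this
  exact this.trans h
/-- a unit of `T` has a power in `U j` (exponent uniform) -/
theorem exists_pow_mem_U (j : ℕ) : ∃ m : ℕ, 0 < m ∧ ∀ u : K, u ∈ T K → u⁻¹ ∈ T K → u ≠ 0 →
    u ^ m ∈ U j := by
  let I : Ideal (𝓞 K) := Ideal.span {(P.M : 𝓞 K) ^ j}
  have : Finite (𝓞 K ⧸ I) := Ideal.finiteQuotientOfFreeOfNeBot I (by simp [I, P.M0])
  have h1 : ∀ x : 𝓞 K ⧸ I, IsUnit x → x ^ Nat.card (𝓞 K ⧸ I)ˣ = 1 := by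
    rintro _ ⟨v, rfl⟩
    rw [← Units.val_pow_eq_pow_val, pow_card_eq_one', Units.val_one]
  have h2 : ∀ b : ℕ, Nat.Coprime b P.M → IsUnit (Ideal.Quotient.mk I b) := fun b hb => by
    obtain ⟨u, v, h⟩ : IsCoprime (b : 𝓞 K) ((P.M : 𝓞 K) ^ j) := (Nat.Coprime.cast hb).pow_right
    refine IsUnit.of_mul_eq_one_right (Ideal.Quotient.mk I u) ?_
    rw [← map_mul, eq_sub_of_add_eq h, map_sub, map_one, Ideal.Quotient.eq_zero_iff_mem.2
      (Ideal.mul_mem_left _ _ (Ideal.mem_span_singleton_self _)), sub_zero]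
  refine ⟨Nat.card (𝓞 K ⧸ I)ˣ, Nat.card_pos, ?_⟩
  rintro u ⟨b, hb, ha⟩ ⟨b', hb', ha'⟩ hu
  obtain ⟨a, ha⟩ : ∃ a : 𝓞 K, algebraMap (𝓞 K) K a = b * u := ⟨⟨_, ha⟩, rfl⟩
  obtain ⟨a', ha'⟩ : ∃ a : 𝓞 K, algebraMap (𝓞 K) K a = b' * u⁻¹ := ⟨⟨_, ha'⟩, rfl⟩
  have h3 : a * a' = b * b' := RingOfIntegers.coe_injective (by
    simp only [map_mul, map_natCast, ha, ha']
    field_simp)
  have h4 : IsUnit (Ideal.Quotient.mk I a) :=
    isUnit_of_mul_isUnit_left (y := Ideal.Quotient.mk I a') (by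
      rw [← map_mul, h3, map_mul]; exact (h2 b hb).mul (h2 b' hb'))
  have h5 := (h1 _ h4).trans (h1 _ (h2 b hb)).symm
  rw [← map_pow, ← map_pow, Ideal.Quotient.eq, Ideal.mem_span_singleton] at h5
  obtain ⟨c, hc⟩ := h5
  have h6 := congrArg (algebraMap (𝓞 K) K) hc
  simp only [map_natCast, map_mul, map_sub, map_pow, ha] at h6
  have hb0 : (b : K) ≠ 0 := Nat.cast_ne_zero.2 (b1_ne hb)
  refine ⟨_, mul_mem (mem_T_of_int c.isIntegral_coe) (pow_mem (inv_nat_mem_T hb) (Nat.card (𝓞 K ⧸ I)ˣ)), ?_⟩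
  rw [← mul_assoc, ← h6, mul_pow, inv_pow]
  field_simp
/-- Hensel: elements of `U 2` are cubes up to arbitrarily deep elements -/
theorem U_cube_approx {u : K} (hu : u ∈ U 2) (j : ℕ) : ∃ z : K, z ∈ U 1 ∧ u / z ^ 3 ∈ U j := by
  suffices h : ∃ z : K, z ∈ U 1 ∧ u / z ^ 3 ∈ U (j + 2) from
    h.imp fun z hz => ⟨hz.1, U_mono (by omega) hz.2⟩
  induction j with
  | zero => exact ⟨1, one_mem_U 1, by simpa using hu⟩
  | succ j ih =>
    obtain ⟨z, hz, τ, hτ, e⟩ := ih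
    obtain ⟨m, hm⟩ : 3 ∣ P.M := dvd_trans (by norm_num) P.six
    have hm' : MK K = 3 * m := by rw [MK, hm]; push_cast; rfl
    have hmT : (m : K) ∈ T K := natCast_mem _ m
    have hM := pow_mem (MK_mem_T (K := K)) j
    have hy : 1 + MK K ^ (j + 1) * m * τ ∈ U 1 := ⟨_, mul_mem (mul_mem hM hmT) hτ, by ring⟩
    refine ⟨_, U_mul hz hy, _, mul_mem (neg_mem (add_mem (mul_mem (mul_mem hM hmT) (pow_mem hτ 2))
      (mul_mem (mul_mem (pow_mem hM 2) (pow_mem hmT 3)) (pow_mem hτ 3))))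
      (pow_mem (U_mem_T (U_inv le_rfl hy)) 3), ?_⟩
    have h0 := U_ne_zero le_rfl hy
    rw [mul_pow, ← div_div, eq_add_of_sub_eq e, inv_pow, ← mul_assoc, ← div_eq_mul_inv,
      div_sub_one (pow_ne_zero _ h0)]
    congr 1
    simp only [pow_succ (MK K)]
    generalize MK K ^ j = A
    rw [hm']
    ring

theorem mem_Lat {x : K} {n : R K} : n ∈ Lat x ↔ InT x (n : K) := Iff.rfl
theorem mem_cls_iff {j : ℕ} {c : K} (hc : c ≠ 0) {n : R K} : n ∈ cls j c ↔ (n : K) / c ∈ U j := by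
  rw [cls, U, Set.mem_ofPred_eq, Set.mem_ofPred_eq, ← InT_mul_iff hc (y := _ / c - 1), mul_sub,
    mul_div_cancel₀ _ hc, mul_one]
theorem ne_zero_of_mem_cls {j : ℕ} (hj : 1 ≤ j) {c : K} (hc : c ≠ 0) {n : R K} (h : n ∈ cls j c) :
    n ≠ 0 := fun e =>
  U_ne_zero hj ((mem_cls_iff hc).1 h) (by simp [e])
theorem self_mem_cls (j : ℕ) (n : R K) : n ∈ cls j (n : K) := ⟨0, zero_mem _, by simp⟩
theorem mem_Lat_of_mem_cls {j : ℕ} {c : K} {n : R K} (h : n ∈ cls j c) : n ∈ Lat c := by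
  have h1 : InT c (c * MK K ^ j) := ⟨_, pow_mem MK_mem_T j, rfl⟩
  simpa [mem_Lat] using (h1.trans h).add (InT.refl c)
theorem InT_of_mem_cls {j : ℕ} (hj : 1 ≤ j) {c : K} (hc : c ≠ 0) {n : R K} (h : n ∈ cls j c) :
    InT (n : K) c := by
  have := U_mem_T (U_inv hj ((mem_cls_iff hc).1 h))
  rwa [inv_div, ← InT_iff_div fun e => ne_zero_of_mem_cls hj hc h (Subtype.ext e)] at this
theorem cls_mul_U {j : ℕ} (hj : 1 ≤ j) {c u : K} (hu : u ∈ U j) : cls j (c * u) = cls j c := by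
  by_cases hc : c = 0
  · rw [hc, zero_mul]
  have h0 := U_ne_zero hj hu
  ext n
  rw [mem_cls_iff hc, mem_cls_iff (mul_ne_zero hc h0), ← div_div]
  exact ⟨fun h => by simpa [h0] using U_mul h hu, fun h => div_eq_mul_inv _ u ▸ U_mul h (U_inv hj hu)⟩
theorem cls_eq_of_div {j : ℕ} (hj : 1 ≤ j) {c c' : K} (hc : c ≠ 0) (h : c' / c ∈ U j) :
    cls j c' = cls j c := by
  rw [← cls_mul_U (c := c) hj h, mul_div_cancel₀ _ hc]
theorem cls_eq_of_mem {j : ℕ} (hj : 1 ≤ j) {c : K} (hc : c ≠ 0) {n : R K} (h : n ∈ cls j c) :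
    cls j (n : K) = cls j c := cls_eq_of_div hj hc ((mem_cls_iff hc).1 h)
theorem cls_nonempty (j : ℕ) {c : K} (hc : c ≠ 0) : (cls j c).Nonempty := by
  obtain ⟨ρ, h⟩ := exists_decomp (mul_ne_zero hc (pow_ne_zero j MK_ne_zero)) c
  exact ⟨ρ, show InT _ _ from neg_sub c ρ ▸ h.neg⟩
theorem cls_mono {i j : ℕ} (hij : i ≤ j) (c : K) : cls j c ⊆ cls i c := fun _ h => (InT_pow_mono c hij).trans h
theorem mul_mem_cls {j : ℕ} {c c' : K} {n n' : R K} (h : n ∈ cls j c) (h' : n' ∈ cls j c') :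
    n * n' ∈ cls j (c * c') := by
  obtain ⟨s, hs, e⟩ := h
  obtain ⟨t, ht, e'⟩ := h'
  refine ⟨_, add_mem (add_mem hs ht) (mul_mem (mul_mem (pow_mem MK_mem_T j) hs) ht), ?_⟩
  rw [Subring.coe_mul, eq_add_of_sub_eq e, eq_add_of_sub_eq e']
  ring
theorem mul_mem_cls_iff {j : ℕ} {c : K} {d n : R K} (hd : d ≠ 0) :
    d * n ∈ cls j c ↔ n ∈ cls j (c / d) := by
  have hd' : (d : K) ≠ 0 := fun e => hd (Subtype.ext e)
  rw [cls, cls, Set.mem_ofPred_eq, Set.mem_ofPred_eq, ← InT_mul_iff hd' (x := c / d * _), ← mul_assoc, mul_sub,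
    mul_div_cancel₀ _ hd', Subring.coe_mul]
theorem mem_cls_iff_sub {j : ℕ} {c : K} {n₀ n : R K} (h₀ : n₀ ∈ cls j c) :
    n ∈ cls j c ↔ n - n₀ ∈ Lat (c * MK K ^ j) :=
  ⟨fun h => by simpa [mem_Lat] using InT.sub h h₀, fun h => by simpa [cls] using InT.add (mem_Lat.1 h) h₀⟩
/-- Chinese remainder theorem between `R / n` and the primes dividing `M` -/
theorem exists_crt {x : K} (hx : x ≠ 0) (z : K) {n : R K} (hn : n ≠ 0) (a : R K) :
    ∃ b : R K, n ∣ b - a ∧ InT x ((b : K) - z) := by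
  have hn' : (n : K) ≠ 0 := fun e => hn (Subtype.ext e)
  obtain ⟨ρ, h⟩ := exists_decomp (div_ne_zero hx hn') ((z - a) / n)
  refine ⟨a + n * ρ, ⟨ρ, add_sub_cancel_left _ _⟩, ?_⟩
  have := ((InT_mul_iff hn').2 h).neg
  rw [mul_sub, mul_div_cancel₀ _ hn', mul_div_cancel₀ _ hn'] at this
  convert this using 1
  push_cast
  ring
theorem mem_Lat_mul_iff {x : K} {d n : R K} (hd : d ≠ 0) : d * n ∈ Lat (d * x) ↔ n ∈ Lat x :=
  InT_mul_iff fun e => hd (Subtype.ext e)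

theorem rdiv_spec {a b : R K} (h : b ∣ a) : a = b * rdiv a b := Classical.epsilon_spec (p := fun c => a = b * c) h
theorem rdiv_mul {a b : R K} (hb : b ≠ 0) : rdiv (b * a) b = a :=
  (mul_left_cancel₀ hb (rdiv_spec (dvd_mul_right b a))).symm

end Crest.Agent.GQ
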