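import Crest.Agent.GQ.Base1

/-! # GQ Base2: norms -/

set_option autoImplicit false

noncomputable section

open NumberField Complex
open scoped ComplexConjugate

namespace Crest.Agent.GQ

variable {K : Type} [Field K] [NumberField K] [P : Pre K]

/-- the inclusion `𝓞 → R` -/
def b2_phi : 𝓞 K →+* R K where
  toFun x := ⟨(x : K), mem_R_of_int x.isIntegral_coe⟩
  map_one' := Subtype.ext (by simp)
  map_mul' x y := Subtype.ext (by simp)
  map_zero' := Subtype.ext (by simp)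
  map_add' x y := Subtype.ext (by simp)

@[simp] theorem b2_phi_coe (x : 𝓞 K) : ((b2_phi x : R K) : K) = (x : K) := rfl

omit [NumberField K] P in
theorem b2_lift {x : K} (h : IsIntegral ℤ x) : ∃ o : 𝓞 K, (o : K) = x := ⟨⟨x, h⟩, rfl⟩

theorem b2_card_mul {A : Type*} [CommRing A] [IsDomain A] {a : A} (ha : a ≠ 0) (J : Ideal A) :
    Submodule.cardQuot (Ideal.span {a} * J) =
      Submodule.cardQuot (Ideal.span {a}) * Submodule.cardQuot J := by
  have hf : Function.Injective (AddMonoidHom.mulLeft a) := mul_right_injective₀ ha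
  have h1 := AddSubgroup.relIndex_map_map_of_injective J.toAddSubgroup ⊤ hf
  have h2 : J.toAddSubgroup.map (AddMonoidHom.mulLeft a) = (Ideal.span {a} * J).toAddSubgroup := by
    ext x
    simp only [AddSubgroup.mem_map, Submodule.mem_toAddSubgroup, Ideal.mem_span_singleton_mul]
    rfl
  have h3 : (⊤ : AddSubgroup A).map (AddMonoidHom.mulLeft a) = (Ideal.span {a}).toAddSubgroup := by
    ext x
    simp only [AddSubgroup.mem_map, Submodule.mem_toAddSubgroup, Ideal.mem_span_singleton,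
      AddSubgroup.mem_top, true_and]
    exact ⟨fun ⟨y, hy⟩ => ⟨y, hy.symm⟩, fun ⟨y, hy⟩ => ⟨y, hy.symm⟩⟩
  rw [h2, h3, AddSubgroup.relIndex_top_right] at h1
  have h4 := AddSubgroup.relIndex_mul_index
    (show (Ideal.span {a} * J).toAddSubgroup ≤ (Ideal.span {a}).toAddSubgroup from by
      rw [← h2, ← h3]; exact AddSubgroup.map_mono le_top)
  rw [h1, mul_comm] at h4
  exact h4.symm

theorem b2_comap_ne {I : Ideal (R K)} (hI : I ≠ ⊥) : I.comap (b2_phi (K := K)) ≠ ⊥ := by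
  obtain ⟨n, hn, hn0⟩ := Submodule.exists_mem_ne_zero_of_ne_bot hI
  obtain ⟨k, hk⟩ := n.2
  intro h
  obtain ⟨o, ho⟩ := b2_lift hk
  have h1 : o ∈ I.comap (b2_phi (K := K)) := by
    have : b2_phi o = (⟨MK K, MK_mem_R⟩ : R K) ^ k * n := Subtype.ext ho
    rw [Ideal.mem_comap, this]
    exact I.mul_mem_left _ hn
  rw [h, Ideal.mem_bot] at h1
  have h2 : MK K ^ k * (n : K) = 0 := by rw [← ho, h1]; rfl
  exact hn0 (Subtype.ext ((mul_eq_zero.1 h2).resolve_left (pow_ne_zero _ MK_ne_zero)))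

theorem b2_surj {I : Ideal (R K)} (hI : I ≠ ⊥) :
    Function.Surjective ((Ideal.Quotient.mk I).comp (b2_phi (K := K))) := by
  obtain ⟨n, hn, hn0⟩ := Submodule.exists_mem_ne_zero_of_ne_bot hI
  intro q
  obtain ⟨a, rfl⟩ := Ideal.Quotient.mk_surjective q
  obtain ⟨b, ⟨c, hc⟩, hb⟩ := exists_crt (x := (1 : K)) one_ne_zero 0 hn0 a
  rw [sub_zero, InT_one_iff] at hb
  refine ⟨⟨b, int_of_mem b.2 hb⟩, ?_⟩
  change Ideal.Quotient.mk I b = _
  rw [Ideal.Quotient.eq, hc]
  exact I.mul_mem_right _ hn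

/-- `𝓞 / (I ∩ 𝓞) ≃ R / I` -/
def b2_equiv {I : Ideal (R K)} (hI : I ≠ ⊥) : (𝓞 K ⧸ I.comap (b2_phi (K := K))) ≃+* (R K ⧸ I) :=
  (Ideal.quotEquivOfEq (by rw [← RingHom.comap_ker, Ideal.mk_ker])).trans
    (RingHom.quotientKerEquivOfSurjective (b2_surj hI))

theorem b2_nmI_eq {I : Ideal (R K)} (hI : I ≠ ⊥) :
    nmI I = Ideal.absNorm (I.comap (b2_phi (K := K))) :=
  (Nat.card_congr (b2_equiv hI).toEquiv).symm

theorem finite_quot {I : Ideal (R K)} (hI : I ≠ ⊥) : Finite (R K ⧸ I) := by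
  have : Finite (𝓞 K ⧸ I.comap b2_phi) :=
    Ideal.finiteQuotientOfFreeOfNeBot _ (b2_comap_ne hI)
  exact Finite.of_equiv _ (b2_equiv hI).toEquiv
theorem nmI_pos {I : Ideal (R K)} (hI : I ≠ ⊥) : 0 < nmI I := by
  have := finite_quot hI
  exact Nat.card_pos
theorem nmI_bot : nmI (⊥ : Ideal (R K)) = 0 := by
  rw [nmI, Nat.card_congr (RingEquiv.quotientBot (R K)).toEquiv]
  exact Nat.card_eq_zero_of_infinite
theorem nmI_top : nmI (⊤ : Ideal (R K)) = 1 := Submodule.cardQuot_top (R K) (R K)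
theorem nmI_mul (I J : Ideal (R K)) : nmI (I * J) = nmI I * nmI J := by
  obtain ⟨a, rfl⟩ : ∃ a, I = Ideal.span {a} := ⟨_, (Ideal.span_singleton_generator I).symm⟩
  rcases eq_or_ne a 0 with rfl | ha
  · rw [Ideal.span_singleton_zero, Ideal.bot_mul, nmI_bot, zero_mul]
  exact b2_card_mul ha J
theorem nmI_pow (I : Ideal (R K)) (k : ℕ) : nmI (I ^ k) = nmI I ^ k := by
  induction k with
  | zero => rw [pow_zero, pow_zero, Ideal.one_eq_top, nmI_top]
  | succ k ih => rw [pow_succ, nmI_mul, ih, pow_succ]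
theorem nmI_eq_one {I : Ideal (R K)} : nmI I = 1 ↔ I = ⊤ := Submodule.cardQuot_eq_one_iff
theorem nmI_le_of_dvd {I J : Ideal (R K)} (hJ : J ≠ ⊥) (h : I ∣ J) : nmI I ≤ nmI J := by
  obtain ⟨L, rfl⟩ := h
  rw [nmI_mul]
  exact Nat.le_mul_of_pos_right _ (nmI_pos fun h => hJ (by rw [h, Ideal.mul_bot]))
theorem nm_mul (a b : R K) : nm (a * b) = nm a * nm b := by
  rw [nm, ← Ideal.span_singleton_mul_span_singleton, nmI_mul]; rfl
theorem nm_prime_mod {p : R K} (hp : Prime p) : nm p % 6 = 1 := by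
  have hne : Ideal.span {p} ≠ ⊥ := by rw [Ne, Ideal.span_singleton_eq_bot]; exact hp.ne_zero
  have := finite_quot hne
  have hmax : (Ideal.span {p}).IsMaximal := PrincipalIdealRing.isMaximal_of_irreducible hp.irreducible
  let := Ideal.Quotient.field (Ideal.span {p})
  have := Fintype.ofFinite (R K ⧸ Ideal.span {p})
  have : Fact (Nat.Prime 3) := ⟨Nat.prime_three⟩
  set π := Ideal.Quotient.mk (Ideal.span {p}) with hπ
  have h2 : (2 : R K ⧸ Ideal.span {p}) ≠ 0 := by
    have := (isUnit_two.map π).ne_zero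
    rwa [map_ofNat] at this
  have h3 : (3 : R K ⧸ Ideal.span {p}) ≠ 0 := by
    have := (isUnit_three.map π).ne_zero
    rwa [map_ofNat] at this
  have hw : wR K ^ 2 + wR K + 1 = 0 := by
    have := P.hw.geom_sum_eq_zero (by norm_num)
    simp only [Finset.sum_range_succ, Finset.sum_range_zero, pow_zero, pow_one, zero_add] at this
    refine Subtype.ext ?_
    change P.w ^ 2 + P.w + 1 = 0
    linear_combination this
  have hw' : π (wR K) ^ 2 + π (wR K) + 1 = 0 := by
    have := congrArg π hw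
    rwa [map_add, map_add, map_pow, map_one, map_zero] at this
  have o3 : orderOf (π (wR K)) = 3 := orderOf_eq_prime (by linear_combination (π (wR K) - 1) * hw')
    (fun h => h3 (by rw [h] at hw'; linear_combination hw'))
  have o2 : orderOf (-1 : R K ⧸ Ideal.span {p}) = 2 := orderOf_eq_prime (by norm_num)
    (fun h => h2 (by linear_combination -h))
  have d3 := orderOf_dvd_of_pow_eq_one (FiniteField.pow_card_sub_one_eq_one (π (wR K))
    (fun h => by rw [h] at hw'; simp at hw'))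
  have d2 := orderOf_dvd_of_pow_eq_one (FiniteField.pow_card_sub_one_eq_one
    (-1 : R K ⧸ Ideal.span {p}) (by simp))
  rw [o3] at d3
  rw [o2] at d2
  have hpos : 0 < Fintype.card (R K ⧸ Ideal.span {p}) := Fintype.card_pos
  rw [nm, nmI, Nat.card_eq_fintype_card]
  omega
theorem seven_le_nm {p : R K} (hp : Prime p) : 7 ≤ nm p := by
  have h1 := nm_prime_mod hp
  have h2 : nm p ≠ 1 := fun h => hp.not_isUnit (Ideal.span_singleton_eq_top.1 (nmI_eq_one.1 h))
  omega
theorem Nr_mul (a b : R K) : Nr (a * b) = Nr a * Nr b := by rw [Nr, nm_mul, Nat.cast_mul]; rfl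
theorem Nr_pow (a : R K) (k : ℕ) : Nr (a ^ k) = Nr a ^ k := by
  rw [Nr, nm, ← Ideal.span_singleton_pow, nmI_pow, Nat.cast_pow]; rfl
theorem Nr_zero : Nr (0 : R K) = 0 := by rw [Nr, nm, Ideal.span_singleton_zero, nmI_bot, Nat.cast_zero]
theorem Nr_nonneg (a : R K) : 0 ≤ Nr a := Nat.cast_nonneg _
theorem one_le_Nr {a : R K} (ha : a ≠ 0) : 1 ≤ Nr a := Nat.one_le_cast.2 (nmI_pos (by rw [Ne, Ideal.span_singleton_eq_bot]; exact ha))
theorem Nr_pos {a : R K} (ha : a ≠ 0) : 0 < Nr a := one_pos.trans_le (one_le_Nr ha)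
theorem Nr_eq_one {a : R K} : Nr a = 1 ↔ IsUnit a := by
  rw [Nr, Nat.cast_eq_one, nm, nmI_eq_one, Ideal.span_singleton_eq_top]
theorem Nr_associated {a b : R K} (h : Associated a b) : Nr a = Nr b := by
  rw [Nr, Nr, nm, nm, Ideal.span_singleton_eq_span_singleton.2 h]
theorem Nr_le_of_dvd {a b : R K} (hb : b ≠ 0) (h : a ∣ b) : Nr a ≤ Nr b := Nat.cast_le.2 (nmI_le_of_dvd (by rw [Ne, Ideal.span_singleton_eq_bot]; exact hb)
    (Ideal.span_singleton_dvd_span_singleton_iff_dvd.2 h))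

theorem NrK_div (a : R K) {b : R K} (hb : b ≠ 0) : NrK ((a : K) / b) = Nr a / Nr b := by
  have hb' : (b : K) ≠ 0 := fun h => hb (Subtype.ext h)
  have h := Classical.epsilon_spec (p := fun p : R K × R K => p.2 ≠ 0 ∧ (a : K) / b * p.2 = p.1)
    ⟨(a, b), hb, div_mul_cancel₀ _ hb'⟩
  unfold NrK
  generalize Classical.epsilon (fun p : R K × R K => p.2 ≠ 0 ∧ (a : K) / b * p.2 = p.1) = q at h ⊢
  have h2 : q.1 * b = a * q.2 := Subtype.ext (by
    push_cast
    rw [← h.2]
    field_simp)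
  rw [div_eq_div_iff (Nr_pos h.1).ne' (Nr_pos hb).ne', ← Nr_mul, ← Nr_mul, h2]
theorem NrK_coe (a : R K) : NrK (a : K) = Nr a := by
  have := NrK_div a (b := 1) one_ne_zero
  rwa [OneMemClass.coe_one, div_one, Nr_eq_one.2 isUnit_one, div_one] at this
theorem b2_frac (x : K) : ∃ a b : R K, b ≠ 0 ∧ x = (a : K) / b := by
  obtain ⟨a, b, hb, -, h⟩ := exists_frac x
  exact ⟨a, b, hb, (eq_div_iff fun h => hb (Subtype.ext h)).2 h⟩
theorem NrK_mul (x y : K) : NrK (x * y) = NrK x * NrK y := by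
  obtain ⟨a, b, hb, rfl⟩ := b2_frac x
  obtain ⟨c, d, hd, rfl⟩ := b2_frac y
  rw [div_mul_div_comm, ← MulMemClass.coe_mul, ← MulMemClass.coe_mul, NrK_div _ (mul_ne_zero hb hd),
    NrK_div _ hb, NrK_div _ hd, Nr_mul, Nr_mul, div_mul_div_comm]
theorem NrK_pos {x : K} (hx : x ≠ 0) : 0 < NrK x := by
  obtain ⟨a, b, hb, rfl⟩ := b2_frac x
  rw [NrK_div _ hb]
  exact div_pos (Nr_pos fun h => hx (by rw [h]; simp)) (Nr_pos hb)

theorem b2_omC_ne : conj omC ≠ omC := fun h => by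
  have h1 := congrArg Complex.im h
  have h2 : 0 < Real.sqrt 3 := by positivity
  simp only [conj_im, omC] at h1
  linarith

theorem b2_root {z : ℂ} (hz : z ^ 2 + z + 1 = 0) : z = omC ∨ z = conj omC := by
  have h1 : omC + conj omC = -1 := by
    apply Complex.ext <;> simp [omC]
  have h2 : omC * conj omC = 1 := by
    have h3 : Real.sqrt 3 * Real.sqrt 3 = 3 := Real.mul_self_sqrt (by norm_num)
    apply Complex.ext <;> simp [omC] <;> nlinarith
  have : (z - omC) * (z - conj omC) = 0 := by linear_combination hz - z * h1 + h2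
  rcases mul_eq_zero.1 this with h | h
  exacts [Or.inl (sub_eq_zero.1 h), Or.inr (sub_eq_zero.1 h)]

/-- the embeddings come in conjugate pairs -/
def b2_pairs : Pl K ⊕ Pl K ≃ (K →+* ℂ) :=
  Equiv.ofBijective (Sum.elim (fun v => v.1) fun v => (starRingEnd ℂ).comp v.1) (by
    constructor
    · rintro (v | v) (v' | v') h
      · exact congrArg Sum.inl (Subtype.ext h)
      · have : v.1 P.w = conj (v'.1 P.w) := RingHom.congr_fun h P.w
        rw [v.2, v'.2] at this
        exact absurd this.symm b2_omC_ne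
      · have : conj (v.1 P.w) = v'.1 P.w := RingHom.congr_fun h P.w
        rw [v.2, v'.2] at this
        exact absurd this b2_omC_ne
      · refine congrArg Sum.inr (Subtype.ext (RingHom.ext fun x => ?_))
        have : conj (v.1 x) = conj (v'.1 x) := RingHom.congr_fun h x
        exact (starRingEnd ℂ).injective this
    · intro φ
      have hw : P.w ^ 2 + P.w + 1 = 0 := by
        have := P.hw.geom_sum_eq_zero (by norm_num)
        simp only [Finset.sum_range_succ, Finset.sum_range_zero, pow_zero, pow_one, zero_add] at this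
        linear_combination this
      have hw' : φ P.w ^ 2 + φ P.w + 1 = 0 := by
        have := congrArg φ hw
        rwa [map_add, map_add, map_pow, map_one, map_zero] at this
      rcases b2_root hw' with h | h
      · exact ⟨Sum.inl ⟨φ, h⟩, rfl⟩
      · refine ⟨Sum.inr ⟨(starRingEnd ℂ).comp φ, ?_⟩, RingHom.ext fun x => ?_⟩
        · rw [RingHom.comp_apply, h, conj_conj]
        · exact conj_conj _)

theorem b2_two_mul_rr : 2 * rr K = Module.finrank ℚ K := by
  rw [← NumberField.Embeddings.card K ℂ, ← Fintype.card_congr b2_pairs, Fintype.card_sum, two_mul]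

theorem b2_rr_pos : 0 < rr K := by
  have h1 := b2_two_mul_rr (K := K)
  have h2 : 0 < Module.finrank ℚ K := Module.finrank_pos
  omega

theorem emb_mul (x y : K) : emb (x * y) = emb x * emb y := funext fun v => map_mul v.1 x y
theorem emb_add (x y : K) : emb (x + y) = emb x + emb y := funext fun v => map_add v.1 x y
theorem emb_ne_zero {x : K} (hx : x ≠ 0) (v : Pl K) : emb x v ≠ 0 := (map_ne_zero v.1).2 hx
theorem emb_injective : Function.Injective (emb : K → Pl K → ℂ) := fun _ _ h => by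
  obtain ⟨v⟩ : Nonempty (Pl K) := Fintype.card_pos_iff.1 b2_rr_pos
  exact v.1.injective (congrFun h v)
theorem two_mul_rr : 2 * rr K = Module.finrank ℚ K := b2_two_mul_rr
theorem rr_pos : 0 < rr K := b2_rr_pos
instance : Nonempty (Pl K) := Fintype.card_pos_iff.1 rr_pos
/-- every complex embedding is `v` or `conj ∘ v` for a unique `v` -/
theorem prod_embeddings {M : Type*} [CommMonoid M] (f : (K →+* ℂ) → M) :
    ∏ φ : K →+* ℂ, f φ = ∏ v : Pl K, (f v.1 * f ((starRingEnd ℂ).comp v.1)) := by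
  rw [← b2_pairs.prod_comp, Fintype.prod_sum_type, Finset.prod_mul_distrib]
  rfl
theorem trace_eq (x : K) : ((Algebra.trace ℚ K x : ℚ) : ℝ) = ∑ v : Pl K, 2 * (emb x v).re := by
  have h1 := trace_eq_sum_embeddings (K := ℚ) (L := K) ℂ (x := x)
  rw [← (RingHom.equivRatAlgHom K ℂ).sum_comp, ← b2_pairs.sum_comp, Fintype.sum_sum_type,
    ← Finset.sum_add_distrib] at h1
  have h2 := congrArg Complex.re h1
  rw [eq_ratCast, Complex.ratCast_re, Complex.re_sum] at h2
  rw [h2]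
  refine Finset.sum_congr rfl fun v _ => ?_
  change (emb x v + conj (emb x v)).re = _
  rw [add_re, conj_re, two_mul]
theorem Nm_eq_norm (x : K) : Nm x = |((Algebra.norm ℚ x : ℚ) : ℝ)| := by
  have h1 := Algebra.norm_eq_prod_embeddings ℚ ℂ x
  rw [← (RingHom.equivRatAlgHom K ℂ).prod_comp, prod_embeddings] at h1
  have h2 := congrArg (fun z : ℂ => ‖z‖) h1
  simp only [eq_ratCast, Complex.norm_ratCast, norm_prod] at h2
  rw [h2, Nm]
  refine Finset.prod_congr rfl fun v _ => ?_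
  change _ = ‖emb x v * conj (emb x v)‖
  rw [norm_mul, Complex.norm_conj, sq]
theorem Nm_mul (x y : K) : Nm (x * y) = Nm x * Nm y := by
  simp only [Nm, emb_mul, Pi.mul_apply, norm_mul, mul_pow, Finset.prod_mul_distrib]
theorem Nm_one : Nm (1 : K) = 1 := by simp [Nm, emb]
theorem Nm_pow (x : K) (k : ℕ) : Nm (x ^ k) = Nm x ^ k := by
  induction k with
  | zero => rw [pow_zero, pow_zero, Nm_one]
  | succ k ih => rw [pow_succ, Nm_mul, ih, pow_succ]
theorem Nm_inv (x : K) : Nm x⁻¹ = (Nm x)⁻¹ := by simp [Nm, emb]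
theorem Nm_pos {x : K} (hx : x ≠ 0) : 0 < Nm x := Finset.prod_pos fun v _ => pow_pos (norm_pos_iff.2 (emb_ne_zero hx v)) 2
theorem Nm_eq_exp {x : K} (hx : x ≠ 0) : Nm x = Real.exp (2 * ∑ v, lg x v) := by
  rw [Finset.mul_sum, Real.exp_sum]
  refine Finset.prod_congr rfl fun v _ => ?_
  rw [lg, two_mul, Real.exp_add, Real.exp_log (norm_pos_iff.2 (emb_ne_zero hx v)), sq]
theorem lg_mul {x y : K} (hx : x ≠ 0) (hy : y ≠ 0) : lg (x * y) = lg x + lg y := by
  funext v
  rw [Pi.add_apply, lg, lg, lg, emb_mul, Pi.mul_apply, norm_mul,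
    Real.log_mul (norm_ne_zero_iff.2 (emb_ne_zero hx v)) (norm_ne_zero_iff.2 (emb_ne_zero hy v))]
theorem lg_inv (x : K) : lg x⁻¹ = -lg x := by
  funext v
  simp [lg, emb]
theorem lg_pow (x : K) (k : ℕ) : lg (x ^ k) = (k : ℝ) • lg x := by
  funext v
  simp [lg, emb]
theorem ang_mul (x y : K) : ang (x * y) = ang x * ang y := by
  simp only [ang, emb_mul, Pi.mul_apply, norm_mul, ofReal_mul, mul_div_mul_comm,
    Finset.prod_mul_distrib]
theorem norm_ang {x : K} (hx : x ≠ 0) : ‖ang x‖ = 1 := by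
  rw [ang, norm_prod]
  refine Finset.prod_eq_one fun v _ => ?_
  rw [norm_div, Complex.norm_real, norm_norm, div_self (norm_ne_zero_iff.2 (emb_ne_zero hx v))]
theorem norm_ang_zpow_le (x : K) (e : ℤ) : ‖ang x ^ e‖ ≤ 1 := by
  rcases eq_or_ne x 0 with rfl | hx
  · have : ang (0 : K) = 0 := by simp [ang, emb]
    rw [this]
    rcases eq_or_ne e 0 with rfl | he
    · simp
    · rw [zero_zpow e he]; simp
  · rw [norm_zpow, norm_ang hx, one_zpow]

theorem NS_mul (x y : K) : NS (x * y) = NS x * NS y := by rw [NS, Nm_mul, NrK_mul, mul_div_mul_comm]; rfl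
theorem NS_one : NS (1 : K) = 1 := by
  have := NrK_coe (1 : R K)
  rw [OneMemClass.coe_one, Nr_eq_one.2 isUnit_one] at this
  rw [NS, Nm_one, this, div_one]
theorem NS_pos {x : K} (hx : x ≠ 0) : 0 < NS x := div_pos (Nm_pos hx) (NrK_pos hx)
theorem NS_inv (x : K) : NS x⁻¹ = (NS x)⁻¹ := by
  rcases eq_or_ne x 0 with rfl | hx
  · have : NS (0 : K) = 0 := by simp [NS, Nm, emb]
    rw [inv_zero, this, inv_zero]
  · refine eq_inv_of_mul_eq_one_left ?_
    rw [← NS_mul, inv_mul_cancel₀ hx, NS_one]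
theorem NS_div (x y : K) : NS (x / y) = NS x / NS y := by rw [div_eq_mul_inv, NS_mul, NS_inv, div_eq_mul_inv]
theorem NS_pow (x : K) (k : ℕ) : NS (x ^ k) = NS x ^ k := by
  induction k with
  | zero => rw [pow_zero, pow_zero, NS_one]
  | succ k ih => rw [pow_succ, NS_mul, ih, pow_succ]
theorem Nm_coe (n : R K) : Nm (n : K) = Nr n * NS (n : K) := by
  rcases eq_or_ne n 0 with rfl | hn
  · rw [Nr_zero, zero_mul]
    simp [Nm, emb]
  · rw [NS, NrK_coe, mul_div_cancel₀ _ (Nr_pos hn).ne']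
theorem NS_unit {u : R K} (hu : IsUnit u) : NS (u : K) = Nm (u : K) := by rw [NS, NrK_coe, Nr_eq_one.2 hu, div_one]
theorem b2_int {a : 𝓞 K} (ha : a ≠ 0) :
    1 ≤ NS (a : K) ∧ (NS (a : K) = 1 ↔ (a : K)⁻¹ ∈ T K) := by
  have ha' : (a : K) ≠ 0 := fun h => ha (Subtype.ext h)
  have ha'' : b2_phi a ≠ 0 := fun h => ha' (congrArg Subtype.val h)
  have hne : Ideal.span {b2_phi a} ≠ ⊥ := by rw [Ne, Ideal.span_singleton_eq_bot]; exact ha''
  have hle : Ideal.span {a} ≤ (Ideal.span {b2_phi a}).comap b2_phi := by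
    rw [Ideal.span_singleton_le_iff_mem, Ideal.mem_comap]
    exact Ideal.mem_span_singleton_self _
  obtain ⟨L, hL⟩ := Ideal.dvd_iff_le.2 hle
  have h1 : Nm (a : K) = (Ideal.absNorm (Ideal.span {a}) : ℝ) := by
    rw [Nm_eq_norm, Ideal.absNorm_span_singleton, ← Algebra.coe_norm_int, Nat.cast_natAbs]
    push_cast
    rfl
  have h2 : Nr (b2_phi a) = (Ideal.absNorm ((Ideal.span {b2_phi a}).comap b2_phi) : ℝ) := by
    rw [Nr, nm, b2_nmI_eq hne]
  have h3 : NS (a : K) = (Ideal.absNorm L : ℝ) := by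
    have h4 := Nm_coe (b2_phi a)
    rw [b2_phi_coe, h1, hL, map_mul, Nat.cast_mul, ← h2] at h4
    exact (mul_left_cancel₀ (Nr_pos ha'').ne' h4).symm
  have hL0 : Ideal.absNorm L ≠ 0 := fun h => (NS_pos ha').ne' (by rw [h3, h, Nat.cast_zero])
  refine ⟨by rw [h3]; exact Nat.one_le_cast.2 (Nat.pos_of_ne_zero hL0), ?_⟩
  rw [h3, Nat.cast_eq_one, Ideal.absNorm_eq_one_iff]
  constructor
  · rintro rfl
    rw [Ideal.mul_top] at hL
    obtain ⟨ρ, hρ⟩ := exists_decomp (x := (1 : K)) one_ne_zero (a : K)⁻¹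
    rw [InT_one_iff] at hρ
    have hT : (a : K) * ρ ∈ T K := by
      have := (T K).sub_mem (T K).one_mem ((T K).mul_mem (mem_T_of_int a.isIntegral_coe) hρ)
      rwa [show 1 - (a : K) * ((a : K)⁻¹ - ρ) = a * ρ by field_simp; ring] at this
    have hR : (a : K) * ρ ∈ R K := (R K).mul_mem (mem_R_of_int a.isIntegral_coe) ρ.2
    obtain ⟨o', ho''⟩ := b2_lift (int_of_mem hR hT)
    have hm : o' ∈ Ideal.span {a} := by
      rw [hL, Ideal.mem_comap, Ideal.mem_span_singleton]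
      exact ⟨ρ, Subtype.ext ho''⟩
    obtain ⟨o, ho⟩ := Ideal.mem_span_singleton.1 hm
    have ho' : (a : K) * ρ = a * o := by rw [← ho'', ho]; rfl
    have hρT : (ρ : K) ∈ T K := by
      rw [mul_left_cancel₀ ha' ho']
      exact mem_T_of_int o.isIntegral_coe
    have := (T K).add_mem hρ hρT
    rwa [sub_add_cancel] at this
  · intro hT
    have hge : (Ideal.span {b2_phi a}).comap b2_phi ≤ Ideal.span {a} := fun o ho => by
      obtain ⟨r, hr⟩ := Ideal.mem_span_singleton.1 (Ideal.mem_comap.1 ho)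
      have hr' : (o : K) = a * r := congrArg Subtype.val hr
      have hrT : (r : K) ∈ T K := by
        have := (T K).mul_mem hT (mem_T_of_int o.isIntegral_coe)
        change (a : K)⁻¹ * (o : K) ∈ T K at this
        rwa [hr', inv_mul_cancel_left₀ ha'] at this
      exact Ideal.mem_span_singleton.2 ⟨⟨r, int_of_mem r.2 hrT⟩, Subtype.ext hr'⟩
    rw [← le_antisymm hle hge] at hL
    have hs : Ideal.span {a} ≠ 0 := by
      rw [Ne, Ideal.zero_eq_bot, Ideal.span_singleton_eq_bot]; exact ha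
    rw [← Ideal.one_eq_top]
    exact (mul_left_cancel₀ hs ((mul_one _).trans hL)).symm

theorem b2_key {x : K} (hx : x ≠ 0) (hT : x ∈ T K) : 1 ≤ NS x ∧ (NS x = 1 ↔ x⁻¹ ∈ T K) := by
  obtain ⟨b, hb, hbx⟩ := hT
  have hb0 : b ≠ 0 := by
    rintro rfl
    have h1 : P.M = 1 := by simpa using hb
    have h2 := P.six
    rw [h1] at h2
    omega
  have hb' : (b : K) ≠ 0 := Nat.cast_ne_zero.2 hb0
  have h1 : NS (b : K) = 1 := by
    have := (b2_int (a := (b : 𝓞 K)) (Nat.cast_ne_zero.2 hb0)).2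
    exact this.2 (inv_nat_mem_T hb)
  have h2 := b2_int (a := ⟨(b : K) * x, hbx⟩) fun h =>
    mul_ne_zero hb' hx (congrArg (fun x : 𝓞 K => (x : K)) h)
  change 1 ≤ NS ((b : K) * x) ∧ (NS ((b : K) * x) = 1 ↔ ((b : K) * x)⁻¹ ∈ T K) at h2
  rw [NS_mul, h1, one_mul] at h2
  refine ⟨h2.1, h2.2.trans ⟨fun h => ?_, fun h => ?_⟩⟩
  · have := (T K).mul_mem h (natCast_mem (T K) b)
    rwa [mul_inv_rev, inv_mul_cancel_right₀ hb'] at this
  · rw [mul_inv]
    exact (T K).mul_mem (inv_nat_mem_T hb) h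

/-- key fact: for `x ∈ T`, `NS x = #(T / xT)` is a positive integer -/
theorem one_le_NS {x : K} (hx : x ≠ 0) (hT : x ∈ T K) : 1 ≤ NS x := (b2_key hx hT).1
theorem NS_eq_one {x : K} (hx : x ≠ 0) (hT : x ∈ T K) : NS x = 1 ↔ x⁻¹ ∈ T K := (b2_key hx hT).2
theorem NS_le_of_InT {x y : K} (hy : y ≠ 0) (h : InT x y) : NS x ≤ NS y := by
  obtain ⟨t, ht, rfl⟩ := h
  rw [NS_mul]
  exact le_mul_of_one_le_right (NS_pos (left_ne_zero_of_mul hy)).le
    (one_le_NS (right_ne_zero_of_mul hy) ht)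
theorem NS_U {j : ℕ} (hj : 1 ≤ j) {u : K} (hu : u ∈ U j) : NS u = 1 := (NS_eq_one (U_ne_zero hj hu) (U_mem_T hu)).2 (U_mem_T (U_inv hj hu))
theorem NS_cls {j : ℕ} (hj : 1 ≤ j) {c : K} (hc : c ≠ 0) {n : R K} (h : n ∈ cls j c) :
    NS (n : K) = NS c := by
  have := NS_U hj ((mem_cls_iff hc).1 h)
  rwa [NS_div, div_eq_one_iff_eq (NS_pos hc).ne'] at this
theorem sz_pos {c : K} (hc : c ≠ 0) (t : Pl K → ℝ) : 0 < sz c t := div_pos (Real.exp_pos _) (NS_pos hc)
theorem sz_div {c : K} (hc : c ≠ 0) {d : R K} (hd : d ≠ 0) (t : Pl K → ℝ) :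
    sz (c / d) (t - lg (d : K)) = sz c t / Nr d := by
  have hd' : (d : K) ≠ 0 := fun h => hd (Subtype.ext h)
  have h1 := NS_pos hc
  have h2 := NS_pos hd'
  have h3 := Nr_pos hd
  simp only [sz, Pi.sub_apply, Finset.sum_sub_distrib, mul_sub, Real.exp_sub]
  rw [← Nm_eq_exp hd', Nm_coe, NS_div]
  field_simp
theorem sz_add (c : K) (t s : Pl K → ℝ) : sz c (t + s) = sz c t * Real.exp (2 * ∑ v, s v) := by
  simp only [sz, Pi.add_apply, Finset.sum_add_distrib, mul_add, Real.exp_add]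
  ring

end Crest.Agent.GQ
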