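import Crest.Agent.GQ.Base3AuxA

/-! # GQ Base3, auxiliary file B: valuations, classes, balanced generators -/

set_option autoImplicit false

noncomputable section

open NumberField IsDedekindDomain WithZero
open scoped ComplexConjugate nonZeroDivisors

namespace Crest.Agent.GQ

variable {K : Type} [Field K] [NumberField K] [P : Pre K]

omit P in
theorem b3_v_int (v : HeightOneSpectrum (𝓞 K)) {x : K} (h : IsIntegral ℤ x) :
    v.valuation K x ≤ 1 := v.valuation_le_one (K := K) (⟨x, h⟩ : 𝓞 K)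

omit P in
theorem b3_int_of_v {x : K} (h : ∀ v : HeightOneSpectrum (𝓞 K), v.valuation K x ≤ 1) :
    IsIntegral ℤ x := by
  obtain ⟨y, rfl⟩ := HeightOneSpectrum.mem_integers_of_valuation_le_one K x h
  exact y.isIntegral_coe

omit P in
theorem b3_v_nat (v : HeightOneSpectrum (𝓞 K)) (n : ℕ) :
    v.valuation K (n : K) = 1 ↔ (n : 𝓞 K) ∉ v.asIdeal := by
  rw [← v.valuation_eq_one_iff_notMem (K := K), map_natCast (algebraMap (𝓞 K) K)]

theorem b3_v_T {v : HeightOneSpectrum (𝓞 K)} (hv : (P.M : 𝓞 K) ∈ v.asIdeal) {x : K}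
    (hx : x ∈ T K) : v.valuation K x ≤ 1 := by
  obtain ⟨b, hb, h⟩ := hx
  have h1 : v.valuation K (b : K) = 1 := by
    refine (b3_v_nat v b).2 fun hb' => v.isPrime.ne_top ((Ideal.eq_top_iff_one _).2 ?_)
    obtain ⟨r, s, hrs⟩ := Nat.Coprime.cast (R := 𝓞 K) hb
    rw [← hrs]
    exact v.asIdeal.add_mem (v.asIdeal.mul_mem_left _ hb') (v.asIdeal.mul_mem_left _ hv)
  have := b3_v_int v h
  rwa [map_mul, h1, one_mul] at this

theorem b3_T_of_v {x : K} (h : ∀ v : HeightOneSpectrum (𝓞 K), (P.M : 𝓞 K) ∈ v.asIdeal →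
    v.valuation K x ≤ 1) : x ∈ T K := by
  obtain ⟨k, b, hb, hx⟩ := exists_pow_mul_mem_T x
  refine ⟨b, hb, b3_int_of_v fun v => ?_⟩
  by_cases hv : (P.M : 𝓞 K) ∈ v.asIdeal
  · rw [map_mul]
    exact mul_le_one' (b3_v_int v (by exact_mod_cast isIntegral_natCast b)) (h v hv)
  · have := b3_v_int v hx
    rwa [map_mul, map_mul, map_pow, (b3_v_nat v P.M).2 hv, one_pow, one_mul, ← map_mul] at this

theorem b3_R_of_v {x : K} (h : ∀ v : HeightOneSpectrum (𝓞 K), (P.M : 𝓞 K) ∉ v.asIdeal →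
    v.valuation K x ≤ 1) : x ∈ R K := by
  obtain ⟨k, hx⟩ := exists_pow_mul_mem_T x
  refine ⟨k, b3_int_of_v fun v => ?_⟩
  by_cases hv : (P.M : 𝓞 K) ∈ v.asIdeal
  · exact b3_v_T hv hx
  · rw [map_mul, map_pow, (b3_v_nat v P.M).2 hv, one_pow, one_mul]
    exact h v hv

omit P in
/-- a power of a prime is principal -/
theorem b3_exists_pi (v : HeightOneSpectrum (𝓞 K)) : ∃ (π : K) (a : ℕ), 0 < a ∧
    v.valuation K π = exp (-(a : ℤ)) ∧ ∀ w : HeightOneSpectrum (𝓞 K), w ≠ v → w.valuation K π = 1 := by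
  classical
  have h0 : v.asIdeal ∈ (Ideal (𝓞 K))⁰ := mem_nonZeroDivisors_of_ne_zero v.ne_bot
  have hc : 0 < Fintype.card (ClassGroup (𝓞 K)) := Fintype.card_pos
  have h1 : (v.asIdeal ^ Fintype.card (ClassGroup (𝓞 K))).IsPrincipal := by
    rw [← ClassGroup.mk0_eq_one_iff (pow_mem h0 _)]
    have := pow_card_eq_one (x := ClassGroup.mk0 ⟨v.asIdeal, h0⟩)
    rwa [← map_pow] at this
  obtain ⟨π, hπ⟩ := h1
  have hπ' : Ideal.span {π} = v.asIdeal ^ Fintype.card (ClassGroup (𝓞 K)) := hπ.symm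
  have hπ0 : π ≠ 0 := by
    rintro rfl
    exact pow_ne_zero _ v.ne_bot (by rw [← hπ']; simp)
  have hv0 : v.valuation K (π : K) ≠ 0 := by simpa using hπ0
  have hv1 : v.valuation K (π : K) < 1 :=
    (v.valuation_lt_one_iff_dvd (K := K) π).2 (hπ' ▸ dvd_pow_self _ hc.ne')
  have hl : log (v.valuation K (π : K)) < 0 := by
    rw [← exp_lt_exp, exp_log hv0, exp_zero]; exact hv1
  refine ⟨π, (-log (v.valuation K (π : K))).toNat, by omega, ?_, fun w hw => ?_⟩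
  · rw [Int.toNat_of_nonneg (by omega), neg_neg, exp_log hv0]
  · refine le_antisymm (w.valuation_le_one (K := K) π) (not_lt.1 fun h => hw ?_)
    have h2 := (w.valuation_lt_one_iff_dvd (K := K) π).1 h
    rw [hπ'] at h2
    exact HeightOneSpectrum.ext
      (associated_iff_eq.1 ((w.prime.dvd_prime_iff_associated v.prime).1 (w.prime.dvd_of_dvd_pow h2)))

/-- scaling by an `m`-th power of a unit of `R` into `T` with bounded `M`-part -/
theorem b3_scale {m : ℕ} (hm : 0 < m) : ∃ C : ℕ, ∀ c : K, c ≠ 0 → ∃ u : (R K)ˣ,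
    c / ((u : R K) : K) ^ m ∈ T K ∧ InT (c / ((u : R K) : K) ^ m) (MK K ^ C) := by
  classical
  have hM : Ideal.span {(P.M : 𝓞 K)} ≠ 0 := by
    simpa using P.M0
  let S := (Ideal.finite_factors hM).toFinset
  have hS : ∀ v, v ∈ S ↔ (P.M : 𝓞 K) ∈ v.asIdeal := fun v => by
    simp only [S, Set.Finite.mem_toFinset, Set.mem_ofPred_eq, Ideal.dvd_span_singleton]
  choose π a ha hπ hπ' using b3_exists_pi (K := K)
  have hπ0 : ∀ v, π v ≠ 0 := fun v h => by
    have := hπ v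
    rw [h, map_zero] at this
    exact exp_ne_zero this.symm
  refine ⟨m * ∑ v ∈ S, a v, fun c hc => ?_⟩
  let k : HeightOneSpectrum (𝓞 K) → ℤ := fun v => (-log (v.valuation K c)) / (m * a v)
  let u : K := ∏ v ∈ S, π v ^ k v
  have hu0 : u ≠ 0 := Finset.prod_ne_zero_iff.2 fun v _ => zpow_ne_zero _ (hπ0 v)
  have hu1 : ∀ w, w ∉ S → w.valuation K u = 1 := fun w hw => by
    rw [map_prod]
    exact Finset.prod_eq_one fun v hv => by
      rw [map_zpow₀, hπ' v w (fun h => hw (h ▸ hv)), one_zpow]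
  have hu2 : ∀ w ∈ S, w.valuation K u = exp (-(k w * a w)) := fun w hw => by
    rw [map_prod, Finset.prod_eq_single w (fun v _ hv => by
      rw [map_zpow₀, hπ' v w hv.symm, one_zpow]) (fun h => absurd hw h), map_zpow₀, hπ,
      ← exp_zsmul, smul_eq_mul, mul_neg]
  have huR : u ∈ R K := b3_R_of_v fun w hw => (hu1 w fun h => hw ((hS w).1 h)).le
  have huR' : u⁻¹ ∈ R K := b3_R_of_v fun w hw => by
    rw [map_inv₀, hu1 w fun h => hw ((hS w).1 h), inv_one]
  have hv : ∀ w ∈ S, ∃ n : ℤ, 0 ≤ n ∧ n < m * a w ∧ w.valuation K (c / u ^ m) = exp (-n) := by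
    intro w hw
    have hpos : (0 : ℤ) < m * a w := by have := ha w; positivity
    refine ⟨(-log (w.valuation K c)) % (m * a w), Int.emod_nonneg _ hpos.ne',
      Int.emod_lt_of_pos _ hpos, ?_⟩
    have hc0 : w.valuation K c ≠ 0 := by simpa using hc
    rw [map_div₀, map_pow, hu2 w hw, ← exp_nsmul, ← exp_log hc0, ← exp_sub, log_exp, exp_inj,
      Int.emod_def, nsmul_eq_mul]
    simp only [k]; ring
  refine ⟨⟨⟨u, huR⟩, ⟨u⁻¹, huR'⟩, Subtype.ext (mul_inv_cancel₀ hu0),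
    Subtype.ext (inv_mul_cancel₀ hu0)⟩, b3_T_of_v fun w hw => ?_, ?_⟩
  · obtain ⟨n, h0, -, h⟩ := hv w ((hS w).2 hw)
    change w.valuation K (c / u ^ m) ≤ 1
    rw [h, ← exp_zero, exp_le_exp]; omega
  · change InT (c / u ^ m) _
    refine (InT_iff_div (div_ne_zero hc (pow_ne_zero _ hu0))).2 (b3_T_of_v fun w hw => ?_)
    obtain ⟨n, -, h1, h⟩ := hv w ((hS w).2 hw)
    have hM0 : w.valuation K (MK K) ≠ 0 := by simpa using P.M0
    have hM1 : w.valuation K (MK K) < 1 := by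
      have := (w.valuation_lt_one_iff_mem (K := K) (P.M : 𝓞 K)).2 hw
      simpa using this
    have hl : log (w.valuation K (MK K)) < 0 := by
      rw [← exp_lt_exp, exp_log hM0, exp_zero]; exact hM1
    have h2 : (a w : ℤ) ≤ ((∑ v ∈ S, a v : ℕ) : ℤ) := by
      exact_mod_cast Finset.single_le_sum (fun v _ => Nat.zero_le (a v)) ((hS w).2 hw)
    rw [map_div₀, map_pow, h, ← exp_log hM0, ← exp_nsmul, ← exp_sub, ← exp_zero, exp_le_exp,
      nsmul_eq_mul, Nat.cast_mul]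
    have h3 : (m : ℤ) * a w ≤ m * ((∑ v ∈ S, a v : ℕ) : ℤ) :=
      mul_le_mul_of_nonneg_left h2 (by positivity)
    have h4 : (0 : ℤ) ≤ m * ((∑ v ∈ S, a v : ℕ) : ℤ) := by positivity
    nlinarith

/-- finitely many classes of elements of `T` with bounded `M`-part -/
theorem b3_cls (j C : ℕ) : ∃ 𝒮 : Finset K, (∀ σ ∈ 𝒮, σ ≠ 0 ∧ σ ∈ T K ∧ InT σ (MK K ^ C)) ∧
    ∀ c : K, c ≠ 0 → c ∈ T K → InT c (MK K ^ C) → ∃ σ ∈ 𝒮, c / σ ∈ U j := by
  classical
  have hM : MK K ^ (C + j) ≠ 0 := pow_ne_zero _ MK_ne_zero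
  let I : Ideal (𝓞 K) := Ideal.span {(P.M : 𝓞 K) ^ (C + j)}
  have hI : I ≠ ⊥ := by simpa [I] using fun h => absurd h P.M0
  have : Finite (𝓞 K ⧸ I) := I.finiteQuotientOfFreeOfNeBot hI
  let A : Set K := {σ | σ ≠ 0 ∧ σ ∈ T K ∧ InT σ (MK K ^ C)}
  have h1 : ∀ c : A, ∃ y : 𝓞 K, InT (MK K ^ (C + j)) (c - y) := by
    intro c
    obtain ⟨ρ, hρ⟩ := exists_decomp hM (c : K)
    have hT : (ρ : K) ∈ T K := by
      have := (T K).sub_mem c.2.2.1
        (InT_one_iff.1 ((InT_one_iff.2 ((T K).pow_mem MK_mem_T _)).trans hρ))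
      rwa [sub_sub_cancel] at this
    exact ⟨⟨ρ, int_of_mem ρ.2 hT⟩, hρ⟩
  choose y hy using h1
  let φ : A → 𝓞 K ⧸ I := fun c => Ideal.Quotient.mk I (y c)
  have hfin : (Set.range fun q : Set.range φ => ((q.2.choose : A) : K)).Finite := Set.finite_range _
  refine ⟨hfin.toFinset, fun σ hσ => ?_, fun c h0 hT hC => ?_⟩
  · obtain ⟨q, rfl⟩ := hfin.mem_toFinset.1 hσ
    exact q.2.choose.2
  · let q : Set.range φ := ⟨φ ⟨c, h0, hT, hC⟩, _, rfl⟩
    refine ⟨_, hfin.mem_toFinset.2 ⟨q, rfl⟩, ?_⟩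
    have h2 : φ q.2.choose = φ ⟨c, h0, hT, hC⟩ := q.2.choose_spec
    set σ := q.2.choose
    obtain ⟨z, hz⟩ := Ideal.mem_span_singleton.1 (Ideal.Quotient.eq.1 h2)
    have h3 : InT (MK K ^ (C + j)) ((y σ : K) - y ⟨c, h0, hT, hC⟩) := by
      refine ⟨z, mem_T_of_int z.isIntegral_coe, ?_⟩
      have := congrArg (algebraMap (𝓞 K) K) hz
      simpa using this
    have h4 : InT (MK K ^ (C + j)) (c - σ) := by
      have := ((hy ⟨c, h0, hT, hC⟩).sub (hy σ)).sub h3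
      rwa [show (c - y ⟨c, h0, hT, hC⟩ - (σ - y σ) - (y σ - y ⟨c, h0, hT, hC⟩) : K) = c - σ by
        ring] at this
    have h5 : InT (σ * MK K ^ j) (c - σ) := by
      refine InT.trans ?_ h4
      rw [pow_add]
      exact σ.2.2.2.mul (InT.refl _)
    change InT (MK K ^ j) (c / σ - 1)
    rw [← InT_mul_iff σ.2.1, mul_sub, mul_div_cancel₀ _ σ.2.1, mul_one]
    exact h5

theorem b3_exists_bal : ∃ C : ℕ, ∀ I : Ideal (R K), I ≠ ⊥ → ∃ k, IsBal C I k := by
  obtain ⟨C1, h1⟩ := b3_scale (K := K) one_pos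
  obtain ⟨C2, h2⟩ := b3_unit_bal (K := K) 0
  refine ⟨C1 + ⌈C2 + Real.log (NS (MK K ^ C1))⌉₊, fun I hI => ?_⟩
  obtain ⟨g, hg⟩ := (IsPrincipalIdealRing.principal I).principal
  have hg' : I = Ideal.span {g} := hg
  have hg0 : g ≠ 0 := by rintro rfl; exact hI (by simpa using hg')
  obtain ⟨u, hT, hC⟩ := h1 g fun e => hg0 (Subtype.ext e)
  set g' : R K := g * (u⁻¹ : (R K)ˣ) with hg'def
  have e1 : (g : K) / ((u : R K) : K) ^ 1 = g' := by
    rw [pow_one, hg'def, div_eq_mul_inv]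
    push_cast
    congr 1
    exact (map_units_inv (R K).subtype u).symm
  rw [e1] at hT hC
  have hg1 : g' ≠ 0 := mul_ne_zero hg0 (Units.ne_zero _)
  have hg2 : (g' : K) ≠ 0 := fun e => hg1 (Subtype.ext e)
  obtain ⟨ε, hε0, hε1, hε2, -, hε⟩ := h2 (-lg (g' : K))
  have hεu : IsUnit (⟨ε, mem_R_of_int hε1⟩ : R K) :=
    IsUnit.of_mul_eq_one (⟨ε⁻¹, mem_R_of_int hε2⟩ : R K) (Subtype.ext (mul_inv_cancel₀ hε0))
  have hspan : Ideal.span {g'} = I := by
    rw [hg', hg'def, Ideal.span_singleton_mul_right_unit (Units.isUnit _)]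
  refine ⟨g' * ⟨ε, mem_R_of_int hε1⟩, ?_, (T K).mul_mem hT (mem_T_of_int hε1), ?_, fun v => ?_⟩
  · rw [Ideal.span_singleton_mul_right_unit hεu, hspan]
  · refine InT.trans ⟨ε⁻¹, mem_T_of_int hε2, ?_⟩ (hC.trans ?_)
    · push_cast; field_simp
    · simpa using InT_pow_mono (1 : K) (Nat.le_add_right C1 _)
  · have hr : (1 : ℝ) ≤ rr K := by exact_mod_cast rr_pos
    have a1 := one_le_NS hg2 hT
    have a2 := NS_le_of_InT (pow_ne_zero _ MK_ne_zero) hC
    have a3 : (nmI I : ℝ) = Nr g' := by rw [← hspan]; rfl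
    have a4 : 2 * ∑ w, lg (g' : K) w = Real.log (nmI I) + Real.log (NS (g' : K)) := by
      rw [a3, ← Real.log_mul (Nr_pos hg1).ne' (by linarith), ← Nm_coe, Nm_eq_exp hg2, Real.log_exp]
    have a5 := Real.log_nonneg a1
    have a6 := Real.log_le_log (by linarith) a2
    have a7 := hε v
    simp only [Pi.neg_apply, Finset.sum_neg_distrib] at a7
    have a8 : (∑ w, lg (g' : K) w) / rr K =
        Real.log (nmI I) / (2 * rr K) + Real.log (NS (g' : K)) / (2 * rr K) := by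
      rw [← add_div, ← a4]; field_simp
    have a9 : Real.log (NS (g' : K)) / (2 * rr K) ≤ Real.log (NS (g' : K)) :=
      div_le_self a5 (by linarith)
    have a10 : 0 ≤ Real.log (NS (g' : K)) / (2 * rr K) := by positivity
    have a11 := Nat.le_ceil (C2 + Real.log (NS (MK K ^ C1)))
    have a12 : (0 : ℝ) ≤ C1 := Nat.cast_nonneg _
    rw [neg_div, a8, abs_le] at a7
    push_cast
    rw [lg_mul hg2 hε0, Pi.add_apply, abs_le]
    constructor <;> linarith [a7.1, a7.2]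

end Crest.Agent.GQ
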