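import Crest.Agent.GQ.Base2
import Crest.Agent.GQ.Base3AuxB

/-! # GQ Base3: lattice points in boxes, units, balanced generators, counting ideals -/

set_option autoImplicit false

noncomputable section

open NumberField Complex
open scoped ComplexConjugate

namespace Crest.Agent.GQ

variable {K : Type} [Field K] [NumberField K] [P : Pre K]

/-- box lemma, uniform in the lattice, the centre and the shape of the box -/
theorem box_count : ∃ C : ℝ, 0 < C ∧ ∀ x : K, x ≠ 0 → ∀ (z : Pl K → ℂ) (ρ : Pl K → ℝ),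
    (∀ v, 0 < ρ v) →
    {n : R K | n ∈ Lat x ∧ ∀ v, ‖emb (n : K) v - z v‖ ≤ ρ v}.Finite ∧
    (({n : R K | n ∈ Lat x ∧ ∀ v, ‖emb (n : K) v - z v‖ ≤ ρ v}.ncard : ℕ) : ℝ) ≤
      C * (1 + (∏ v, ρ v ^ 2) / NS x) := b3_box_count
theorem NS_le_Nm {x : K} {n : R K} (hn : n ≠ 0) (h : n ∈ Lat x) : NS x ≤ Nm (n : K) :=
  b3_NS_le_Nm hn h
instance : Countable (R K) := by
  have : Countable K := (Module.finBasis ℚ K).equivFun.injective.countable
  infer_instance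
instance : Countable (Ideal (R K)) :=
  Function.Surjective.countable (f := fun n : R K => Ideal.span {n}) fun I =>
    let ⟨g, hg⟩ := (IsPrincipalIdealRing.principal I).principal
    ⟨g, hg.symm⟩
/-- cocompactness of the units in `U j` (Dirichlet's unit theorem) -/
theorem unit_bal (j : ℕ) : ∃ C : ℝ, ∀ t : Pl K → ℝ, ∃ u : K, u ≠ 0 ∧ IsIntegral ℤ u ∧
    IsIntegral ℤ u⁻¹ ∧ u ∈ U j ∧ ∀ v, |lg u v - (t v - (∑ w, t w) / rr K)| ≤ C := b3_unit_bal j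
/-- units of `𝓞` in a logarithmic cube -/
theorem unit_cube_count : ∃ C : ℝ, ∀ t : Pl K → ℝ,
    {u : K | u ≠ 0 ∧ IsIntegral ℤ u ∧ IsIntegral ℤ u⁻¹ ∧ ∀ v, |lg u v - t v| ≤ 1}.Finite ∧
    (({u : K | u ≠ 0 ∧ IsIntegral ℤ u ∧ IsIntegral ℤ u⁻¹ ∧ ∀ v, |lg u v - t v| ≤ 1}.ncard : ℕ) : ℝ)
      ≤ C := b3_unit_cube_count
/-- sums over units of a function decaying exponentially in the logarithmic embedding -/
theorem unit_sum_le {a : ℝ} (ha : 0 < a) : ∃ C : ℝ, ∀ t : Pl K → ℝ,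
    Summable (fun u : {u : K // u ≠ 0 ∧ IsIntegral ℤ u ∧ IsIntegral ℤ u⁻¹} =>
      Real.exp (-a * ‖lg u.1 - t‖)) ∧
    ∑' u : {u : K // u ≠ 0 ∧ IsIntegral ℤ u ∧ IsIntegral ℤ u⁻¹}, Real.exp (-a * ‖lg u.1 - t‖) ≤ C :=
  b3_unit_sum_le ha
/-- finitely many classes modulo `m`-th powers of units of `R` -/
theorem cls_fin (j : ℕ) {m : ℕ} (hm : 0 < m) : ∃ 𝒮 : Finset K, (∀ σ ∈ 𝒮, σ ≠ 0) ∧
    ∀ c : K, c ≠ 0 → ∃ σ ∈ 𝒮, ∃ u : (R K)ˣ, c / (((u : R K) : K) ^ m * σ) ∈ U j := by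
  obtain ⟨C, hC⟩ := b3_scale (K := K) hm
  obtain ⟨𝒮, h1, h2⟩ := b3_cls (K := K) j C
  refine ⟨𝒮, fun σ hσ => (h1 σ hσ).1, fun c hc => ?_⟩
  obtain ⟨u, hT, hI⟩ := hC c hc
  have hu : ((u : R K) : K) ≠ 0 := fun e => u.ne_zero (Subtype.ext e)
  obtain ⟨σ, hσ, h⟩ := h2 _ (div_ne_zero hc (pow_ne_zero _ hu)) hT hI
  exact ⟨σ, hσ, u, by rwa [div_div] at h⟩
theorem isBal_gen {I : Ideal (R K)} (hI : I ≠ ⊥) : IsBal (balC K) I (gen I) := by
  have h := Classical.epsilon_spec (b3_exists_bal (K := K)) I hI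
  rw [gen, if_neg hI]
  exact Classical.epsilon_spec h
theorem span_gen (I : Ideal (R K)) : Ideal.span {gen I} = I := by
  by_cases hI : I = ⊥
  · rw [gen, if_pos hI, hI]; simp
  · exact (isBal_gen hI).1
theorem gen_ne_zero {I : Ideal (R K)} (hI : I ≠ ⊥) : gen I ≠ 0 := fun h =>
  hI (by rw [← span_gen I, h]; simp)
theorem Nr_gen (I : Ideal (R K)) : Nr (gen I) = nmI I := by
  rw [Nr, nm, span_gen]
theorem associated_gen_span (n : R K) : Associated (gen (Ideal.span {n})) n :=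
  Ideal.span_singleton_eq_span_singleton.1 (span_gen _)
theorem associated_gen_mul (I J : Ideal (R K)) : Associated (gen (I * J)) (gen I * gen J) :=
  Ideal.span_singleton_eq_span_singleton.1 (by
    rw [← Ideal.span_singleton_mul_span_singleton, span_gen, span_gen, span_gen])
theorem gen_dvd_iff {I : Ideal (R K)} {n : R K} : gen I ∣ n ↔ I ∣ Ideal.span {n} := by
  rw [← Ideal.span_singleton_dvd_span_singleton_iff_dvd, span_gen]
theorem gen_dvd_gen {I J : Ideal (R K)} : gen I ∣ gen J ↔ I ∣ J := by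
  rw [gen_dvd_iff, span_gen]
theorem squarefree_gen {I : Ideal (R K)} : Squarefree (gen I) ↔ Squarefree I := by
  rw [← Ideal.squarefree_span_singleton, span_gen]
theorem isCoprime_gen {I J : Ideal (R K)} : IsCoprime (gen I) (gen J) ↔ IsCoprime I J := by
  rw [← Ideal.isCoprime_span_singleton_iff, span_gen, span_gen]
theorem NS_gen_le : ∃ C : ℝ, ∀ I : Ideal (R K), I ≠ ⊥ → 1 ≤ NS (gen I : K) ∧ NS (gen I : K) ≤ C :=
  ⟨NS (MK K ^ balC K), fun _ hI =>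
    ⟨one_le_NS (fun e => gen_ne_zero hI (Subtype.ext e)) (isBal_gen hI).2.1,
      NS_le_of_InT (pow_ne_zero _ MK_ne_zero) (isBal_gen hI).2.2.1⟩⟩
/-- the balanced generators lie in finitely many classes -/
theorem gen_cls (j : ℕ) : ∃ 𝒮 : Finset K, (∀ σ ∈ 𝒮, σ ≠ 0 ∧ σ ∈ T K ∧ InT σ (MK K ^ balC K)) ∧
    ∀ I : Ideal (R K), I ≠ ⊥ → ∃ σ ∈ 𝒮, gen I ∈ cls j σ := by
  obtain ⟨𝒮, h1, h2⟩ := b3_cls (K := K) j (balC K)
  refine ⟨𝒮, h1, fun I hI => ?_⟩
  obtain ⟨σ, hσ, h⟩ := h2 _ (fun e => gen_ne_zero hI (Subtype.ext e)) (isBal_gen hI).2.1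
    (isBal_gen hI).2.2.1
  exact ⟨σ, hσ, (mem_cls_iff (h1 σ hσ).1).2 h⟩
theorem b3_rows_count : ∃ C : ℝ, ∀ H : ℝ, 1 ≤ H →
    {I : Ideal (R K) | I ≠ ⊥ ∧ (nmI I : ℝ) ≤ H}.Finite ∧
    (({I : Ideal (R K) | I ≠ ⊥ ∧ (nmI I : ℝ) ≤ H}.ncard : ℕ) : ℝ) ≤ C * H := by
  obtain ⟨C, hC, h⟩ := box_count (K := K)
  refine ⟨C * (1 + Real.exp (2 * rr K * balC K)), fun H hH => ?_⟩
  have hr : (0 : ℝ) < rr K := by exact_mod_cast rr_pos
  obtain ⟨h1, h2⟩ := h 1 one_ne_zero 0 (fun _ => Real.exp (balC K + Real.log H / (2 * rr K)))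
    fun _ => Real.exp_pos _
  have hinj : Function.Injective (gen : Ideal (R K) → R K) := fun I J e => by
    rw [← span_gen I, e, span_gen]
  have hm : Set.MapsTo gen {I : Ideal (R K) | I ≠ ⊥ ∧ (nmI I : ℝ) ≤ H}
      {n : R K | n ∈ Lat 1 ∧ ∀ v, ‖emb (n : K) v - (0 : Pl K → ℂ) v‖ ≤
        Real.exp (balC K + Real.log H / (2 * rr K))} := by
    rintro I ⟨hI, hH'⟩
    refine ⟨InT_one_iff.2 (isBal_gen hI).2.1, fun v => ?_⟩
    rw [Pi.zero_apply, sub_zero, b3_norm_emb (fun e => gen_ne_zero hI (Subtype.ext e)),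
      Real.exp_le_exp]
    have a1 := (abs_le.1 ((isBal_gen hI).2.2.2 v)).2
    have a2 : Real.log (nmI I) / (2 * rr K) ≤ Real.log H / (2 * rr K) :=
      div_le_div_of_nonneg_right (Real.log_le_log (by exact_mod_cast nmI_pos hI) hH')
        (by positivity)
    linarith
  refine ⟨Set.Finite.of_finite_image (h1.subset hm.image_subset) hinj.injOn, ?_⟩
  have h3 := Set.ncard_le_ncard_of_injOn gen hm hinj.injOn h1
  refine (Nat.cast_le.2 h3).trans (h2.trans ?_)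
  have h4 : ∏ _v : Pl K, Real.exp (balC K + Real.log H / (2 * rr K)) ^ 2 =
      Real.exp (2 * rr K * balC K) * H := by
    rw [Finset.prod_const, Finset.card_univ, ← pow_mul, ← Real.exp_nat_mul,
      ← Real.exp_log (show 0 < H by linarith), ← Real.exp_add, Real.log_exp]
    congr 1
    push_cast
    field_simp
  rw [h4, NS_one, div_one, mul_assoc C]
  exact mul_le_mul_of_nonneg_left (by linarith) hC.le
theorem b3_rows_empty {H : ℝ} (h : H < 1) : {I : Ideal (R K) | I ≠ ⊥ ∧ (nmI I : ℝ) ≤ H} = ∅ :=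
  Set.eq_empty_of_forall_notMem fun I ⟨hI, hH⟩ => by
    have : (1 : ℝ) ≤ nmI I := by exact_mod_cast nmI_pos hI
    linarith
theorem b3_rows_finite (H : ℝ) : {I : Ideal (R K) | I ≠ ⊥ ∧ (nmI I : ℝ) ≤ H}.Finite := by
  rcases lt_or_ge H 1 with h | h
  · rw [b3_rows_empty h]; exact Set.finite_empty
  · exact ((b3_rows_count (K := K)).choose_spec H h).1
theorem mem_rows {H : ℝ} {I : Ideal (R K)} : I ∈ rows K H ↔ I ≠ ⊥ ∧ (nmI I : ℝ) ≤ H := by
  rw [rows, dif_pos (b3_rows_finite H), Set.Finite.mem_toFinset]; rfl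
theorem rows_mono {H H' : ℝ} (h : H ≤ H') : rows K H ⊆ rows K H' := fun _ hI =>
  mem_rows.2 ⟨(mem_rows.1 hI).1, (mem_rows.1 hI).2.trans h⟩
theorem rows_eq_empty {H : ℝ} (h : H < 1) : rows K H = ∅ :=
  Finset.eq_empty_of_forall_notMem fun I hI => by
    have : I ∈ {I : Ideal (R K) | I ≠ ⊥ ∧ (nmI I : ℝ) ≤ H} := mem_rows.1 hI
    rw [b3_rows_empty h] at this
    exact this
theorem card_rows_le : ∃ C : ℝ, ∀ H : ℝ, 0 ≤ H → ((rows K H).card : ℝ) ≤ C * H := by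
  obtain ⟨C, hC⟩ := b3_rows_count (K := K)
  have h0 : 0 ≤ C := by simpa using (Nat.cast_nonneg _).trans (hC 1 le_rfl).2
  refine ⟨C, fun H hH => ?_⟩
  rcases lt_or_ge H 1 with h | h
  · rw [rows_eq_empty h, Finset.card_empty, Nat.cast_zero]; positivity
  · rw [rows, dif_pos (b3_rows_finite H), ← Set.ncard_eq_toFinset_card _ (b3_rows_finite H)]
    exact (hC H h).2

end Crest.Agent.GQ
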