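import Crest.Agent.GQ.Base2

/-! # GQ Base3, auxiliary file A: boxes and units -/

set_option autoImplicit false

noncomputable section

open NumberField Complex
open scoped ComplexConjugate

namespace Crest.Agent.GQ

variable {K : Type} [Field K] [NumberField K] [P : Pre K]

theorem b3_NS_le_Nm {x : K} {n : R K} (hn : n ≠ 0) (h : n ∈ Lat x) : NS x ≤ Nm (n : K) := by
  have hn' : (n : K) ≠ 0 := fun e => hn (Subtype.ext e)
  rw [Nm_coe]
  exact (NS_le_of_InT hn' h).trans (le_mul_of_one_le_left (NS_pos hn').le (one_le_Nr hn))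

theorem b3_floor_mem {a ρ L : ℝ} (hρ : 0 < ρ) (hL : 0 ≤ L) (h : |a| ≤ ρ) :
    ⌊a * (L / ρ)⌋ ∈ Finset.Icc (-(⌈L⌉₊ : ℤ)) ⌈L⌉₊ := by
  have h1 : |a * (L / ρ)| ≤ L := by
    rw [abs_mul, abs_of_nonneg (div_nonneg hL hρ.le)]
    calc |a| * (L / ρ) ≤ ρ * (L / ρ) := by gcongr
      _ = L := by field_simp
  have h2 := Nat.le_ceil L
  obtain ⟨h3, h4⟩ := abs_le.1 h1
  refine Finset.mem_Icc.2 ⟨Int.le_floor.2 ?_, ?_⟩
  · push_cast; linarith
  · have : (⌊a * (L / ρ)⌋ : ℝ) ≤ ((⌈L⌉₊ : ℤ) : ℝ) := by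
      push_cast; linarith [Int.floor_le (a * (L / ρ))]
    exact_mod_cast this

theorem b3_floor_eq {a b ρ L : ℝ} (hρ : 0 < ρ) (hL : 0 < L)
    (h : ⌊a * (L / ρ)⌋ = ⌊b * (L / ρ)⌋) : (a - b) ^ 2 ≤ ρ ^ 2 / L ^ 2 := by
  have h1 := Int.abs_sub_lt_one_of_floor_eq_floor h
  rw [← sub_mul, abs_mul, abs_of_pos (div_pos hL hρ), ← lt_div_iff₀ (div_pos hL hρ),
    one_div_div] at h1
  rw [← div_pow, ← sq_abs]
  exact pow_le_pow_left₀ (abs_nonneg _) h1.le 2

theorem b3_emb_sub (x y : K) (v : Pl K) : emb (x - y) v = emb x v - emb y v := map_sub v.1 x y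

theorem b3_box_count : ∃ C : ℝ, 0 < C ∧ ∀ x : K, x ≠ 0 → ∀ (z : Pl K → ℂ) (ρ : Pl K → ℝ),
    (∀ v, 0 < ρ v) →
    {n : R K | n ∈ Lat x ∧ ∀ v, ‖emb (n : K) v - z v‖ ≤ ρ v}.Finite ∧
    (({n : R K | n ∈ Lat x ∧ ∀ v, ‖emb (n : K) v - z v‖ ≤ ρ v}.ncard : ℕ) : ℝ) ≤
      C * (1 + (∏ v, ρ v ^ 2) / NS x) := by
  refine ⟨50 ^ rr K, by positivity, fun x hx z ρ hρ => ?_⟩
  have hNS := NS_pos hx
  have hprod : 0 < ∏ v, ρ v ^ 2 := Finset.prod_pos fun v _ => pow_pos (hρ v) 2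
  set A := (∏ v, ρ v ^ 2) / NS x with hA
  have hA0 : 0 < A := div_pos hprod hNS
  have hr : 2 * rr K ≠ 0 := by have := rr_pos (K := K); omega
  obtain ⟨L, hL1, hL⟩ : ∃ L : ℝ, 1 ≤ L ∧ L ^ (2 * rr K) = 1 + 2 ^ rr K * A :=
    ⟨(1 + 2 ^ rr K * A) ^ (((2 * rr K : ℕ) : ℝ)⁻¹),
      Real.one_le_rpow (le_add_of_nonneg_right (by positivity)) (by positivity),
      Real.rpow_inv_natCast_pow (by positivity) hr⟩
  have hL0 : 0 < L := by linarith
  let f : R K → Pl K → ℤ × ℤ := fun n v =>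
    (⌊(emb (n : K) v - z v).re * (L / ρ v)⌋, ⌊(emb (n : K) v - z v).im * (L / ρ v)⌋)
  let B : Finset (Pl K → ℤ × ℤ) := Fintype.piFinset fun _ =>
    Finset.Icc (-(⌈L⌉₊ : ℤ)) ⌈L⌉₊ ×ˢ Finset.Icc (-(⌈L⌉₊ : ℤ)) ⌈L⌉₊
  have hmap : Set.MapsTo f {n : R K | n ∈ Lat x ∧ ∀ v, ‖emb (n : K) v - z v‖ ≤ ρ v} B := by
    intro n hn
    exact Finset.mem_coe.2 (Fintype.mem_piFinset.2 fun v => Finset.mem_product.2
      ⟨b3_floor_mem (hρ v) hL0.le ((abs_re_le_norm _).trans (hn.2 v)),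
        b3_floor_mem (hρ v) hL0.le ((abs_im_le_norm _).trans (hn.2 v))⟩)
  have hinj : Set.InjOn f {n : R K | n ∈ Lat x ∧ ∀ v, ‖emb (n : K) v - z v‖ ≤ ρ v} := by
    intro n hn n' hn' e
    by_contra hne
    have h1 := b3_NS_le_Nm (sub_ne_zero.2 hne) ((Lat x).sub_mem hn.1 hn'.1)
    have h2 : Nm ((n - n' : R K) : K) ≤ ∏ v, 2 * (ρ v ^ 2 / L ^ 2) := by
      refine Finset.prod_le_prod (fun v _ => sq_nonneg _) fun v _ => ?_
      have e1 := congrFun e v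
      have a1 := b3_floor_eq (hρ v) hL0 (congrArg Prod.fst e1)
      have a2 := b3_floor_eq (hρ v) hL0 (congrArg Prod.snd e1)
      rw [Complex.sq_norm, Complex.normSq_apply]
      push_cast
      rw [b3_emb_sub]
      simp only [sub_re, sub_im] at a1 a2 ⊢
      nlinarith
    rw [Finset.prod_mul_distrib, Finset.prod_div_distrib, Finset.prod_const, Finset.prod_const,
      Finset.card_univ, ← pow_mul, hL] at h2
    have h3 : ∏ v, ρ v ^ 2 = A * NS x := by rw [hA]; field_simp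
    have h4 := h1.trans h2
    rw [h3, ← mul_div_assoc, le_div_iff₀ (by positivity)] at h4
    nlinarith
  refine ⟨Set.Finite.of_injOn hmap hinj B.finite_toSet, ?_⟩
  have h1 := Set.ncard_le_ncard_of_injOn f hmap hinj B.finite_toSet
  rw [Set.ncard_coe_finset] at h1
  have h2 : B.card = (2 * ⌈L⌉₊ + 1) ^ (2 * rr K) := by
    simp only [B, Fintype.card_piFinset, Finset.card_product, Int.card_Icc, Finset.prod_const,
      Finset.card_univ]
    rw [show ((⌈L⌉₊ : ℤ) + 1 - -(⌈L⌉₊ : ℤ)).toNat = 2 * ⌈L⌉₊ + 1 by omega, ← sq, ← pow_mul]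
  have h3 : (B.card : ℝ) ≤ (5 * L) ^ (2 * rr K) := by
    rw [h2]
    push_cast
    refine pow_le_pow_left₀ (by positivity) ?_ _
    linarith [Nat.ceil_lt_add_one hL0.le]
  refine (Nat.cast_le.2 h1).trans (h3.trans ?_)
  rw [mul_pow, hL, pow_mul, show (50 : ℝ) = 5 ^ 2 * 2 by norm_num, mul_pow, mul_assoc]
  refine mul_le_mul_of_nonneg_left ?_ (by positivity)
  have : (1 : ℝ) ≤ 2 ^ rr K := one_le_pow₀ (by norm_num)
  linarith

theorem b3_conj_omC : conj omC ≠ omC := by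
  intro h
  have := congrArg Complex.im h
  simp only [omC, conj_im] at this
  have h3 : 0 < Real.sqrt 3 := by positivity
  linarith

theorem b3_cube_root {z : ℂ} (hz : IsPrimitiveRoot z 3) : z = omC ∨ conj z = omC := by
  have h1 : z ^ 2 + z + 1 = 0 := by
    have := hz.geom_sum_eq_zero (by norm_num)
    simp only [Finset.sum_range_succ, Finset.range_zero, Finset.sum_empty] at this
    linear_combination this
  have h3 : Real.sqrt 3 * Real.sqrt 3 = 3 := Real.mul_self_sqrt (by norm_num)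
  have h2 : omC + conj omC = -1 := by
    apply Complex.ext <;> simp [omC]
  have h4 : omC * conj omC = 1 := by
    apply Complex.ext
    · simp [omC]; linarith
    · simp [omC]; ring
  have h5 : (z - omC) * (z - conj omC) = 0 := by
    linear_combination h1 - z * h2 + h4
  rcases mul_eq_zero.1 h5 with h | h
  · exact Or.inl (sub_eq_zero.1 h)
  · exact Or.inr (by rw [sub_eq_zero.1 h, conj_conj])

theorem b3_mk_inj : Function.Injective fun v : Pl K => InfinitePlace.mk v.1 := by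
  intro v v' h
  rcases InfinitePlace.mk_eq_iff.1 h with h | h
  · exact Subtype.ext h
  · have := congrArg (fun φ : K →+* ℂ => φ P.w) h
    simp only [ComplexEmbedding.conjugate_coe_eq, v.2, v'.2] at this
    exact absurd this b3_conj_omC

theorem b3_mk_surj : Function.Surjective fun v : Pl K => InfinitePlace.mk v.1 := by
  intro w
  rcases b3_cube_root (P.hw.map_of_injective w.embedding.injective) with h | h
  · exact ⟨⟨w.embedding, h⟩, w.mk_embedding⟩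
  · exact ⟨⟨ComplexEmbedding.conjugate w.embedding, h⟩, by
      simp only [InfinitePlace.mk_conjugate_eq, InfinitePlace.mk_embedding]⟩

theorem b3_sum_lg {u : K} (h0 : u ≠ 0) (h1 : IsIntegral ℤ u) (h2 : IsIntegral ℤ u⁻¹) :
    ∑ v, lg u v = 0 := by
  have hu : IsUnit (⟨u, mem_R_of_int h1⟩ : R K) :=
    IsUnit.of_mul_eq_one (⟨u⁻¹, mem_R_of_int h2⟩ : R K) (Subtype.ext (mul_inv_cancel₀ h0))
  have h3 : Nm u = 1 :=
    (NS_unit hu).symm.trans ((NS_eq_one h0 (mem_T_of_int h1)).2 (mem_T_of_int h2))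
  rw [Nm_eq_exp h0, Real.exp_eq_one_iff] at h3
  linarith

theorem b3_all_of_sum {ι : Type*} [Fintype ι] {d : ι → ℝ} {C : ℝ} (hC : 0 ≤ C) (v0 : ι)
    (hs : ∑ v, d v = 0) (h : ∀ v, v ≠ v0 → |d v| ≤ C) (v : ι) : |d v| ≤ Fintype.card ι * C := by
  classical
  have h1 : (1 : ℝ) ≤ Fintype.card ι := by exact_mod_cast Fintype.card_pos_iff.2 ⟨v0⟩
  by_cases hv : v = v0
  · subst hv
    rw [← Finset.add_sum_erase _ _ (Finset.mem_univ v)] at hs
    rw [eq_neg_of_add_eq_zero_left hs, abs_neg]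
    refine (Finset.abs_sum_le_sum_abs _ _).trans ((Finset.sum_le_card_nsmul _ _ C
      fun w hw => h w (Finset.ne_of_mem_erase hw)).trans ?_)
    rw [nsmul_eq_mul]
    exact mul_le_mul_of_nonneg_right (by exact_mod_cast Finset.card_le_univ _) hC
  · exact (h v hv).trans (le_mul_of_one_le_left hC h1)

open NumberField.Units NumberField.Units.dirichletUnitTheorem in
theorem b3_unit_approx : ∃ C : ℝ, ∀ s : Pl K → ℝ, ∑ v, s v = 0 → ∃ u : K, u ≠ 0 ∧ IsIntegral ℤ u ∧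
    IsIntegral ℤ u⁻¹ ∧ ∀ v, |lg u v - s v| ≤ C := by
  classical
  let b := (basisUnitLattice K).ofZLatticeBasis ℝ (unitLattice K)
  let e : Pl K ≃ InfinitePlace K := Equiv.ofBijective _ ⟨b3_mk_inj, b3_mk_surj⟩
  have hC : 0 ≤ ∑ i, ‖b i‖ := Finset.sum_nonneg fun _ _ => norm_nonneg _
  refine ⟨rr K * ∑ i, ‖b i‖, fun s hs => ?_⟩
  let y : logSpace K := fun w => w.1.mult * s (e.symm w.1)
  have h1 : (ZSpan.floor b y : logSpace K) ∈ unitLattice K := by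
    rw [← (basisUnitLattice K).ofZLatticeBasis_span ℝ (unitLattice K)]
    exact (ZSpan.floor b y).2
  obtain ⟨x, -, hx⟩ := h1
  have h2 := ZSpan.norm_fract_le b y
  rw [ZSpan.fract_apply, ← hx] at h2
  let ε : (𝓞 K)ˣ := x.toMul
  have h0 : ((ε : 𝓞 K) : K) ≠ 0 := coe_ne_zero ε
  have hi : IsIntegral ℤ ((ε : 𝓞 K) : K) := (ε : 𝓞 K).isIntegral_coe
  have hi' : IsIntegral ℤ ((ε : 𝓞 K) : K)⁻¹ := by
    have := ((ε⁻¹ : (𝓞 K)ˣ) : 𝓞 K).isIntegral_coe
    rwa [show algebraMap (𝓞 K) K ((ε⁻¹ : (𝓞 K)ˣ) : 𝓞 K) = ((ε : 𝓞 K) : K)⁻¹ from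
      map_units_inv _ _] at this
  refine ⟨_, h0, hi, hi', b3_all_of_sum hC (e.symm w₀) ?_ fun v hv => ?_⟩
  · rw [Finset.sum_sub_distrib, hs, b3_sum_lg h0 hi hi', sub_zero]
  · have hw : e v ≠ w₀ := fun h => hv (by rw [← h, Equiv.symm_apply_apply])
    have h3 := (norm_le_pi_norm _ (⟨e v, hw⟩ : {w : InfinitePlace K // w ≠ w₀})).trans h2
    have h4 : (y - (logEmbedding K).toIntLinearMap x) ⟨e v, hw⟩ =
        (e v).mult * (s v - lg ((ε : 𝓞 K) : K) v) := by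
      rw [mul_sub, Pi.sub_apply]
      congr 1
      simp only [y, Equiv.symm_apply_apply]
    rw [h4, Real.norm_eq_abs, abs_mul, Nat.abs_cast, abs_sub_comm] at h3
    exact (le_mul_of_one_le_left (abs_nonneg _) (InfinitePlace.one_le_mult)).trans h3

theorem b3_unit_bal (j : ℕ) : ∃ C : ℝ, ∀ t : Pl K → ℝ, ∃ u : K, u ≠ 0 ∧ IsIntegral ℤ u ∧
    IsIntegral ℤ u⁻¹ ∧ u ∈ U j ∧ ∀ v, |lg u v - (t v - (∑ w, t w) / rr K)| ≤ C := by
  obtain ⟨C, hC⟩ := b3_unit_approx (K := K)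
  obtain ⟨m, hm, hU⟩ := exists_pow_mem_U (K := K) j
  have hm' : (0 : ℝ) < m := by exact_mod_cast hm
  have hr : (rr K : ℝ) ≠ 0 := by exact_mod_cast rr_pos.ne'
  refine ⟨m * C, fun t => ?_⟩
  obtain ⟨u, h0, h1, h2, h3⟩ := hC (fun v => (t v - (∑ w, t w) / rr K) / m) (by
    rw [← Finset.sum_div, Finset.sum_sub_distrib, Finset.sum_const, Finset.card_univ, nsmul_eq_mul,
      mul_div_cancel₀ _ hr, sub_self, zero_div])
  refine ⟨u ^ m, pow_ne_zero _ h0, h1.pow m, by rw [← inv_pow]; exact h2.pow m,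
    hU u (mem_T_of_int h1) (mem_T_of_int h2) h0, fun v => ?_⟩
  have e : lg (u ^ m) v - (t v - (∑ w, t w) / rr K) =
      m * (lg u v - (t v - (∑ w, t w) / rr K) / m) := by
    rw [lg_pow, Pi.smul_apply, smul_eq_mul, mul_sub, mul_div_cancel₀ _ hm'.ne']
  rw [e, abs_mul, abs_of_pos hm']
  exact mul_le_mul_of_nonneg_left (h3 v) hm'.le

theorem b3_norm_emb {x : K} (hx : x ≠ 0) (v : Pl K) : ‖emb x v‖ = Real.exp (lg x v) :=
  (Real.exp_log (norm_pos_iff.2 (emb_ne_zero hx v))).symm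

theorem b3_unit_cube_count : ∃ C : ℝ, ∀ t : Pl K → ℝ,
    {u : K | u ≠ 0 ∧ IsIntegral ℤ u ∧ IsIntegral ℤ u⁻¹ ∧ ∀ v, |lg u v - t v| ≤ 1}.Finite ∧
    (({u : K | u ≠ 0 ∧ IsIntegral ℤ u ∧ IsIntegral ℤ u⁻¹ ∧ ∀ v, |lg u v - t v| ≤ 1}.ncard : ℕ) : ℝ)
      ≤ C := by
  obtain ⟨C, hC, H⟩ := b3_box_count (K := K)
  refine ⟨C * (1 + Real.exp (4 * rr K)), fun t => ?_⟩
  obtain ⟨hf, hc⟩ := H 1 one_ne_zero 0 (fun v => Real.exp (t v + 1)) fun v => Real.exp_pos _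
  have hsub : {u : K | u ≠ 0 ∧ IsIntegral ℤ u ∧ IsIntegral ℤ u⁻¹ ∧ ∀ v, |lg u v - t v| ≤ 1} ⊆
      (fun n : R K => (n : K)) ''
        {n : R K | n ∈ Lat 1 ∧ ∀ v, ‖emb (n : K) v - (0 : Pl K → ℂ) v‖ ≤ Real.exp (t v + 1)} := by
    rintro u ⟨h0, h1, -, h3⟩
    refine ⟨⟨u, mem_R_of_int h1⟩, ⟨InT_one_iff.2 (mem_T_of_int h1), fun v => ?_⟩, rfl⟩
    rw [Pi.zero_apply, sub_zero, b3_norm_emb h0]
    exact Real.exp_le_exp.2 (by linarith [(abs_le.1 (h3 v)).2])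
  refine ⟨(hf.image _).subset hsub, ?_⟩
  rcases Set.eq_empty_or_nonempty
    {u : K | u ≠ 0 ∧ IsIntegral ℤ u ∧ IsIntegral ℤ u⁻¹ ∧ ∀ v, |lg u v - t v| ≤ 1} with he | hne
  · rw [he, Set.ncard_empty, Nat.cast_zero]; positivity
  · obtain ⟨u, h0, h1, h2, h3⟩ := hne
    refine (Nat.cast_le.2 ((Set.ncard_le_ncard hsub (hf.image _)).trans
      (Set.ncard_image_le hf))).trans (hc.trans ?_)
    rw [NS_one, div_one]
    refine mul_le_mul_of_nonneg_left (add_le_add le_rfl ?_) hC.le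
    have h4 : ∏ v, Real.exp (t v + 1) ^ 2 ≤ ∏ v, Real.exp (2 * lg u v + 4) := by
      refine Finset.prod_le_prod (fun v _ => sq_nonneg _) fun v _ => ?_
      rw [← Real.exp_nat_mul]
      refine Real.exp_le_exp.2 ?_
      push_cast
      linarith [(abs_le.1 (h3 v)).1]
    refine h4.trans (le_of_eq ?_)
    rw [← Real.exp_sum, Finset.sum_add_distrib, ← Finset.mul_sum, b3_sum_lg h0 h1 h2,
      Finset.sum_const, Finset.card_univ, nsmul_eq_mul, mul_zero, zero_add, mul_comm]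

theorem b3_summable_int {b : ℝ} (hb : 0 < b) : Summable fun n : ℤ => Real.exp (-b * |(n : ℝ)|) := by
  have h := Real.summable_exp_nat_mul_iff.2 (neg_lt_zero.2 hb)
  refine Summable.of_nat_of_neg ?_ ?_ <;> simpa [mul_comm] using h

theorem b3_unit_sum_le {a : ℝ} (ha : 0 < a) : ∃ C : ℝ, ∀ t : Pl K → ℝ,
    Summable (fun u : {u : K // u ≠ 0 ∧ IsIntegral ℤ u ∧ IsIntegral ℤ u⁻¹} =>
      Real.exp (-a * ‖lg u.1 - t‖)) ∧
    ∑' u : {u : K // u ≠ 0 ∧ IsIntegral ℤ u ∧ IsIntegral ℤ u⁻¹}, Real.exp (-a * ‖lg u.1 - t‖) ≤ C := by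
  classical
  obtain ⟨C, hC⟩ := b3_unit_cube_count (K := K)
  have hC0 : 0 ≤ C := (Nat.cast_nonneg _).trans (hC 0).2
  have hr : (0 : ℝ) < rr K := by exact_mod_cast rr_pos
  have hb : 0 < a / rr K := div_pos ha hr
  let g : ℤ → ℝ := fun n => Real.exp (-(a / rr K) * |(n : ℝ)|)
  have hg : Summable g := b3_summable_int hb
  have hg0 : ∀ n, 0 ≤ g n := fun n => (Real.exp_pos _).le
  refine ⟨C * (Real.exp a * (∑' n, g n) ^ rr K), fun t => ?_⟩
  have key : ∀ F : Finset {u : K // u ≠ 0 ∧ IsIntegral ℤ u ∧ IsIntegral ℤ u⁻¹},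
      ∑ u ∈ F, Real.exp (-a * ‖lg u.1 - t‖) ≤ C * (Real.exp a * (∑' n, g n) ^ rr K) := by
    intro F
    let k : {u : K // u ≠ 0 ∧ IsIntegral ℤ u ∧ IsIntegral ℤ u⁻¹} → Pl K → ℤ :=
      fun u v => ⌊lg u.1 v - t v⌋
    have hk : ∀ u v, |lg u.1 v - (t v + k u v)| ≤ 1 := fun u v => by
      have h1 := Int.floor_le (lg u.1 v - t v)
      have h2 := Int.lt_floor_add_one (lg u.1 v - t v)
      exact abs_le.2 ⟨by simp only [k]; linarith, by simp only [k]; linarith⟩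
    have h1 : ∀ u, Real.exp (-a * ‖lg u.1 - t‖) ≤ Real.exp a * ∏ v, g (k u v) := by
      intro u
      simp only [g]
      rw [← Real.exp_sum, ← Real.exp_add, ← Finset.mul_sum]
      refine Real.exp_le_exp.2 ?_
      have h2 : ∑ v, |(k u v : ℝ)| ≤ rr K * (‖lg u.1 - t‖ + 1) := by
        refine (Finset.sum_le_card_nsmul _ _ (‖lg u.1 - t‖ + 1) fun v _ => ?_).trans
          (by rw [nsmul_eq_mul, Finset.card_univ])
        have a1 := norm_le_pi_norm (lg u.1 - t) v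
        rw [Real.norm_eq_abs, Pi.sub_apply, abs_le] at a1
        have a2 := abs_le.1 (hk u v)
        exact abs_le.2 ⟨by linarith [a1.1, a2.2], by linarith [a1.2, a2.1]⟩
      have h3 := mul_le_mul_of_nonneg_left h2 hb.le
      rw [← mul_assoc, div_mul_cancel₀ _ hr.ne'] at h3
      linarith
    let S : Finset (Pl K → ℤ) := Fintype.piFinset fun v => F.image fun u => k u v
    have hS : ∀ u ∈ F, k u ∈ S := fun u hu =>
      Fintype.mem_piFinset.2 fun v => Finset.mem_image_of_mem _ hu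
    refine (Finset.sum_le_sum fun u _ => h1 u).trans ?_
    rw [← Finset.sum_fiberwise_of_maps_to hS]
    have h2 : ∀ κ ∈ S, ∑ u ∈ F with k u = κ, Real.exp a * ∏ v, g (k u v) ≤
        C * (Real.exp a * ∏ v, g (κ v)) := by
      intro κ _
      rw [Finset.sum_congr rfl fun u hu => by rw [(Finset.mem_filter.1 hu).2], Finset.sum_const,
        nsmul_eq_mul]
      refine mul_le_mul_of_nonneg_right ?_
        (mul_nonneg (Real.exp_pos _).le (Finset.prod_nonneg fun _ _ => hg0 _))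
      obtain ⟨hf, hc⟩ := hC fun v => t v + κ v
      refine le_trans (Nat.cast_le.2 ?_) hc
      rw [← Set.ncard_coe_finset]
      refine Set.ncard_le_ncard_of_injOn Subtype.val (fun u hu => ?_) Subtype.val_injective.injOn hf
      refine ⟨u.2.1, u.2.2.1, u.2.2.2, fun v => ?_⟩
      rw [← (Finset.mem_filter.1 hu).2]
      exact hk u v
    refine (Finset.sum_le_sum h2).trans ?_
    rw [← Finset.mul_sum, ← Finset.mul_sum, ← Finset.prod_univ_sum]
    refine mul_le_mul_of_nonneg_left (mul_le_mul_of_nonneg_left ?_ (Real.exp_pos _).le) hC0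
    refine (Finset.prod_le_prod (fun v _ => Finset.sum_nonneg fun n _ => hg0 n)
      fun v _ => hg.sum_le_tsum _ fun n _ => hg0 n).trans (le_of_eq ?_)
    rw [Finset.prod_const, Finset.card_univ]
  have hs := summable_of_sum_le (fun u => (Real.exp_pos _).le) key
  exact ⟨hs, hs.tsum_le_of_sum_le key⟩

end Crest.Agent.GQ
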