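import Crest.Agent.GQ.Base3bAux

/-! # GQ Base3b: classes inside a lattice, generators in boxes, lower bound for rows -/

set_option autoImplicit false

noncomputable section

open NumberField Complex
open scoped ComplexConjugate

namespace Crest.Agent.GQ

variable {K : Type} [Field K] [NumberField K] [P : Pre K]

theorem b3b_InT_cls {j : ℕ} {c c' : K} (h : InT c c') {z : K} (hz : InT (c' * MK K ^ j) z) :
    InT (c * MK K ^ j) z := (h.mul (InT.refl _)).trans hz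

open Classical in
/-- a representative of a class -/
def b3b_rep (j : ℕ) (n : R K) : R K := Classical.epsilon fun m => m ∈ cls j (n : K)

theorem b3b_rep_mem (j : ℕ) (n : R K) : b3b_rep j n ∈ cls j (n : K) :=
  Classical.epsilon_spec (p := fun m => m ∈ cls j (n : K)) ⟨n, self_mem_cls j n⟩

theorem b3b_rep_congr {j : ℕ} {n n' : R K} (h : cls j (n : K) = cls j (n' : K)) :
    b3b_rep j n = b3b_rep j n' := by
  unfold b3b_rep
  rw [h]

theorem b3b_cls_rep {j : ℕ} (hj : 1 ≤ j) {n : R K} (hn : n ≠ 0) :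
    cls j (b3b_rep j n : K) = cls j (n : K) :=
  cls_eq_of_mem hj (by exact_mod_cast hn) (b3b_rep_mem j n)

/-- decomposition of a lattice into classes -/
theorem class_reps {j : ℕ} (hj : 1 ≤ j) : ∃ C : ℝ → ℝ, ∀ x : K, x ≠ 0 → ∃ 𝒞 : Set K,
    𝒞.Countable ∧ (∀ c ∈ 𝒞, c ≠ 0 ∧ InT x c) ∧
    (∀ n : R K, n ≠ 0 → n ∈ Lat x → ∃! c, c ∈ 𝒞 ∧ n ∈ cls j c) ∧
    ∀ δ : ℝ, 0 < δ → Summable (fun c : 𝒞 => (NS c.1 / NS x) ^ (-δ)) ∧
      ∑' c : 𝒞, (NS c.1 / NS x) ^ (-δ) ≤ C δ := by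
  classical
  refine ⟨fun δ => NS (MK K ^ j) * b3b_C K δ, fun x hx =>
    ⟨(fun n : R K => (b3b_rep j n : K)) '' {n | n ≠ 0 ∧ n ∈ Lat x},
      (Set.to_countable _).image _, ?_, fun n hn hx' => ?_, fun δ hδ => ?_⟩⟩
  · rintro _ ⟨n, ⟨hn, hn'⟩, rfl⟩
    have hn0 : (n : K) ≠ 0 := by exact_mod_cast hn
    exact ⟨show (b3b_rep j n : K) ≠ 0 by
      exact_mod_cast ne_zero_of_mem_cls hj hn0 (b3b_rep_mem j n), InT.trans hn' (mem_Lat_of_mem_cls (b3b_rep_mem j n))⟩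
  · refine ⟨_, ⟨⟨n, ⟨hn, hx'⟩, rfl⟩, ?_⟩, ?_⟩
    · change n ∈ cls j (b3b_rep j n : K)
      rw [b3b_cls_rep hj hn]
      exact self_mem_cls j n
    · rintro _ ⟨⟨m, ⟨hm, -⟩, rfl⟩, h⟩
      change n ∈ cls j (b3b_rep j m : K) at h
      rw [b3b_cls_rep hj hm] at h
      exact congrArg _ (b3b_rep_congr (cls_eq_of_mem hj (by exact_mod_cast hm) h).symm)
  · set 𝒞 := (fun n : R K => (b3b_rep j n : K)) '' {n | n ≠ 0 ∧ n ∈ Lat x}
    have hC : ∀ c : 𝒞, ∃ n : R K, n ≠ 0 ∧ (n : K) = c.1 ∧ b3b_rep j n = n ∧ InT x c.1 := by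
      rintro ⟨_, n, ⟨hn, hn'⟩, rfl⟩
      have hn0 : (n : K) ≠ 0 := by exact_mod_cast hn
      exact ⟨b3b_rep j n, ne_zero_of_mem_cls hj hn0 (b3b_rep_mem j n), rfl,
        b3b_rep_congr (b3b_cls_rep hj hn), InT.trans hn' (mem_Lat_of_mem_cls (b3b_rep_mem j n))⟩
    choose r hr0 hr hrr hrx using hC
    have hc0 : ∀ c : 𝒞, c.1 ≠ 0 := fun c => by rw [← hr c]; exact_mod_cast hr0 c
    have hM : MK K ^ j ≠ 0 := pow_ne_zero _ MK_ne_zero
    have key : ∀ s : Finset 𝒞, ∑ c ∈ s, (NS c.1 / NS x) ^ (-δ) ≤ NS (MK K ^ j) * b3b_C K δ := by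
      intro s
      have := b3b_sumT hδ s (fun c => c.1 / x) (fun _ => 1) (B := NS (MK K ^ j))
        (fun c _ => ⟨div_ne_zero (hc0 c) hx, (InT_iff_div hx).1 (hrx c)⟩) (fun _ _ => zero_le_one)
        (NS_pos hM).le fun c _ => ?_
      · simpa only [one_mul, NS_div] using this
      · have hd : ∀ a b : K, InT (a / x) (b / x) ↔ InT a b := fun a b => by
          rw [div_eq_inv_mul, div_eq_inv_mul, InT_mul_iff (inv_ne_zero hx)]
        obtain ⟨F, -, hF, hc⟩ := b3b_lat_reps (mul_ne_zero (hc0 c) hM)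
          (show InT c.1 (c.1 * MK K ^ j) from ⟨_, (T K).pow_mem MK_mem_T j, rfl⟩)
        rw [NS_mul, mul_div_cancel_left₀ _ (NS_pos (hc0 c)).ne'] at hc
        rw [Finset.sum_const, nsmul_eq_mul, mul_one, ← hc, Nat.cast_le]
        have hex : ∀ c' : 𝒞, ∃ y : R K, InT c.1 c'.1 → y ∈ F ∧ r c' - y ∈ Lat (c.1 * MK K ^ j) := by
          intro c'
          by_cases h : InT c.1 c'.1
          · obtain ⟨y, hy, -⟩ := hF (r c') (by rw [mem_Lat, hr]; exact h)
            exact ⟨y, fun _ => hy⟩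
          · exact ⟨0, fun h' => absurd h' h⟩
        choose f hf using hex
        refine Finset.card_le_card_of_injOn f (fun c' hc' => ?_) fun a ha b hb e => ?_
        · exact (hf c' ((hd _ _).1 (Finset.mem_filter.1 hc').2.1)).1
        · obtain ⟨-, ha1, ha2⟩ := Finset.mem_filter.1 ha
          obtain ⟨-, hb1, -⟩ := Finset.mem_filter.1 hb
          rw [hd] at ha1 ha2 hb1
          have h1 := (Lat _).sub_mem (hf b hb1).2 (hf a ha1).2
          rw [e, sub_sub_sub_cancel_right] at h1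
          have h2 : r b ∈ cls j (r a : K) := by
            have := b3b_InT_cls ha2 h1
            rw [← hr a] at this
            push_cast at this
            exact this
          have h3 := b3b_rep_congr (cls_eq_of_mem hj (by exact_mod_cast hr0 a) h2)
          rw [hrr, hrr] at h3
          exact Subtype.ext (by rw [← hr a, ← hr b, h3])
    have hnn : 0 ≤ fun c : 𝒞 => (NS c.1 / NS x) ^ (-δ) := fun c =>
      Real.rpow_nonneg (div_pos (NS_pos (hc0 c)) (NS_pos hx)).le _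
    exact ⟨summable_of_sum_le hnn key, Real.tsum_le_of_sum_le hnn key⟩
/-- a class is a bounded union of classes of higher level -/
theorem cls_refine {j j' : ℕ} (hj : 1 ≤ j) (hjj : j ≤ j') : ∃ N : ℕ, ∀ c : K, c ≠ 0 →
    ∃ 𝒮 : Finset K, 𝒮.card ≤ N ∧ (∀ σ ∈ 𝒮, σ ≠ 0 ∧ σ / c ∈ U j) ∧
      ∀ n : R K, n ∈ cls j c → ∃! σ, σ ∈ 𝒮 ∧ n ∈ cls j' σ := by
  classical
  refine ⟨⌈NS (MK K ^ j') / NS (MK K ^ j)⌉₊, fun c hc => ?_⟩
  obtain ⟨n₀, hn₀⟩ := cls_nonempty j hc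
  obtain ⟨F, hF1, hF, hcard⟩ := b3b_lat_reps (mul_ne_zero hc (pow_ne_zero j' MK_ne_zero))
    (InT_pow_mono c hjj)
  have hσ : ∀ y ∈ F, n₀ + y ∈ cls j c := fun y hy =>
    (mem_cls_iff_sub hn₀).2 (by simpa using hF1 y hy)
  have hiff : ∀ y ∈ F, ∀ n : R K, n ∈ cls j' ((n₀ + y : R K) : K) ↔
      n - n₀ - y ∈ Lat (c * MK K ^ j') := fun y hy n => by
    have e : ((n - n₀ - y : R K) : K) = (n : K) - ((n₀ + y : R K) : K) := by push_cast; ring
    rw [mem_Lat, e]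
    exact ⟨b3b_InT_cls (mem_Lat_of_mem_cls (hσ y hy)),
      b3b_InT_cls (InT_of_mem_cls hj hc (hσ y hy))⟩
  refine ⟨F.image fun y => ((n₀ + y : R K) : K), ?_, ?_, fun n hn => ?_⟩
  · refine Finset.card_image_le.trans ?_
    rw [NS_mul, NS_mul, mul_div_mul_left _ _ (NS_pos hc).ne'] at hcard
    rw [← hcard, Nat.ceil_natCast]
  · intro σ h
    obtain ⟨y, hy, rfl⟩ := Finset.mem_image.1 h
    exact ⟨by exact_mod_cast ne_zero_of_mem_cls hj hc (hσ y hy), (mem_cls_iff hc).1 (hσ y hy)⟩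
  · obtain ⟨y, ⟨hy, hy'⟩, hu⟩ := hF (n - n₀) ((mem_cls_iff_sub hn₀).1 hn)
    refine ⟨_, ⟨Finset.mem_image_of_mem _ hy, (hiff y hy n).2 hy'⟩, ?_⟩
    rintro _ ⟨h, h'⟩
    obtain ⟨y', hy1, rfl⟩ := Finset.mem_image.1 h
    rw [hu y' ⟨hy1, (hiff y' hy1 n).1 h'⟩]
/-- representatives of `Lat x / Lat x'` -/
theorem lat_reps {x x' : K} (hx' : x' ≠ 0) (h : InT x x') : ∃ F : Finset (R K),
    (∀ y ∈ F, y ∈ Lat x) ∧ (∀ n ∈ Lat x, ∃! y, y ∈ F ∧ n - y ∈ Lat x') ∧
    (F.card : ℝ) = NS x' / NS x := b3b_lat_reps hx' h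

open Classical in
theorem b3b_sunit {δ : ℝ} (hδ : 0 < δ) : ∃ C : ℝ, 0 ≤ C ∧ ∀ x : K, x ≠ 0 → ∀ (I : Ideal (R K))
    (τ : Pl K → ℝ) (s : Finset (R K)), (∀ h ∈ s, h ∈ Lat x ∧ h ≠ 0 ∧ Ideal.span {h} = I) →
    ∑ h ∈ s, Real.exp (-δ * ∑ v, |lg (h : K) v - τ v|) * (NS (h : K) / NS x) ^ (-δ) ≤ C := by
  obtain ⟨C, hC⟩ := unit_sum_le (K := K) hδ
  have hC0 : 0 ≤ C := le_trans (tsum_nonneg fun _ => (Real.exp_pos _).le) (hC 0).2
  refine ⟨C * b3b_C K δ, mul_nonneg hC0 (b3b_C_nonneg hδ), fun x hx I τ s hs => ?_⟩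
  have h0 : ∀ h ∈ s, (h : K) ≠ 0 := fun h hh => by exact_mod_cast (hs h hh).2.1
  have := b3b_sumT hδ s (fun h => (h : K) / x)
    (fun h => Real.exp (-δ * ∑ v, |lg (h : K) v - τ v|)) (B := C)
    (fun h hh => ⟨div_ne_zero (h0 h hh) hx, (InT_iff_div hx).1 (hs h hh).1⟩)
    (fun _ _ => (Real.exp_pos _).le) hC0 fun a ha => ?_
  · simpa only [NS_div] using this
  · have hd : ∀ a b : K, InT (a / x) (b / x) ↔ InT a b := fun a b => by
      rw [div_eq_inv_mul, div_eq_inv_mul, InT_mul_iff (inv_ne_zero hx)]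
    have hint : ∀ a ∈ s, ∀ b ∈ s, InT (a : K) b → IsIntegral ℤ ((b : K) / a) := by
      intro a ha b hb h
      refine int_of_mem ?_ ((InT_iff_div (h0 a ha)).1 h)
      obtain ⟨r, hr⟩ : a ∣ b := Ideal.mem_span_singleton.1 (by
        rw [(hs a ha).2.2, ← (hs b hb).2.2]; exact Ideal.mem_span_singleton_self b)
      rw [hr]
      push_cast
      rw [mul_div_cancel_left₀ _ (h0 a ha)]
      exact r.2
    set s' := s.filter fun b : R K => InT ((a : K) / x) (b / x) ∧ InT ((b : K) / x) (a / x)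
    have hu : ∀ b ∈ s', (b : K) / a ≠ 0 ∧ IsIntegral ℤ ((b : K) / a) ∧
        IsIntegral ℤ ((b : K) / a)⁻¹ := fun b hb => by
      obtain ⟨h1, h2, h3⟩ := Finset.mem_filter.1 hb
      rw [inv_div]
      exact ⟨div_ne_zero (h0 b h1) (h0 a ha), hint a ha b h1 ((hd _ _).1 h2),
        hint b h1 a ha ((hd _ _).1 h3)⟩
    let g : s' → {u : K // u ≠ 0 ∧ IsIntegral ℤ u ∧ IsIntegral ℤ u⁻¹} := fun b => ⟨_, hu b.1 b.2⟩
    have hg : Function.Injective g := fun b b' e => by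
      have : (b.1 : K) / a = b'.1 / a := congrArg Subtype.val e
      exact Subtype.ext (Subtype.ext ((div_left_inj' (h0 a ha)).1 this))
    obtain ⟨hS, hT⟩ := hC (τ - lg (a : K))
    refine le_trans ?_ ((hS.sum_le_tsum (Finset.univ.map ⟨g, hg⟩)
      fun _ _ => (Real.exp_pos _).le).trans hT)
    rw [Finset.sum_map, ← Finset.sum_coe_sort]
    refine Finset.sum_le_sum fun b _ => Real.exp_le_exp.2 ?_
    rw [neg_mul, neg_mul, neg_le_neg_iff]
    refine mul_le_mul_of_nonneg_left ?_ hδ.le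
    have hb0 := h0 _ (Finset.mem_filter.1 b.2).1
    have e : lg ((b.1 : K) / a) - (τ - lg (a : K)) = lg (b.1 : K) - τ := by
      rw [div_eq_mul_inv, lg_mul hb0 (inv_ne_zero (h0 a ha)), lg_inv]
      abel
    change ‖lg ((b.1 : K) / a) - (τ - lg (a : K))‖ ≤ _
    rw [e]
    refine (pi_norm_le_iff_of_nonneg (Finset.sum_nonneg fun _ _ => abs_nonneg _)).2 fun v => ?_
    exact Finset.single_le_sum (f := fun v => |lg (b.1 : K) v - τ v|) (fun _ _ => abs_nonneg _)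
      (Finset.mem_univ v)

/-- number of generators of a fixed ideal in a box -/
theorem gen_count {ε : ℝ} (hε : 0 < ε) : ∃ C : ℝ, ∀ x : K, x ≠ 0 → ∀ I : Ideal (R K), I ≠ ⊥ →
    ∀ ρ : Pl K → ℝ, (∀ v, 0 < ρ v) →
    (({n : R K | n ∈ Lat x ∧ Ideal.span {n} = I ∧ ∀ v, ‖emb (n : K) v‖ ≤ ρ v}.ncard : ℕ) : ℝ) ≤
      C * ((∏ v, ρ v ^ 2) / (NS x * nmI I)) ^ ε := by
  obtain ⟨C, hC0, hC⟩ := b3b_sunit (K := K) hε
  refine ⟨C, fun x hx I hI ρ hρ => ?_⟩
  have hN : (0 : ℝ) < nmI I := by exact_mod_cast nmI_pos hI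
  have hx' := NS_pos hx
  have hP : 0 < ∏ v, ρ v ^ 2 := Finset.prod_pos fun v _ => pow_pos (hρ v) 2
  set Q := (∏ v, ρ v ^ 2) / (NS x * nmI I) with hQ
  have hQ0 : 0 < Q := by positivity
  set A := {n : R K | n ∈ Lat x ∧ Ideal.span {n} = I ∧ ∀ v, ‖emb (n : K) v‖ ≤ ρ v}
  by_cases hA : A.Finite
  swap
  · rw [Set.Infinite.ncard hA, Nat.cast_zero]
    positivity
  have hn0 : ∀ n ∈ A, n ≠ 0 := fun n hn e => hI (by rw [← hn.2.1, e, Ideal.span_singleton_eq_bot])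
  have h1 := hC x hx I (fun v => Real.log (ρ v)) hA.toFinset fun n hn =>
    ⟨(hA.mem_toFinset.1 hn).1, hn0 n (hA.mem_toFinset.1 hn), (hA.mem_toFinset.1 hn).2.1⟩
  have h2 : ∀ n ∈ hA.toFinset, Q ^ (-ε) ≤
      Real.exp (-ε * ∑ v, |lg (n : K) v - Real.log (ρ v)|) * (NS (n : K) / NS x) ^ (-ε) := by
    intro n hn
    replace hn := hA.mem_toFinset.1 hn
    have hn' : (n : K) ≠ 0 := by exact_mod_cast hn0 n hn
    have a1 : ∀ v, lg (n : K) v ≤ Real.log (ρ v) := fun v =>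
      Real.log_le_log (norm_pos_iff.2 (emb_ne_zero hn' v)) (hn.2.2 v)
    set S := ∑ v, |lg (n : K) v - Real.log (ρ v)| with hS
    have hS0 : 0 ≤ S := Finset.sum_nonneg fun _ _ => abs_nonneg _
    have a2 : S = ∑ v, Real.log (ρ v) - ∑ v, lg (n : K) v := by
      rw [hS, ← Finset.sum_sub_distrib]
      exact Finset.sum_congr rfl fun v _ => by rw [abs_sub_comm, abs_of_nonneg (sub_nonneg.2 (a1 v))]
    have a3 : ∏ v, ρ v ^ 2 = Real.exp (2 * ∑ v, Real.log (ρ v)) := by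
      rw [Finset.mul_sum, Real.exp_sum]
      refine Finset.prod_congr rfl fun v _ => ?_
      rw [mul_comm, Real.exp_mul, Real.exp_log (hρ v), Real.rpow_two]
    have a4 : Nm (n : K) = nmI I * NS (n : K) := by rw [Nm_coe, Nr, nm, hn.2.1]
    have hnS := NS_pos hn'
    have a5 : Q = Real.exp (2 * S) * (NS (n : K) / NS x) := by
      rw [a2, mul_sub, Real.exp_sub, ← a3, ← Nm_eq_exp hn', a4, hQ]
      field_simp
    rw [a5, Real.mul_rpow (Real.exp_pos _).le (by positivity), ← Real.exp_mul]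
    refine mul_le_mul_of_nonneg_right (Real.exp_le_exp.2 ?_) (by positivity)
    nlinarith
  have h3 := (Finset.card_nsmul_le_sum _ _ _ h2).trans h1
  rw [nsmul_eq_mul, Real.rpow_neg hQ0.le, ← div_eq_mul_inv,
    div_le_iff₀ (Real.rpow_pos_of_pos hQ0 _)] at h3
  rwa [Set.ncard_eq_toFinset_card A hA]
open Classical in
/-- sum over the generators of a fixed ideal inside a lattice -/
theorem sunit_sum_le {δ : ℝ} (hδ : 0 < δ) : ∃ C : ℝ, ∀ x : K, x ≠ 0 → ∀ (I : Ideal (R K))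
    (τ : Pl K → ℝ),
    Summable (fun h : R K => if h ∈ Lat x ∧ h ≠ 0 ∧ Ideal.span {h} = I then
      Real.exp (-δ * ∑ v, |lg (h : K) v - τ v|) * (NS (h : K) / NS x) ^ (-δ) else 0) ∧
    ∑' h : R K, (if h ∈ Lat x ∧ h ≠ 0 ∧ Ideal.span {h} = I then
      Real.exp (-δ * ∑ v, |lg (h : K) v - τ v|) * (NS (h : K) / NS x) ^ (-δ) else 0) ≤ C := by
  obtain ⟨C, -, hC⟩ := b3b_sunit (K := K) hδ
  refine ⟨C, fun x hx I τ => ?_⟩
  have hnn : 0 ≤ fun h : R K => if h ∈ Lat x ∧ h ≠ 0 ∧ Ideal.span {h} = I then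
      Real.exp (-δ * ∑ v, |lg (h : K) v - τ v|) * (NS (h : K) / NS x) ^ (-δ) else 0 := fun h => by
    dsimp only
    split_ifs with hh
    · exact mul_nonneg (Real.exp_pos _).le (Real.rpow_nonneg
        (div_pos (NS_pos (by exact_mod_cast hh.2.1)) (NS_pos hx)).le _)
    · exact le_rfl
  have key : ∀ s : Finset (R K), ∑ h ∈ s, (if h ∈ Lat x ∧ h ≠ 0 ∧ Ideal.span {h} = I then
      Real.exp (-δ * ∑ v, |lg (h : K) v - τ v|) * (NS (h : K) / NS x) ^ (-δ) else 0) ≤ C := by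
    intro s
    rw [← Finset.sum_filter]
    exact hC x hx I τ _ fun h hh => (Finset.mem_filter.1 hh).2
  exact ⟨summable_of_sum_le hnn key, Real.tsum_le_of_sum_le hnn key⟩

theorem b3b_many : ∃ A : ℝ, 1 ≤ A ∧ ∀ L : ℕ, ∃ s : Finset (R K), s.card = L ^ (2 * rr K) ∧
    ∀ n ∈ s, n ≠ 0 ∧ (n : K) ∈ T K ∧ ∀ v, ‖emb (n : K) v‖ ≤ A * L := by
  classical
  set b := RingOfIntegers.basis K
  have hcard : Fintype.card (Module.Free.ChooseBasisIndex ℤ (𝓞 K)) = 2 * rr K := by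
    rw [two_mul_rr, ← RingOfIntegers.rank, Module.finrank_eq_card_chooseBasisIndex]
  have hne : Nonempty (Module.Free.ChooseBasisIndex ℤ (𝓞 K)) :=
    Fintype.card_pos_iff.1 (by have := rr_pos (K := K); omega)
  refine ⟨1 + ∑ v, ∑ i, ‖emb (b i : K) v‖, le_add_of_nonneg_right (by positivity), fun L => ?_⟩
  let f : (Module.Free.ChooseBasisIndex ℤ (𝓞 K) → ℤ) → R K := fun k =>
    b3b_inc K (b.equivFun.symm k)
  have hinc : Function.Injective (b3b_inc K) := fun a a' e =>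
    RingOfIntegers.ext (congrArg (fun y : R K => (y : K)) e)
  have hf : Function.Injective f := hinc.comp b.equivFun.symm.injective
  refine ⟨(Fintype.piFinset fun _ => Finset.Icc (1 : ℤ) L).image f, ?_, fun n hn => ?_⟩
  · rw [Finset.card_image_of_injective _ hf, Fintype.card_piFinset]
    simp [hcard]
  · obtain ⟨k, hk, rfl⟩ := Finset.mem_image.1 hn
    have hk' := fun i => Finset.mem_Icc.1 (Fintype.mem_piFinset.1 hk i)
    refine ⟨fun e => ?_, mem_T_of_int (b.equivFun.symm k).isIntegral_coe, fun v => ?_⟩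
    · have : k = 0 := hf (e.trans (by simp [f]))
      obtain ⟨i⟩ := hne
      have h1 := (hk' i).1
      rw [this] at h1
      norm_num at h1
    · have e : emb (f k : K) v = ∑ i, (k i : ℂ) * emb (b i : K) v := by
        change v.1 (algebraMap (𝓞 K) K (b.equivFun.symm k)) = _
        simp only [Module.Basis.equivFun_symm_apply, emb, map_sum, zsmul_eq_mul,
          map_mul, map_intCast, RingOfIntegers.coe_eq_algebraMap]
      rw [e]
      calc _ ≤ ∑ i, ‖emb (b i : K) v‖ * L := (norm_sum_le _ _).trans (Finset.sum_le_sum fun i _ => by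
            rw [norm_mul, mul_comm, Complex.norm_intCast, abs_of_nonneg
              (by exact_mod_cast zero_le_one.trans (hk' i).1)]
            gcongr
            exact_mod_cast (hk' i).2)
        _ ≤ _ := by
            rw [← Finset.sum_mul]
            gcongr
            exact (Finset.single_le_sum (f := fun v => ∑ i, ‖emb (b i : K) v‖)
              (fun _ _ => by positivity) (Finset.mem_univ v)).trans
                (le_add_of_nonneg_left zero_le_one)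

theorem card_rows_ge {ε : ℝ} (hε : 0 < ε) : ∃ c : ℝ, 0 < c ∧ ∀ H : ℝ, 1 ≤ H →
    c * H ^ (1 - ε) ≤ ((rows K H).card : ℝ) := by
  classical
  obtain ⟨A, hA, hs⟩ := b3b_many (K := K)
  obtain ⟨C, hC⟩ := gen_count (K := K) hε
  set d := 2 * rr K with hd
  have hd0 : d ≠ 0 := by have := rr_pos (K := K); omega
  have hA0 : 0 < A := by linarith
  set C' := max C 1
  have hC1 : 1 ≤ C' := le_max_right _ _
  refine ⟨1 / ((2 * A) ^ d * C'), by positivity, fun H hH => ?_⟩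
  have hH0 : 0 < H := by linarith
  set h := H ^ ((d : ℝ)⁻¹) with hh
  have hh0 : 0 < h := by positivity
  have hhd : h ^ d = H := Real.rpow_inv_natCast_pow hH0.le hd0
  set L := ⌊h / A⌋₊ with hL
  have hL1 : (L : ℝ) ≤ h / A := Nat.floor_le (by positivity)
  have hL2 : h / A < L + 1 := Nat.lt_floor_add_one _
  have hHe : 1 ≤ H ^ ε := Real.one_le_rpow hH hε.le
  rw [Real.rpow_sub hH0, Real.rpow_one, div_mul_div_comm, one_mul, div_le_iff₀ (by positivity)]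
  rcases Nat.eq_zero_or_pos L with h0 | h0
  · have a1 : (1 : ℝ) ≤ (rows K H).card := by
      exact_mod_cast Finset.card_pos.2 ⟨⊤, mem_rows.2 ⟨top_ne_bot, by rwa [nmI_top, Nat.cast_one]⟩⟩
    rw [h0, Nat.cast_zero, zero_add, div_lt_one hA0] at hL2
    calc H = h ^ d := hhd.symm
      _ ≤ (2 * A) ^ d := by gcongr; linarith
      _ = 1 * ((2 * A) ^ d * 1 * 1) := by ring
      _ ≤ _ := by gcongr
  · have hL0 : (1 : ℝ) ≤ L := by exact_mod_cast h0
    obtain ⟨s, hs1, hs2⟩ := hs L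
    have hAL : A * L ≤ h := by rwa [mul_comm, ← le_div_iff₀ hA0]
    have hprod : ∏ _v : Pl K, h ^ 2 = H := by
      rw [Finset.prod_const, Finset.card_univ, ← pow_mul, hhd]
    have a1 : ∀ n ∈ s, Ideal.span {n} ∈ rows K H := fun n hn => by
      obtain ⟨b1, b2, b3⟩ := hs2 n hn
      refine mem_rows.2 ⟨by rwa [Ne, Ideal.span_singleton_eq_bot], ?_⟩
      calc (nmI (Ideal.span {n}) : ℝ) = Nr n * 1 := (mul_one _).symm
        _ ≤ Nr n * NS (n : K) := mul_le_mul_of_nonneg_left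
            (one_le_NS (by exact_mod_cast b1) b2) (Nr_nonneg n)
        _ = ∏ v, ‖emb (n : K) v‖ ^ 2 := (Nm_coe n).symm
        _ ≤ ∏ _v : Pl K, h ^ 2 := Finset.prod_le_prod (fun _ _ => by positivity) fun v _ => by
            gcongr
            exact (b3 v).trans hAL
        _ = H := hprod
    obtain ⟨C₀, -, hfin⟩ := box_count (K := K)
    have a2 : ∀ I ∈ rows K H, ((s.filter fun n => Ideal.span {n} = I).card : ℝ) ≤ C' * H ^ ε := by
      intro I hI
      have hI' := (mem_rows.1 hI).1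
      have hN : (1 : ℝ) ≤ nmI I := by exact_mod_cast nmI_pos hI'
      have b1 := hC 1 one_ne_zero I hI' (fun _ => h) fun _ => hh0
      rw [hprod, NS_one, one_mul] at b1
      have b2 : (s.filter fun n => Ideal.span {n} = I).card ≤ Set.ncard {n : R K | n ∈ Lat (1 : K) ∧
          Ideal.span {n} = I ∧ ∀ v, ‖emb (n : K) v‖ ≤ h} := by
        rw [← Set.ncard_coe_finset]
        refine Set.ncard_le_ncard (fun n hn => ?_)
          ((hfin 1 one_ne_zero 0 (fun _ => h) fun _ => hh0).1.subset fun n hn =>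
            ⟨hn.1, fun v => by simpa using hn.2.2 v⟩)
        obtain ⟨c1, c2⟩ := Finset.mem_filter.1 hn
        exact ⟨InT_one_iff.2 (hs2 n c1).2.1, c2, fun v => ((hs2 n c1).2.2 v).trans hAL⟩
      calc _ ≤ _ := Nat.cast_le.2 b2
        _ ≤ C * (H / nmI I) ^ ε := b1
        _ ≤ C' * (H / nmI I) ^ ε := by gcongr; exact le_max_left _ _
        _ ≤ C' * H ^ ε := by gcongr; exact div_le_self hH0.le hN
    have a3 : (s.card : ℝ) ≤ (rows K H).card * (C' * H ^ ε) := by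
      rw [Finset.card_eq_sum_card_fiberwise a1, Nat.cast_sum, ← nsmul_eq_mul]
      exact Finset.sum_le_card_nsmul _ _ _ a2
    rw [hs1, Nat.cast_pow] at a3
    have a4 : h ≤ 2 * A * L := by
      rw [div_lt_iff₀ hA0] at hL2
      nlinarith
    calc H = h ^ d := hhd.symm
      _ ≤ (2 * A * L) ^ d := by gcongr
      _ = (2 * A) ^ d * (L : ℝ) ^ d := mul_pow _ _ _
      _ ≤ (2 * A) ^ d * ((rows K H).card * (C' * H ^ ε)) := by gcongr
      _ = _ := by ring

theorem b3b_geom1 {r : ℝ} (h0 : 0 ≤ r) (h1 : r < 1) {B : ℝ} (hB : 0 ≤ B) (t : Finset ℕ) :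
    ∑ k ∈ t, B * r ^ k ≤ B * (1 - r)⁻¹ := by
  rw [← Finset.mul_sum, ← tsum_geometric_of_lt_one h0 h1]
  exact mul_le_mul_of_nonneg_left
    ((summable_geometric_of_lt_one h0 h1).sum_le_tsum _ fun _ _ => by positivity) hB

theorem b3b_card_rows : ∃ C : ℝ, 0 ≤ C ∧ ∀ H : ℝ, 0 ≤ H → ((rows K H).card : ℝ) ≤ C * H := by
  obtain ⟨C, hC⟩ := card_rows_le (K := K)
  exact ⟨C, by simpa using (Nat.cast_nonneg _).trans (hC 1 zero_le_one), hC⟩

theorem b3b_tail {σ : ℝ} (hσ : 1 < σ) : ∃ C : ℝ, ∀ H : ℝ, 0 < H → ∀ s : Finset (Ideal (R K)),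
    ∑ I ∈ s, (if H < (nmI I : ℝ) then (nmI I : ℝ) ^ (-σ) else 0) ≤ C * H ^ (1 - σ) := by
  classical
  obtain ⟨C, hC0, hC⟩ := b3b_card_rows (K := K)
  have r0 : (0 : ℝ) ≤ 2 ^ (1 - σ) := by positivity
  have r1 : (2 : ℝ) ^ (1 - σ) < 1 := Real.rpow_lt_one_of_one_lt_of_neg one_lt_two (by linarith)
  refine ⟨2 * C * (1 - 2 ^ (1 - σ))⁻¹, fun H hH s => ?_⟩
  rw [← Finset.sum_filter]
  set s' := s.filter fun I => H < (nmI I : ℝ)
  have hex : ∀ I : Ideal (R K), ∃ k : ℕ, I ∈ s' → H * 2 ^ k ≤ nmI I ∧ (nmI I : ℝ) ≤ H * 2 ^ (k + 1) := by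
    intro I
    by_cases hI : I ∈ s'
    · obtain ⟨k, h1, h2⟩ := exists_nat_pow_near
        ((one_le_div hH).2 (Finset.mem_filter.1 hI).2.le) one_lt_two
      rw [le_div_iff₀' hH] at h1
      rw [div_lt_iff₀' hH] at h2
      exact ⟨k, fun _ => ⟨h1, h2.le⟩⟩
    · exact ⟨0, fun h => absurd h hI⟩
  choose g hg using hex
  refine (b3b_fiber s' g _ (fun k => 2 * C * H ^ (1 - σ) * ((2 : ℝ) ^ (1 - σ)) ^ k)
    (b3b_geom1 r0 r1 (by positivity)) fun I hI => ?_).trans_eq (by ring)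
  set k := g I
  have hk : 0 < H * 2 ^ k := by positivity
  calc _ ≤ ∑ _J ∈ s' with g _J = k, (H * 2 ^ k) ^ (-σ) := Finset.sum_le_sum fun J hJ => by
        obtain ⟨h1, h2⟩ := Finset.mem_filter.1 hJ
        exact Real.rpow_le_rpow_of_nonpos hk (h2 ▸ (hg J h1).1) (by linarith)
    _ ≤ (rows K (H * 2 ^ (k + 1))).card * (H * 2 ^ k) ^ (-σ) := by
        rw [Finset.sum_const, nsmul_eq_mul]
        gcongr
        intro J hJ
        obtain ⟨h1, h2⟩ := Finset.mem_filter.1 hJ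
        refine mem_rows.2 ⟨fun e => ?_, h2 ▸ (hg J h1).2⟩
        have := (Finset.mem_filter.1 h1).2
        rw [e, nmI_bot, Nat.cast_zero] at this
        linarith
    _ ≤ C * (H * 2 ^ (k + 1)) * (H * 2 ^ k) ^ (-σ) := by
        gcongr
        exact hC _ (by positivity)
    _ = 2 * C * (H * 2 ^ k) ^ (1 - σ) := by
        rw [sub_eq_add_neg, Real.rpow_add hk, Real.rpow_one]
        ring
    _ = _ := by
        rw [Real.mul_rpow hH.le (by positivity), ← Real.rpow_natCast, ← Real.rpow_mul zero_le_two,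
          ← Real.rpow_natCast, ← Real.rpow_mul zero_le_two, mul_comm (k : ℝ)]
        ring

theorem b3b_tail_nonneg (σ H : ℝ) :
    0 ≤ fun I : Ideal (R K) => if H < (nmI I : ℝ) then (nmI I : ℝ) ^ (-σ) else 0 := fun I => by
  dsimp only
  split_ifs
  · positivity
  · exact le_rfl

theorem summable_nmI {σ : ℝ} (hσ : 1 < σ) :
    Summable (fun I : Ideal (R K) => (nmI I : ℝ) ^ (-σ)) := by
  obtain ⟨C, hC⟩ := b3b_tail (K := K) hσ
  refine (summable_of_sum_le (b3b_tail_nonneg σ (1 / 2)) (hC _ one_half_pos)).congr fun I => ?_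
  split_ifs with h
  · rfl
  · have : nmI I = 0 := by
      by_contra h'
      have : (1 : ℝ) ≤ nmI I := by exact_mod_cast Nat.pos_of_ne_zero h'
      linarith [not_lt.1 h]
    rw [this, Nat.cast_zero, Real.zero_rpow (by linarith)]
theorem sum_rows_rpow_le {σ : ℝ} (hσ : -1 < σ) : ∃ C : ℝ, ∀ H : ℝ, 0 < H →
    ∑ I ∈ rows K H, (nmI I : ℝ) ^ σ ≤ C * H ^ (1 + σ) := by
  classical
  obtain ⟨C, hC0, hC⟩ := b3b_card_rows (K := K)
  have r0 : (0 : ℝ) ≤ 2 ^ (-(1 + σ)) := by positivity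
  have r1 : (2 : ℝ) ^ (-(1 + σ)) < 1 :=
    Real.rpow_lt_one_of_one_lt_of_neg one_lt_two (by linarith)
  refine ⟨2 * C * (1 - 2 ^ (-(1 + σ)))⁻¹, fun H hH => ?_⟩
  have hN : ∀ I ∈ rows K H, (0 : ℝ) < nmI I := fun I hI => by
    exact_mod_cast nmI_pos (mem_rows.1 hI).1
  have hex : ∀ I : Ideal (R K), ∃ k : ℕ, I ∈ rows K H →
      (nmI I : ℝ) ≤ H / 2 ^ k ∧ H / 2 ^ k ≤ 2 * nmI I := by
    intro I
    by_cases hI : I ∈ rows K H
    · obtain ⟨k, h1, h2⟩ := exists_nat_pow_near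
        ((one_le_div (hN I hI)).2 (mem_rows.1 hI).2) one_lt_two
      rw [le_div_comm₀ (by positivity) (hN I hI)] at h1
      rw [div_lt_iff₀ (hN I hI)] at h2
      refine ⟨k, fun _ => ⟨h1, ?_⟩⟩
      rw [div_le_iff₀ (by positivity)]
      refine h2.le.trans_eq (by ring)
    · exact ⟨0, fun h => absurd h hI⟩
  choose g hg using hex
  refine (b3b_fiber (rows K H) g _ (fun k => 2 * C * H ^ (1 + σ) * ((2 : ℝ) ^ (-(1 + σ))) ^ k)
    (b3b_geom1 r0 r1 (by positivity)) fun I hI => ?_).trans_eq (by ring)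
  set k := g I
  have hk : 0 < H / 2 ^ k := by positivity
  calc _ ≤ ∑ _J ∈ rows K H with g _J = k, 2 * (H / 2 ^ k) ^ σ := Finset.sum_le_sum fun J hJ => by
        obtain ⟨h1, h2⟩ := Finset.mem_filter.1 hJ
        obtain ⟨h3, h4⟩ := hg J h1
        rw [h2] at h3 h4
        have h5 := hN J h1
        calc (nmI J : ℝ) ^ σ = (nmI J : ℝ) ^ (σ + 1) / nmI J := by
              rw [Real.rpow_add h5, Real.rpow_one, mul_div_cancel_right₀ _ h5.ne']
          _ ≤ (H / 2 ^ k) ^ (σ + 1) / (H / 2 ^ k / 2) := by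
              gcongr
              · linarith
              · linarith
          _ = _ := by
              rw [Real.rpow_add hk, Real.rpow_one]
              field_simp
    _ ≤ (rows K (H / 2 ^ k)).card * (2 * (H / 2 ^ k) ^ σ) := by
        rw [Finset.sum_const, nsmul_eq_mul]
        gcongr
        intro J hJ
        obtain ⟨h1, h2⟩ := Finset.mem_filter.1 hJ
        exact mem_rows.2 ⟨(mem_rows.1 h1).1, h2 ▸ (hg J h1).1⟩
    _ ≤ C * (H / 2 ^ k) * (2 * (H / 2 ^ k) ^ σ) := by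
        gcongr
        exact hC _ hk.le
    _ = 2 * C * (H / 2 ^ k) ^ (1 + σ) := by
        rw [Real.rpow_add hk, Real.rpow_one]
        ring
    _ = _ := by
        rw [Real.div_rpow hH.le (by positivity), ← Real.rpow_natCast, ← Real.rpow_mul zero_le_two,
          ← Real.rpow_natCast, ← Real.rpow_mul zero_le_two, neg_mul, Real.rpow_neg zero_le_two,
          mul_comm (k : ℝ)]
        ring
theorem sum_rows_inv_le {ε : ℝ} (hε : 0 < ε) : ∃ C : ℝ, ∀ H : ℝ, 0 < H →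
    ∑ I ∈ rows K H, (nmI I : ℝ)⁻¹ ≤ C * H ^ ε := by
  obtain ⟨C, hC⟩ := sum_rows_rpow_le (K := K) (σ := ε - 1) (by linarith)
  refine ⟨C, fun H hH => le_trans (Finset.sum_le_sum fun I hI => ?_)
    ((hC H hH).trans_eq (by rw [add_sub_cancel]))⟩
  rw [← Real.rpow_neg_one]
  exact Real.rpow_le_rpow_of_exponent_le (by exact_mod_cast nmI_pos (mem_rows.1 hI).1)
    (by linarith)
theorem tsum_tail_le {σ : ℝ} (hσ : 1 < σ) : ∃ C : ℝ, ∀ H : ℝ, 0 < H →
    ∑' I : Ideal (R K), (if H < (nmI I : ℝ) then (nmI I : ℝ) ^ (-σ) else 0) ≤ C * H ^ (1 - σ) :=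
  by
  obtain ⟨C, hC⟩ := b3b_tail (K := K) hσ
  exact ⟨C, fun H hH => Real.tsum_le_of_sum_le (b3b_tail_nonneg σ H) (hC H hH)⟩

end Crest.Agent.GQ
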