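import Crest.Agent.GQ.Base3

/-! # GQ Base3bAux: index of lattices, valuation vectors at the primes dividing `M` -/

set_option autoImplicit false

noncomputable section

open NumberField Complex UniqueFactorizationMonoid
open scoped ComplexConjugate

namespace Crest.Agent.GQ

variable {K : Type} [Field K] [NumberField K] [P : Pre K]

/-- the inclusion `𝓞 → R` -/
def b3b_inc (K : Type) [Field K] [NumberField K] [Pre K] : 𝓞 K →+* R K :=
  (algebraMap (𝓞 K) K).codRestrict (R K) fun a => mem_R_of_int a.isIntegral_coe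

theorem b3b_inc_coe (a : 𝓞 K) : ((b3b_inc K a : R K) : K) = (a : K) := rfl

theorem b3b_range : (b3b_inc K).toAddMonoidHom.range = Lat (1 : K) := by
  ext n
  rw [mem_Lat, InT_one_iff]
  constructor
  · rintro ⟨a, rfl⟩
    exact mem_T_of_int a.isIntegral_coe
  · intro h
    exact ⟨⟨n, int_of_mem n.2 h⟩, rfl⟩

theorem b3b_Lat_mono {x y : K} (h : InT x y) : Lat y ≤ Lat x := fun _ hn => h.trans hn

theorem b3b_ne_zero {x y : K} (hy : y ≠ 0) (h : InT x y) : x ≠ 0 := by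
  rintro rfl
  obtain ⟨t, -, e⟩ := h
  exact hy (by simpa using e)

theorem b3b_idx_mul {x x' : K} (hx' : x' ≠ 0) (h : InT x x') {d : R K} (hd : d ≠ 0) :
    (Lat (d * x')).relIndex (Lat (d * x)) = (Lat x').relIndex (Lat x) := by
  have hd' : (d : K) ≠ 0 := by exact_mod_cast hd
  have e1 : Lat x' = (Lat (d * x')).comap (AddMonoidHom.mulLeft d) := by
    ext n
    exact (mem_Lat_mul_iff hd).symm
  have e2 : (Lat x).map (AddMonoidHom.mulLeft d) ⊔ Lat (d * x') = Lat (d * x) := by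
    refine le_antisymm (sup_le ?_ (b3b_Lat_mono ((InT_mul_iff hd').2 h))) fun n hn => ?_
    · rintro _ ⟨m, hm, rfl⟩
      exact (mem_Lat_mul_iff hd).2 hm
    · obtain ⟨b, ⟨m, hm⟩, hb⟩ := exists_crt (mul_ne_zero hd' hx') (n : K) hd 0
      rw [sub_zero] at hm
      have hb' : b - n ∈ Lat ((d : K) * x') := by rw [mem_Lat]; push_cast; exact hb
      have hbL : b ∈ Lat ((d : K) * x) := by
        have := (Lat ((d : K) * x)).add_mem (b3b_Lat_mono ((InT_mul_iff hd').2 h) hb') hn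
        rwa [sub_add_cancel] at this
      refine AddSubgroup.mem_sup.2 ⟨b, ⟨m, (mem_Lat_mul_iff hd).1 (hm ▸ hbL), hm.symm⟩,
        -(b - n), neg_mem hb', by abel⟩
  rw [← e2, AddSubgroup.relIndex_sup_right, e1, AddSubgroup.relIndex_comap]

theorem b3b_idx_int {a : 𝓞 K} (ha : a ≠ 0) :
    (((Lat (a : K)).relIndex (Lat (1 : K)) : ℕ) : ℝ) = NS (a : K) := by
  set n : R K := b3b_inc K a with hn
  have ha' : (a : K) ≠ 0 := by exact_mod_cast ha
  have hn0 : n ≠ 0 := fun e => ha' (by rw [← b3b_inc_coe, ← hn, e]; rfl)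
  set H : AddSubgroup (R K) := (Ideal.span {n}).toAddSubgroup with hH
  have h1 : (H ⊓ Lat (a : K)).relIndex (Lat (a : K)) = nm n := by
    have : Lat (a : K) ⊔ H = ⊤ := by
      refine eq_top_iff.2 fun z _ => ?_
      obtain ⟨b, hb, hb'⟩ := exists_crt ha' 0 hn0 z
      rw [sub_zero] at hb'
      exact AddSubgroup.mem_sup.2 ⟨b, hb', -(b - z), neg_mem (Ideal.mem_span_singleton.2 hb),
        by abel⟩
    rw [AddSubgroup.inf_relIndex_right, ← AddSubgroup.relIndex_sup_right, this,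
      AddSubgroup.relIndex_top_right]
    rfl
  have h2 : (H ⊓ Lat (a : K)).relIndex (Lat (1 : K)) = Ideal.absNorm (Ideal.span {a}) := by
    rw [← b3b_range, ← AddSubgroup.index_comap, Ideal.absNorm_eq_index]
    congr 1
    ext z
    simp only [AddSubgroup.mem_comap, AddSubgroup.mem_inf, hH, Submodule.mem_toAddSubgroup,
      Ideal.mem_span_singleton, mem_Lat]
    constructor
    · rintro ⟨⟨r, hr⟩, t, ht, e⟩
      have hr' : (z : K) = a * r := congrArg (fun y : R K => (y : K)) hr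
      have e' : (z : K) = a * t := e
      have : (r : K) = t := mul_left_cancel₀ ha' (hr'.symm.trans e')
      refine ⟨⟨r, int_of_mem r.2 (this ▸ ht)⟩, RingOfIntegers.ext ?_⟩
      exact hr'
    · rintro ⟨r, rfl⟩
      exact ⟨⟨b3b_inc K r, map_mul (b3b_inc K) _ _⟩, r, mem_T_of_int r.isIntegral_coe, rfl⟩
  have h3 := AddSubgroup.relIndex_mul_relIndex (H ⊓ Lat (a : K)) (Lat (a : K)) (Lat (1 : K))
    inf_le_right (b3b_Lat_mono (InT_one_iff.2 (mem_T_of_int a.isIntegral_coe)))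
  rw [h1, h2, Ideal.absNorm_span_singleton] at h3
  have h4 : ((Algebra.norm ℤ a).natAbs : ℝ) = Nm (a : K) := by
    rw [Nm_eq_norm, ← Algebra.coe_norm_int, Nat.cast_natAbs]
    push_cast
    rfl
  have h5 : Nm (a : K) = Nr n * NS (a : K) := Nm_coe n
  have h6 : (nm n : ℝ) * ((Lat (a : K)).relIndex (Lat (1 : K)) : ℕ) = Nr n * NS (a : K) := by
    rw [← h5, ← h4, ← h3]; push_cast; rfl
  exact mul_left_cancel₀ (Nr_pos hn0).ne' h6

theorem b3b_Lat_congr {x y : K} (h : InT x y) (h' : InT y x) : Lat x = Lat y :=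
  le_antisymm (b3b_Lat_mono h') (b3b_Lat_mono h)

theorem b3b_idx_one {y : K} (hy : y ≠ 0) (hT : y ∈ T K) :
    (((Lat y).relIndex (Lat (1 : K)) : ℕ) : ℝ) = NS y := by
  obtain ⟨b, hb, hi⟩ := hT
  have hb0 : (b : K) ≠ 0 := by
    have : b ≠ 0 := by
      rintro rfl
      have h1 := Nat.coprime_zero_left _ |>.1 hb
      have h2 := P.six
      rw [h1] at h2
      norm_num at h2
    exact_mod_cast this
  have hbT : (b : K) ∈ T K := natCast_mem _ _
  have h1 : InT y (b * y) := ⟨b, hbT, mul_comm _ _⟩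
  have h2 : InT (b * y) y := ⟨(b : K)⁻¹, inv_nat_mem_T hb, by field_simp⟩
  have := b3b_idx_int (a := ⟨b * y, hi⟩) (fun e => mul_ne_zero hb0 hy (congrArg Subtype.val e))
  rw [b3b_Lat_congr h1 h2]
  refine this.trans (le_antisymm (NS_le_of_InT hy h2) (NS_le_of_InT (mul_ne_zero hb0 hy) h1))

theorem b3b_idx {x x' : K} (hx' : x' ≠ 0) (h : InT x x') :
    (((Lat x').relIndex (Lat x) : ℕ) : ℝ) = NS x' / NS x := by
  have hx := b3b_ne_zero hx' h
  obtain ⟨a, b, hb, -, e⟩ := exists_frac x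
  have hb' : (b : K) ≠ 0 := by exact_mod_cast hb
  have ha' : (a : K) ≠ 0 := e ▸ mul_ne_zero hx hb'
  have ha : a ≠ 0 := by exact_mod_cast ha'
  have hT := (InT_iff_div hx).1 h
  have hy := div_ne_zero hx' hx
  rw [← NS_div, ← b3b_idx_one hy hT, ← b3b_idx_mul hy (InT_one_iff.2 hT) ha,
    ← b3b_idx_mul hx' h hb, ← e]
  congr 3
  · field_simp
  · ring

/-- the ideal `y T ∩ 𝓞` -/
def b3b_J (y : K) : Ideal (𝓞 K) where
  carrier := {a | InT y (a : K)}
  zero_mem' := InT.zero y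
  add_mem' := fun ha hb => InT.add ha hb
  smul_mem' := fun c a ha => by
    have := InT.mul_T (show InT y (a : K) from ha) (mem_T_of_int c.isIntegral_coe)
    rw [mul_comm] at this
    exact this

theorem b3b_absNorm_J {y : K} (hy : y ≠ 0) (hT : y ∈ T K) :
    (Ideal.absNorm (b3b_J y) : ℝ) = NS y := by
  rw [← b3b_idx_one hy hT, ← b3b_range, ← AddSubgroup.index_comap, Ideal.absNorm_eq_index]
  rfl

theorem b3b_InT_of_J {y y' : K} (hy : y ≠ 0) (hT : y ∈ T K) (h : b3b_J y = b3b_J y') :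
    InT y' y := by
  obtain ⟨n, hn⟩ := cls_nonempty 1 hy
  have h1 : InT y n := mem_Lat_of_mem_cls hn
  have h2 : (⟨n, int_of_mem n.2 (InT_one_iff.1 ((InT_one_iff.2 hT).trans h1))⟩ : 𝓞 K) ∈ b3b_J y :=
    h1
  rw [h] at h2
  exact InT.trans h2 (InT_of_mem_cls le_rfl hy hn)

open Classical in
/-- the primes dividing `M` -/
def b3b_S (K : Type) [Field K] [NumberField K] [P : Pre K] : Finset (Ideal (𝓞 K)) :=
  (normalizedFactors (Ideal.span {(P.M : 𝓞 K)})).toFinset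

open Classical in
/-- valuation vector -/
def b3b_e (y : K) : b3b_S K → ℕ := fun Q => (normalizedFactors (b3b_J y)).count Q.1

theorem b3b_J_eq {y : K} (hy : y ≠ 0) (hT : y ∈ T K) :
    b3b_J y = ∏ Q : b3b_S K, Q.1 ^ b3b_e y Q := by
  classical
  have hJ : b3b_J y ≠ ⊥ := fun e => by
    have := b3b_absNorm_J hy hT
    rw [e, Ideal.absNorm_bot] at this
    exact (NS_pos hy).ne (by exact_mod_cast this)
  have hM : Ideal.span {(P.M : 𝓞 K)} ≠ ⊥ := by
    rw [Ne, Ideal.span_singleton_eq_bot]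
    exact_mod_cast P.M0
  obtain ⟨k, hk⟩ := exists_pow_InT hy
  have hsub : (normalizedFactors (b3b_J y)).toFinset ⊆ b3b_S K := fun Q hQ => by
    rw [Multiset.mem_toFinset, Ideal.mem_normalizedFactors_iff hJ] at hQ
    rw [b3b_S, Multiset.mem_toFinset, Ideal.mem_normalizedFactors_iff hM]
    refine ⟨hQ.1, (Ideal.span_singleton_le_iff_mem _).2 (hQ.1.mem_of_pow_mem k (hQ.2 ?_))⟩
    change InT y (((P.M : 𝓞 K) ^ k : 𝓞 K) : K)
    push_cast
    exact hk
  conv_lhs => rw [← Ideal.prod_normalizedFactors_eq_self hJ,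
    Finset.prod_multiset_count_of_subset _ _ hsub, ← Finset.prod_coe_sort]
  refine Finset.prod_congr rfl fun Q _ => ?_
  unfold b3b_e
  congr

theorem b3b_e_le {y : K} (hy : y ≠ 0) (hT : y ∈ T K) : ∏ Q, (2 : ℝ) ^ b3b_e y Q ≤ NS y := by
  classical
  have hM : Ideal.span {(P.M : 𝓞 K)} ≠ ⊥ := by
    rw [Ne, Ideal.span_singleton_eq_bot]
    exact_mod_cast P.M0
  rw [← b3b_absNorm_J hy hT, b3b_J_eq hy hT, map_prod]
  push_cast
  refine Finset.prod_le_prod (fun _ _ => by positivity) fun Q _ => ?_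
  have hQ := Multiset.mem_toFinset.1 Q.2
  have hp := prime_of_normalized_factor _ hQ
  have h0 : Ideal.absNorm Q.1 ≠ 0 := fun e => hp.ne_zero (Ideal.absNorm_eq_zero_iff.1 e)
  have h1 : Ideal.absNorm Q.1 ≠ 1 := fun e => hp.ne_one (by
    rw [Ideal.absNorm_eq_one_iff.1 e, Ideal.one_eq_top])
  have h2 : 2 ≤ Ideal.absNorm Q.1 := by omega
  rw [map_pow]
  push_cast
  gcongr
  exact_mod_cast h2

theorem b3b_InT_of_e {y y' : K} (hy : y ≠ 0) (hT : y ∈ T K) (hy' : y' ≠ 0) (hT' : y' ∈ T K)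
    (h : b3b_e y = b3b_e y') : InT y' y :=
  b3b_InT_of_J hy hT (by rw [b3b_J_eq hy hT, b3b_J_eq hy' hT', h])

theorem b3b_geom {ι : Type*} [Fintype ι] {r : ℝ} (h0 : 0 ≤ r) (h1 : r < 1) (t : Finset (ι → ℕ)) :
    ∑ e ∈ t, ∏ i, r ^ e i ≤ (1 - r)⁻¹ ^ Fintype.card ι := by
  classical
  obtain ⟨N, hN⟩ : ∃ N, ∀ e ∈ t, ∀ i, e i < N :=
    ⟨(t.sup fun e => Finset.univ.sup e) + 1, fun e he i => Nat.lt_succ_of_le
      ((Finset.le_sup (f := e) (Finset.mem_univ i)).trans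
        (Finset.le_sup (f := fun e => Finset.univ.sup e) he))⟩
  calc ∑ e ∈ t, ∏ i, r ^ e i ≤ ∑ e ∈ Fintype.piFinset fun _ : ι => Finset.range N, ∏ i, r ^ e i :=
        Finset.sum_le_sum_of_subset_of_nonneg (fun e he => Fintype.mem_piFinset.2 fun i =>
          Finset.mem_range.2 (hN e he i)) fun _ _ _ => by positivity
    _ = ∏ _i : ι, ∑ j ∈ Finset.range N, r ^ j := (Finset.prod_univ_sum _ fun _ j => r ^ j).symm
    _ ≤ ∏ _i : ι, (1 - r)⁻¹ := Finset.prod_le_prod (fun _ _ => by positivity) fun _ _ => by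
        rw [← tsum_geometric_of_lt_one h0 h1]
        exact (summable_geometric_of_lt_one h0 h1).sum_le_tsum _ fun _ _ => by positivity
    _ = _ := by simp

theorem b3b_fiber {ι κ : Type*} [DecidableEq κ] (s : Finset ι) (g : ι → κ) (f : ι → ℝ) (B : κ → ℝ)
    {A : ℝ} (hA : ∀ t : Finset κ, ∑ k ∈ t, B k ≤ A)
    (h : ∀ i ∈ s, ∑ i' ∈ s with g i' = g i, f i' ≤ B (g i)) : ∑ i ∈ s, f i ≤ A := by
  rw [← Finset.sum_fiberwise_of_maps_to (t := s.image g) (g := g)
    fun i hi => Finset.mem_image_of_mem g hi]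
  refine le_trans (Finset.sum_le_sum fun k hk => ?_) (hA _)
  obtain ⟨i, hi, rfl⟩ := Finset.mem_image.1 hk
  exact h i hi

/-- the constant of the sum over the ideals of `T` -/
def b3b_C (K : Type) [Field K] [NumberField K] [Pre K] (δ : ℝ) : ℝ :=
  (1 - (2 : ℝ) ^ (-δ))⁻¹ ^ Fintype.card (b3b_S K)

open Classical in
/-- sums over the principal ideals of `T` -/
theorem b3b_sumT {ι : Type*} {δ : ℝ} (hδ : 0 < δ) (s : Finset ι) (y : ι → K) (w : ι → ℝ) {B : ℝ}
    (hy : ∀ i ∈ s, y i ≠ 0 ∧ y i ∈ T K) (hw : ∀ i ∈ s, 0 ≤ w i) (hB0 : 0 ≤ B)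
    (hB : ∀ i ∈ s, ∑ i' ∈ s with (InT (y i) (y i') ∧ InT (y i') (y i)), w i' ≤ B) :
    ∑ i ∈ s, w i * NS (y i) ^ (-δ) ≤ B * b3b_C K δ := by
  have r0 : (0 : ℝ) ≤ 2 ^ (-δ) := by positivity
  have r1 : (2 : ℝ) ^ (-δ) < 1 := Real.rpow_lt_one_of_one_lt_of_neg one_lt_two (by linarith)
  refine b3b_fiber s (fun i => b3b_e (y i)) _ (fun e => B * ∏ Q, ((2 : ℝ) ^ (-δ)) ^ e Q)
    (fun t => ?_) fun i hi => ?_
  · rw [← Finset.mul_sum]
    exact mul_le_mul_of_nonneg_left (b3b_geom r0 r1 t) hB0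
  · have key : ∀ i' ∈ s, NS (y i') ^ (-δ) ≤ ∏ Q, ((2 : ℝ) ^ (-δ)) ^ b3b_e (y i') Q := by
      intro i' hi'
      refine (Real.rpow_le_rpow_of_nonpos (by positivity) (b3b_e_le (hy i' hi').1 (hy i' hi').2)
        (by linarith)).trans_eq ?_
      rw [← Real.finsetProd_rpow _ _ fun _ _ => by positivity]
      refine Finset.prod_congr rfl fun Q _ => ?_
      rw [← Real.rpow_natCast, ← Real.rpow_mul zero_le_two, ← Real.rpow_natCast,
        ← Real.rpow_mul zero_le_two, mul_comm]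
    calc _ ≤ ∑ i' ∈ s with b3b_e (y i') = b3b_e (y i),
          w i' * ∏ Q, ((2 : ℝ) ^ (-δ)) ^ b3b_e (y i) Q := by
          refine Finset.sum_le_sum fun i' hi' => ?_
          obtain ⟨h1, h2⟩ := Finset.mem_filter.1 hi'
          exact mul_le_mul_of_nonneg_left (h2 ▸ key i' h1) (hw i' h1)
      _ ≤ _ := by
          rw [← Finset.sum_mul]
          refine mul_le_mul_of_nonneg_right (le_trans ?_ (hB i hi)) (by positivity)
          refine Finset.sum_le_sum_of_subset_of_nonneg (fun i' hi' => ?_)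
            fun i' hi' _ => hw i' (Finset.mem_filter.1 hi').1
          obtain ⟨h1, h2⟩ := Finset.mem_filter.1 hi'
          exact Finset.mem_filter.2 ⟨h1,
            b3b_InT_of_e (hy i' h1).1 (hy i' h1).2 (hy i hi).1 (hy i hi).2 h2,
            b3b_InT_of_e (hy i hi).1 (hy i hi).2 (hy i' h1).1 (hy i' h1).2 h2.symm⟩

theorem b3b_C_nonneg {δ : ℝ} (hδ : 0 < δ) : 0 ≤ b3b_C K δ := by
  have r1 : (2 : ℝ) ^ (-δ) < 1 := Real.rpow_lt_one_of_one_lt_of_neg one_lt_two (by linarith)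
  have : 0 < 1 - (2 : ℝ) ^ (-δ) := by linarith
  unfold b3b_C
  positivity

theorem b3b_lat_reps {x x' : K} (hx' : x' ≠ 0) (h : InT x x') : ∃ F : Finset (R K),
    (∀ y ∈ F, y ∈ Lat x) ∧ (∀ n ∈ Lat x, ∃! y, y ∈ F ∧ n - y ∈ Lat x') ∧
    (F.card : ℝ) = NS x' / NS x := by
  classical
  have hx := b3b_ne_zero hx' h
  have hi := b3b_idx hx' h
  have hpos : (Lat x').relIndex (Lat x) ≠ 0 := fun e => by
    rw [e] at hi
    exact (div_pos (NS_pos hx') (NS_pos hx)).ne (by exact_mod_cast hi)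
  set Q := Lat x ⧸ (Lat x').addSubgroupOf (Lat x)
  haveI : Finite Q := Nat.finite_of_card_ne_zero hpos
  haveI : Fintype Q := Fintype.ofFinite Q
  have inj : Function.Injective fun q : Q => ((Quotient.out q : Lat x) : R K) :=
    Subtype.val_injective.comp (Quotient.out_injective)
  have rel : ∀ (q : Q) (n : Lat x), (n : R K) - (Quotient.out q : Lat x) ∈ Lat x' ↔
      q = QuotientAddGroup.mk n := fun q n => by
    conv_rhs => rw [← QuotientAddGroup.out_eq' q]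
    rw [QuotientAddGroup.eq, AddSubgroup.mem_addSubgroupOf, neg_add_eq_sub]
    rfl
  refine ⟨Finset.univ.image fun q : Q => ((Quotient.out q : Lat x) : R K), ?_, fun n hn => ?_, ?_⟩
  · intro y hy
    obtain ⟨q, -, rfl⟩ := Finset.mem_image.1 hy
    exact (Quotient.out q : Lat x).2
  · refine ⟨_, ⟨Finset.mem_image_of_mem _ (Finset.mem_univ (QuotientAddGroup.mk ⟨n, hn⟩)),
      (rel _ ⟨n, hn⟩).2 rfl⟩, ?_⟩
    rintro y ⟨hy, hy'⟩
    obtain ⟨q, -, rfl⟩ := Finset.mem_image.1 hy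
    rw [(rel q ⟨n, hn⟩).1 hy']
  · rw [Finset.card_image_of_injective _ inj, Finset.card_univ, ← hi, ← Nat.card_eq_fintype_card]
    rfl

end Crest.Agent.GQ
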