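import Crest.Agent.GQ.Base3b

/-! # GQ Base4: additive characters and residue systems -/

set_option autoImplicit false
set_option linter.unusedSectionVars false

noncomputable section

open NumberField Complex
open scoped ComplexConjugate

namespace Crest.Agent.GQ

variable {K : Type} [Field K] [NumberField K] [P : Pre K]

/-- the additive character of `K_∞` -/
def eC (z : Pl K → ℂ) : ℂ := Complex.exp (2 * Real.pi * I * (∑ v, 2 * (z v).re : ℝ))

theorem eC_add (z w : Pl K → ℂ) : eC (z + w) = eC z * eC w := by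
  unfold eC
  rw [← Complex.exp_add]
  congr 1
  simp only [Pi.add_apply, Complex.add_re, mul_add, Finset.sum_add_distrib]
  push_cast
  ring

theorem eC_neg (z : Pl K → ℂ) : eC (-z) = conj (eC z) := by
  unfold eC
  rw [← Complex.exp_conj]
  congr 1
  simp only [Pi.neg_apply, Complex.neg_re, mul_neg, Finset.sum_neg_distrib, map_mul,
    Complex.conj_ofReal, Complex.conj_I, Complex.ofReal_neg, map_ofNat]
  ring

theorem norm_eC (z : Pl K → ℂ) : ‖eC z‖ = 1 := by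
  unfold eC
  rw [show 2 * (Real.pi : ℂ) * I * ((∑ v, 2 * (z v).re : ℝ) : ℂ) =
    ((2 * Real.pi * (∑ v, 2 * (z v).re) : ℝ) : ℂ) * I by push_cast; ring]
  exact Complex.norm_exp_ofReal_mul_I _

theorem continuous_eC : Continuous (eC : (Pl K → ℂ) → ℂ) := by
  unfold eC
  fun_prop

theorem eC_emb (x : K) : eC (emb x) = eT x := by
  unfold eC eT
  rw [← trace_eq, Complex.ofReal_ratCast]

theorem eT_add (x y : K) : eT (x + y) = eT x * eT y := by
  rw [← eC_emb, emb_add, eC_add, eC_emb, eC_emb]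

theorem eT_neg (x : K) : eT (-x) = conj (eT x) := by
  unfold eT
  rw [← Complex.exp_conj]
  congr 1
  simp only [map_neg, map_mul, Complex.conj_ofReal, Complex.conj_I, map_ofNat, map_ratCast]
  push_cast
  ring

theorem norm_eT (x : K) : ‖eT x‖ = 1 := by
  rw [← eC_emb, norm_eC]

theorem b4_eT_eq_one {x : K} : eT x = 1 ↔ ∃ n : ℤ, Algebra.trace ℚ K x = n := by
  unfold eT
  rw [Complex.exp_eq_one_iff]
  refine exists_congr fun k => ?_
  rw [mul_comm, mul_left_inj' Complex.two_pi_I_ne_zero]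
  constructor
  · intro h
    exact_mod_cast h
  · intro h
    rw [h]
    simp

omit P in
theorem b4_trace_int {x : K} (h : IsIntegral ℤ x) : ∃ n : ℤ, Algebra.trace ℚ K x = n := by
  have h1 : IsIntegral ℤ (Algebra.trace ℚ K x) := Algebra.isIntegral_trace h
  obtain ⟨n, hn⟩ := IsIntegrallyClosed.isIntegral_iff.1 h1
  exact ⟨n, by simpa using hn.symm⟩

theorem eT_int {x : K} (h : IsIntegral ℤ x) : eT x = 1 := b4_eT_eq_one.2 (b4_trace_int h)

theorem eS_spec {ρ t : K} (hρ : ρ ∈ R K) (ht : t ∈ T K) : eS (ρ + t) = eT t := by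
  have hex : ∃ s : K, s ∈ T K ∧ ρ + t - s ∈ R K := ⟨t, ht, by simpa using hρ⟩
  obtain ⟨h1, h2⟩ := Classical.epsilon_spec hex
  unfold eS
  generalize Classical.epsilon (fun s : K => s ∈ T K ∧ ρ + t - s ∈ R K) = s at h1 h2 ⊢
  have h3 : IsIntegral ℤ (t - s) := by
    refine int_of_mem ?_ ((T K).sub_mem ht h1)
    have := (R K).sub_mem h2 hρ
    rwa [show ρ + t - s - ρ = t - s by ring] at this
  have h4 := eT_add s (t - s)
  rw [eT_int h3, mul_one, show s + (t - s) = t by ring] at h4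
  exact h4.symm

theorem b4_decomp (x : K) : ∃ ρ t : K, ρ ∈ R K ∧ t ∈ T K ∧ x = ρ + t := by
  obtain ⟨ρ, h⟩ := exists_decomp (one_ne_zero : (1 : K) ≠ 0) x
  exact ⟨ρ, x - ρ, ρ.2, InT_one_iff.1 h, by ring⟩

theorem eS_add (x y : K) : eS (x + y) = eS x * eS y := by
  obtain ⟨ρ, t, hρ, ht, rfl⟩ := b4_decomp x
  obtain ⟨ρ', t', hρ', ht', rfl⟩ := b4_decomp y
  rw [show ρ + t + (ρ' + t') = (ρ + ρ') + (t + t') by ring,
    eS_spec ((R K).add_mem hρ hρ') ((T K).add_mem ht ht'), eS_spec hρ ht, eS_spec hρ' ht', eT_add]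

theorem eS_neg (x : K) : eS (-x) = conj (eS x) := by
  obtain ⟨ρ, t, hρ, ht, rfl⟩ := b4_decomp x
  rw [neg_add, eS_spec ((R K).neg_mem hρ) ((T K).neg_mem ht), eS_spec hρ ht, eT_neg]

theorem eS_R {x : K} (h : x ∈ R K) : eS x = 1 := by
  have := eS_spec h (T K).zero_mem
  rwa [add_zero, eT_int isIntegral_zero] at this

theorem norm_eS (x : K) : ‖eS x‖ = 1 := by
  obtain ⟨ρ, t, hρ, ht, rfl⟩ := b4_decomp x
  rw [eS_spec hρ ht, norm_eT]

open scoped nonZeroDivisors in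
theorem b4_dl_ex : ∃ d : K, d ≠ 0 ∧ d ∈ T K ∧ ∀ y : K,
    (∀ x : K, IsIntegral ℤ x → ∃ n : ℤ, Algebra.trace ℚ K (y * x) = n) ↔
      (y ∈ R K ∧ InT d⁻¹ y) := by
  set D : Ideal (𝓞 K) := differentIdeal ℤ (𝓞 K) with hD
  set J : FractionalIdeal (𝓞 K)⁰ K := FractionalIdeal.dual ℤ ℚ (1 : FractionalIdeal (𝓞 K)⁰ K)
    with hJ
  have hJ0 : J ≠ 0 := FractionalIdeal.dual_ne_zero ℤ ℚ one_ne_zero
  have hDJ : (D : FractionalIdeal (𝓞 K)⁰ K) = J⁻¹ := coeIdeal_differentIdeal ℤ ℚ K (𝓞 K)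
  have hD0 : D ≠ ⊥ := by
    intro h
    rw [h] at hDJ
    simp only [FractionalIdeal.coeIdeal_bot] at hDJ
    exact hJ0 (inv_eq_zero.1 hDJ.symm)
  have hmem : ∀ y : K, y ∈ J ↔
      ∀ x : K, IsIntegral ℤ x → ∃ n : ℤ, Algebra.trace ℚ K (y * x) = n := by
    intro y
    rw [hJ, FractionalIdeal.mem_dual (I := (1 : FractionalIdeal (𝓞 K)⁰ K)) one_ne_zero]
    constructor
    · intro h x hx
      obtain ⟨n, hn⟩ := h x ((FractionalIdeal.mem_one_iff _).2 ⟨⟨x, hx⟩, rfl⟩)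
      exact ⟨n, by simpa [Algebra.traceForm_apply] using hn.symm⟩
    · intro h a ha
      obtain ⟨x, rfl⟩ := (FractionalIdeal.mem_one_iff _).1 ha
      obtain ⟨n, hn⟩ := h _ x.isIntegral_coe
      exact ⟨n, by simpa [Algebra.traceForm_apply] using hn.symm⟩
  have hJD : ∀ y : K, y ∈ J ↔ ∀ z ∈ D, IsIntegral ℤ (y * (z : K)) := by
    intro y
    have h1 : J = (D : FractionalIdeal (𝓞 K)⁰ K)⁻¹ := by rw [hDJ, inv_inv]
    rw [h1, FractionalIdeal.mem_inv_iff (by simpa using hD0)]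
    constructor
    · intro h z hz
      obtain ⟨x, hx⟩ := (FractionalIdeal.mem_one_iff _).1
        (h (z : K) ((FractionalIdeal.mem_coeIdeal _).2 ⟨z, hz, rfl⟩))
      rw [← hx]
      exact x.isIntegral_coe
    · intro h w hw
      obtain ⟨z, hz, rfl⟩ := (FractionalIdeal.mem_coeIdeal _).1 hw
      exact (FractionalIdeal.mem_one_iff _).2 ⟨⟨_, h z hz⟩, rfl⟩
  have hM0 : (P.M : 𝓞 K) ≠ 0 := Nat.cast_ne_zero.2 P.M0
  obtain ⟨d, hd⟩ := IsDedekindDomain.exists_sup_span_eq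
    (I := Ideal.span {(P.M : 𝓞 K)} * D) (J := D) Ideal.mul_le_right
    (mul_ne_zero (by simpa using hM0) hD0)
  have hdD : d ∈ D := by
    rw [← hd]
    exact Ideal.mem_sup_right (Ideal.mem_span_singleton_self d)
  have hstep : ∀ z ∈ D, ∃ a z' : 𝓞 K, z' ∈ D ∧ z = a * d + P.M * z' := by
    intro z hz
    rw [← hd] at hz
    obtain ⟨u, hu, v, hv, rfl⟩ := Submodule.mem_sup.1 hz
    obtain ⟨z', hz', rfl⟩ := Ideal.mem_span_singleton_mul.1 hu
    obtain ⟨a, rfl⟩ := Ideal.mem_span_singleton'.1 hv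
    exact ⟨a, z', hz', by ring⟩
  have hiter : ∀ k : ℕ, ∀ z ∈ D, ∃ a z' : 𝓞 K, z' ∈ D ∧ z = a * d + (P.M : 𝓞 K) ^ k * z' := by
    intro k
    induction k with
    | zero => exact fun z hz => ⟨0, z, hz, by ring⟩
    | succ k ih =>
      intro z hz
      obtain ⟨a, z', hz', rfl⟩ := ih z hz
      obtain ⟨b, z'', hz'', rfl⟩ := hstep z' hz'
      exact ⟨a + (P.M : 𝓞 K) ^ k * b, z'', hz'', by ring⟩
  have hd0 : d ≠ 0 := by
    rintro rfl
    have h1 : Ideal.span {(P.M : 𝓞 K)} * D = 1 * D := by simpa using hd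
    have h2 : Ideal.span {(P.M : 𝓞 K)} = 1 := mul_right_cancel₀ hD0 h1
    rw [Ideal.one_eq_top, Ideal.span_singleton_eq_top] at h2
    obtain ⟨u, hu⟩ := h2.exists_right_inv
    refine not_InT_M_one (K := K) ⟨(u : K), mem_T_of_int u.isIntegral_coe, ?_⟩
    have := congrArg (fun a : 𝓞 K => (a : K)) hu
    simpa using this.symm
  have hdK : (d : K) ≠ 0 := by simpa using hd0
  refine ⟨(d : K), hdK, mem_T_of_int d.isIntegral_coe, fun y => ⟨fun h => ⟨P.dual y h, ?_⟩, ?_⟩⟩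
  · rw [InT_iff_div (inv_ne_zero hdK), div_inv_eq_mul]
    exact mem_T_of_int ((hJD y).1 ((hmem y).2 h) d hdD)
  · rintro ⟨hR, hT⟩
    rw [InT_iff_div (inv_ne_zero hdK), div_inv_eq_mul] at hT
    refine (hmem y).1 ((hJD y).2 fun z hz => ?_)
    refine int_of_mem ((R K).mul_mem hR (mem_R_of_int z.isIntegral_coe)) ?_
    obtain ⟨k, hk⟩ := hR
    obtain ⟨a, z', -, rfl⟩ := hiter k z hz
    have e : y * ((a * d + (P.M : 𝓞 K) ^ k * z' : 𝓞 K) : K) =
        (a : K) * (y * d) + ((P.M : K) ^ k * y) * (z' : K) := by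
      push_cast
      ring
    rw [e]
    exact (T K).add_mem ((T K).mul_mem (mem_T_of_int a.isIntegral_coe) hT)
      ((T K).mul_mem (mem_T_of_int hk) (mem_T_of_int z'.isIntegral_coe))

theorem dl_ne_zero : dl K ≠ 0 := (Classical.epsilon_spec (b4_dl_ex (K := K))).1

theorem dl_mem_T : dl K ∈ T K := (Classical.epsilon_spec (b4_dl_ex (K := K))).2.1

theorem dl_spec (y : K) :
    (∀ x : K, IsIntegral ℤ x → ∃ n : ℤ, Algebra.trace ℚ K (y * x) = n) ↔
      (y ∈ R K ∧ InT (dl K)⁻¹ y) := (Classical.epsilon_spec (b4_dl_ex (K := K))).2.2 y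

theorem b4_eT_dual {y : K} (hR : y ∈ R K) (h : InT (dl K)⁻¹ y) : eT y = 1 := by
  have := (dl_spec y).2 ⟨hR, h⟩ 1 isIntegral_one
  rw [mul_one] at this
  exact b4_eT_eq_one.2 this

theorem b4_InT_dl {t : K} (ht : t ∈ T K) : InT (dl K)⁻¹ t := by
  rw [InT_iff_div (inv_ne_zero dl_ne_zero), div_inv_eq_mul]
  exact (T K).mul_mem ht dl_mem_T

theorem b4_mul_conj {z : ℂ} (h : ‖z‖ = 1) : z * conj z = 1 := by
  rw [Complex.mul_conj, Complex.normSq_eq_norm_sq, h]
  simp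

theorem eS_eq_eT {x : K} (h : InT (dl K)⁻¹ x) : eS x = eT x := by
  obtain ⟨ρ, t, hρ, ht, rfl⟩ := b4_decomp x
  have h1 : InT (dl K)⁻¹ ρ := by
    have := h.sub (b4_InT_dl ht)
    rwa [add_sub_cancel_right] at this
  rw [eS_spec hρ ht, eT_add, b4_eT_dual hρ h1, one_mul]

theorem eT_eq (x : K) : eT x = eS x * eM x := by
  unfold eM
  rw [mul_left_comm, b4_mul_conj (norm_eS x), mul_one]

theorem eM_add (x y : K) : eM (x + y) = eM x * eM y := by
  unfold eM
  rw [eT_add, eS_add, map_mul]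
  ring

theorem eM_neg (x : K) : eM (-x) = conj (eM x) := by
  unfold eM
  rw [eT_neg, eS_neg, map_mul]

theorem norm_eM (x : K) : ‖eM x‖ = 1 := by
  unfold eM
  rw [norm_mul, Complex.norm_conj, norm_eT, norm_eS, one_mul]

theorem eM_R {x : K} (h : x ∈ R K) : eM x = eT x := by
  unfold eM
  rw [eS_R h, map_one, mul_one]

theorem eM_T {x : K} (h : InT (dl K)⁻¹ x) : eM x = 1 := by
  unfold eM
  rw [eS_eq_eT h, b4_mul_conj (norm_eT x)]

theorem b4_InT_mul {x y n : K} (hx : x ≠ 0) (hy : InT (x * dl K)⁻¹ y) (hn : InT x n) :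
    InT (dl K)⁻¹ (y * n) := by
  have := hy.mul hn
  rwa [mul_inv, mul_right_comm, inv_mul_cancel₀ hx, one_mul] at this

/-- the dual lattice -/
theorem dual_Lat {x : K} (hx : x ≠ 0) (y : K) :
    (∀ n ∈ Lat x, eT (y * (n : K)) = 1) ↔ (y ∈ R K ∧ InT (x * dl K)⁻¹ y) := by
  constructor
  · intro h
    have key : ∀ n ∈ Lat x, y * (n : K) ∈ R K ∧ InT (dl K)⁻¹ (y * (n : K)) := by
      intro n hn
      refine (dl_spec _).1 fun z hz => b4_eT_eq_one.1 ?_
      have := h (n * ⟨z, mem_R_of_int hz⟩)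
        (mem_Lat.2 ((mem_Lat.1 hn).mul_T (mem_T_of_int hz)))
      rwa [Subring.coe_mul, ← mul_assoc] at this
    constructor
    · obtain ⟨k, hk⟩ := exists_pow_InT hx
      have h1 := (key ⟨MK K ^ k, (R K).pow_mem MK_mem_R k⟩ (mem_Lat.2 hk)).1
      have h2 := (R K).mul_mem h1 ((R K).pow_mem MK_inv_mem_R k)
      have h3 : MK K ≠ 0 := MK_ne_zero
      rwa [mul_assoc, ← mul_pow, mul_inv_cancel₀ h3, one_pow, mul_one] at h2
    · obtain ⟨n, hn⟩ := cls_nonempty 1 hx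
      have h1 := (key n (mem_Lat_of_mem_cls hn)).2
      obtain ⟨t, ht, e⟩ := InT_of_mem_cls le_rfl hx hn
      rw [InT_iff_div (inv_ne_zero dl_ne_zero), div_inv_eq_mul] at h1
      rw [InT_iff_div (inv_ne_zero (mul_ne_zero hx dl_ne_zero)), div_inv_eq_mul]
      have := (T K).mul_mem h1 ht
      rwa [show y * (n : K) * dl K * t = y * ((n : K) * t * dl K) by ring, ← e] at this
  · rintro ⟨hR, hT⟩ n hn
    exact b4_eT_dual ((R K).mul_mem hR n.2) (b4_InT_mul hx hT (mem_Lat.1 hn))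

/-- `eM (y ·)` is trivial on `Lat x` iff `y ∈ (x dl)⁻¹ T` -/
theorem eM_Lat {x : K} (hx : x ≠ 0) (y : K) :
    (∀ n ∈ Lat x, eM (y * (n : K)) = 1) ↔ InT (x * dl K)⁻¹ y := by
  refine ⟨fun h => ?_, fun h n hn => eM_T (b4_InT_mul hx h (mem_Lat.1 hn))⟩
  obtain ⟨ρ, hρ⟩ := exists_decomp (inv_ne_zero (mul_ne_zero hx dl_ne_zero)) y
  have h1 : InT (x * dl K)⁻¹ (ρ : K) := by
    refine ((dual_Lat hx (ρ : K)).1 fun n hn => ?_).2
    have h2 := h n hn
    rw [show y * (n : K) = (ρ : K) * n + (y - ρ) * n by ring, eM_add,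
      eM_T (b4_InT_mul hx hρ (mem_Lat.1 hn)), mul_one, eM_R ((R K).mul_mem ρ.2 n.2)] at h2
    exact h2
  have := h1.add hρ
  rwa [add_sub_cancel] at this

open Classical in
/-- orthogonality on `Lat x / Lat x'` -/
theorem sum_lat_reps_eM {x x' : K} (hx' : x' ≠ 0) (h : InT x x') {F : Finset (R K)}
    (h1 : ∀ y ∈ F, y ∈ Lat x) (h2 : ∀ n ∈ Lat x, ∃! y, y ∈ F ∧ n - y ∈ Lat x') {y : K}
    (hy : InT (x' * dl K)⁻¹ y) :
    ∑ n ∈ F, eM (y * (n : K)) = if InT (x * dl K)⁻¹ y then (F.card : ℂ) else 0 := by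
  have hx : x ≠ 0 := by
    rintro rfl
    obtain ⟨t, -, e⟩ := h
    exact hx' (by simpa using e)
  split_ifs with hd
  · rw [Finset.sum_congr rfl fun n hn => (eM_Lat hx y).2 hd n (h1 n hn)]
    simp
  · obtain ⟨n₀, hn₀, hne⟩ : ∃ n ∈ Lat x, eM (y * (n : K)) ≠ 1 := by
      by_contra hc
      push Not at hc
      exact hd ((eM_Lat hx y).1 hc)
    have hex : ∀ n ∈ F, ∃ m, m ∈ F ∧ n + n₀ - m ∈ Lat x' := fun n hn =>
      (h2 (n + n₀) ((Lat x).add_mem (h1 n hn) hn₀)).exists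
    choose g hgF hg using hex
    have e : ∑ n ∈ F, eM (y * (n : K)) * eM (y * (n₀ : K)) = ∑ n ∈ F, eM (y * (n : K)) := by
      refine Finset.sum_bij g hgF (fun a ha b hb hab => ?_) (fun b hb => ?_) (fun a ha => ?_)
      · have h3 := (Lat x').sub_mem (hg a ha) (hg b hb)
        rw [hab, show a + n₀ - g b hb - (b + n₀ - g b hb) = a - b by ring] at h3
        exact (h2 a (h1 a ha)).unique ⟨ha, by simp⟩ ⟨hb, h3⟩
      · obtain ⟨a, ha, h3⟩ := (h2 (b - n₀) ((Lat x).sub_mem (h1 b hb) hn₀)).exists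
        refine ⟨a, ha, (h2 (a + n₀) ((Lat x).add_mem (h1 a ha) hn₀)).unique
          ⟨hgF a ha, hg a ha⟩ ⟨hb, ?_⟩⟩
        have := (Lat x').neg_mem h3
        rwa [show -(b - n₀ - a) = a + n₀ - b by ring] at this
      · have h3 := (eM_Lat hx' y).2 hy _ (hg a ha)
        rw [← eM_add, show y * (a : K) + y * (n₀ : K) =
          y * ((g a ha : R K) : K) + y * ((a + n₀ - g a ha : R K) : K) by push_cast; ring,
          eM_add, h3, mul_one]
    rw [← Finset.sum_mul] at e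
    by_contra hS
    exact hne ((mul_eq_left₀ hS).1 e)


/-- the chosen representative of the class of `y` -/
def b4_r (n y : R K) : R K := (Quotient.out (Ideal.Quotient.mk (Ideal.span {n}) y) : R K)

theorem b4_mk_eq {n x y : R K} :
    Ideal.Quotient.mk (Ideal.span {n}) x = Ideal.Quotient.mk (Ideal.span {n}) y ↔ n ∣ x - y := by
  rw [Ideal.Quotient.eq, Ideal.mem_span_singleton]

theorem b4_r_congr {n x y : R K} (h : n ∣ x - y) : b4_r n x = b4_r n y := by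
  rw [b4_r, b4_r, b4_mk_eq.2 h]

theorem b4_r_dvd (n y : R K) : n ∣ b4_r n y - y :=
  b4_mk_eq.1 (Ideal.Quotient.mk_out _)

theorem b4_mem_reps {n : R K} (hn : n ≠ 0) {x : R K} : x ∈ reps n ↔ x = b4_r n x := by
  have hI : Ideal.span {n} ≠ ⊥ := by simpa using hn
  have := finite_quot hI
  rw [reps, dif_pos (Set.finite_range _), Set.Finite.mem_toFinset]
  constructor
  · rintro ⟨c, rfl⟩
    simp only [b4_r, Ideal.Quotient.mk_out]
  · intro h
    exact ⟨_, h.symm⟩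

theorem b4_r_mem {n : R K} (hn : n ≠ 0) (y : R K) : b4_r n y ∈ reps n :=
  (b4_mem_reps hn).2 (b4_r_congr (b4_r_dvd n y)).symm

theorem b4_eq_of_dvd {n : R K} (hn : n ≠ 0) {x y : R K} (hx : x ∈ reps n) (hy : y ∈ reps n)
    (h : n ∣ x - y) : x = y := by
  rw [(b4_mem_reps hn).1 hx, (b4_mem_reps hn).1 hy]
  exact b4_r_congr h

theorem b4_sum_map {M ι : Type*} [AddCommMonoid M] {n : R K} (hn : n ≠ 0) (f : R K → M)
    (hf : ∀ x y, n ∣ x - y → f x = f y) (S : Finset ι) (g : ι → R K)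
    (h1 : ∀ y, ∃ t ∈ S, n ∣ g t - y) (h2 : ∀ s ∈ S, ∀ t ∈ S, n ∣ g s - g t → s = t) :
    ∑ x ∈ reps n, f x = ∑ t ∈ S, f (g t) := by
  refine (Finset.sum_bij (fun t _ => b4_r n (g t)) (fun t _ => b4_r_mem hn _)
    (fun s hs t ht h => h2 s hs t ht ?_) (fun x hx => ?_)
    (fun t _ => (hf _ _ (b4_r_dvd n _)).symm)).symm
  · have := (b4_r_dvd n (g t)).sub (b4_r_dvd n (g s))
    rw [← h] at this
    simpa using this
  · obtain ⟨t, ht, h⟩ := h1 x
    exact ⟨t, ht, (b4_r_congr h).trans ((b4_mem_reps hn).1 hx).symm⟩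

theorem card_reps {n : R K} (hn : n ≠ 0) : (reps n).card = nm n := by
  rw [← Nat.card_eq_finsetCard, nm, nmI]
  refine Nat.card_eq_of_bijective (fun x => Ideal.Quotient.mk (Ideal.span {n}) (x : R K))
    ⟨fun x y h => Subtype.ext (b4_eq_of_dvd hn x.2 y.2 (b4_mk_eq.1 h)), fun c => ?_⟩
  obtain ⟨y, rfl⟩ := Ideal.Quotient.mk_surjective c
  exact ⟨⟨_, b4_r_mem hn y⟩, b4_mk_eq.2 (b4_r_dvd n y)⟩

theorem reps_existsUnique {n : R K} (hn : n ≠ 0) (y : R K) : ∃! x, x ∈ reps n ∧ n ∣ x - y :=   ⟨b4_r n y, ⟨b4_r_mem hn y, b4_r_dvd n y⟩, fun _ hx =>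
    ((b4_mem_reps hn).1 hx.1).trans (b4_r_congr hx.2)⟩

theorem sum_reps_eq {M : Type*} [AddCommMonoid M] {n : R K} (hn : n ≠ 0) (f : R K → M)
    (hf : ∀ x y, n ∣ x - y → f x = f y) (S : Finset (R K)) (hS : ∀ y, ∃! x, x ∈ S ∧ n ∣ x - y) :
    ∑ x ∈ reps n, f x = ∑ x ∈ S, f x :=   b4_sum_map hn f hf S id (fun y => (hS y).exists)
    fun s hs t ht h => (hS t).unique ⟨hs, h⟩ ⟨ht, by simp⟩

theorem sum_reps_associated {M : Type*} [AddCommMonoid M] {n n' : R K}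
    (h : Associated n n') (f : R K → M) : ∑ x ∈ reps n, f x = ∑ x ∈ reps n', f x := by
  classical
  have e : ∀ I J : Ideal (R K), I = J →
      (if h : (Set.range (fun x : R K ⧸ I => (Quotient.out x : R K))).Finite
        then h.toFinset else ∅) =
      (if h : (Set.range (fun x : R K ⧸ J => (Quotient.out x : R K))).Finite
        then h.toFinset else ∅) := by
    rintro I J rfl
    rfl
  have e2 : reps n = reps n' := e _ _ (Ideal.span_singleton_eq_span_singleton.2 h)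
  rw [e2]

theorem sum_reps_affine {M : Type*} [AddCommMonoid M] {n : R K} (hn : n ≠ 0) (f : R K → M)
    (hf : ∀ x y, n ∣ x - y → f x = f y) {u : R K} (hu : IsCoprime u n) (a : R K) :
    ∑ x ∈ reps n, f (u * x + a) = ∑ x ∈ reps n, f x := by
  refine (b4_sum_map hn f hf _ (fun x => u * x + a) (fun y => ?_) fun s hs t ht h => ?_).symm
  · obtain ⟨v, w, e⟩ := hu
    obtain ⟨c, hc⟩ := b4_r_dvd n (v * (y - a))
    refine ⟨_, b4_r_mem hn (v * (y - a)), u * c - w * (y - a), ?_⟩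
    linear_combination u * hc + (y - a) * e
  · refine b4_eq_of_dvd hn hs ht (hu.symm.dvd_of_dvd_mul_left ?_)
    convert h using 1
    ring

theorem sum_reps_crt {M : Type*} [AddCommMonoid M] {n₁ n₂ : R K} (h₁ : n₁ ≠ 0) (h₂ : n₂ ≠ 0)
    (hc : IsCoprime n₁ n₂) (f : R K → M) (hf : ∀ x y, n₁ * n₂ ∣ x - y → f x = f y) :
    ∑ x ∈ reps (n₁ * n₂), f x = ∑ x ∈ reps n₁, ∑ y ∈ reps n₂, f (x * n₂ + y * n₁) := by
  rw [← Finset.sum_product']
  refine b4_sum_map (mul_ne_zero h₁ h₂) f hf _ (fun p : R K × R K => p.1 * n₂ + p.2 * n₁)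
    (fun y => ?_) fun s hs t ht h => ?_
  · obtain ⟨v, w, e⟩ := hc
    obtain ⟨c, hc⟩ := b4_r_dvd n₁ (w * y)
    obtain ⟨d, hd⟩ := b4_r_dvd n₂ (v * y)
    refine ⟨(_, _), Finset.mk_mem_product (b4_r_mem h₁ (w * y)) (b4_r_mem h₂ (v * y)), c + d, ?_⟩
    linear_combination n₂ * hc + n₁ * hd + y * e
  · rw [Finset.mem_product] at hs ht
    obtain ⟨c, e⟩ := h
    refine Prod.ext (b4_eq_of_dvd h₁ hs.1 ht.1 (hc.dvd_of_dvd_mul_left ⟨n₂ * c - s.2 + t.2, ?_⟩))
      (b4_eq_of_dvd h₂ hs.2 ht.2 (hc.symm.dvd_of_dvd_mul_left ⟨n₁ * c - s.1 + t.1, ?_⟩))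
    · linear_combination e
    · linear_combination e

theorem sum_reps_tower {M : Type*} [AddCommMonoid M] {n₁ n₂ : R K} (h₁ : n₁ ≠ 0) (h₂ : n₂ ≠ 0)
    (f : R K → M) (hf : ∀ x y, n₁ * n₂ ∣ x - y → f x = f y) :
    ∑ x ∈ reps (n₁ * n₂), f x = ∑ x ∈ reps n₁, ∑ y ∈ reps n₂, f (x + n₁ * y) := by
  rw [← Finset.sum_product']
  refine b4_sum_map (mul_ne_zero h₁ h₂) f hf _ (fun p : R K × R K => p.1 + n₁ * p.2)
    (fun y => ?_) fun s hs t ht h => ?_
  · obtain ⟨c, hc⟩ := b4_r_dvd n₁ y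
    obtain ⟨d, hd⟩ := b4_r_dvd n₂ (-c)
    refine ⟨(_, _), Finset.mk_mem_product (b4_r_mem h₁ y) (b4_r_mem h₂ (-c)), d, ?_⟩
    linear_combination hc + n₁ * hd
  · rw [Finset.mem_product] at hs ht
    obtain ⟨c, e⟩ := h
    have e1 : s.1 = t.1 := b4_eq_of_dvd h₁ hs.1 ht.1 ⟨n₂ * c - s.2 + t.2, by linear_combination e⟩
    refine Prod.ext e1 (b4_eq_of_dvd h₂ hs.2 ht.2 ⟨c, mul_left_cancel₀ h₁ ?_⟩)
    linear_combination e - e1

theorem eS_div_congr {n x y : R K} (h : n ∣ x - y) : eS ((x : K) / n) = eS ((y : K) / n) := by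
  obtain ⟨c, hc⟩ := h
  by_cases hn : (n : K) = 0
  · simp [hn]
  · have e : (x : K) = y + n * c := by
      have := congrArg (fun a : R K => (a : K)) hc
      simp only [AddSubgroupClass.coe_sub, Subring.coe_mul] at this
      linear_combination this
    rw [e, add_div, mul_div_cancel_left₀ _ hn, eS_add, eS_R c.2, mul_one]

open Classical in
theorem sum_reps_eS {n : R K} (hn : n ≠ 0) (h : R K) :
    ∑ x ∈ reps n, eS ((h : K) * x / n) = if n ∣ h then (Nr n : ℂ) else 0 := by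
  have hnK : (n : K) ≠ 0 := by simpa using hn
  split_ifs with hd
  · obtain ⟨c, rfl⟩ := hd
    have : ∀ x : R K, eS (((n * c : R K) : K) * x / n) = 1 := fun x => by
      rw [Subring.coe_mul, mul_assoc, mul_div_cancel_left₀ _ hnK]
      exact eS_R ((R K).mul_mem c.2 x.2)
    rw [Finset.sum_congr rfl fun x _ => this x, Finset.sum_const, card_reps hn]
    simp [Nr]
  · obtain ⟨y, hy⟩ : ∃ y : R K, eS ((h : K) * y / n) ≠ 1 := by
      by_contra hc
      push Not at hc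
      obtain ⟨k, hk⟩ := exists_pow_mul_mem_T ((h : K) / n)
      have h1 : MK K ^ k * ((h : K) / n) ∈ R K := by
        refine P.dual _ fun z hz => b4_eT_eq_one.1 ?_
        have h2 := hc ⟨MK K ^ k * z, (R K).mul_mem ((R K).pow_mem MK_mem_R k) (mem_R_of_int hz)⟩
        rw [show (h : K) * ((⟨MK K ^ k * z, (R K).mul_mem ((R K).pow_mem MK_mem_R k)
          (mem_R_of_int hz)⟩ : R K) : K) / n = MK K ^ k * ((h : K) / n) * z by
            simp only []; ring,
          eS_eq_eT (b4_InT_dl ((T K).mul_mem hk (mem_T_of_int hz)))] at h2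
        exact h2
      have h2 := (R K).mul_mem ((R K).pow_mem MK_inv_mem_R k) h1
      have h3 : MK K ≠ 0 := MK_ne_zero
      rw [← mul_assoc, ← mul_pow, inv_mul_cancel₀ h3, one_pow, one_mul] at h2
      refine hd ⟨⟨_, h2⟩, Subtype.ext ?_⟩
      simp only [Subring.coe_mul]
      field_simp
    have e := sum_reps_affine hn (fun x : R K => eS ((h : K) * x / n))
      (fun x z hxz => by
        have := eS_div_congr (n := n) (x := h * x) (y := h * z)
          (by rw [← mul_sub]; exact hxz.mul_left h)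
        simpa only [Subring.coe_mul] using this) isCoprime_one_left y
    simp only [one_mul, Subring.coe_add, mul_add, add_div, eS_add, ← Finset.sum_mul] at e
    by_contra hS
    exact hy ((mul_eq_left₀ hS).1 e)

theorem gs_inversion {n : R K} (hn : n ≠ 0) (f : R K → ℂ) (hf : ∀ x y, n ∣ x - y → f x = f y)
    (x : R K) : f x = (Nr n : ℂ)⁻¹ * ∑ h ∈ reps n, gs f n (-h) * eS ((h : K) * x / n) := by
  classical
  have hN : (Nr n : ℂ) ≠ 0 := Complex.ofReal_ne_zero.2 (Nr_pos hn).ne'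
  have e : ∀ y h : R K, f y * eS (((-h : R K) : K) * y / n) * eS ((h : K) * x / n) =
      f y * eS (((x - y : R K) : K) * h / n) := by
    intro y h
    rw [mul_assoc, ← eS_add]
    congr 2
    push_cast
    ring
  simp only [gs, Finset.sum_mul, e]
  rw [Finset.sum_comm]
  simp only [← Finset.mul_sum, sum_reps_eS hn]
  rw [Finset.sum_eq_single_of_mem _ (b4_r_mem hn x), if_pos (dvd_sub_comm.1 (b4_r_dvd n x)),
    hf _ _ (b4_r_dvd n x)]
  · field_simp
  · intro y hy hne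
    rw [if_neg fun hd => hne (((b4_mem_reps hn).1 hy).trans (b4_r_congr (dvd_sub_comm.1 hd))),
      mul_zero]


end Crest.Agent.GQ
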