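import Crest.Agent.GQ.CEuler

/-! # GQ CDec: the zeta function of `F(ω)` -/

set_option autoImplicit false

noncomputable section

open NumberField Complex MeasureTheory
open scoped nonZeroDivisors

namespace Crest.Agent.GC

section aux

open IsDedekindDomain

lemma cde_inert {T : Type} [Fintype T] (e f : T → ℕ) (he : ∀ t, 1 ≤ e t) (hf : ∀ t, 2 ≤ f t)
    (h : ∑ t, e t * f t = 2) : Fintype.card T = 1 ∧ ∀ t, f t = 2 := by
  have h1 : ∀ t, 2 ≤ e t * f t := fun t => by simpa using Nat.mul_le_mul (he t) (hf t)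
  have h2 : Fintype.card T * 2 ≤ 2 := by
    have := Finset.sum_le_sum (s := Finset.univ) fun t _ => h1 t
    rwa [h, Finset.sum_const, Finset.card_univ, smul_eq_mul] at this
  have h3 : Fintype.card T ≠ 0 := fun h0 => by
    have := Fintype.card_eq_zero_iff.1 h0
    simp at h
  refine ⟨by omega, fun t => le_antisymm ?_ (hf t)⟩
  have h4 := Finset.single_le_sum (f := fun t => e t * f t) (fun _ _ => Nat.zero_le _)
    (Finset.mem_univ t)
  have h5 := Nat.mul_le_mul_right (f t) (he t)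
  omega

lemma cde_split {T : Type} [Fintype T] (e f : T → ℕ) (he : ∀ t, 1 ≤ e t) (hf : ∀ t, 1 ≤ f t)
    (h : ∑ t, e t * f t = 2) (hn : ∀ t : T, ∃ t', t ≠ t') :
    Fintype.card T = 2 ∧ ∀ t, f t = 1 := by
  have h1 : ∀ t, 1 ≤ e t * f t := fun t => by simpa using Nat.mul_le_mul (he t) (hf t)
  have h2 : ∀ t, e t * f t = 1 := fun t => by
    obtain ⟨t', ht⟩ := hn t
    have h3 := Finset.add_le_sum (f := fun t => e t * f t) (s := Finset.univ)
      (fun _ _ => Nat.zero_le _) (Finset.mem_univ t) (Finset.mem_univ t') ht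
    have h4 := h1 t
    have h5 := h1 t'
    omega
  refine ⟨?_, fun t => Nat.eq_one_of_mul_eq_one_left (h2 t)⟩
  simpa [h2] using h

lemma cde_log {z : ℂ} (hz : ‖z‖ < 1) :
    Complex.log (1 - z * z) = Complex.log (1 - z) + Complex.log (1 + z) := by
  have h0 := Complex.abs_re_le_norm z
  rw [abs_le] at h0
  have h1 : 0 < (1 - z).re := by simp only [sub_re, one_re]; linarith
  have h2 : 0 < (1 + z).re := by simp only [add_re, one_re]; linarith
  have h3 := abs_lt.1 (Complex.abs_arg_lt_pi_div_two_iff.2 (Or.inl h1))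
  have h4 := abs_lt.1 (Complex.abs_arg_lt_pi_div_two_iff.2 (Or.inl h2))
  rw [← (Complex.log_mul_eq_add_log_iff (fun h => by simp [h] at h1) (fun h => by simp [h] at h2)).2
    ⟨by linarith, by linarith⟩]
  congr 1
  ring

variable {K : Type} [Field K] [NumberField K]

lemma cde_three {P : Ideal (𝓞 K)} (hP : P.IsPrime) (h3 : (3 : 𝓞 K) ∈ P) : 3 ∣ Ideal.absNorm P := by
  by_contra h
  have h1 := Ideal.absNorm_mem P
  obtain ⟨a, b, hab⟩ : IsCoprime ((3 : ℕ) : 𝓞 K) ((Ideal.absNorm P : ℕ) : 𝓞 K) :=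
    Nat.Coprime.cast ((Nat.Prime.coprime_iff_not_dvd Nat.prime_three).2 h)
  exact hP.ne_top ((Ideal.eq_top_iff_one P).2
    (hab ▸ add_mem (P.mul_mem_left a (by exact_mod_cast h3)) (P.mul_mem_left b h1)))

lemma cde_mod {P : Ideal (𝓞 K)} (hP : P.IsPrime) (h0 : P ≠ ⊥) {W : 𝓞 K} (hW : W ^ 2 + W + 1 = 0) :
    Ideal.absNorm P % 3 ≠ 2 := by
  intro h
  have := hP.isMaximal h0
  let _ : Field (𝓞 K ⧸ P) := Ideal.Quotient.field P
  have : Finite (𝓞 K ⧸ P) := Ideal.finiteQuotientOfFreeOfNeBot P h0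
  let _ : Fintype (𝓞 K ⧸ P) := Fintype.ofFinite _
  have hc : Fintype.card (𝓞 K ⧸ P) = Ideal.absNorm P := by
    rw [Ideal.absNorm_apply, Submodule.cardQuot_apply, Nat.card_eq_fintype_card]
  set u := Ideal.Quotient.mk P W with hu
  have h1 : u ^ 2 + u + 1 = 0 := by simpa using congrArg (Ideal.Quotient.mk P) hW
  have h2 : u ^ 3 = 1 := by linear_combination (u - 1) * h1
  have h3 := FiniteField.pow_card u
  rw [hc, ← Nat.div_add_mod (Ideal.absNorm P) 3, h, pow_add, pow_mul, h2, one_pow, one_mul] at h3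
  have h4 : (3 : 𝓞 K ⧸ P) = 0 := by
    linear_combination (3 - 2 * u) * h1 + (2 * u + 1) * h3
  have h5 := cde_three hP (Ideal.Quotient.eq_zero_iff_mem.1 (by rw [map_ofNat]; exact h4))
  omega

lemma cde_root {P : Ideal (𝓞 K)} (hP : P.IsPrime) (h0 : P ≠ ⊥) (h : Ideal.absNorm P % 3 = 1) :
    ∃ x : 𝓞 K, x ^ 2 + x + 1 ∈ P := by
  have := hP.isMaximal h0
  let _ : Field (𝓞 K ⧸ P) := Ideal.Quotient.field P
  have : Finite (𝓞 K ⧸ P) := Ideal.finiteQuotientOfFreeOfNeBot P h0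
  have hc : Nat.card (𝓞 K ⧸ P) = Ideal.absNorm P := by
    rw [Ideal.absNorm_apply, Submodule.cardQuot_apply]
  have : Fact (Nat.Prime 3) := ⟨Nat.prime_three⟩
  obtain ⟨u, hu⟩ := exists_prime_orderOf_dvd_card' (G := (𝓞 K ⧸ P)ˣ) 3 (by
    rw [Nat.card_units, hc]; omega)
  obtain ⟨x, hx⟩ := Ideal.Quotient.mk_surjective (u : 𝓞 K ⧸ P)
  have h1 : (u : 𝓞 K ⧸ P) ^ 3 = 1 := by
    rw [← Units.val_pow_eq_pow_val, ← hu, pow_orderOf_eq_one, Units.val_one]
  have h2 : (u : 𝓞 K ⧸ P) - 1 ≠ 0 := fun h => by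
    have : u = 1 := Units.ext (sub_eq_zero.1 h)
    simp [this] at hu
  refine ⟨x, Ideal.Quotient.eq_zero_iff_mem.1 ?_⟩
  simp only [map_add, map_pow, map_one, hx]
  exact mul_left_cancel₀ h2 (by linear_combination h1)

variable {F L : Type} [Field F] [NumberField F] [Field L] [NumberField L] [Algebra F L]

lemma cde_aut (h2 : Module.finrank F L = 2) {w : L} (hw : IsPrimitiveRoot w 3)
    (hF : ∀ x : F, algebraMap F L x ≠ w) :
    ∃ (W : 𝓞 L) (σ : 𝓞 L →ₐ[𝓞 F] 𝓞 L), W ^ 2 + W + 1 = 0 ∧ σ W = W ^ 2 := by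
  have : Algebra.IsQuadraticExtension F L := ⟨h2⟩
  have h1 : w ^ 2 + w + 1 = 0 := by
    have := hw.geom_sum_eq_zero (by norm_num)
    simp only [Finset.sum_range_succ, Finset.sum_range_zero] at this
    linear_combination this
  obtain ⟨σ, hσ⟩ : ∃ σ : L ≃ₐ[F] L, σ w ≠ w := by
    by_contra h
    push Not at h
    obtain ⟨x, hx⟩ := (IsGalois.mem_range_algebraMap_iff_fixed w).2 h
    exact hF x hx
  have h3 : σ w ^ 2 + σ w + 1 = 0 := by simpa using congrArg σ h1
  have h4 : σ w = w ^ 2 :=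
    mul_left_cancel₀ (sub_ne_zero.2 hσ) (by linear_combination h3 - (1 + σ w - w) * h1)
  refine ⟨⟨w, hw.isIntegral (by norm_num)⟩, RingOfIntegers.mapAlgHom σ, ?_, ?_⟩
  · exact RingOfIntegers.ext h1
  · exact RingOfIntegers.ext h4

lemma cde_local (h2 : Module.finrank F L = 2) {w : L} (hw : IsPrimitiveRoot w 3)
    (hF : ∀ x : F, algebraMap F L x ≠ w) {s : ℂ} (hs : 1 < s.re) (q : HeightOneSpectrum (𝓞 F))
    [Fintype (q.asIdeal.primesOver (𝓞 L))] :
    ∑ P : q.asIdeal.primesOver (𝓞 L),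
      -Complex.log (1 - chi0 (Ideal.absNorm P.1) * (Ideal.absNorm P.1 : ℂ) ^ (-s)) =
    -Complex.log (1 - chi0 (Ideal.absNorm q.asIdeal) * (Ideal.absNorm q.asIdeal : ℂ) ^ (-s)) +
    -Complex.log (1 - chi3 (Ideal.absNorm q.asIdeal) * (Ideal.absNorm q.asIdeal : ℂ) ^ (-s)) := by
  obtain ⟨W, σ, hW, hσ⟩ := cde_aut h2 hw hF
  have hq := q.isPrime
  have hsum := Ideal.sum_ramification_inertia_eq_finrank q.asIdeal (𝓞 L)
  rw [← IsFractionRing.finrank_eq (𝓞 F) F (𝓞 L) L, h2] at hsum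
  have hN : ∀ P : q.asIdeal.primesOver (𝓞 L),
      Ideal.absNorm P.1 = Ideal.absNorm q.asIdeal ^ P.1.inertiaDeg (𝓞 F) := fun P =>
    (Ideal.absNorm_pow_inertiaDeg q.asIdeal P.1).symm
  have he : ∀ P : q.asIdeal.primesOver (𝓞 L), 1 ≤ P.1.ramificationIdx (𝓞 F) := fun P =>
    Ideal.ramificationIdx_pos P.1 (𝓞 F)
  have hf : ∀ P : q.asIdeal.primesOver (𝓞 L), 1 ≤ P.1.inertiaDeg (𝓞 F) := fun P =>
    Ideal.inertiaDeg_pos P.1 (𝓞 F)
  set Q := Ideal.absNorm q.asIdeal with hQ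
  have hQ3 : Q % 3 = 0 ∨ Q % 3 = 1 ∨ Q % 3 = 2 := by omega
  rcases hQ3 with h | h | h
  · have h0 : ∀ P : q.asIdeal.primesOver (𝓞 L), chi0 (Ideal.absNorm P.1) = 0 := fun P => by
      rw [hN, chi0, if_pos (dvd_pow (Nat.dvd_of_mod_eq_zero h) (by have := hf P; omega))]
    simp only [h0]
    simp [chi0, chi3, h, Nat.dvd_of_mod_eq_zero h]
  · obtain ⟨x, hx⟩ := cde_root hq q.ne_bot h
    obtain ⟨c1, c2⟩ := cde_split _ _ he hf hsum fun P => by
      have hP := P.2.1
      have hP' := P.2.2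
      refine ⟨⟨P.1.comap σ, inferInstance, inferInstance⟩, fun hc => ?_⟩
      have hc' : ∀ y ∈ P.1, σ y ∈ P.1 := fun y hy => by
        rw [congrArg Subtype.val hc] at hy
        exact hy
      have hx' : algebraMap (𝓞 F) (𝓞 L) (x ^ 2 + x + 1) ∈ P.1 :=
        (Ideal.mem_of_liesOver P.1 q.asIdeal _).1 hx
      set y := algebraMap (𝓞 F) (𝓞 L) x with hy
      have hσy : σ y = y := σ.commutes x
      have e1 : algebraMap (𝓞 F) (𝓞 L) (x ^ 2 + x + 1) = (W - y) * (W ^ 2 - y) := by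
        simp only [map_add, map_pow, map_one, ← hy]
        linear_combination (1 - W + y) * hW
      have e2 : W - y ∈ P.1 ∧ W ^ 2 - y ∈ P.1 := by
        rcases hP.mem_or_mem (e1 ▸ hx') with h1 | h1
        · exact ⟨h1, by simpa only [map_sub, hσ, hσy] using hc' _ h1⟩
        · refine ⟨?_, h1⟩
          have h3 := hc' _ h1
          rw [map_sub, map_pow, hσ, hσy] at h3
          rwa [show W = (W ^ 2) ^ 2 by linear_combination (W - W ^ 2) * hW]
      have e3 : (3 : 𝓞 L) = (W ^ 2 - W) * ((W - y) - (W ^ 2 - y)) := by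
        linear_combination (W ^ 2 - 3 * W + 3) * hW
      have e4 := cde_three hP (e3 ▸ P.1.mul_mem_left _ (sub_mem e2.1 e2.2))
      rw [hN] at e4
      have := Nat.prime_three.dvd_of_dvd_pow e4
      omega
    have h3 : ¬ 3 ∣ Q := by omega
    simp only [hN, c2, pow_one, Finset.sum_const, Finset.card_univ, c1, chi0, chi3, if_neg h3,
      if_pos h, two_nsmul]
  · obtain ⟨c1, c2⟩ := cde_inert _ _ he (fun P => by
      have h1 := cde_mod P.2.1 (Ideal.ne_bot_of_mem_primesOver q.ne_bot P.2) hW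
      have h3 := hf P
      by_contra h4
      rw [hN, show P.1.inertiaDeg (𝓞 F) = 1 by omega, pow_one] at h1
      exact h1 h) hsum
    have h3 : ¬ 3 ∣ Q := by omega
    have h4 : ¬ 3 ∣ Q ^ 2 := fun h5 => h3 (Nat.prime_three.dvd_of_dvd_pow h5)
    have h5 : ¬ Q % 3 = 1 := by omega
    have h6 : ‖(Q : ℂ) ^ (-s)‖ < 1 := by
      rw [Complex.norm_natCast_cpow_of_pos (by omega)]
      exact Real.rpow_lt_one_of_one_lt_of_neg (by exact_mod_cast (by omega : 1 < Q))
        (by rw [neg_re]; linarith)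
    simp only [hN, c2, Finset.sum_const, Finset.card_univ, c1, chi0, chi3, if_neg h3, if_neg h4,
      if_neg h5, if_pos h, one_nsmul, one_mul, neg_mul, sub_neg_eq_add]
    rw [sq, Nat.cast_mul, Complex.natCast_mul_natCast_cpow, cde_log h6, neg_add]

/-- The fibre of `under` is the set of primes over `q`. -/
def cde_equiv (q : HeightOneSpectrum (𝓞 F)) :
    {P : HeightOneSpectrum (𝓞 L) // P.under (𝓞 F) = q} ≃ q.asIdeal.primesOver (𝓞 L) where
  toFun P := ⟨P.1.asIdeal, P.1.isPrime, ⟨(congrArg HeightOneSpectrum.asIdeal P.2).symm⟩⟩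
  invFun P := ⟨⟨P.1, P.2.1, Ideal.ne_bot_of_mem_primesOver q.ne_bot P.2⟩,
    HeightOneSpectrum.ext P.2.2.over.symm⟩
  left_inv _ := rfl
  right_inv _ := rfl

end aux

theorem ZZ_ext (F L : Type) [Field F] [NumberField F] [Field L] [NumberField L] [Algebra F L]
    (h2 : Module.finrank F L = 2) {w : L} (hw : IsPrimitiveRoot w 3)
    (hF : ∀ x : F, algebraMap F L x ≠ w) {s : ℂ} (hs : 1 < s.re) :
    ZZ L chi0 s = ZZ F chi0 s * ZZ F chi3 s := by
  rw [ZZ_eq_exp psi_chi0 hs, ZZ_eq_exp psi_chi0 hs, ZZ_eq_exp psi_chi3 hs, ← Complex.exp_add]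
  congr 1
  have h1 := (summable_ell (F := L) psi_chi0 hs).of_norm.hasSum
  rw [← (Equiv.sigmaFiberEquiv fun P : IsDedekindDomain.HeightOneSpectrum (𝓞 L) =>
    P.under (𝓞 F)).hasSum_iff] at h1
  refine (h1.sigma fun q => ?_).unique ((summable_ell (F := F) psi_chi0 hs).of_norm.hasSum.add
    (summable_ell (F := F) psi_chi3 hs).of_norm.hasSum)
  have := q.isMaximal
  rw [← cde_local h2 hw hF hs q, ← (cde_equiv (L := L) q).symm.hasSum_iff]
  exact hasSum_fintype _

/-- existence of `F(ω)` -/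
theorem exists_ext (F : Type) [Field F] [NumberField F] (h : ¬ ∃ w : F, IsPrimitiveRoot w 3) :
    ∃ (L : Type) (_ : Field L) (_ : NumberField L) (_ : Algebra F L) (w : L),
      Module.finrank F L = 2 ∧ IsPrimitiveRoot w 3 ∧ ∀ x : F, algebraMap F L x ≠ w := by
  have hirr : Irreducible (Polynomial.cyclotomic 3 F) :=
    Polynomial.irreducible_of_degree_le_three_of_not_isRoot
      (by rw [Polynomial.natDegree_cyclotomic, Nat.totient_prime Nat.prime_three]; simp)
      fun x hx => h ⟨x, Polynomial.isRoot_cyclotomic_iff.1 hx⟩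
  have hz := IsCyclotomicExtension.zeta_spec 3 F (CyclotomicField 3 F)
  refine ⟨CyclotomicField 3 F, inferInstance, inferInstance, inferInstance, _, ?_, hz,
    fun x hx => h ⟨x, ?_⟩⟩
  · rw [IsCyclotomicExtension.finrank _ hirr, Nat.totient_prime Nat.prime_three]
  · rw [← hx] at hz
    exact hz.of_map_of_injective (algebraMap F _).injective

end Crest.Agent.GC
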