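import Crest.Agent.GQ.Iface

/-!
# Project GQ, part C: from the strip to primes.  Definitions
-/

set_option autoImplicit false

noncomputable section

open NumberField Complex MeasureTheory
open scoped nonZeroDivisors

namespace Crest.Agent.GC

section general

variable {ι : Type} [Fintype ι]

/-- the additive character of `ι → ℂ` -/
def eI (z : ι → ℂ) : ℂ := Complex.exp (2 * Real.pi * I * (∑ v, 2 * (z v).re : ℝ))
/-- the Gaussian `exp (-π ∑ e^{2 y_v} |z_v|²)` -/
def gG (y : ι → ℝ) (z : ι → ℂ) : ℝ := Real.exp (-Real.pi * ∑ v, Real.exp (2 * y v) * ‖z v‖ ^ 2)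
/-- the dual lattice -/
def dualL (Λ : Submodule ℤ (ι → ℂ)) : Submodule ℤ (ι → ℂ) where
  carrier := {w | ∀ n ∈ Λ, ∃ k : ℤ, ∑ v, 2 * (w v * n v).re = k}
  zero_mem' := fun n _ => ⟨0, by simp⟩
  add_mem' := by
    intro a b ha hb n hn
    obtain ⟨k, hk⟩ := ha n hn
    obtain ⟨l, hl⟩ := hb n hn
    refine ⟨k + l, ?_⟩
    push_cast
    rw [← hk, ← hl, ← Finset.sum_add_distrib]
    refine Finset.sum_congr rfl fun v _ => ?_
    simp only [Pi.add_apply, add_mul, Complex.add_re]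
    ring
  smul_mem' := by
    intro c a ha n hn
    obtain ⟨k, hk⟩ := ha n hn
    refine ⟨c * k, ?_⟩
    push_cast
    rw [← hk, Finset.mul_sum]
    refine Finset.sum_congr rfl fun v _ => ?_
    simp only [Pi.smul_apply, zsmul_eq_mul, mul_assoc, Complex.mul_re, Complex.intCast_re,
      Complex.intCast_im]
    ring

end general

/-- admissible characters modulo `3` -/
structure Psi (ψ : ℕ → ℂ) : Prop where
  zero : ψ 0 = 0
  one : ψ 1 = 1
  mul : ∀ a b, ψ (a * b) = ψ a * ψ b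
  per : ∀ a, ψ (a + 3) = ψ a
  norm_le : ∀ a, ‖ψ a‖ ≤ 1

/-- the principal character modulo `3` -/
def chi0 (n : ℕ) : ℂ := if 3 ∣ n then 0 else 1
/-- the non-principal character modulo `3` -/
def chi3 (n : ℕ) : ℂ := if n % 3 = 1 then 1 else if n % 3 = 2 then -1 else 0

theorem psi_chi0 : Psi chi0 where
  zero := by simp [chi0]
  one := by simp [chi0]
  mul a b := by
    by_cases ha : 3 ∣ a <;> by_cases hb : 3 ∣ b <;>
      simp [chi0, ha, hb, Nat.prime_three.dvd_mul]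
  per a := by simp [chi0]
  norm_le a := by unfold chi0; split_ifs <;> simp

theorem psi_chi3 : Psi chi3 where
  zero := by simp [chi3]
  one := by simp [chi3]
  mul a b := by
    have ha : a % 3 = 0 ∨ a % 3 = 1 ∨ a % 3 = 2 := by omega
    have hb : b % 3 = 0 ∨ b % 3 = 1 ∨ b % 3 = 2 := by omega
    rcases ha with ha | ha | ha <;> rcases hb with hb | hb | hb <;>
      simp [chi3, Nat.mul_mod, ha, hb]
  per a := by simp [chi3]
  norm_le a := by unfold chi3; split_ifs <;> simp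

/-- the weight `exp (-(log u)²)` -/
def wG (u : ℝ) : ℝ := Real.exp (-(Real.log u) ^ 2)
/-- its Mellin transform at `1` -/
def cG : ℝ := Real.sqrt Real.pi * Real.exp (1 / 4)
/-- the exponent of the error term -/
def theta1 : ℝ := 1 - 1 / 2000

variable (F : Type) [Field F] [NumberField F]

/-- nonzero-ness is not built in: fractional ideals of `F` -/
abbrev FI : Type := FractionalIdeal (𝓞 F)⁰ F
/-- the degree -/
abbrev dg : ℕ := Module.finrank ℚ F
/-- number of infinite places -/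
abbrev rc : ℕ := Fintype.card (InfinitePlace F)
/-- absolute value of the discriminant -/
def DD : ℝ := |(discr F : ℝ)|
/-- covolume of the ring of integers (totally complex case) -/
def c0 : ℝ := Real.sqrt (DD F) / 2 ^ rc F
/-- the size `n + log |D|` -/
def BF : ℝ := dg F + Real.log (DD F)
/-- the number of ideals of norm `p` -/
def a1 (p : ℕ) : ℕ := Nat.card {P : Ideal (𝓞 F) // Ideal.absNorm P = p}
/-- `log p` times the number of prime ideals of norm `p`, for primes `p ≠ 3` -/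
def bP (p : ℕ) : ℝ := if p.Prime ∧ p ≠ 3 then a1 F p * Real.log p else 0
/-- the `L`-series -/
def ZZ (ψ : ℕ → ℂ) (s : ℂ) : ℂ :=
  ∑' J : Ideal (𝓞 F), ψ (Ideal.absNorm J) * (Ideal.absNorm J : ℂ) ^ (-s)
/-- logarithm of the Euler product -/
def ell (ψ : ℕ → ℂ) (s : ℂ) : ℂ :=
  ∑' P : IsDedekindDomain.HeightOneSpectrum (𝓞 F),
    -Complex.log (1 - ψ (Ideal.absNorm P.asIdeal) * (Ideal.absNorm P.asIdeal : ℂ) ^ (-s))
/-- `(s - 1) / ζ_F^{(3)}(s)` continues holomorphically to the strip -/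
def ZF : Prop := ∃ H : ℂ → ℂ, DifferentiableOn ℂ H {s : ℂ | GQ.theta0 < s.re} ∧
  ∀ s : ℂ, 1 < s.re → H s * ZZ F chi0 s = s - 1
/-- the gamma factor -/
def gam (s : ℂ) : ℂ := ((Real.pi : ℂ) ^ (-s) * Complex.Gamma s / 2) ^ rc F

variable {F}

/-- the embedding in `ℂ^r` -/
def em (x : F) : InfinitePlace F → ℂ := fun v => v.embedding x
/-- the logarithmic embedding -/
def lm (x : F) : InfinitePlace F → ℝ := fun v => Real.log ‖em x v‖
/-- `em` as a linear map -/
def emL : F →ₗ[ℤ] (InfinitePlace F → ℂ) where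
  toFun := em
  map_add' a b := by ext v; simp [em]
  map_smul' c a := by ext v; simp [em]
/-- the lattice of a fractional ideal -/
def latI (A : FI F) : Submodule ℤ (InfinitePlace F → ℂ) :=
  ((A : Submodule (𝓞 F) F).restrictScalars ℤ).map emL
/-- the norm of a fractional ideal -/
def NI (A : FI F) : ℝ := ((FractionalIdeal.absNorm A : ℚ) : ℝ)
/-- the trace dual -/
def du (A : FI F) : FI F := FractionalIdeal.dual ℤ ℚ A
/-- the integral ideal `β A⁻¹` -/
def idl (A : FI F) (β : F) : Ideal (𝓞 F) :=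
  Classical.epsilon (fun J : Ideal (𝓞 F) =>
    (J : FI F) = FractionalIdeal.spanSingleton (𝓞 F)⁰ β * A⁻¹)
/-- the integral ideals `β A⁻¹`, `0 ≠ β ∈ A` -/
def Cl (A : FI F) : Set (Ideal (𝓞 F)) :=
  {J | ∃ β : F, β ∈ A ∧ β ≠ 0 ∧ (J : FI F) = FractionalIdeal.spanSingleton (𝓞 F)⁰ β * A⁻¹}
open Classical in
/-- theta series -/
def Th (A : FI F) (g : Ideal (𝓞 F) → ℂ) (y : InfinitePlace F → ℝ) : ℂ :=
  ∑' β : F, if β ∈ A ∧ β ≠ 0 then g (idl A β) * (gG y (em β) : ℂ) else 0
open Classical in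
/-- theta series with trivial coefficients -/
def Th1 (A : FI F) (y : InfinitePlace F → ℝ) : ℝ :=
  ∑' β : F, if β ∈ A ∧ β ≠ 0 then gG y (em β) else 0
open Classical in
/-- partial `L`-series -/
def Zc (A : FI F) (g : Ideal (𝓞 F) → ℂ) (s : ℂ) : ℂ :=
  ∑' J : Ideal (𝓞 F), if J ∈ Cl A then g J * (Ideal.absNorm J : ℂ) ^ (-s) else 0
open Classical in
/-- partial zeta function at a real point -/
def Zr (A : FI F) (σ : ℝ) : ℝ :=
  ∑' J : Ideal (𝓞 F), if J ∈ Cl A then (Ideal.absNorm J : ℝ) ^ (-σ) else 0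

/-- partition of unity for the units, invariant under diagonal translations -/
structure PU (φ : (InfinitePlace F → ℝ) → ℝ) : Prop where
  meas : Measurable φ
  nonneg : ∀ y, 0 ≤ φ y
  diag : ∀ y (c : ℝ), φ (fun v => y v + c) = φ y
  sum : ∀ y, HasSum (fun u : (𝓞 F)ˣ => φ (y + lm (((u : 𝓞 F) : F)))) 1

/-- `κ` is the mass of `φ` on the hyperplanes `∑ y = const` -/
def Slab (φ : (InfinitePlace F → ℝ) → ℝ) (κ : ℝ) : Prop :=
  ∀ h : ℝ → ℂ, Integrable h → Integrable (fun y => (φ y : ℂ) * h (∑ v, y v)) ∧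
    ∫ y, (φ y : ℂ) * h (∑ v, y v) = κ * ∫ τ, h τ

/-- `F = ℚ(ζ_m, a^{1/l})` -/
structure KF (m l : ℕ) (a : ℤ) (ζ α : F) : Prop where
  hζ : IsPrimitiveRoot ζ m
  hα : α ^ l = (a : F)
  top : IntermediateField.adjoin ℚ {ζ, α} = ⊤

/-- The analytic input of the factoring algorithm. -/
def NR : Prop := ∃ C : ℕ, ∀ l p : ℕ, l.Prime → p.Prime → ∃ r : ℕ, r.Prime ∧
  r ≤ C * (l + Nat.log 2 p) ^ C ∧ l ∣ r - 1 ∧ r ≠ p ∧ ¬ ∃ y : ZMod r, y ^ l = (p : ZMod r)

end Crest.Agent.GC
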