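import Crest.Agent.GQ.CDefs

/-! # GQ CEuler: Euler products over the ideals of a number field -/

set_option autoImplicit false

noncomputable section

open NumberField Complex MeasureTheory
open scoped nonZeroDivisors

namespace Crest.Agent.GC

variable {F : Type} [Field F] [NumberField F]

section aux

open IsDedekindDomain Filter Topology

/-- `N I ^ (-s)` -/
def ceu_W (s : ℝ) (I : Ideal (𝓞 F)) : ℝ := (Ideal.absNorm I : ℝ) ^ (-s)

theorem ceu_W_nonneg (s : ℝ) (I : Ideal (𝓞 F)) : 0 ≤ ceu_W s I := by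
  unfold ceu_W; positivity

theorem ceu_W_anti {s s' : ℝ} (h0 : 0 < s) (h : s ≤ s') (I : Ideal (𝓞 F)) :
    ceu_W s' I ≤ ceu_W s I := by
  unfold ceu_W
  rcases Nat.eq_zero_or_pos (Ideal.absNorm I) with h1 | h1
  · rw [h1, Nat.cast_zero, Real.zero_rpow (by linarith), Real.zero_rpow (by linarith)]
  · exact Real.rpow_le_rpow_of_exponent_le (by exact_mod_cast h1) (by linarith)

theorem ceu_W_le_half {s : ℝ} (hs : 1 ≤ s) (𝔭 : HeightOneSpectrum (𝓞 F)) :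
    ceu_W s 𝔭.asIdeal ≤ 1 / 2 := by
  refine (ceu_W_anti one_pos hs _).trans ?_
  have : (2 : ℝ) ≤ Ideal.absNorm 𝔭.asIdeal := by
    exact_mod_cast NumberField.HeightOneSpectrum.one_lt_absNorm 𝔭
  rw [ceu_W, Real.rpow_neg_one, one_div]
  exact inv_anti₀ two_pos this

theorem ceu_zeta_eq {s : ℝ} (hs : s ≠ 0) :
    ((∑' I : Ideal (𝓞 F), ceu_W s I : ℝ) : ℂ) = dedekindZeta F s := by
  have e : ∀ n : ℕ, ∑' I : {I : Ideal (𝓞 F) // Ideal.absNorm I = n}, ceu_W s I.1 =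
      (Nat.card {I : Ideal (𝓞 F) // Ideal.absNorm I = n} : ℝ) * (n : ℝ) ^ (-s) := fun n => by
    rw [← nsmul_eq_mul, ← tsum_const]
    exact tsum_congr fun I => by rw [ceu_W, I.2]
  have e1 : ∑' I : Ideal (𝓞 F), ceu_W s I = ∑' n : ℕ,
      ∑' I : {I : Ideal (𝓞 F) // Ideal.absNorm I = n}, ceu_W s I.1 := by
    rw [← (Equiv.sigmaFiberEquiv (Ideal.absNorm (S := 𝓞 F))).tsum_eq]
    by_cases h : Summable fun p => ceu_W s (Equiv.sigmaFiberEquiv (Ideal.absNorm (S := 𝓞 F)) p)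
    · exact h.tsum_sigma
    · rw [tsum_eq_zero_of_not_summable h, tsum_eq_zero_of_not_summable fun h' => h ?_]
      refine (summable_sigma_of_nonneg fun _ => ceu_W_nonneg _ _).2 ⟨fun n => ?_, h'⟩
      have : Finite {I : Ideal (𝓞 F) // Ideal.absNorm I = n} :=
        (Ideal.finite_setOfPred_absNorm_eq n).to_subtype
      exact Summable.of_finite
  rw [e1, Complex.ofReal_tsum, dedekindZeta, LSeries]
  refine tsum_congr fun n => ?_
  rw [e, LSeries.term_of_ne_zero' (Complex.ofReal_ne_zero.2 hs), Real.rpow_neg (Nat.cast_nonneg _),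
    Complex.ofReal_mul, Complex.ofReal_inv, Complex.ofReal_cpow (Nat.cast_nonneg _), div_eq_mul_inv]
  rfl

theorem ceu_tendsto : Tendsto (fun s : ℝ => (s - 1) * ∑' I : Ideal (𝓞 F), ceu_W s I) (𝓝[>] 1)
    (𝓝 (dedekindZeta_residue F)) := by
  refine ((Complex.continuous_re.tendsto _).comp
    (tendsto_sub_one_mul_dedekindZeta_nhdsGT F)).congr' ?_
  filter_upwards [self_mem_nhdsWithin] with s (hs : 1 < s)
  rw [Function.comp_apply, ← ceu_zeta_eq (F := F) (by linarith)]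
  norm_cast

theorem ceu_summable {s : ℝ} (hs : 1 < s) : Summable (ceu_W (F := F) s) := by
  obtain ⟨t, h1, h2⟩ := (((ceu_tendsto (F := F)).eventually
    (lt_mem_nhds (dedekindZeta_residue_pos F))).and (Ioo_mem_nhdsGT hs)).exists
  refine Summable.of_nonneg_of_le (ceu_W_nonneg s) (ceu_W_anti (by linarith [h2.1]) h2.2.le)
    (by_contra fun h => ?_)
  have h' : ∑' I : Ideal (𝓞 F), ceu_W t I = 0 := tsum_eq_zero_of_not_summable h
  rw [h', mul_zero] at h1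
  exact lt_irrefl _ h1

open Classical in
omit [NumberField F] in
theorem ceu_ite_summable {g : Ideal (𝓞 F) → ℂ} (hg : Summable fun I => ‖g I‖)
    (P : Ideal (𝓞 F) → Prop) : Summable fun I => if P I then g I else 0 :=
  Summable.of_norm (Summable.of_nonneg_of_le (fun _ => norm_nonneg _)
    (fun I => by split_ifs; exacts [le_rfl, norm_zero.trans_le (norm_nonneg _)]) hg)

open Classical in
/-- splitting a sieved sum according to divisibility by one more prime -/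
theorem ceu_split {g : Ideal (𝓞 F) → ℂ} (hg : Summable fun I => ‖g I‖)
    (S : Finset (HeightOneSpectrum (𝓞 F))) {𝔭 : HeightOneSpectrum (𝓞 F)} (h : 𝔭 ∉ S) :
    ∑' I, (if ∀ 𝔮 ∈ S, ¬ 𝔮.asIdeal ∣ I then g I else 0) =
      ∑' I, (if ∀ 𝔮 ∈ insert 𝔭 S, ¬ 𝔮.asIdeal ∣ I then g I else 0) +
      ∑' J, (if ∀ 𝔮 ∈ S, ¬ 𝔮.asIdeal ∣ J then g (𝔭.asIdeal * J) else 0) := by
  have e1 : ∑' I, (if 𝔭.asIdeal ∣ I ∧ ∀ 𝔮 ∈ S, ¬ 𝔮.asIdeal ∣ I then g I else 0) =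
      ∑' J, (if ∀ 𝔮 ∈ S, ¬ 𝔮.asIdeal ∣ J then g (𝔭.asIdeal * J) else 0) := by
    rw [← (mul_right_injective₀ 𝔭.prime.ne_zero).tsum_eq]
    · refine tsum_congr fun J => ?_
      have : (∀ 𝔮 ∈ S, ¬ 𝔮.asIdeal ∣ 𝔭.asIdeal * J) ↔ ∀ 𝔮 ∈ S, ¬ 𝔮.asIdeal ∣ J := by
        refine forall₂_congr fun 𝔮 h𝔮 => not_congr (𝔮.prime.dvd_mul.trans (or_iff_right ?_))
        rw [prime_dvd_prime_iff_eq 𝔮.prime 𝔭.prime]
        exact fun e => h (HeightOneSpectrum.ext e ▸ h𝔮)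
      simp only [dvd_mul_right, true_and, this]
    · intro I hI
      obtain ⟨J, rfl⟩ := (ite_ne_right_iff.1 hI).1.1
      exact ⟨J, rfl⟩
  have s1 := ceu_ite_summable hg fun I => ∀ 𝔮 ∈ insert 𝔭 S, ¬ 𝔮.asIdeal ∣ I
  have s2 := ceu_ite_summable hg fun I => 𝔭.asIdeal ∣ I ∧ ∀ 𝔮 ∈ S, ¬ 𝔮.asIdeal ∣ I
  rw [← e1]
  refine Eq.trans (tsum_congr fun I => ?_) ((s1.tsum_add s2).trans ?_)
  · by_cases h1 : 𝔭.asIdeal ∣ I <;> simp [h1]
  · congr 1 <;> exact tsum_congr fun I => by congr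

open Classical in
theorem ceu_sieve_tendsto {g : Ideal (𝓞 F) → ℂ} (hg : Summable fun I => ‖g I‖) (g1 : g ⊤ = 1)
    (g0 : g ⊥ = 0) : Tendsto (fun S : Finset (HeightOneSpectrum (𝓞 F)) =>
      ∑' I, (if ∀ 𝔮 ∈ S, ¬ 𝔮.asIdeal ∣ I then g I else 0)) atTop (𝓝 1) := by
  rw [← tsum_ite_eq (⊤ : Ideal (𝓞 F)) fun _ => (1 : ℂ)]
  refine tendsto_tsum_of_dominated_convergence hg (fun I => ?_)
    (Eventually.of_forall fun S I => ?_)
  · refine tendsto_const_nhds.congr' ?_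
    by_cases h : I = ⊤
    · subst h
      refine Eventually.of_forall fun S => ?_
      have : ∀ 𝔮 ∈ S, ¬ 𝔮.asIdeal ∣ ⊤ := fun 𝔮 _ h =>
        𝔮.isPrime.ne_top (top_le_iff.1 (Ideal.le_of_dvd h))
      simp only [if_pos this, g1, if_true]
    by_cases h0 : I = ⊥
    · subst h0
      refine Eventually.of_forall fun S => ?_
      simp only [if_neg h, g0, ite_self]
    obtain ⟨P, hP, hIP⟩ := I.exists_le_maximal h
    filter_upwards [eventually_ge_atTop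
      {(⟨P, hP.isPrime, fun e => h0 (le_bot_iff.1 (e ▸ hIP))⟩ : HeightOneSpectrum (𝓞 F))}] with S hS
    rw [if_neg h, if_neg fun h' => h' _ (hS (Finset.mem_singleton_self _)) (Ideal.dvd_iff_le.2 hIP)]
  · split_ifs
    · exact le_rfl
    · exact norm_zero.trans_le (norm_nonneg _)

/-- the Euler product of a completely multiplicative function -/
theorem ceu_euler {f : Ideal (𝓞 F) → ℂ} (hf : Summable fun I => ‖f I‖) (f1 : f ⊤ = 1)
    (f0 : f ⊥ = 0) (fm : ∀ I J, f (I * J) = f I * f J) :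
    Tendsto (fun S : Finset (HeightOneSpectrum (𝓞 F)) =>
      (∑' I, f I) * ∏ 𝔮 ∈ S, (1 - f 𝔮.asIdeal)) atTop (𝓝 1) := by
  classical
  refine (ceu_sieve_tendsto hf f1 f0).congr fun S => ?_
  induction S using Finset.induction_on with
  | empty => simp
  | insert 𝔭 S h ih =>
    have e := ceu_split hf S h
    have e2 : ∑' J, (if ∀ 𝔮 ∈ S, ¬ 𝔮.asIdeal ∣ J then f (𝔭.asIdeal * J) else 0) =
        f 𝔭.asIdeal * ∑' J, (if ∀ 𝔮 ∈ S, ¬ 𝔮.asIdeal ∣ J then f J else 0) := by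
      rw [← tsum_mul_left]
      exact tsum_congr fun J => by rw [fm, mul_ite, mul_zero]
    rw [e2, ih] at e
    rw [Finset.prod_insert h]
    linear_combination -e

theorem ceu_mu_top : GQ.muI (⊤ : Ideal (𝓞 F)) = 1 := by
  rw [← Ideal.one_eq_top, GQ.muI, if_pos squarefree_one,
    UniqueFactorizationMonoid.normalizedFactors_one, Multiset.card_zero, pow_zero]

theorem ceu_norm_mu (I : Ideal (𝓞 F)) : ‖GQ.muI I‖ ≤ 1 := by
  unfold GQ.muI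
  split_ifs <;> simp

open Classical in
theorem ceu_mu_mul {p : Ideal (𝓞 F)} (hp : Prime p) (J : Ideal (𝓞 F)) :
    GQ.muI (p * J) = if p ∣ J then 0 else -GQ.muI J := by
  have e : Squarefree (p * J) ↔ ¬ p ∣ J ∧ Squarefree J := by
    rw [squarefree_mul_iff, hp.irreducible.isRelPrime_iff_not_dvd, and_iff_right hp.squarefree]
  by_cases h : p ∣ J
  · rw [if_pos h, GQ.muI, if_neg fun h' => (e.1 h').1 h]
  · rw [if_neg h, GQ.muI, GQ.muI]
    by_cases h2 : Squarefree J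
    · rw [if_pos (e.2 ⟨h, h2⟩), if_pos h2,
        UniqueFactorizationMonoid.normalizedFactors_mul hp.ne_zero h2.ne_zero,
        UniqueFactorizationMonoid.normalizedFactors_irreducible hp.irreducible, Multiset.card_add,
        Multiset.card_singleton, pow_add, pow_one, neg_one_mul]
    · rw [if_neg fun h' => h2 (e.1 h').2, if_neg h2, neg_zero]

theorem ceu_mu_euler {f : Ideal (𝓞 F) → ℂ} (hf : Summable fun I => ‖f I‖) (f1 : f ⊤ = 1)
    (f0 : f ⊥ = 0) (fm : ∀ I J, f (I * J) = f I * f J) :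
    (∑' I, GQ.muI I * f I) * ∑' I, f I = 1 := by
  classical
  have hg : Summable fun I => ‖GQ.muI I * f I‖ :=
    Summable.of_nonneg_of_le (fun _ => norm_nonneg _) (fun I => by
      rw [norm_mul]; exact mul_le_of_le_one_left (norm_nonneg _) (ceu_norm_mu I)) hf
  have key : ∀ S : Finset (HeightOneSpectrum (𝓞 F)), ∑' I, GQ.muI I * f I =
      (∏ 𝔮 ∈ S, (1 - f 𝔮.asIdeal)) *
        ∑' I, (if ∀ 𝔮 ∈ S, ¬ 𝔮.asIdeal ∣ I then GQ.muI I * f I else 0) := by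
    intro S
    induction S using Finset.induction_on with
    | empty => simp
    | insert 𝔭 S h ih =>
      have e := ceu_split hg S h
      have e2 : ∑' J, (if ∀ 𝔮 ∈ S, ¬ 𝔮.asIdeal ∣ J then
          GQ.muI (𝔭.asIdeal * J) * f (𝔭.asIdeal * J) else 0) = -f 𝔭.asIdeal *
          ∑' J, (if ∀ 𝔮 ∈ insert 𝔭 S, ¬ 𝔮.asIdeal ∣ J then GQ.muI J * f J else 0) := by
        rw [← tsum_mul_left]
        refine tsum_congr fun J => ?_
        rw [fm, ceu_mu_mul 𝔭.prime]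
        by_cases h1 : 𝔭.asIdeal ∣ J
        · simp [h1]
        · simp only [h1, if_false, Finset.forall_mem_insert, not_false_eq_true, true_and]
          split_ifs
          · ring
          · rw [mul_zero]
      rw [e2] at e
      rw [Finset.prod_insert h, ih, e]
      ring
  have t := (ceu_euler hf f1 f0 fm).mul
    (ceu_sieve_tendsto hg (by rw [ceu_mu_top, f1, one_mul]) (by rw [f0, mul_zero]))
  rw [one_mul] at t
  refine tendsto_nhds_unique tendsto_const_nhds (t.congr fun S => ?_)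
  rw [key S]
  ring

theorem ceu_card {p : ℕ} (hp : p.Prime) (T : Finset (Ideal (𝓞 F)))
    (hT : ∀ P ∈ T, P.IsPrime ∧ (p : 𝓞 F) ∈ P) : T.card ≤ dg F := by
  have hp0 : (p : 𝓞 F) ≠ 0 := Nat.cast_ne_zero.2 hp.ne_zero
  have hmax : ∀ P ∈ T, P.IsMaximal := fun P hP => (hT P hP).1.isMaximal fun e => by
    have := (hT P hP).2
    rw [e, Ideal.mem_bot] at this
    exact hp0 this
  have hd : ∀ P ∈ T, P ∣ Ideal.span {(p : 𝓞 F)} := fun P hP =>
    Ideal.dvd_iff_le.2 ((Ideal.span_singleton_le_iff_mem _).2 (hT P hP).2)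
  have h1 : ∏ P ∈ T, P ∣ Ideal.span {(p : 𝓞 F)} :=
    Finset.prod_dvd_of_coprime (s := fun P : Ideal (𝓞 F) => P) (fun P hP Q hQ h =>
      Ideal.isCoprime_iff_sup_eq.2 ((hmax P hP).coprime_of_ne (hmax Q hQ) h)) hd
  have h2 := map_dvd Ideal.absNorm h1
  rw [Ideal.absNorm_span_natCast, map_prod, RingOfIntegers.rank] at h2
  refine (Nat.pow_dvd_pow_iff_le_right hp.one_lt).1 (Dvd.dvd.trans ?_ h2)
  rw [← Finset.prod_const]
  refine Finset.prod_dvd_prod_of_dvd _ _ fun P hP => ?_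
  have h3 := map_dvd Ideal.absNorm (hd P hP)
  rw [Ideal.absNorm_span_natCast] at h3
  obtain ⟨i, -, hi⟩ := (Nat.dvd_prime_pow hp).1 h3
  rw [hi]
  refine dvd_pow_self _ fun e => ?_
  rw [e, pow_zero, Ideal.absNorm_eq_one_iff] at hi
  exact (hT P hP).1.ne_top hi

/-- the rational prime below a prime ideal -/
theorem ceu_below : ∃ g : HeightOneSpectrum (𝓞 F) → ℕ, (∀ 𝔭, 2 ≤ g 𝔭) ∧
    (∀ σ : ℝ, 2 ≤ σ → ∀ 𝔭, ceu_W σ 𝔭.asIdeal ≤ 1 / (g 𝔭 : ℝ) ^ 2) ∧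
    ∀ (T : Finset (HeightOneSpectrum (𝓞 F))), ∀ p ∈ T.image g,
      (T.filter fun 𝔭 => g 𝔭 = p).card ≤ dg F := by
  classical
  have hex := fun 𝔭 : HeightOneSpectrum (𝓞 F) =>
    Ideal.exists_prime_and_absNorm_eq_pow 𝔭.asIdeal
  choose g n hn hg hp hN using hex
  refine ⟨g, fun 𝔭 => (hp 𝔭).two_le, fun σ hσ 𝔭 => ?_, fun T p hp' => ?_⟩
  · refine (ceu_W_anti two_pos hσ _).trans ?_
    have h1 : (1 : ℝ) ≤ g 𝔭 := by exact_mod_cast (hp 𝔭).one_le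
    rw [ceu_W, Real.rpow_neg (Nat.cast_nonneg _), Real.rpow_two, hN, one_div]
    refine inv_anti₀ (by positivity) (pow_le_pow_left₀ (by positivity) ?_ 2)
    push_cast
    exact le_self_pow₀ h1 (hn 𝔭).ne'
  · obtain ⟨𝔭, -, rfl⟩ := Finset.mem_image.1 hp'
    rw [← Finset.card_image_of_injective (f := fun a : HeightOneSpectrum (𝓞 F) => a.asIdeal) _
      fun a b h => HeightOneSpectrum.ext h]
    refine ceu_card (hp 𝔭) _ fun P hP => ?_
    obtain ⟨𝔮, h𝔮, rfl⟩ := Finset.mem_image.1 hP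
    exact ⟨𝔮.isPrime, (Finset.mem_filter.1 h𝔮).2 ▸ hg 𝔮⟩

theorem ceu_sub_Icc {T : Finset ℕ} (hT : ∀ m ∈ T, 2 ≤ m) :
    T ⊆ Finset.Icc 2 (T.sup id + 1) := fun m hm =>
  Finset.mem_Icc.2 ⟨hT m hm, (Finset.le_sup (f := id) hm).trans (Nat.le_succ _)⟩

theorem ceu_fac {m : ℕ} (hm : 2 ≤ m) :
    0 ≤ 1 - 1 / (m : ℝ) ^ 2 ∧ 1 - 1 / (m : ℝ) ^ 2 ≤ 1 := by
  have h1 : (2 : ℝ) ≤ m := by exact_mod_cast hm
  have h2 : 1 / (m : ℝ) ^ 2 ≤ 1 := by
    rw [div_le_one (by positivity)]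
    nlinarith
  have h3 : 0 ≤ 1 / (m : ℝ) ^ 2 := by positivity
  constructor <;> linarith

theorem ceu_prod_ge {T : Finset ℕ} (hT : ∀ m ∈ T, 2 ≤ m) :
    1 / 2 ≤ ∏ m ∈ T, (1 - 1 / (m : ℝ) ^ 2) := by
  have e : ∀ N : ℕ, ∏ m ∈ Finset.Icc 2 (N + 1), (1 - 1 / (m : ℝ) ^ 2) =
      ((N : ℝ) + 2) / (2 * ((N : ℝ) + 1)) := by
    intro N
    induction N with
    | zero => simp
    | succ N ih =>
      rw [Finset.prod_Icc_succ_top (by omega), ih]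
      push_cast
      field_simp
      ring
  refine le_trans ?_ (Finset.prod_le_prod_of_subset_of_le_one (ceu_sub_Icc hT)
    (fun m hm => (ceu_fac (Finset.mem_Icc.1 hm).1).1)
    fun m hm _ => (ceu_fac (Finset.mem_Icc.1 hm).1).2)
  rw [e, div_le_div_iff₀ two_pos (by positivity)]
  linarith

theorem ceu_sum_le {T : Finset ℕ} (hT : ∀ m ∈ T, 2 ≤ m) :
    ∑ m ∈ T, 1 / (m : ℝ) ^ 2 ≤ 2 / 3 := by
  have e : ∀ N : ℕ, ∑ m ∈ Finset.Icc 2 (N + 1), 1 / (m : ℝ) ^ 2 ≤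
      2 / 3 - 2 / (2 * (N : ℝ) + 3) := by
    intro N
    induction N with
    | zero => simp
    | succ N ih =>
      rw [Finset.sum_Icc_succ_top (by omega)]
      push_cast
      have h1 : 1 / ((N : ℝ) + 1 + 1) ^ 2 ≤ 2 / (2 * N + 3) - 2 / (2 * (N + 1) + 3) := by
        rw [div_sub_div _ _ (by positivity) (by positivity),
          div_le_div_iff₀ (by positivity) (by positivity)]
        nlinarith
      linarith
  refine (Finset.sum_le_sum_of_subset_of_nonneg (ceu_sub_Icc hT)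
    fun m _ _ => by positivity).trans ((e _).trans ?_)
  exact sub_le_self _ (by positivity)

theorem ceu_prod_primes {σ : ℝ} (hσ : 2 ≤ σ) (S : Finset (HeightOneSpectrum (𝓞 F))) :
    (1 / 2) ^ dg F ≤ ∏ 𝔮 ∈ S, (1 - ceu_W σ 𝔮.asIdeal) := by
  classical
  obtain ⟨g, g2, gW, gc⟩ := ceu_below (F := F)
  have hT : ∀ m ∈ S.image g, 2 ≤ m := fun m hm => by
    obtain ⟨𝔭, -, rfl⟩ := Finset.mem_image.1 hm
    exact g2 𝔭
  calc (1 / 2 : ℝ) ^ dg F ≤ (∏ m ∈ S.image g, (1 - 1 / (m : ℝ) ^ 2)) ^ dg F :=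
        pow_le_pow_left₀ (by norm_num) (ceu_prod_ge hT) _
    _ = ∏ m ∈ S.image g, (1 - 1 / (m : ℝ) ^ 2) ^ dg F := (Finset.prod_pow _ _ _).symm
    _ ≤ ∏ m ∈ S.image g, (1 - 1 / (m : ℝ) ^ 2) ^ (S.filter fun 𝔭 => g 𝔭 = m).card :=
        Finset.prod_le_prod (fun m hm => pow_nonneg (ceu_fac (hT m hm)).1 _) fun m hm =>
          pow_le_pow_of_le_one (ceu_fac (hT m hm)).1 (ceu_fac (hT m hm)).2 (gc S m hm)
    _ = ∏ 𝔮 ∈ S, (1 - 1 / (g 𝔮 : ℝ) ^ 2) :=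
        (Finset.prod_comp (fun m : ℕ => 1 - 1 / (m : ℝ) ^ 2) g).symm
    _ ≤ _ := Finset.prod_le_prod (fun 𝔮 _ => (ceu_fac (g2 𝔮)).1) fun 𝔮 _ => by
        linarith [gW σ hσ 𝔮]

theorem ceu_sum_primes {σ : ℝ} (hσ : 2 ≤ σ) (S : Finset (HeightOneSpectrum (𝓞 F))) :
    ∑ 𝔮 ∈ S, ceu_W σ 𝔮.asIdeal ≤ dg F * (2 / 3) := by
  classical
  obtain ⟨g, g2, gW, gc⟩ := ceu_below (F := F)
  have hT : ∀ m ∈ S.image g, 2 ≤ m := fun m hm => by
    obtain ⟨𝔭, -, rfl⟩ := Finset.mem_image.1 hm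
    exact g2 𝔭
  calc ∑ 𝔮 ∈ S, ceu_W σ 𝔮.asIdeal ≤ ∑ 𝔮 ∈ S, 1 / (g 𝔮 : ℝ) ^ 2 :=
        Finset.sum_le_sum fun 𝔮 _ => gW σ hσ 𝔮
    _ = ∑ m ∈ S.image g, (S.filter fun 𝔭 => g 𝔭 = m).card • (1 / (m : ℝ) ^ 2) :=
        Finset.sum_comp (fun m : ℕ => 1 / (m : ℝ) ^ 2) g
    _ ≤ ∑ m ∈ S.image g, dg F * (1 / (m : ℝ) ^ 2) := by
        refine Finset.sum_le_sum fun m hm => ?_
        rw [nsmul_eq_mul]
        exact mul_le_mul_of_nonneg_right (Nat.cast_le.2 (gc S m hm)) (by positivity)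
    _ ≤ _ := by
        rw [← Finset.mul_sum]
        exact mul_le_mul_of_nonneg_left (ceu_sum_le hT) (Nat.cast_nonneg _)

theorem ceu_tsum_le {σ : ℝ} (hσ : 2 ≤ σ) : ∑' I : Ideal (𝓞 F), ceu_W σ I ≤ 2 ^ dg F := by
  have hs := ceu_summable (F := F) (s := σ) (by linarith)
  have t := ceu_euler (F := F) (f := fun I => (ceu_W σ I : ℂ))
    (hs.congr fun I => by rw [Complex.norm_real, Real.norm_of_nonneg (ceu_W_nonneg _ _)])
    (by simp [ceu_W])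
    (by rw [ceu_W, Ideal.absNorm_bot, Nat.cast_zero, Real.zero_rpow (by linarith),
      Complex.ofReal_zero])
    (fun I J => by
      rw [ceu_W, ceu_W, ceu_W, map_mul, Nat.cast_mul,
        Real.mul_rpow (Nat.cast_nonneg _) (Nat.cast_nonneg _), Complex.ofReal_mul])
  have t2 : Tendsto (fun S : Finset (HeightOneSpectrum (𝓞 F)) =>
      (∑' I : Ideal (𝓞 F), ceu_W σ I) * ∏ 𝔮 ∈ S, (1 - ceu_W σ 𝔮.asIdeal)) atTop (𝓝 1) := by
    refine ((Complex.continuous_re.tendsto _).comp t).congr fun S => ?_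
    rw [Function.comp_apply, ← Complex.ofReal_tsum]
    norm_cast
  have h0 : 0 ≤ ∑' I : Ideal (𝓞 F), ceu_W σ I := tsum_nonneg (ceu_W_nonneg σ)
  have h1 : (∑' I : Ideal (𝓞 F), ceu_W σ I) * (1 / 2) ^ dg F ≤ 1 :=
    ge_of_tendsto' t2 fun S => mul_le_mul_of_nonneg_left (ceu_prod_primes hσ S) h0
  rwa [one_div, inv_pow, mul_inv_le_iff₀ (by positivity), one_mul] at h1

theorem ceu_norm_le {ψ : ℕ → ℂ} (hψ : Psi ψ) {s : ℂ} (hs : 1 < s.re) (J : Ideal (𝓞 F)) :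
    ‖ψ (Ideal.absNorm J) * (Ideal.absNorm J : ℂ) ^ (-s)‖ ≤ ceu_W s.re J := by
  rw [norm_mul, Complex.norm_natCast_cpow_of_re_ne_zero _ (by rw [neg_re]; linarith), neg_re]
  exact mul_le_of_le_one_left (ceu_W_nonneg _ J) (hψ.norm_le _)

theorem ceu_norm_log_le {ψ : ℕ → ℂ} (hψ : Psi ψ) {s : ℂ} (hs : 1 < s.re)
    (P : HeightOneSpectrum (𝓞 F)) :
    ‖-Complex.log (1 - ψ (Ideal.absNorm P.asIdeal) * (Ideal.absNorm P.asIdeal : ℂ) ^ (-s))‖ ≤
      3 / 2 * ceu_W s.re P.asIdeal := by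
  have h1 := ceu_norm_le hψ hs P.asIdeal
  have h2 := Complex.norm_log_one_add_half_le_self
    (z := -(ψ (Ideal.absNorm P.asIdeal) * (Ideal.absNorm P.asIdeal : ℂ) ^ (-s)))
    (by rw [norm_neg]; exact h1.trans (ceu_W_le_half hs.le P))
  rw [norm_neg, ← sub_eq_add_neg] at h2
  rw [norm_neg]
  linarith

theorem ceu_top {ψ : ℕ → ℂ} (hψ : Psi ψ) (s : ℂ) :
    ψ (Ideal.absNorm (⊤ : Ideal (𝓞 F))) * (Ideal.absNorm (⊤ : Ideal (𝓞 F)) : ℂ) ^ (-s) = 1 := by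
  rw [Ideal.absNorm_top, hψ.one, Nat.cast_one, one_cpow, mul_one]

theorem ceu_bot {ψ : ℕ → ℂ} (hψ : Psi ψ) (s : ℂ) :
    ψ (Ideal.absNorm (⊥ : Ideal (𝓞 F))) * (Ideal.absNorm (⊥ : Ideal (𝓞 F)) : ℂ) ^ (-s) = 0 := by
  rw [Ideal.absNorm_bot, hψ.zero, zero_mul]

theorem ceu_mul {ψ : ℕ → ℂ} (hψ : Psi ψ) (s : ℂ) (I J : Ideal (𝓞 F)) :
    ψ (Ideal.absNorm (I * J)) * (Ideal.absNorm (I * J) : ℂ) ^ (-s) =
      ψ (Ideal.absNorm I) * (Ideal.absNorm I : ℂ) ^ (-s) *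
        (ψ (Ideal.absNorm J) * (Ideal.absNorm J : ℂ) ^ (-s)) := by
  rw [map_mul, hψ.mul, Nat.cast_mul, natCast_mul_natCast_cpow]
  ring

end aux

theorem summable_absNorm {σ : ℝ} (hσ : 1 < σ) :
    Summable (fun J : Ideal (𝓞 F) => (Ideal.absNorm J : ℝ) ^ (-σ)) := ceu_summable hσ
theorem tsum_absNorm_le {σ : ℝ} (hσ : 2 ≤ σ) :
    ∑' J : Ideal (𝓞 F), (Ideal.absNorm J : ℝ) ^ (-σ) ≤ 2 ^ dg F := ceu_tsum_le hσ
/-- at most `n` primes above `p` -/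
theorem card_primes_le {p : ℕ} (hp : p.Prime) :
    {P : Ideal (𝓞 F) | P.IsPrime ∧ (p : 𝓞 F) ∈ P}.Finite ∧
    {P : Ideal (𝓞 F) | P.IsPrime ∧ (p : 𝓞 F) ∈ P}.ncard ≤ dg F := by
  have hf : {P : Ideal (𝓞 F) | P.IsPrime ∧ (p : 𝓞 F) ∈ P}.Finite := by
    by_contra h
    obtain ⟨T, hT, hc⟩ := Set.Infinite.exists_subset_card_eq h (dg F + 1)
    have := ceu_card hp T fun P hP => hT hP
    omega
  refine ⟨hf, ?_⟩
  rw [Set.ncard_eq_toFinset_card _ hf]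
  exact ceu_card hp _ fun P hP => hf.mem_toFinset.1 hP
theorem isPrime_of_absNorm {p : ℕ} (hp : p.Prime) {P : Ideal (𝓞 F)} (h : Ideal.absNorm P = p) :
    P.IsPrime ∧ (p : 𝓞 F) ∈ P :=
  ⟨Ideal.isPrime_of_irreducible_absNorm (h ▸ hp), h ▸ Ideal.absNorm_mem P⟩
theorem absNorm_prime {P : Ideal (𝓞 F)} (hP : P.IsPrime) (h0 : P ≠ ⊥) :
    ∃ p f : ℕ, p.Prime ∧ 1 ≤ f ∧ (p : 𝓞 F) ∈ P ∧ Ideal.absNorm P = p ^ f := by
  have := hP.isMaximal h0
  obtain ⟨p, f, hf, hm, hp, hN⟩ := Ideal.exists_prime_and_absNorm_eq_pow P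
  exact ⟨p, f, hp, hf, hm, hN⟩
theorem a1_le {p : ℕ} (hp : p.Prime) : a1 F p ≤ dg F := by
  obtain ⟨h1, h2⟩ := card_primes_le (F := F) hp
  refine le_trans ?_ h2
  exact Set.ncard_le_ncard (s := {P : Ideal (𝓞 F) | Ideal.absNorm P = p})
    (fun P hP => isPrime_of_absNorm hp hP) h1
theorem summable_ZZ {ψ : ℕ → ℂ} (hψ : Psi ψ) {s : ℂ} (hs : 1 < s.re) :
    Summable (fun J : Ideal (𝓞 F) => ‖ψ (Ideal.absNorm J) * (Ideal.absNorm J : ℂ) ^ (-s)‖) :=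
  Summable.of_nonneg_of_le (fun _ => norm_nonneg _) (ceu_norm_le hψ hs) (ceu_summable hs)
theorem summable_ell {ψ : ℕ → ℂ} (hψ : Psi ψ) {s : ℂ} (hs : 1 < s.re) :
    Summable (fun P : IsDedekindDomain.HeightOneSpectrum (𝓞 F) => ‖-Complex.log
      (1 - ψ (Ideal.absNorm P.asIdeal) * (Ideal.absNorm P.asIdeal : ℂ) ^ (-s))‖) :=
  Summable.of_nonneg_of_le (fun _ => norm_nonneg _) (ceu_norm_log_le hψ hs)
    (((ceu_summable hs).comp_injective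
      fun _ _ h => IsDedekindDomain.HeightOneSpectrum.ext h).mul_left _)
theorem ZZ_eq_exp {ψ : ℕ → ℂ} (hψ : Psi ψ) {s : ℂ} (hs : 1 < s.re) :
    ZZ F ψ s = Complex.exp (ell F ψ s) := by
  have t1 := ceu_euler (summable_ZZ (F := F) hψ hs) (ceu_top hψ s) (ceu_bot hψ s) (ceu_mul hψ s)
  have t2 := (Complex.continuous_exp.tendsto _).comp
    (summable_ell (F := F) hψ hs).of_norm.hasSum
  have t3 := t1.mul t2
  rw [one_mul] at t3
  refine tendsto_nhds_unique tendsto_const_nhds (t3.congr fun S => ?_)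
  rw [Function.comp_apply, Complex.exp_sum, mul_assoc, ← Finset.prod_mul_distrib,
    Finset.prod_eq_one, mul_one, ZZ]
  intro P _
  have h0 : 1 - ψ (Ideal.absNorm P.asIdeal) * (Ideal.absNorm P.asIdeal : ℂ) ^ (-s) ≠ 0 := by
    intro h
    have h1 := (ceu_norm_le hψ hs P.asIdeal).trans (ceu_W_le_half hs.le P)
    rw [← sub_eq_zero.1 h, norm_one] at h1
    norm_num at h1
  rw [Complex.exp_neg, Complex.exp_log h0, mul_inv_cancel₀ h0]
theorem norm_ell_le {ψ : ℕ → ℂ} (hψ : Psi ψ) {s : ℂ} (hs : 2 ≤ s.re) : ‖ell F ψ s‖ ≤ dg F := by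
  have hs' : 1 < s.re := by linarith
  refine (norm_tsum_le_tsum_norm (summable_ell hψ hs')).trans
    (Real.tsum_le_of_sum_le (fun _ => norm_nonneg _) fun S => ?_)
  refine (Finset.sum_le_sum fun P _ => ceu_norm_log_le hψ hs' P).trans ?_
  rw [← Finset.mul_sum]
  linarith [ceu_sum_primes hs S]
theorem mu_mul_ZZ {ψ : ℕ → ℂ} (hψ : Psi ψ) {s : ℂ} (hs : 1 < s.re) :
    (∑' J : Ideal (𝓞 F), GQ.muI J * ψ (Ideal.absNorm J) * (Ideal.absNorm J : ℂ) ^ (-s)) *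
      ZZ F ψ s = 1 := by
  simp only [mul_assoc]
  exact ceu_mu_euler (summable_ZZ hψ hs) (ceu_top hψ s) (ceu_bot hψ s) (ceu_mul hψ s)

end Crest.Agent.GC
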