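import Crest.Agent.GQ.CEuler

/-! # GQ CEuler2: the logarithmic derivative -/

set_option autoImplicit false

noncomputable section

open NumberField Complex MeasureTheory
open scoped nonZeroDivisors

namespace Crest.Agent.GC

/-- the local term -/
def ce2_z (N : ℕ) (s : ℂ) : ℂ := chi0 N * (N : ℂ) ^ (-s)
/-- the bound for the local term -/
def ce2_c : ℝ := (2 : ℝ) ^ (-(3 / 4 : ℝ))
/-- the main part of the local logarithmic derivative -/
def ce2_m (N : ℕ) (s : ℂ) : ℂ := if N.Prime then (Real.log N : ℂ) * ce2_z N s else 0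
/-- the error part of the local logarithmic derivative -/
def ce2_e (N : ℕ) (s : ℂ) : ℂ :=
  (if N.Prime then 0 else (Real.log N : ℂ) * ce2_z N s) +
    (Real.log N : ℂ) * ce2_z N s ^ 2 / (1 - ce2_z N s)

lemma ce2_c_lt : ce2_c < 1 :=
  Real.rpow_lt_one_of_one_lt_of_neg (by norm_num) (by norm_num)

lemma ce2_norm_z {N : ℕ} (hN : 0 < N) (s : ℂ) : ‖ce2_z N s‖ ≤ (N : ℝ) ^ (-s.re) := by
  rw [ce2_z, norm_mul, norm_natCast_cpow_of_pos hN, neg_re]
  exact mul_le_of_le_one_left (by positivity) (psi_chi0.norm_le N)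

lemma ce2_norm_z' {N : ℕ} (hN : 0 < N) {s : ℂ} {σ : ℝ} (hs : σ ≤ s.re) :
    ‖ce2_z N s‖ ≤ (N : ℝ) ^ (-σ) :=
  (ce2_norm_z hN s).trans
    (Real.rpow_le_rpow_of_exponent_le (by exact_mod_cast hN) (by linarith))

lemma ce2_norm_z_le {N : ℕ} (hN : 2 ≤ N) {s : ℂ} (hs : 3 / 4 < s.re) : ‖ce2_z N s‖ ≤ ce2_c :=
  (ce2_norm_z' (by omega) hs.le).trans
    (Real.rpow_le_rpow_of_nonpos (by norm_num) (by exact_mod_cast hN) (by norm_num))

lemma ce2_one_sub {N : ℕ} (hN : 2 ≤ N) {s : ℂ} (hs : 3 / 4 < s.re) :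
    1 - ce2_c ≤ ‖1 - ce2_z N s‖ := by
  have h := norm_sub_norm_le (1 : ℂ) (ce2_z N s)
  rw [norm_one] at h
  linarith [ce2_norm_z_le hN hs]

lemma ce2_one_sub_ne {N : ℕ} (hN : 2 ≤ N) {s : ℂ} (hs : 3 / 4 < s.re) : 1 - ce2_z N s ≠ 0 := by
  intro h
  have := ce2_one_sub hN hs
  rw [h, norm_zero] at this
  linarith [ce2_c_lt]

lemma ce2_hasDerivAt_z {N : ℕ} (hN : 0 < N) (s : ℂ) :
    HasDerivAt (ce2_z N) (-((Real.log N : ℂ) * ce2_z N s)) s := by
  have h0 : (N : ℂ) ≠ 0 := by exact_mod_cast hN.ne'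
  have h := ((hasDerivAt_neg s).const_cpow (c := (N : ℂ)) (Or.inl h0)).const_mul (chi0 N)
  rw [← Complex.natCast_log] at h
  refine h.congr_deriv ?_
  rw [ce2_z]; ring

lemma ce2_hasDerivAt_log {N : ℕ} (hN : 2 ≤ N) {s : ℂ} (hs : 3 / 4 < s.re) :
    HasDerivAt (fun s => -Complex.log (1 - ce2_z N s))
      (-((Real.log N : ℂ) * ce2_z N s / (1 - ce2_z N s))) s := by
  have h1 : 1 - ce2_z N s ∈ slitPlane := by
    have := mem_slitPlane_of_norm_lt_one (z := -ce2_z N s)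
      (by rw [norm_neg]; exact (ce2_norm_z_le hN hs).trans_lt ce2_c_lt)
    rwa [← sub_eq_add_neg] at this
  have h := (((ce2_hasDerivAt_z (N := N) (by omega) s).const_sub 1).clog h1).neg
  refine h.congr_deriv ?_
  ring

lemma ce2_split {N : ℕ} (hN : 2 ≤ N) {s : ℂ} (hs : 3 / 4 < s.re) :
    (Real.log N : ℂ) * ce2_z N s / (1 - ce2_z N s) = ce2_m N s + ce2_e N s := by
  have h := ce2_one_sub_ne hN hs
  unfold ce2_m ce2_e
  split_ifs <;> field_simp <;> ring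

lemma ce2_log_mul {N : ℕ} (hN : 0 < N) {ε a : ℝ} (hε : 0 < ε) :
    Real.log N * (N : ℝ) ^ (-a) ≤ (N : ℝ) ^ (-(a - ε)) / ε := by
  have hN' : (0 : ℝ) < N := by exact_mod_cast hN
  have h := Real.log_le_rpow_div hN'.le hε
  calc Real.log N * (N : ℝ) ^ (-a) ≤ (N : ℝ) ^ ε / ε * (N : ℝ) ^ (-a) :=
        mul_le_mul_of_nonneg_right h (by positivity)
    _ = (N : ℝ) ^ (-(a - ε)) / ε := by
        rw [div_mul_eq_mul_div, ← Real.rpow_add hN']; congr 2; ring

lemma ce2_norm_log (N : ℕ) : ‖(Real.log N : ℂ)‖ = Real.log N := by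
  rw [Complex.norm_real, Real.norm_of_nonneg (Real.log_natCast_nonneg N)]

lemma ce2_norm_log_z {N : ℕ} (hN : 0 < N) {s : ℂ} {σ ε : ℝ} (hs : σ ≤ s.re) (hε : 0 < ε) :
    ‖(Real.log N : ℂ) * ce2_z N s‖ ≤ (N : ℝ) ^ (-(σ - ε)) / ε := by
  rw [norm_mul, ce2_norm_log]
  exact (mul_le_mul_of_nonneg_left (ce2_norm_z' hN hs) (Real.log_natCast_nonneg N)).trans
    (ce2_log_mul hN hε)

lemma ce2_rpow_le {p N : ℕ} (hp : 0 < p) (h : p ≤ N) {a : ℝ} (ha : 0 ≤ a) :
    (N : ℝ) ^ (-a) ≤ (p : ℝ) ^ (-a) :=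
  Real.rpow_le_rpow_of_nonpos (by exact_mod_cast hp) (by exact_mod_cast h) (by linarith)

/-- the constant of the error term -/
def ce2_K : ℝ := 8 + 4 / (1 - ce2_c)

lemma ce2_K_pos : 0 < ce2_K := by
  have := ce2_c_lt
  have : 0 < 4 / (1 - ce2_c) := div_pos (by norm_num) (by linarith)
  unfold ce2_K; linarith

lemma ce2_norm_e {p f : ℕ} (hp : p.Prime) (hf : 1 ≤ f) {s : ℂ} (hs : 3 / 4 < s.re) :
    ‖ce2_e (p ^ f) s‖ ≤ ce2_K * (p : ℝ) ^ (-(5 / 4 : ℝ)) := by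
  have hpN : p ≤ p ^ f := Nat.le_self_pow (by omega) p
  have hN : 2 ≤ p ^ f := hp.two_le.trans hpN
  have hc : 0 < 1 - ce2_c := by linarith [ce2_c_lt]
  have hp0 : (0 : ℝ) < p := by exact_mod_cast hp.pos
  set N := p ^ f with hNdef
  have h1 : ‖(if N.Prime then 0 else (Real.log N : ℂ) * ce2_z N s)‖ ≤
      8 * (p : ℝ) ^ (-(5 / 4 : ℝ)) := by
    split_ifs with h
    · rw [norm_zero]; positivity
    · have hf2 : 2 ≤ f := by
        by_contra h2
        have : f = 1 := by omega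
        apply h; rw [hNdef, this, pow_one]; exact hp
      have h2 : p ^ 2 ≤ N := Nat.pow_le_pow_right hp.pos hf2
      have h3 := ce2_norm_log_z (N := N) (by omega) hs.le (ε := 1 / 8) (by norm_num)
      have h4 := ce2_rpow_le (p := p ^ 2) (pow_pos hp.pos 2) h2 (a := 3 / 4 - 1 / 8) (by norm_num)
      have h5 : ((p ^ 2 : ℕ) : ℝ) ^ (-(3 / 4 - 1 / 8 : ℝ)) = (p : ℝ) ^ (-(5 / 4 : ℝ)) := by
        rw [Nat.cast_pow, ← Real.rpow_natCast, ← Real.rpow_mul hp0.le]; congr 1; norm_num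
      rw [h5] at h4
      linarith
  have h2 : ‖(Real.log N : ℂ) * ce2_z N s ^ 2 / (1 - ce2_z N s)‖ ≤
      4 / (1 - ce2_c) * (p : ℝ) ^ (-(5 / 4 : ℝ)) := by
    have hN0 : (0 : ℝ) < N := by exact_mod_cast (by omega : 0 < N)
    have h3 : ‖ce2_z N s‖ ^ 2 ≤ (N : ℝ) ^ (-(3 / 2 : ℝ)) := by
      have := pow_le_pow_left₀ (norm_nonneg _) (ce2_norm_z' (N := N) (by omega) hs.le) 2
      rw [← Real.rpow_natCast ((N : ℝ) ^ _), ← Real.rpow_mul hN0.le] at this
      rwa [show (-(3 / 4 : ℝ) * ((2 : ℕ) : ℝ)) = -(3 / 2) by norm_num] at this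
    have h4 := ce2_log_mul (N := N) (by omega) (ε := 1 / 4) (a := 3 / 2) (by norm_num)
    have h5 := ce2_rpow_le hp.pos hpN (a := 5 / 4) (by norm_num)
    rw [show (3 / 2 - 1 / 4 : ℝ) = 5 / 4 by norm_num] at h4
    have h6 : Real.log N * ‖ce2_z N s‖ ^ 2 ≤ 4 * (p : ℝ) ^ (-(5 / 4 : ℝ)) := by
      have := mul_le_mul_of_nonneg_left h3 (Real.log_natCast_nonneg N)
      linarith
    rw [norm_div, norm_mul, norm_pow, ce2_norm_log, div_mul_eq_mul_div]
    exact div_le_div₀ (by positivity) h6 hc (ce2_one_sub hN hs)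
  unfold ce2_e ce2_K
  refine (norm_add_le _ _).trans ?_
  linarith

lemma ce2_diff_e {N : ℕ} (hN : 2 ≤ N) :
    DifferentiableOn ℂ (ce2_e N) {s : ℂ | 3 / 4 < s.re} := by
  have hz : Differentiable ℂ (ce2_z N) := fun s =>
    (ce2_hasDerivAt_z (N := N) (by omega) s).differentiableAt
  intro s hs
  refine DifferentiableAt.differentiableWithinAt ?_
  unfold ce2_e
  refine DifferentiableAt.add ?_ ?_
  · split_ifs
    · exact differentiableAt_const _
    · exact (hz s).const_mul _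
  · exact (((hz s).pow 2).const_mul _).div ((hz s).const_sub 1) (ce2_one_sub_ne hN hs)

section field

variable {F : Type} [Field F] [NumberField F]

/-- the norm of a prime -/
def ce2_N (P : IsDedekindDomain.HeightOneSpectrum (𝓞 F)) : ℕ := Ideal.absNorm P.asIdeal

lemma ce2_N_eq (P : IsDedekindDomain.HeightOneSpectrum (𝓞 F)) :
    ∃ f : ℕ, (ce2_N P).minFac.Prime ∧ 1 ≤ f ∧ (((ce2_N P).minFac : ℕ) : 𝓞 F) ∈ P.asIdeal ∧
      ce2_N P = (ce2_N P).minFac ^ f := by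
  obtain ⟨p, f, hp, hf, hm, h⟩ := absNorm_prime P.isPrime P.ne_bot
  have : (ce2_N P).minFac = p := by
    rw [ce2_N, h]; exact hp.pow_minFac (by omega)
  rw [this]
  exact ⟨f, hp, hf, hm, h⟩

lemma ce2_two_le (P : IsDedekindDomain.HeightOneSpectrum (𝓞 F)) : 2 ≤ ce2_N P := by
  obtain ⟨f, hp, hf, -, h⟩ := ce2_N_eq P
  rw [h]
  exact hp.two_le.trans (Nat.le_self_pow (by omega) _)

lemma ce2_sum_le {g : ℕ → ℝ} (hg0 : ∀ p, 0 ≤ g p) (hg : Summable g)
    (T : Finset (IsDedekindDomain.HeightOneSpectrum (𝓞 F))) :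
    ∑ P ∈ T, g (ce2_N P).minFac ≤ dg F * ∑' p, g p := by
  classical
  rw [Finset.sum_comp g (fun P => (ce2_N P).minFac)]
  have h1 : ∀ p ∈ T.image (fun P => (ce2_N P).minFac),
      (T.filter fun P => (ce2_N P).minFac = p).card • g p ≤ dg F * g p := by
    intro p hp
    obtain ⟨P, -, rfl⟩ := Finset.mem_image.1 hp
    obtain ⟨f, hp, -⟩ := ce2_N_eq P
    obtain ⟨hfin, hcard⟩ := card_primes_le (F := F) hp
    rw [nsmul_eq_mul]
    refine mul_le_mul_of_nonneg_right ?_ (hg0 _)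
    have h2 : (T.filter fun Q => (ce2_N Q).minFac = (ce2_N P).minFac).card ≤
        {Q : Ideal (𝓞 F) | Q.IsPrime ∧ (((ce2_N P).minFac : ℕ) : 𝓞 F) ∈ Q}.ncard := by
      rw [← Set.ncard_coe_finset]
      refine Set.ncard_le_ncard_of_injOn (fun Q => Q.asIdeal) ?_ ?_ hfin
      · intro Q hQ
        rw [Finset.coe_filter] at hQ
        obtain ⟨f', -, -, hm, -⟩ := ce2_N_eq Q
        rw [hQ.2] at hm
        exact ⟨Q.isPrime, hm⟩
      · intro Q _ Q' _ h
        exact IsDedekindDomain.HeightOneSpectrum.ext h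
    exact_mod_cast h2.trans hcard
  refine (Finset.sum_le_sum h1).trans ?_
  rw [← Finset.mul_sum]
  exact mul_le_mul_of_nonneg_left (hg.sum_le_tsum _ fun p _ => hg0 p) (Nat.cast_nonneg _)

lemma ce2_summable {g : ℕ → ℝ} (hg0 : ∀ p, 0 ≤ g p) (hg : Summable g) :
    Summable fun P : IsDedekindDomain.HeightOneSpectrum (𝓞 F) => g (ce2_N P).minFac :=
  summable_of_sum_le (fun _ => hg0 _) (ce2_sum_le hg0 hg)

lemma ce2_tsum_le {g : ℕ → ℝ} (hg0 : ∀ p, 0 ≤ g p) (hg : Summable g) :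
    ∑' P : IsDedekindDomain.HeightOneSpectrum (𝓞 F), g (ce2_N P).minFac ≤ dg F * ∑' p, g p :=
  (ce2_summable hg0 hg).tsum_le_of_sum_le (ce2_sum_le hg0 hg)

lemma ce2_summable_rpow {a : ℝ} (ha : 1 < a) (K : ℝ) :
    Summable fun p : ℕ => K * (p : ℝ) ^ (-a) :=
  (Real.summable_nat_rpow.2 (by linarith)).mul_left K

lemma ce2_norm_e' (P : IsDedekindDomain.HeightOneSpectrum (𝓞 F)) {s : ℂ} (hs : 3 / 4 < s.re) :
    ‖ce2_e (ce2_N P) s‖ ≤ ce2_K * ((ce2_N P).minFac : ℝ) ^ (-(5 / 4 : ℝ)) := by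
  obtain ⟨f, hp, hf, -, h⟩ := ce2_N_eq P
  have := ce2_norm_e hp hf hs
  rwa [← h] at this

lemma ce2_summable_e_bound :
    Summable fun P : IsDedekindDomain.HeightOneSpectrum (𝓞 F) =>
      ce2_K * ((ce2_N P).minFac : ℝ) ^ (-(5 / 4 : ℝ)) :=
  ce2_summable (g := fun p => ce2_K * (p : ℝ) ^ (-(5 / 4 : ℝ)))
    (fun p => mul_nonneg ce2_K_pos.le (by positivity)) (ce2_summable_rpow (by norm_num) _)

lemma ce2_norm_log_z' (P : IsDedekindDomain.HeightOneSpectrum (𝓞 F)) {s : ℂ} {σ ε : ℝ}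
    (hs : σ ≤ s.re) (hε : 0 < ε) (h : ε ≤ σ) :
    ‖(Real.log (ce2_N P) : ℂ) * ce2_z (ce2_N P) s‖ ≤
      1 / ε * ((ce2_N P).minFac : ℝ) ^ (-(σ - ε)) := by
  have h2 := ce2_two_le P
  refine (ce2_norm_log_z (by omega) hs hε).trans ?_
  rw [div_eq_inv_mul, one_div]
  exact mul_le_mul_of_nonneg_left (ce2_rpow_le (Nat.minFac_pos _) (Nat.minFac_le (by omega))
    (by linarith)) (by positivity)

lemma ce2_summable_m {s : ℂ} (hs : 1 < s.re) :
    Summable fun P : IsDedekindDomain.HeightOneSpectrum (𝓞 F) => ce2_m (ce2_N P) s := by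
  have hε : 0 < (s.re - 1) / 2 := by linarith
  refine Summable.of_norm_bounded (ce2_summable
    (g := fun p => 1 / ((s.re - 1) / 2) * (p : ℝ) ^ (-(s.re - (s.re - 1) / 2)))
    (fun p => by positivity) (ce2_summable_rpow (by linarith) _)) fun P => ?_
  unfold ce2_m
  split_ifs
  · exact ce2_norm_log_z' P le_rfl hε (by linarith)
  · rw [norm_zero]; positivity

lemma ce2_card {p : ℕ} (hp : p.Prime) :
    Nat.card ((ce2_N (F := F)) ⁻¹' {p}) = a1 F p := by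
  unfold a1
  refine Nat.card_congr ⟨fun P => ⟨P.1.asIdeal, P.2⟩, fun P => ⟨⟨P.1, (isPrime_of_absNorm hp P.2).1,
    fun h => ?_⟩, P.2⟩, fun _ => rfl, fun _ => rfl⟩
  have := P.2
  rw [h, Ideal.absNorm_bot] at this
  exact hp.ne_zero this.symm

lemma ce2_tsum_m {s : ℂ} (hs : 1 < s.re) :
    ∑' P : IsDedekindDomain.HeightOneSpectrum (𝓞 F), ce2_m (ce2_N P) s =
      ∑' p : ℕ, (bP F p : ℂ) * (p : ℂ) ^ (-s) := by
  rw [← ((ce2_summable_m (F := F) hs).hasSum.tsum_fiberwise ce2_N).tsum_eq]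
  refine tsum_congr fun p => ?_
  have h1 : ∀ P : (ce2_N (F := F)) ⁻¹' {p}, ce2_m (ce2_N P.1) s = ce2_m p s := fun P => by
    have : ce2_N P.1 = p := P.2
    rw [this]
  rw [tsum_congr h1, tsum_const, nsmul_eq_mul]
  unfold ce2_m bP
  by_cases hp : p.Prime
  · rw [if_pos hp, ce2_card hp, ce2_z, chi0]
    by_cases h3 : p = 3
    · rw [if_pos (by rw [h3]), if_neg (fun h => h.2 h3)]; simp
    · rw [if_neg (fun h => h3 ((Nat.prime_dvd_prime_iff_eq Nat.prime_three hp).1 h).symm),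
        if_pos ⟨hp, h3⟩]
      push_cast; ring
  · rw [if_neg hp, if_neg (fun h => hp h.1)]; simp

lemma ce2_hasDerivAt_ell {s : ℂ} (hs : 1 < s.re) :
    HasDerivAt (ell F chi0) (∑' P : IsDedekindDomain.HeightOneSpectrum (𝓞 F),
      -((Real.log (ce2_N P) : ℂ) * ce2_z (ce2_N P) s / (1 - ce2_z (ce2_N P) s))) s := by
  have hc : 0 < 1 - ce2_c := by linarith [ce2_c_lt]
  set σ := (1 + s.re) / 2 with hσ
  have hσ1 : 1 < σ := by linarith
  have hε : 0 < (σ - 1) / 2 := by linarith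
  have hu := ce2_summable (F := F)
    (g := fun p => (1 / ((σ - 1) / 2) / (1 - ce2_c)) * (p : ℝ) ^ (-(σ - (σ - 1) / 2)))
    (fun p => by positivity) (ce2_summable_rpow (by linarith) _)
  have hs' : s ∈ {z : ℂ | σ < z.re} := by
    show σ < s.re
    linarith
  refine hasDerivAt_tsum_of_isPreconnected (t := {z : ℂ | σ < z.re})
    (g := fun P z => -Complex.log (1 - ce2_z (ce2_N P) z))
    (g' := fun P z => -((Real.log (ce2_N P) : ℂ) * ce2_z (ce2_N P) z / (1 - ce2_z (ce2_N P) z)))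
    hu (isOpen_lt continuous_const Complex.continuous_re)
    (convex_halfSpace_re_gt σ).isPreconnected (fun P y hy => ?_) (fun P y hy => ?_) hs' ?_ hs'
  · have : σ < y.re := hy
    exact ce2_hasDerivAt_log (ce2_two_le P) (by linarith)
  · have hy' : σ < y.re := hy
    rw [norm_neg, norm_div, div_mul_eq_mul_div]
    exact div_le_div₀ (by positivity) (ce2_norm_log_z' P hy'.le hε (by linarith)) hc
      (ce2_one_sub (ce2_two_le P) (by linarith))
  · exact (summable_ell psi_chi0 hs).of_norm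

end field

theorem summable_bP (F : Type) [Field F] [NumberField F] :
    Summable (fun p : ℕ => |bP F p| / (p : ℝ) ^ 2) := by
  refine Summable.of_nonneg_of_le (fun p => by positivity) (fun p => ?_)
    (ce2_summable_rpow (a := 3 / 2) (by norm_num) (dg F * 2))
  unfold bP
  split_ifs with h
  · have hp0 : (0 : ℝ) < p := by exact_mod_cast h.1.pos
    have h1 : (a1 F p : ℝ) ≤ dg F := by exact_mod_cast a1_le h.1
    have h2 := ce2_log_mul h.1.pos (ε := 1 / 2) (a := 2) (by norm_num)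
    have h3 := Real.log_natCast_nonneg p
    rw [show (2 - 1 / 2 : ℝ) = 3 / 2 by norm_num, Real.rpow_neg hp0.le, Real.rpow_two] at h2
    rw [abs_of_nonneg (by positivity), div_eq_mul_inv, mul_assoc, mul_assoc]
    refine mul_le_mul h1 (by linarith) (by positivity) (Nat.cast_nonneg _)
  · rw [abs_zero, zero_div]; positivity

theorem logDeriv_ZZ : ∃ C : ℝ, 0 < C ∧ ∀ (F : Type) [Field F] [NumberField F], ∃ E : ℂ → ℂ,
    DifferentiableOn ℂ E {s : ℂ | 3 / 4 < s.re} ∧ (∀ s : ℂ, 3 / 4 < s.re → ‖E s‖ ≤ C * dg F) ∧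
    ∀ s : ℂ, 1 < s.re → HasDerivAt (ZZ F chi0)
      (-((∑' p : ℕ, (bP F p : ℂ) * (p : ℂ) ^ (-s)) + E s) * ZZ F chi0 s) s := by
  have hg0 : ∀ p : ℕ, 0 ≤ ce2_K * (p : ℝ) ^ (-(5 / 4 : ℝ)) := fun p =>
    mul_nonneg ce2_K_pos.le (by positivity)
  have hS : 0 ≤ ∑' p : ℕ, ce2_K * (p : ℝ) ^ (-(5 / 4 : ℝ)) := tsum_nonneg hg0
  refine ⟨(∑' p : ℕ, ce2_K * (p : ℝ) ^ (-(5 / 4 : ℝ))) + 1, by linarith, fun F _ _ =>
    ⟨fun s => ∑' P : IsDedekindDomain.HeightOneSpectrum (𝓞 F), ce2_e (ce2_N P) s, ?_, ?_, ?_⟩⟩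
  · exact differentiableOn_tsum_of_summable_norm ce2_summable_e_bound
      (fun P => ce2_diff_e (ce2_two_le P)) (isOpen_lt continuous_const Complex.continuous_re)
      (fun P w hw => ce2_norm_e' P hw)
  · intro s hs
    have h1 := tsum_of_norm_bounded (ce2_summable_e_bound (F := F)).hasSum
      (fun P => ce2_norm_e' P hs)
    have h2 := ce2_tsum_le (F := F) hg0 (ce2_summable_rpow (by norm_num) _)
    have h3 : (0 : ℝ) ≤ dg F := Nat.cast_nonneg _
    nlinarith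
  · intro s hs
    have hs' : 3 / 4 < s.re := by linarith
    have h1 := (ce2_hasDerivAt_ell (F := F) hs).cexp
    have h2 : ZZ F chi0 =ᶠ[nhds s] fun z => Complex.exp (ell F chi0 z) := by
      filter_upwards [(isOpen_lt continuous_const Complex.continuous_re).mem_nhds hs] with z hz
      exact ZZ_eq_exp psi_chi0 hz
    have h3 := h1.congr_of_eventuallyEq h2
    have h4 : Summable fun P : IsDedekindDomain.HeightOneSpectrum (𝓞 F) => ce2_e (ce2_N P) s :=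
      Summable.of_norm_bounded ce2_summable_e_bound (fun P => ce2_norm_e' P hs')
    refine h3.congr_deriv (Eq.symm ?_)
    rw [← ZZ_eq_exp psi_chi0 hs, mul_comm, tsum_neg, ← ce2_tsum_m hs,
      ← (ce2_summable_m hs).tsum_add h4]
    congr 2
    exact tsum_congr fun P => (ce2_split (ce2_two_le P) hs').symm

end Crest.Agent.GC
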