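import Crest.Agent.GQ.CHecke1
import Crest.Agent.R017.FE1AuxB

/-! # GQ CHecke: continuation with explicit growth -/

set_option autoImplicit false

noncomputable section

open NumberField Complex MeasureTheory
open scoped nonZeroDivisors

namespace Crest.Agent.GC

open Classical in
theorem ch2_sum_le {α β : Type*} (A : Finset β) (C : β → Set α)
    (hC : ∀ J, ∀ a ∈ A, ∀ a' ∈ A, J ∈ C a → J ∈ C a' → a = a') {f : α → ℝ} (hf0 : ∀ J, 0 ≤ f J)
    (hf : Summable f) : ∑ a ∈ A, (∑' J, if J ∈ C a then f J else 0) ≤ ∑' J, f J := by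
  have hs : ∀ a ∈ A, Summable (fun J => if J ∈ C a then f J else 0) := fun a _ =>
    hf.of_nonneg_of_le (fun J => by split_ifs <;> simp [hf0 J])
      (fun J => by split_ifs <;> simp [hf0 J])
  rw [← Summable.tsum_finsetSum hs]
  refine (summable_sum hs).tsum_le_tsum (fun J => ?_) hf
  by_cases h : ∃ a ∈ A, J ∈ C a
  · obtain ⟨a, ha, hJ⟩ := h
    rw [Finset.sum_eq_single_of_mem a ha fun a' ha' hne =>
      if_neg fun h' => hne (hC J a' ha' a ha h' hJ), if_pos hJ]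
  · rw [Finset.sum_eq_zero fun a ha => if_neg fun h' => h ⟨a, ha, h'⟩]
    exact hf0 J

section
variable {F : Type} [Field F] [NumberField F]

theorem ch2_sum_Zc {ψ : ℕ → ℂ} (hψ : Psi ψ) {𝒜 : Finset (Ideal (𝓞 F))}
    (h : ∀ J : Ideal (𝓞 F), J ≠ ⊥ → ∃! a, a ∈ 𝒜 ∧ J ∈ Cl (a : FI F)) {s : ℂ} (hs : 1 < s.re) :
    ∑ a ∈ 𝒜, Zc (a : FI F) (fun J => ψ (Ideal.absNorm J)) s = ZZ F ψ s := by
  classical
  have hs' : ∀ a ∈ 𝒜, Summable (fun J : Ideal (𝓞 F) => if J ∈ Cl (a : FI F) then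
      ψ (Ideal.absNorm J) * (Ideal.absNorm J : ℂ) ^ (-s) else 0) := fun a _ =>
    Summable.of_norm_bounded (summable_ZZ hψ hs) fun J => by
      split_ifs
      · exact le_rfl
      · rw [norm_zero]; exact norm_nonneg _
  unfold Zc ZZ
  rw [← Summable.tsum_finsetSum hs']
  refine tsum_congr fun J => ?_
  by_cases hJ : J = ⊥
  · subst hJ
    simp [hψ.zero]
  · obtain ⟨a, ⟨ha, hJa⟩, hu⟩ := h J hJ
    rw [Finset.sum_eq_single_of_mem a ha fun a' ha' hne =>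
      if_neg fun h' => hne (hu a' ⟨ha', h'⟩), if_pos hJa]

theorem ch2_not_bot {a : Ideal (𝓞 F)} (ha : a ≠ ⊥) : (⊥ : Ideal (𝓞 F)) ∉ Cl (a : FI F) := by
  rintro ⟨β, -, hβ, h⟩
  have h1 : (a : FI F) ≠ 0 := FractionalIdeal.coeIdeal_ne_zero.2 ha
  rw [FractionalIdeal.coeIdeal_bot] at h
  exact mul_ne_zero (FractionalIdeal.spanSingleton_ne_zero_iff.2 hβ) (inv_ne_zero h1) h.symm

theorem ch2_gamR {σ : ℝ} (hσ : σ = 2 ∨ σ = 4) : 0 ≤ gamR F σ ∧ gamR F σ ≤ 1 := by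
  have hπ := Real.pi_gt_three
  have h0 : 0 < σ := by rcases hσ with rfl | rfl <;> norm_num
  have hG := Real.Gamma_pos_of_pos h0
  refine ⟨by unfold gamR; positivity, pow_le_one₀ (by positivity) ?_⟩
  rw [Real.rpow_neg Real.pi_pos.le, div_le_one (by norm_num), inv_mul_le_iff₀ (by positivity)]
  rcases hσ with rfl | rfl
  · rw [Real.Gamma_two, Real.rpow_two]; nlinarith
  · have h1 : Real.Gamma 4 = 6 := by
      have := Real.Gamma_nat_eq_factorial 3
      norm_num [Nat.factorial] at this ⊢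
    have h2 : Real.pi ^ (4 : ℝ) = Real.pi ^ 4 := by exact_mod_cast Real.rpow_natCast Real.pi 4
    have h3 : (3 : ℝ) ^ 4 ≤ Real.pi ^ 4 := by gcongr
    rw [h1, h2]; linarith

/-- the inverse of the gamma factor -/
def ch2_G (F : Type) [Field F] [NumberField F] (s : ℂ) : ℂ :=
  (2 * (Real.pi : ℂ) ^ s * (Complex.Gamma s)⁻¹) ^ rc F

theorem ch2_G_diff : Differentiable ℂ (ch2_G F) := by
  have hπ : (Real.pi : ℂ) ≠ 0 := by exact_mod_cast Real.pi_ne_zero
  exact ((differentiable_id.const_cpow (Or.inl hπ)).const_mul 2 |>.mul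
    differentiable_one_div_Gamma).pow _

theorem ch2_G_mul {s : ℂ} (hs : 0 < s.re) : ch2_G F s * gam F s = 1 := by
  have hπ : (Real.pi : ℂ) ≠ 0 := by exact_mod_cast Real.pi_ne_zero
  have hG := Complex.Gamma_ne_zero_of_re_pos hs
  have h1 : (Real.pi : ℂ) ^ s ≠ 0 := by simp [Complex.cpow_eq_zero_iff, hπ]
  unfold ch2_G gam
  rw [← mul_pow, Complex.cpow_neg]
  have : 2 * (Real.pi : ℂ) ^ s * (Complex.Gamma s)⁻¹ *
      (((Real.pi : ℂ) ^ s)⁻¹ * Complex.Gamma s / 2) = 1 := by field_simp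
  rw [this, one_pow]

end

theorem ch2_num {K B u D n r x y : ℝ} (hK : 0 ≤ K) (hB : 1 ≤ B) (hu : 1 ≤ u) (hD : 1 ≤ D)
    (hn : n ≤ B) (hr0 : 0 ≤ r) (hr : r ≤ n) (hl : Real.log D ≤ B) (hy0 : 0 ≤ y)
    (hx : x ≤ Real.exp ((K + 4 * u) * r)) (hy : y ≤ u * 16 * D ^ 2 * Real.exp (36 * n)) :
    x * y ≤ Real.exp ((K + 59) * B * u) := by
  have hBu : B ≤ B * u := le_mul_of_one_le_right (by linarith) hu
  have huB : u ≤ B * u := le_mul_of_one_le_left (by linarith) hB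
  have h1 : u ≤ Real.exp (B * u) := by linarith [Real.add_one_le_exp (B * u)]
  have h2 : (16 : ℝ) ≤ Real.exp (16 * (B * u)) := by
    linarith [Real.add_one_le_exp (16 * (B * u))]
  have h3 : D ^ 2 ≤ Real.exp (2 * (B * u)) := by
    have : D ≤ Real.exp (B * u) := by
      rw [← Real.log_le_iff_le_exp (by linarith)]; linarith
    rw [two_mul, Real.exp_add, sq]
    gcongr
  have h4 : Real.exp (36 * n) ≤ Real.exp (36 * (B * u)) := Real.exp_le_exp.2 (by linarith)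
  have h5 : Real.exp ((K + 4 * u) * r) ≤ Real.exp ((K + 4) * (B * u)) := by
    refine Real.exp_le_exp.2 ?_
    calc (K + 4 * u) * r ≤ (K * u + 4 * u) * B := by
          gcongr
          · exact le_mul_of_one_le_right hK hu
          · linarith
      _ = (K + 4) * (B * u) := by ring
  calc x * y ≤ Real.exp ((K + 4) * (B * u)) * (Real.exp (B * u) * Real.exp (16 * (B * u)) *
        Real.exp (2 * (B * u)) * Real.exp (36 * (B * u))) := by
        refine mul_le_mul (hx.trans h5) (hy.trans ?_) hy0 (Real.exp_pos _).le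
        gcongr
    _ = Real.exp ((K + 59) * B * u) := by
        simp only [← Real.exp_add]
        congr 1
        ring

theorem hecke : ∃ C : ℝ, 0 < C ∧ ∀ (F : Type) [Field F] [NumberField F] [IsTotallyComplex F]
    (ψ : ℕ → ℂ), Psi ψ → ∃ Φ : ℂ → ℂ, Differentiable ℂ Φ ∧
      (∀ s : ℂ, 1 < s.re → Φ s = (s - 1) * ZZ F ψ s) ∧
      (∀ s : ℂ, 0 ≤ s.re → s.re ≤ 4 → ‖Φ s‖ ≤ Real.exp (C * BF F * (1 + |s.im|))) ∧
      (ψ = chi0 → Φ 1 ≠ 0) := by
  obtain ⟨C₁, hC₁, hΓ⟩ := R017.f1_inv_Gamma 4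
  have hπ := Real.pi_gt_three
  refine ⟨2 * Real.pi ^ (4 : ℝ) * C₁ + 59, by positivity, fun F _ _ _ ψ hψ => ?_⟩
  obtain ⟨𝒜, h𝒜, hcl, hdu⟩ := exists_reps (F := F)
  obtain ⟨φ, hφ⟩ := exists_PU (F := F)
  obtain ⟨κ, hκ0, hκ⟩ := exists_slab hφ
  have hc0 : 0 < c0 F := c0_pos
  have hex : ∀ a : Ideal (𝓞 F), ∃ (S : ℂ) (Λ : ℂ → ℂ), a ∈ 𝒜 → (‖S‖ ≤ 1 ∧ (ψ = chi0 → 0 < S.re) ∧
      Differentiable ℂ Λ ∧
      (∀ s : ℂ, 1 < s.re → Λ s + κ * S / (2 * c0 F * (s - 1)) =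
        gam F s * Zc (a : FI F) (fun J => ψ (Ideal.absNorm J)) s) ∧
      ∀ s : ℂ, 0 ≤ s.re → s.re ≤ 4 → ‖Λ s‖ ≤ gamR F 4 * Zr (a : FI F) 4 +
        (DD F * 3 ^ dg F) ^ 2 / c0 F * gamR F 2 *
          Zr (du ((Ideal.span {3} * a : Ideal (𝓞 F)) : FI F)) 2) := fun a => by
    by_cases ha : a ∈ 𝒜
    · obtain ⟨S, Λ, h⟩ := hecke_class hφ hκ hψ (h𝒜 a ha).1 (h𝒜 a ha).2
      exact ⟨S, Λ, fun _ => h⟩
    · exact ⟨0, 0, fun h => absurd h ha⟩
  choose S Λ hSΛ using hex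
  refine ⟨fun s => ch2_G F s * ((s - 1) * ∑ a ∈ 𝒜, Λ a s + κ * (∑ a ∈ 𝒜, S a) / (2 * c0 F)),
    ?_, fun s hs => ?_, fun s hs0 hs4 => ?_, fun hψ0 => ?_⟩
  · refine ch2_G_diff.mul (((differentiable_id.sub_const 1).mul ?_).add_const _)
    exact Differentiable.fun_sum fun a ha => (hSΛ a ha).2.2.1
  · have hs1 : s - 1 ≠ 0 := fun h => by
      rw [sub_eq_zero] at h
      rw [h] at hs
      simp at hs
    have hc : (c0 F : ℂ) ≠ 0 := by exact_mod_cast hc0.ne'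
    have h1 : (s - 1) * ∑ a ∈ 𝒜, Λ a s + κ * (∑ a ∈ 𝒜, S a) / (2 * c0 F) =
        (s - 1) * (gam F s * ZZ F ψ s) := by
      rw [← ch2_sum_Zc hψ hcl hs, Finset.mul_sum, Finset.mul_sum, Finset.mul_sum, Finset.mul_sum,
        Finset.sum_div, ← Finset.sum_add_distrib]
      refine Finset.sum_congr rfl fun a ha => ?_
      rw [← (hSΛ a ha).2.2.2.1 s hs]
      field_simp
    simp only
    rw [h1, mul_left_comm, ← mul_assoc (ch2_G F s), ch2_G_mul (by linarith), one_mul]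
  · have hdisj : ∀ J : Ideal (𝓞 F), ∀ a ∈ 𝒜, ∀ a' ∈ 𝒜, J ∈ Cl (a : FI F) → J ∈ Cl (a' : FI F) →
        a = a' := fun J a ha a' ha' h h' => by
      have hJ : J ≠ ⊥ := fun e => ch2_not_bot (h𝒜 a ha).1 (e ▸ h)
      exact (hcl J hJ).unique ⟨ha, h⟩ ⟨ha', h'⟩
    have hZ : ∀ σ : ℝ, 2 ≤ σ → ∑ a ∈ 𝒜, Zr (a : FI F) σ ≤ 2 ^ dg F := fun σ hσ =>
      (ch2_sum_le 𝒜 (fun a => Cl (a : FI F)) hdisj (fun J => by positivity)
        (summable_absNorm (by linarith))).trans (tsum_absNorm_le hσ)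
    have hZ' : ∑ a ∈ 𝒜, Zr (du ((Ideal.span {3} * a : Ideal (𝓞 F)) : FI F)) 2 ≤ 2 ^ dg F :=
      (ch2_sum_le 𝒜 (fun a => Cl (du ((Ideal.span {3} * a : Ideal (𝓞 F)) : FI F))) hdu
        (fun J => by positivity) (summable_absNorm (by norm_num))).trans (tsum_absNorm_le le_rfl)
    obtain ⟨g20, g21⟩ := ch2_gamR (F := F) (Or.inl rfl)
    obtain ⟨g40, g41⟩ := ch2_gamR (F := F) (Or.inr rfl)
    have hD : 1 ≤ DD F := one_le_DD
    have hrn : rc F ≤ dg F := by have := two_mul_rc (F := F); omega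
    have hsq1 : 1 ≤ Real.sqrt (DD F) := Real.one_le_sqrt.2 hD
    have hsq2 : Real.sqrt (DD F) ≤ DD F := Real.sqrt_le_self_iff.2 (Or.inr hD)
    have hc1 : c0 F ≤ DD F := (div_le_self (by positivity) (one_le_pow₀ (by norm_num))).trans hsq2
    have hc2 : 1 / c0 F ≤ 2 ^ dg F := by
      rw [c0, one_div_div]
      exact (div_le_self (by positivity) hsq1).trans (pow_le_pow_right₀ (by norm_num) hrn)
    have b1 : ‖∑ a ∈ 𝒜, Λ a s‖ ≤ 2 ^ dg F + (DD F * 3 ^ dg F) ^ 2 * 2 ^ dg F * 2 ^ dg F := by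
      refine (norm_sum_le _ _).trans ((Finset.sum_le_sum fun a ha =>
        (hSΛ a ha).2.2.2.2 s hs0 hs4).trans ?_)
      rw [Finset.sum_add_distrib, ← Finset.mul_sum, ← Finset.mul_sum, div_eq_mul_one_div]
      refine add_le_add ?_ ?_
      · exact (mul_le_mul_of_nonneg_left (hZ 4 (by norm_num)) g40).trans
          (mul_le_of_le_one_left (by positivity) g41)
      · refine (mul_le_mul_of_nonneg_left hZ' (by positivity)).trans ?_
        calc _ ≤ (DD F * 3 ^ dg F) ^ 2 * 2 ^ dg F * 1 * 2 ^ dg F := by gcongr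
          _ = _ := by ring
    have b2 : ‖(κ : ℂ) * (∑ a ∈ 𝒜, S a) / (2 * c0 F)‖ ≤ 8 * DD F * 2 ^ dg F := by
      have e1 : ‖(κ : ℂ) * (∑ a ∈ 𝒜, S a)‖ ≤ 16 * c0 F ^ 2 * 2 ^ dg F := by
        rw [Finset.mul_sum]
        refine (norm_sum_le _ _).trans ((Finset.sum_le_sum (g := fun a : Ideal (𝓞 F) =>
          16 * c0 F ^ 2 * gamR F 2 * Zr (a : FI F) 2) fun a ha => ?_).trans ?_)
        · rw [norm_mul, Complex.norm_real, Real.norm_of_nonneg hκ0.le]
          exact (mul_le_of_le_one_right hκ0.le (hSΛ a ha).1).trans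
            (kappa_le hφ hκ (FractionalIdeal.coeIdeal_ne_zero.2 (h𝒜 a ha).1))
        · rw [← Finset.mul_sum]
          refine (mul_le_mul_of_nonneg_left (hZ 2 le_rfl) (by positivity)).trans ?_
          calc _ ≤ 16 * c0 F ^ 2 * 1 * 2 ^ dg F := by gcongr
            _ = _ := by ring
      rw [norm_div, norm_mul 2, Complex.norm_real, Real.norm_of_nonneg hc0.le, Complex.norm_two,
        div_le_iff₀ (by positivity)]
      refine e1.trans ?_
      calc 16 * c0 F ^ 2 * 2 ^ dg F = 8 * c0 F * 2 ^ dg F * (2 * c0 F) := by ring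
        _ ≤ _ := by gcongr
    have b3 : ‖s - 1‖ ≤ 4 * (1 + |s.im|) := by
      refine (Complex.norm_le_abs_re_add_abs_im _).trans ?_
      simp only [sub_re, one_re, sub_im, one_im, sub_zero]
      have : |s.re - 1| ≤ 4 := abs_le.2 ⟨by linarith, by linarith⟩
      linarith [abs_nonneg s.im]
    have hu : 1 ≤ 1 + |s.im| := by linarith [abs_nonneg s.im]
    simp only
    rw [norm_mul]
    refine ch2_num (D := DD F) (n := dg F) (r := rc F) (by positivity) one_le_BF hu hD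
      (le_add_of_nonneg_right (Real.log_nonneg hD)) (Nat.cast_nonneg _) (by exact_mod_cast hrn)
      (le_add_of_nonneg_left (Nat.cast_nonneg _)) (norm_nonneg _) ?_ ?_
    · rw [ch2_G, norm_pow, Real.exp_mul, Real.rpow_natCast]
      refine pow_le_pow_left₀ (norm_nonneg _) ?_ _
      rw [norm_mul, norm_mul, Complex.norm_two, Complex.norm_cpow_eq_rpow_re_of_pos Real.pi_pos,
        Real.exp_add]
      have a1 : Real.pi ^ s.re ≤ Real.pi ^ (4 : ℝ) :=
        Real.rpow_le_rpow_of_exponent_le (by linarith) hs4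
      have a2 := hΓ s (abs_le.2 ⟨by linarith, hs4⟩)
      have a3 : Real.exp (Real.pi * |s.im|) ≤ Real.exp (4 * (1 + |s.im|)) :=
        Real.exp_le_exp.2 (by nlinarith [Real.pi_lt_four, abs_nonneg s.im])
      calc 2 * Real.pi ^ s.re * ‖(Gamma s)⁻¹‖
          ≤ 2 * Real.pi ^ (4 : ℝ) * (C₁ * Real.exp (4 * (1 + |s.im|))) := by
            gcongr
            exact a2.trans (mul_le_mul_of_nonneg_left a3 hC₁)
        _ = 2 * Real.pi ^ (4 : ℝ) * C₁ * Real.exp (4 * (1 + |s.im|)) := by ring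
        _ ≤ _ := by
            gcongr
            linarith [Real.add_one_le_exp (2 * Real.pi ^ (4 : ℝ) * C₁)]
    · have c1 : (36 : ℝ) ^ dg F ≤ Real.exp (36 * dg F) := by
        rw [Real.exp_mul, Real.rpow_natCast]
        exact pow_le_pow_left₀ (by norm_num) (by linarith [Real.add_one_le_exp (36 : ℝ)]) _
      have c2 : (2 : ℝ) ^ dg F ≤ 36 ^ dg F := pow_le_pow_left₀ (by norm_num) (by norm_num) _
      have c3 : (DD F * 3 ^ dg F) ^ 2 * 2 ^ dg F * 2 ^ dg F = DD F ^ 2 * 36 ^ dg F := by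
        rw [show (36 : ℝ) = 3 * 3 * 2 * 2 by norm_num, mul_pow, mul_pow, mul_pow, mul_pow]; ring
      have c4 : DD F ≤ DD F ^ 2 := by nlinarith
      have c5 : (2 : ℝ) ^ dg F ≤ DD F ^ 2 * 36 ^ dg F :=
        c2.trans (le_mul_of_one_le_left (by positivity) (hD.trans c4))
      have c6 : DD F * 2 ^ dg F ≤ DD F ^ 2 * 36 ^ dg F := by gcongr
      rw [c3] at b1
      refine (norm_add_le _ _).trans ?_
      rw [norm_mul]
      calc _ ≤ 4 * (1 + |s.im|) * (DD F ^ 2 * 36 ^ dg F + DD F ^ 2 * 36 ^ dg F) +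
            8 * (1 + |s.im|) * (DD F ^ 2 * 36 ^ dg F) := by
            refine add_le_add (mul_le_mul b3 (b1.trans (by linarith)) (norm_nonneg _)
              (by positivity)) (b2.trans ?_)
            calc 8 * DD F * 2 ^ dg F = 8 * 1 * (DD F * 2 ^ dg F) := by ring
              _ ≤ _ := by gcongr
        _ = (1 + |s.im|) * 16 * DD F ^ 2 * 36 ^ dg F := by ring
        _ ≤ _ := by gcongr
  · obtain ⟨a, ⟨ha, -⟩, -⟩ := hcl ⊤ top_ne_bot
    have h1 : 0 < (∑ a ∈ 𝒜, S a).re := by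
      rw [Complex.re_sum]
      exact Finset.sum_pos (fun a ha => (hSΛ a ha).2.1 hψ0) ⟨a, ha⟩
    have h2 : ∑ a ∈ 𝒜, S a ≠ 0 := fun h => by rw [h] at h1; simp at h1
    simp only [sub_self, zero_mul, zero_add]
    refine mul_ne_zero (left_ne_zero_of_mul_eq_one (ch2_G_mul (F := F) (s := 1) (by simp))) ?_
    exact div_ne_zero (mul_ne_zero (by exact_mod_cast hκ0.ne') h2)
      (mul_ne_zero two_ne_zero (by exact_mod_cast hc0.ne'))

end Crest.Agent.GC
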