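import Crest.Agent.GQ.CUnf

/-! # GQ CHecke1: continuation of the partial L-series -/

set_option autoImplicit false

noncomputable section

open NumberField Complex MeasureTheory
open scoped nonZeroDivisors

namespace Crest.Agent.GC

variable {F : Type} [Field F] [NumberField F] [IsTotallyComplex F]

theorem ch1_mod {ψ : ℕ → ℂ} (hψ : Psi ψ) {m n : ℕ} (h : (m : ZMod 3) = n) : ψ m = ψ n := by
  have hp : Function.Periodic ψ 3 := hψ.per
  rw [← hp.map_mod_nat m, (ZMod.natCast_eq_natCast_iff' m n 3).1 h, hp.map_mod_nat]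

theorem ch1_sq {ψ : ℕ → ℂ} (hψ : Psi ψ) {n : ℕ} (h : ¬ 3 ∣ n) : ψ n * ψ n = 1 := by
  rw [← hψ.mul, ← hψ.one]
  refine ch1_mod hψ ((ZMod.natCast_eq_natCast_iff' _ _ 3).2 ?_)
  have : n % 3 = 1 ∨ n % 3 = 2 := by omega
  rcases this with h | h <;> simp [Nat.mul_mod, h]

omit [IsTotallyComplex F] in
theorem ch1_norm_mod (b c : 𝓞 F) :
    ((Algebra.norm ℤ (b + 3 * c) : ℤ) : ZMod 3) = ((Algebra.norm ℤ b : ℤ) : ZMod 3) := by
  classical
  have h := fun x => (Int.castRingHom (ZMod 3)).map_det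
    (Algebra.leftMulMatrix (RingOfIntegers.basis F) x)
  simp only [← Algebra.norm_eq_matrix_det, eq_intCast] at h
  have h3 : (3 : Matrix (Module.Free.ChooseBasisIndex ℤ (𝓞 F))
      (Module.Free.ChooseBasisIndex ℤ (𝓞 F)) (ZMod 3)) = 0 :=
    (map_ofNat (algebraMap (ZMod 3) _) 3).symm.trans (map_zero _)
  rw [h, h, map_add, map_add, map_mul, map_mul, map_ofNat, map_ofNat, h3, zero_mul, add_zero]

theorem ch1_natAbs (b : 𝓞 F) : ((Algebra.norm ℤ b).natAbs : ℤ) = Algebra.norm ℤ b := by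
  have h := algNorm_nonneg (b : F)
  rw [← Algebra.coe_norm_int] at h
  exact Int.natAbs_of_nonneg (by exact_mod_cast h)

theorem ch1_per {ψ : ℕ → ℂ} (hψ : Psi ψ) {a : Ideal (𝓞 F)} {b b' : 𝓞 F}
    (h : b - b' ∈ Ideal.span {3} * a) :
    ψ (Algebra.norm ℤ b).natAbs = ψ (Algebra.norm ℤ b').natAbs := by
  obtain ⟨c, -, hc⟩ := Ideal.mem_span_singleton_mul.1 h
  refine ch1_mod hψ ?_
  rw [← Int.cast_natCast, ch1_natAbs, ← Int.cast_natCast, ch1_natAbs, ← ch1_norm_mod b' c, hc,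
    add_sub_cancel]

omit [IsTotallyComplex F] in
theorem ch1_idl {ψ : ℕ → ℂ} (hψ : Psi ψ) {a : Ideal (𝓞 F)} (ha : a ≠ ⊥)
    (h3 : ¬ 3 ∣ Ideal.absNorm a) {b : 𝓞 F} (hb : b ∈ a) :
    ψ (Ideal.absNorm (idl (a : FI F) b)) = ψ (Ideal.absNorm a) * ψ (Algebra.norm ℤ b).natAbs := by
  have h := absNorm_idl (FractionalIdeal.coeIdeal_ne_zero.2 ha)
    (FractionalIdeal.mem_coeIdeal_of_mem (P := F) (𝓞 F)⁰ hb)
  have h1 : Ideal.absNorm (idl (a : FI F) b) * Ideal.absNorm a = (Algebra.norm ℤ b).natAbs := by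
    rw [NI_coe, ← RingOfIntegers.coe_eq_algebraMap, ← Algebra.coe_norm_int] at h
    apply Nat.cast_injective (R := ℝ)
    rw [Nat.cast_mul, h, Nat.cast_natAbs]
    push_cast
    rfl
  rw [← h1, hψ.mul, mul_left_comm, ch1_sq hψ h3, mul_one]

omit [IsTotallyComplex F] in
theorem ch1_ne {a : Ideal (𝓞 F)} (ha : a ≠ ⊥) : (Ideal.span {3} * a : Ideal (𝓞 F)) ≠ ⊥ :=
  mul_ne_zero (by simp) ha

omit [IsTotallyComplex F] in
theorem ch1_absNorm (a : Ideal (𝓞 F)) :
    Ideal.absNorm (Ideal.span {3} * a) = 3 ^ dg F * Ideal.absNorm a := by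
  rw [map_mul, dg, ← RingOfIntegers.rank, ← Ideal.absNorm_span_natCast]
  rfl

omit [IsTotallyComplex F] in
/-- representatives of `a / 3a` -/
theorem ch1_reps {a : Ideal (𝓞 F)} (ha : a ≠ ⊥) : ∃ R : Finset (𝓞 F), R.card ≤ 3 ^ dg F ∧
    (∀ c ∈ R, c ∈ a) ∧ (∀ b ∈ a, ∃ c ∈ R, b - c ∈ Ideal.span {3} * a) ∧
    ∀ c ∈ R, ∀ c' ∈ R, c - c' ∈ Ideal.span {3} * a → c = c' := by
  classical
  set T : Ideal (𝓞 F) := Ideal.span {3} * a with hT
  have h0 : Ideal.absNorm a ≠ 0 := fun h => ha (Ideal.absNorm_eq_zero_iff.1 h)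
  have hc := Submodule.card_quotient_mul_card_quotient a T Ideal.mul_le_right
  rw [← Submodule.cardQuot_apply, ← Submodule.cardQuot_apply, ← Ideal.absNorm_apply,
    ← Ideal.absNorm_apply, ch1_absNorm] at hc
  have hc' := mul_right_cancel₀ h0 hc
  have : Finite (Submodule.map T.mkQ a) := Nat.finite_of_card_ne_zero (by
    rw [hc']; positivity)
  have := Fintype.ofFinite (Submodule.map T.mkQ a)
  choose c hc1 hc2 using fun q : (Submodule.map T.mkQ a) => Submodule.mem_map.1 q.2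
  refine ⟨Finset.univ.image c, Finset.card_image_le.trans ?_, ?_, fun b hb => ?_, ?_⟩
  · rw [Finset.card_univ, ← Nat.card_eq_fintype_card, hc']
  · exact Finset.forall_mem_image.2 fun q _ => hc1 q
  · refine ⟨c ⟨_, Submodule.mem_map_of_mem hb⟩, by simp, ?_⟩
    exact (Submodule.Quotient.eq T).1 (hc2 ⟨_, Submodule.mem_map_of_mem hb⟩).symm
  · simp only [Finset.mem_image, Finset.mem_univ, true_and]
    rintro _ ⟨q, rfl⟩ _ ⟨q', rfl⟩ h
    rw [Subtype.ext ((hc2 q).symm.trans (((Submodule.Quotient.eq T).2 h).trans (hc2 q')))]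

omit [IsTotallyComplex F] in
theorem ch1_mem {a : Ideal (𝓞 F)} {b : 𝓞 F} : (b : F) ∈ (a : FI F) ↔ b ∈ a := by
  refine ⟨fun h => ?_, FractionalIdeal.mem_coeIdeal_of_mem _⟩
  obtain ⟨x, hx, h⟩ := (FractionalIdeal.mem_coeIdeal _).1 h
  rwa [← RingOfIntegers.coe_injective h]

open Classical in
theorem ch1_dual {A : FI F} (hA : A ≠ 0) (y : InfinitePlace F → ℝ) (c : F) :
    ‖(∑' w : F, if w ∈ A then (gG y (em w) : ℂ) * eI (em (w * c)) else 0) - 1‖ ≤ Th1 A y := by
  have hs := summable_ideal hA y 0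
  simp only [add_zero] at hs
  have h0 : ∀ w : F, 0 ≤ gG y (em w) := fun w => (Real.exp_pos _).le
  have hn : ∀ w : F, ‖(gG y (em w) : ℂ) * eI (em (w * c))‖ = gG y (em w) := fun w => by
    rw [norm_mul, eI, mul_right_comm, ← ofReal_ofNat, ← ofReal_mul, ← ofReal_mul,
      norm_exp_ofReal_mul_I, mul_one, norm_real, Real.norm_of_nonneg (h0 w)]
  have hs' : Summable fun w : F => if w ∈ A then (gG y (em w) : ℂ) * eI (em (w * c)) else 0 :=
    hs.of_norm_bounded fun w => by split_ifs; exacts [(hn w).le, norm_zero.le]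
  have hs2 : Summable fun w : F => if w ∈ A ∧ w ≠ 0 then gG y (em w) else 0 :=
    hs.of_nonneg_of_le (fun w => by split_ifs; exacts [h0 w, le_rfl]) fun w => by
      split_ifs with h h'
      exacts [le_rfl, absurd h.1 h', h0 w, le_rfl]
  rw [hs'.tsum_eq_add_tsum_ite 0, if_pos (FractionalIdeal.zero_mem _)]
  have e : (gG y (em (0 : F)) : ℂ) * eI (em (0 * c)) = 1 := by simp [gG, eI, em]
  rw [e, add_sub_cancel_left]
  refine tsum_of_norm_bounded hs2.hasSum fun w => ?_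
  by_cases h : w ∈ A <;> by_cases h' : w = 0 <;> simp [h, h', hn, -norm_mul, -Complex.norm_mul]

theorem theta_fe {ψ : ℕ → ℂ} (hψ : Psi ψ) {a : Ideal (𝓞 F)} (ha : a ≠ ⊥)
    (h3 : ¬ 3 ∣ Ideal.absNorm a) : ∃ S : ℂ, ‖S‖ ≤ 1 ∧ (ψ = chi0 → 0 < S.re) ∧
    ∀ y : InfinitePlace F → ℝ,
      ‖Th (a : FI F) (fun J => ψ (Ideal.absNorm J)) y -
          S * ((Real.exp (-2 * ∑ v, y v) / (Ideal.absNorm a * c0 F) : ℝ) : ℂ)‖ ≤
        Real.exp (-2 * ∑ v, y v) / (Ideal.absNorm a * c0 F) *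
          Th1 (du ((Ideal.span {3} * a : Ideal (𝓞 F)) : FI F)) (fun v => Real.log 2 - y v) := by
  classical
  obtain ⟨R, hR, hRa, hex, huq⟩ := ch1_reps ha
  set T : Ideal (𝓞 F) := Ideal.span {3} * a with hT
  have hT0 : (T : FI F) ≠ 0 := FractionalIdeal.coeIdeal_ne_zero.2 (ch1_ne ha)
  set g : 𝓞 F → ℂ := fun b => ψ (Ideal.absNorm a) * ψ (Algebra.norm ℤ b).natAbs with hg
  have g1 : ∀ b, ‖g b‖ ≤ 1 := fun b => (norm_mul_le _ _).trans
    (mul_le_one₀ (hψ.norm_le _) (norm_nonneg _) (hψ.norm_le _))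
  have h3n : (0 : ℝ) < 3 ^ dg F := by positivity
  have hR' : (R.card : ℝ) ≤ 3 ^ dg F := by exact_mod_cast hR
  refine ⟨((3 ^ dg F : ℝ)⁻¹ : ℝ) * ∑ c ∈ R, g c, ?_, fun h0 => ?_, fun y => ?_⟩
  · rw [norm_mul, norm_real, Real.norm_of_nonneg (by positivity), inv_mul_le_iff₀ h3n, mul_one]
    refine (norm_sum_le _ _).trans ((Finset.sum_le_card_nsmul _ _ _ fun c _ => g1 c).trans ?_)
    simpa using hR'
  · rw [re_ofReal_mul, re_sum]
    obtain ⟨c, hc, hc'⟩ := hex _ (Ideal.absNorm_mem a)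
    refine mul_pos (inv_pos.2 h3n) (Finset.sum_pos' (fun c _ => ?_) ⟨c, hc, ?_⟩)
    · simp only [hg, h0, chi0]
      split_ifs <;> simp
    · have h4 : ¬ 3 ∣ Ideal.absNorm a ^ Module.finrank ℤ (𝓞 F) := fun h =>
        h3 (Nat.prime_three.dvd_of_dvd_pow h)
      simp only [hg, ← ch1_per hψ hc']
      simp [h0, chi0, h3, Algebra.norm_natCast, h4]
  have e1 : ∀ β : F, (if β ∈ (a : FI F) ∧ β ≠ 0 then ψ (Ideal.absNorm (idl (a : FI F) β)) *
      (gG y (em β) : ℂ) else 0) =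
      ∑ c ∈ R, g c * if β - c ∈ (T : FI F) then (gG y (em β) : ℂ) else 0 := fun β => by
    by_cases hβ : β ∈ (a : FI F)
    · obtain ⟨b, hb, rfl⟩ := (FractionalIdeal.mem_coeIdeal _).1 hβ
      obtain ⟨c, hc, hbc⟩ := hex b hb
      have e : ∀ c : 𝓞 F, algebraMap (𝓞 F) F b - c ∈ (T : FI F) ↔ b - c ∈ T := fun c => by
        rw [← ch1_mem, RingOfIntegers.coe_eq_algebraMap (b - c), map_sub]
      rw [Finset.sum_eq_single_of_mem c hc fun c' hc' hne => by
        rw [if_neg fun h => hne (huq c' hc' c hc (by simpa using T.sub_mem hbc ((e c').1 h))),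
          mul_zero], if_pos ((e c).2 hbc), hg]
      simp only [← ch1_per hψ hbc, hβ, true_and]
      split_ifs with h
      · rw [← ch1_idl hψ ha h3 hb]
      · rw [RingOfIntegers.coe_injective ((not_not.1 h).trans (map_zero _).symm)]
        simp [hψ.zero]
    · rw [if_neg fun h => hβ h.1]
      refine (Finset.sum_eq_zero fun c hc => ?_).symm
      rw [if_neg fun h => hβ ?_, mul_zero]
      obtain ⟨b, hb, h⟩ := (FractionalIdeal.mem_coeIdeal _).1 h
      rw [← eq_sub_iff_add_eq.1 h, ← map_add]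
      exact ch1_mem.2 (a.add_mem (Ideal.mul_le_right hb) (hRa c hc))
  have e2 : ∀ c : F, HasSum (fun β : F => if β - c ∈ (T : FI F) then (gG y (em β) : ℂ) else 0)
      (∑' β : F, if β ∈ (T : FI F) then (gG y (em (β + c)) : ℂ) else 0) := fun c => by
    rw [← (Equiv.addRight c).hasSum_iff]
    have h := (summable_ofReal.2 (summable_ideal hT0 y c)).congr fun β => apply_ite _ _ _ _
    simpa [Function.comp_def] using h.hasSum
  have e3 := (hasSum_sum fun c (_ : c ∈ R) => (e2 c).mul_left (g c)).tsum_eq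
  simp only [← e1, poisson_ideal hT0] at e3
  have e4 : Real.exp (-2 * ∑ v, y v) / (NI (T : FI F) * c0 F) =
      (3 ^ dg F : ℝ)⁻¹ * (Real.exp (-2 * ∑ v, y v) / (Ideal.absNorm a * c0 F)) := by
    rw [NI_coe, ch1_absNorm]
    push_cast
    ring
  have hE : 0 ≤ Real.exp (-2 * ∑ v, y v) / (Ideal.absNorm a * c0 F) := by
    have := c0_pos (F := F)
    positivity
  rw [Th, e3, e4, mul_right_comm, ← ofReal_mul, Finset.mul_sum R, ← Finset.sum_sub_distrib]
  generalize Real.exp (-2 * ∑ v, y v) / (Ideal.absNorm a * c0 F) = E at *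
  have h1 := Th1_nonneg (du (T : FI F)) fun v => Real.log 2 - y v
  refine (norm_sum_le _ _).trans ((Finset.sum_le_card_nsmul _ _ ((3 ^ dg F : ℝ)⁻¹ * E *
    Th1 (du (T : FI F)) fun v => Real.log 2 - y v) fun c _ => ?_).trans ?_)
  · rw [mul_left_comm, ← mul_sub, ← mul_sub_one, norm_mul, norm_mul, norm_real,
      Real.norm_of_nonneg (by positivity)]
    exact mul_le_mul_of_nonneg_left ((mul_le_of_le_one_left (norm_nonneg _) (g1 c)).trans
      (ch1_dual (du_ne_zero hT0) _ _)) (by positivity)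
  · rw [nsmul_eq_mul, mul_assoc, ← mul_assoc]
    exact mul_le_of_le_one_left (by positivity) ((mul_inv_le_iff₀ h3n).2 (by simpa using hR'))

theorem ch1_entire {α : Type} [MeasurableSpace α] {μ : Measure α} {w : α → ℂ} {L : α → ℝ}
    (hw : Measurable w) (hL : Measurable L)
    (h : ∀ σ : ℝ, Integrable (fun y => ‖w y‖ * Real.exp (σ * L y)) μ) :
    Differentiable ℂ fun s : ℂ => ∫ y, w y * cexp (s * L y) ∂μ := fun s₀ => by
  have hn : ∀ (s : ℂ) y, ‖w y * cexp (s * L y)‖ = ‖w y‖ * Real.exp (s.re * L y) := fun s y => by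
    rw [norm_mul, norm_exp, re_mul_ofReal]
  refine (hasDerivAt_integral_of_dominated_loc_of_deriv_le (Metric.ball_mem_nhds s₀ one_pos)
    (F' := fun s y => w y * (cexp (s * L y) * L y)) (.of_forall fun s => by fun_prop)
    ((h s₀.re).mono' (by fun_prop) (.of_forall fun y => (hn _ y).le)) (by fun_prop)
    (.of_forall fun y s hs => ?_) ((h (s₀.re + 2)).add (h (s₀.re - 2))) (.of_forall fun y s _ =>
      (by simpa using ((hasDerivAt_id s).mul_const (L y : ℂ)).cexp : HasDerivAt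
        (fun s : ℂ => cexp (s * L y)) (cexp (s * L y) * L y) s).const_mul _)).2.differentiableAt
  have h1 : |s.re - s₀.re| < 1 := (abs_re_le_norm (s - s₀)).trans_lt (mem_ball_iff_norm.1 hs)
  obtain ⟨h2, h3⟩ := abs_lt.1 h1
  rw [← mul_assoc, norm_mul, hn, mul_assoc, norm_real, Real.norm_eq_abs, Pi.add_apply, ← mul_add]
  refine mul_le_mul_of_nonneg_left ((mul_le_mul_of_nonneg_left (le_trans (by linarith)
    (Real.add_one_le_exp |L y|)) (Real.exp_pos _).le).trans ?_) (norm_nonneg _)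
  rw [← Real.exp_add]
  rcases abs_cases (L y) with ⟨h4, h5⟩ | ⟨h4, h5⟩ <;> rw [h4]
  · exact le_add_of_le_of_nonneg (Real.exp_le_exp.2 (by nlinarith)) (Real.exp_pos _).le
  · exact le_add_of_nonneg_of_le (Real.exp_pos _).le (Real.exp_le_exp.2 (by nlinarith))

theorem ch1_B1 {φ : (InfinitePlace F → ℝ) → ℝ} (hφ : PU φ) {A : FI F} (hA : A ≠ 0) {σ : ℝ}
    (hσ : 1 < σ) (l : ℝ) :
    Integrable (fun y => φ y * Th1 A y * Real.exp (σ * (l + 2 * ∑ v, y v))) ∧
    ∫ y, φ y * Th1 A y * Real.exp (σ * (l + 2 * ∑ v, y v)) =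
      Real.exp (σ * l) * (gamR F σ * NI A ^ (-σ) * Zr A σ) := by
  have e : ∀ y, φ y * Th1 A y * Real.exp (σ * (l + 2 * ∑ v, y v)) =
      Real.exp (σ * l) * (φ y * Th1 A y * Real.exp (2 * σ * ∑ v, y v)) := fun y => by
    rw [mul_add, Real.exp_add]
    ring_nf
  simp only [e]
  exact ⟨(unfold_real hφ hA hσ).1.const_mul _, by rw [integral_const_mul, (unfold_real hφ hA hσ).2]⟩

theorem ch1_B2 {φ : (InfinitePlace F → ℝ) → ℝ} (hφ : PU φ) {A : FI F} (hA : A ≠ 0) {σ : ℝ}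
    (hσ : 1 < σ) (l : ℝ) :
    Integrable (fun y => φ y * Th1 A (fun v => Real.log 2 - y v) *
      Real.exp (-σ * (l + 2 * ∑ v, y v))) ∧
    ∫ y, φ y * Th1 A (fun v => Real.log 2 - y v) * Real.exp (-σ * (l + 2 * ∑ v, y v)) =
      Real.exp (σ * (-l - 2 * (rc F * Real.log 2))) * (gamR F σ * NI A ^ (-σ) * Zr A σ) := by
  obtain ⟨h1, h2⟩ := ch1_B1 (hφ.reflect (Real.log 2)) hA hσ (-l - 2 * (rc F * Real.log 2))
  have h3 := h1.comp_sub_left fun _ => Real.log 2
  rw [← integral_sub_left_eq_self _ _ fun _ => Real.log 2] at h2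
  have e : ∀ y : InfinitePlace F → ℝ, σ * (-l - 2 * (rc F * Real.log 2) +
      2 * ∑ v, (Real.log 2 - y v)) = -σ * (l + 2 * ∑ v, y v) := fun y => by
    rw [Finset.sum_sub_distrib, Finset.sum_const, Finset.card_univ, nsmul_eq_mul]
    ring
  simp only [Pi.sub_def, sub_sub_cancel, e] at h2 h3
  exact ⟨h3, h2⟩

theorem hecke_class {φ : (InfinitePlace F → ℝ) → ℝ} (hφ : PU φ) {κ : ℝ} (hκ : Slab φ κ)
    {ψ : ℕ → ℂ} (hψ : Psi ψ) {a : Ideal (𝓞 F)} (ha : a ≠ ⊥) (h3 : ¬ 3 ∣ Ideal.absNorm a) :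
    ∃ (S : ℂ) (Λ : ℂ → ℂ), ‖S‖ ≤ 1 ∧ (ψ = chi0 → 0 < S.re) ∧ Differentiable ℂ Λ ∧
      (∀ s : ℂ, 1 < s.re → Λ s + κ * S / (2 * c0 F * (s - 1)) =
        gam F s * Zc (a : FI F) (fun J => ψ (Ideal.absNorm J)) s) ∧
      ∀ s : ℂ, 0 ≤ s.re → s.re ≤ 4 → ‖Λ s‖ ≤ gamR F 4 * Zr (a : FI F) 4 +
        (DD F * 3 ^ dg F) ^ 2 / c0 F * gamR F 2 *
          Zr (du ((Ideal.span {3} * a : Ideal (𝓞 F)) : FI F)) 2 := by
  classical
  obtain ⟨S, hS, hS', hfe⟩ := theta_fe hψ ha h3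
  set T : Ideal (𝓞 F) := Ideal.span {3} * a with hT
  have hT0 : (T : FI F) ≠ 0 := FractionalIdeal.coeIdeal_ne_zero.2 (ch1_ne ha)
  have ha0 : (a : FI F) ≠ 0 := FractionalIdeal.coeIdeal_ne_zero.2 ha
  have hN : (0 : ℝ) < Ideal.absNorm a := NI_coe a ▸ NI_pos ha0
  have hc := c0_pos (F := F)
  have hg : ∀ J : Ideal (𝓞 F), ‖ψ (Ideal.absNorm J)‖ ≤ 1 := fun J => hψ.norm_le _
  have mφ := hφ.meas
  have mT := (continuous_Th ha0 hg).measurable
  have hT1 := norm_Th_le ha0 hg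
  have hu := fun s => unfold hφ ha0 hg (s := s)
  generalize Th (a : FI F) (fun J => ψ (Ideal.absNorm J)) = Θ at *
  set l := Real.log (Ideal.absNorm a) with hl
  set L : (InfinitePlace F → ℝ) → ℝ := fun y => l + 2 * ∑ v, y v with hL
  have mL : Measurable L := by fun_prop
  have eL : ∀ y : InfinitePlace F → ℝ, Real.exp (-2 * ∑ v, y v) / (Ideal.absNorm a * c0 F) =
      Real.exp (-L y) / c0 F := fun y => by
    rw [hL, neg_add, Real.exp_add, Real.exp_neg l, Real.exp_log hN, neg_mul]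
    field_simp
  simp only [eL] at hfe
  set w : (InfinitePlace F → ℝ) → ℂ := fun y => φ y *
    (Θ y - if L y ≤ 0 then S * (Real.exp (-L y) / c0 F : ℝ) else 0) with hw
  have mw : Measurable w := (measurable_ofReal.comp mφ).mul (mT.sub (Measurable.ite
    (measurableSet_le mL measurable_const) (by fun_prop) measurable_const))
  have hb : ∀ σ σ₁ σ₂ : ℝ, σ ≤ σ₁ → 1 - σ ≤ σ₂ → ∀ y, ‖w y‖ * Real.exp (σ * L y) ≤
      φ y * Th1 (a : FI F) y * Real.exp (σ₁ * L y) + (c0 F)⁻¹ *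
        (φ y * Th1 (du (T : FI F)) (fun v => Real.log 2 - y v) * Real.exp (-σ₂ * L y)) := by
    intro σ σ₁ σ₂ h1 h2 y
    have := hφ.nonneg y
    have := Th1_nonneg (a : FI F) y
    have := Th1_nonneg (du (T : FI F)) fun v => Real.log 2 - y v
    rw [hw, norm_mul, norm_real, Real.norm_of_nonneg (hφ.nonneg y)]
    split_ifs with h
    · refine le_add_of_nonneg_of_le (by positivity) ?_
      calc _ ≤ φ y * (Real.exp (-L y) / c0 F * Th1 (du (T : FI F)) fun v => Real.log 2 - y v) *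
            Real.exp (σ * L y) := by gcongr; exact hfe y
        _ = (c0 F)⁻¹ * (φ y * Th1 (du (T : FI F)) (fun v => Real.log 2 - y v) *
            Real.exp (-L y + σ * L y)) := by rw [Real.exp_add]; ring
        _ ≤ _ := by gcongr; nlinarith
    · refine le_add_of_le_of_nonneg ?_ (by positivity)
      rw [sub_zero]
      gcongr
      exacts [hT1 y, (not_le.1 h).le]
  have hi : ∀ σ : ℝ, Integrable fun y => ‖w y‖ * Real.exp (σ * L y) := fun σ =>
    ((ch1_B1 hφ ha0 (lt_max_of_lt_right one_lt_two) l).1.add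
      ((ch1_B2 hφ (du_ne_zero hT0) (lt_max_of_lt_right one_lt_two) l).1.const_mul _)).mono'
      (by fun_prop) (.of_forall fun y => (Real.norm_of_nonneg (by positivity)).trans_le
        (hb σ _ _ (le_max_left _ _) (le_max_left _ _) y))
  have hn : ∀ (s : ℂ) y, ‖w y * cexp (s * L y)‖ = ‖w y‖ * Real.exp (s.re * L y) := fun s y => by
    rw [norm_mul, norm_exp, re_mul_ofReal]
  refine ⟨S, fun s => ∫ y, w y * cexp (s * L y), hS, hS', ch1_entire mw mL hi, fun s hs => ?_,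
    fun s h0 h4 => ?_⟩
  · have hs' : 0 < (2 * (s - 1)).re := by simpa using hs
    obtain ⟨h1, h2⟩ := hκ ((Set.Iic (-l / 2)).indicator fun τ => cexp (2 * (s - 1) * τ))
      ((integrableOn_exp_mul_complex_Iic hs' _).integrable_indicator measurableSet_Iic)
    rw [integral_indicator measurableSet_Iic, integral_exp_mul_complex_Iic hs'] at h2
    have e : ∀ y, cexp (s * l) * (φ y * Θ y * cexp (2 * s * (∑ v, y v : ℝ))) =
        w y * cexp (s * L y) + S / c0 F * cexp ((s - 1) * l) * (φ y * (Set.Iic (-l / 2)).indicator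
          (fun τ : ℝ => cexp (2 * (s - 1) * τ)) (∑ v, y v)) := fun y => by
      have e1 : cexp (s * L y) = cexp (s * l) * cexp (2 * s * (∑ v, y v : ℝ)) := by
        rw [← exp_add, hL]
        push_cast
        ring_nf
      have e2 : cexp ((s - 1) * l) * cexp (2 * (s - 1) * (∑ v, y v : ℝ)) =
          Real.exp (-L y) * cexp (s * L y) := by
        rw [ofReal_exp, ← exp_add, ← exp_add, hL]
        push_cast
        ring_nf
      rw [hw, Set.indicator_apply]
      simp only [Set.mem_Iic, show ∑ v, y v ≤ -l / 2 ↔ L y ≤ 0 from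
        ⟨fun h => by simp only [hL]; linarith, fun h => by simp only [hL] at h; linarith⟩]
      split_ifs
      · rw [ofReal_div]
        linear_combination -(φ y * Θ y) * e1 - S / c0 F * φ y * e2
      · rw [e1]
        ring
    have h5 := integral_congr_ae (μ := volume) (.of_forall e)
    rw [integral_const_mul, hu s hs, integral_add ((hi s.re).mono' (by fun_prop)
      (.of_forall fun y => (hn _ y).le)) (h1.const_mul _), integral_const_mul, h2] at h5
    have e3 : cexp (s * l) * (NI (a : FI F) : ℂ) ^ (-s) = 1 := by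
      rw [NI_coe, cpow_def_of_ne_zero (ofReal_ne_zero.2 hN.ne'), ← ofReal_log hN.le, ← exp_add,
        ← exp_zero, ← hl]
      ring_nf
    have e4 : cexp ((s - 1) * l) * cexp (2 * (s - 1) * (-l / 2 : ℝ)) = 1 := by
      rw [← exp_add, ← exp_zero]
      push_cast
      ring_nf
    rw [mul_right_comm 2, ← div_div]
    generalize 2 * (s - 1) = D at h5 e4 ⊢
    linear_combination -h5 + gam F s * Zc (a : FI F) (fun J => ψ (Ideal.absNorm J)) s * e3 -
      κ * S / D / c0 F * e4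
  · obtain ⟨h1, h2⟩ := ch1_B1 hφ ha0 (σ := 4) (by norm_num) l
    obtain ⟨h5, h6⟩ := ch1_B2 hφ (du_ne_zero hT0) one_lt_two l
    refine (norm_integral_le_of_norm_le (h1.add (h5.const_mul (c0 F)⁻¹)) (.of_forall fun y =>
      (hn s y).trans_le (hb _ 4 2 h4 (by linarith) y))).trans ?_
    simp only [Pi.add_apply]
    have hD := one_le_DD (F := F)
    have hG : 0 ≤ gamR F 2 := by
      have := Real.Gamma_pos_of_pos two_pos
      unfold gamR
      positivity
    have hZ : 0 ≤ Zr (du (T : FI F)) 2 := tsum_nonneg fun J => by split_ifs <;> positivity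
    have h7 : Real.exp (2 * (-l - 2 * (rc F * Real.log 2))) ≤ ((Ideal.absNorm a : ℝ) ^ 2)⁻¹ := by
      rw [← Real.exp_log hN, ← Real.exp_nat_mul, ← Real.exp_neg, ← hl, Real.exp_le_exp]
      have : 0 ≤ rc F * Real.log 2 := by positivity
      push_cast
      linarith
    rw [integral_add h1 (h5.const_mul _), integral_const_mul, h2, h6, NI_du hT0, NI_coe, NI_coe,
      ch1_absNorm, Real.rpow_neg (by positivity), Real.rpow_neg (by positivity), Real.rpow_two,
      mul_comm 4 l, Real.exp_mul, Real.exp_log hN]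
    refine add_le_add (le_of_eq (by field_simp)) ((mul_le_mul_of_nonneg_left
      (mul_le_mul_of_nonneg_right h7 (by positivity)) (by positivity)).trans (le_of_eq ?_))
    push_cast
    field_simp

end Crest.Agent.GC
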