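import Crest.Agent.R027.ADefs

/-! # GQ CKC: dyadic summation -/

set_option autoImplicit false

namespace Crest.Agent.R027

open Finset Crest.Agent.R008

theorem ckc_mem {a : ℤ} {l : ℕ} {x : ℝ} (hx : 0 ≤ x) {p : ℕ} : p ∈ Bad a l x ↔
    (p.Prime ∧ (p : ℝ) ≤ x) ∧ l ∣ p - 1 ∧ ¬ (p : ℤ) ∣ a ∧ ∃ y : ZMod p, y ^ l = (a : ZMod p) := by
  classical
  unfold Bad
  simp only [Finset.mem_filter]
  rw [mem_primesIoc le_rfl hx]
  refine and_congr_left fun _ => and_congr_right fun hp => ?_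
  have : (0 : ℝ) < p := by exact_mod_cast hp.pos
  simp [this]

theorem ckc_dyadic {a : ℤ} {l : ℕ} {A B σ : ℝ} (hA : 0 ≤ A) (hB : 0 ≤ B) (hσ : 1 / 2 ≤ σ)
    (h : ∀ x : ℝ, 2 ≤ x →
      ∑ p ∈ Bad a l x, Real.log p * Real.exp (-(Real.log (p / x)) ^ 2) ≤ A * x + B * x ^ σ)
    {x : ℝ} (hx : 0 ≤ x) : ∑ p ∈ Bad a l x, Real.log p ≤ 6 * A * x + 12 * B * x ^ σ := by
  classical
  have key : ∀ n : ℕ, ∀ x : ℝ, 0 ≤ x → x < 2 ^ (n + 1) →
      ∑ p ∈ Bad a l x, Real.log p ≤ 6 * A * x + 12 * B * x ^ σ := by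
    have base : ∀ x : ℝ, 0 ≤ x → x < 2 →
        ∑ p ∈ Bad a l x, Real.log p ≤ 6 * A * x + 12 * B * x ^ σ := fun x hx h2 => by
      rw [Finset.sum_eq_zero fun p hp => ?_]
      · positivity
      · have h1 := ((ckc_mem hx).1 hp).1
        have : (2 : ℝ) ≤ p := by exact_mod_cast h1.1.two_le
        linarith [h1.2]
    intro n
    induction n with
    | zero => intro x hx h2; exact base x hx (by simpa using h2)
    | succ n ih =>
      intro x hx h2
      rcases lt_or_ge x 2 with h3 | h3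
      · exact base x hx h3
      have hx0 : 0 < x := by linarith
      have i1 := ih (x / 2) (by positivity) (by rw [pow_succ] at h2; linarith)
      have hsub : Bad a l (x / 2) ⊆ Bad a l x := fun p hp => by
        rw [ckc_mem (by positivity)] at hp ⊢
        exact ⟨⟨hp.1.1, by linarith [hp.1.2]⟩, hp.2⟩
      have i2 : ∑ p ∈ Bad a l x \ Bad a l (x / 2), Real.log p ≤
          3 * ∑ p ∈ Bad a l x, Real.log p * Real.exp (-(Real.log (p / x)) ^ 2) := by
        rw [Finset.mul_sum]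
        refine le_trans (Finset.sum_le_sum fun p hp => ?_) (Finset.sum_le_sum_of_subset_of_nonneg
          Finset.sdiff_subset fun p _ _ =>
            mul_nonneg (by norm_num) (mul_nonneg (Real.log_natCast_nonneg p) (Real.exp_pos _).le))
        obtain ⟨h4, h5⟩ := Finset.mem_sdiff.1 hp
        rw [ckc_mem (by positivity)] at h4 h5
        have h6 : x / 2 < p := lt_of_not_ge fun h => h5 ⟨⟨h4.1.1, h⟩, h4.2⟩
        have h7 : Real.log (p / x) ≤ 0 :=
          Real.log_nonpos (by positivity) ((div_le_one hx0).2 h4.1.2)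
        have h8 : -1 ≤ Real.log (p / x) := by
          have h9 : (1 / 2 : ℝ) ≤ p / x := by
            rw [le_div_iff₀ hx0]
            linarith
          have := Real.log_le_log (by norm_num) h9
          rw [one_div, Real.log_inv] at this
          linarith [Real.log_two_lt_d9]
        have h10 : Real.exp (-1) ≤ Real.exp (-(Real.log (p / x)) ^ 2) :=
          Real.exp_le_exp.2 (by nlinarith)
        have h11 : 1 / 3 ≤ Real.exp (-1) := by
          rw [Real.exp_neg, one_div]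
          exact inv_anti₀ (Real.exp_pos _) (by linarith [Real.exp_one_lt_d9])
        nlinarith [Real.log_natCast_nonneg p]
      have i3 : (x / 2) ^ σ ≤ 3 / 4 * x ^ σ := by
        rw [div_eq_mul_inv, Real.mul_rpow hx (by norm_num), mul_comm]
        refine mul_le_mul_of_nonneg_right ?_ (Real.rpow_nonneg hx _)
        calc (2 : ℝ)⁻¹ ^ σ ≤ (2 : ℝ)⁻¹ ^ (1 / 2 : ℝ) :=
              Real.rpow_le_rpow_of_exponent_ge (by norm_num) (by norm_num) hσ
          _ ≤ ((3 / 4 : ℝ) ^ (2 : ℝ)) ^ (1 / 2 : ℝ) :=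
              Real.rpow_le_rpow (by norm_num) (by norm_num) (by norm_num)
          _ = 3 / 4 := by rw [← Real.rpow_mul (by norm_num)]; norm_num
      rw [← Finset.sum_sdiff hsub]
      nlinarith [h x h3, mul_le_mul_of_nonneg_left i3 hB]
  obtain ⟨n, hn⟩ := pow_unbounded_of_one_lt x (one_lt_two (α := ℝ))
  exact key n x hx (hn.trans (pow_lt_pow_right₀ one_lt_two (Nat.lt_succ_self n)))

theorem ckc_not_pow {a : ℤ} (ha : 2 ≤ |a|) {l : ℕ} (hl : a.natAbs ≤ l) (b : ℤ) : b ^ l ≠ a := by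
  intro e
  have h1 : b.natAbs ^ l = a.natAbs := by rw [← e, Int.natAbs_pow]
  have h2 : 2 ≤ a.natAbs := by
    have := Int.natCast_natAbs a
    omega
  rcases Nat.lt_or_ge b.natAbs 2 with h | h
  · have : b.natAbs ^ l ≤ 1 ^ l := Nat.pow_le_pow_left (by omega) l
    rw [one_pow] at this
    omega
  · have := Nat.pow_le_pow_left h l
    have := Nat.lt_two_pow_self (n := l)
    omega

/-- `KC` from the smoothed bound. -/
theorem ckc_of_smooth {a : ℤ} {C σ : ℝ} {k l₀ : ℕ} (hC : 0 ≤ C) (hσ : 1 / 2 ≤ σ) (hσ1 : σ < 1)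
    (h : ∀ l : ℕ, l.Prime → l₀ ≤ l → ∀ x : ℝ, 2 ≤ x →
      (l : ℝ) * (l - 1) * ∑ p ∈ Bad a l x, Real.log p * Real.exp (-(Real.log (p / x)) ^ 2) ≤
        C * x + C * (l : ℝ) ^ k * x ^ σ) : KC a := by
  refine ⟨1 - σ, 12 * C, k, l₀, by linarith, by positivity, fun l hl hl0 x hx => ?_⟩
  have h2 : (2 : ℝ) ≤ l := by exact_mod_cast hl.two_le
  have h3 := ckc_dyadic (a := a) (l := l) (A := 2 * C / (l : ℝ) ^ 2) (B := C * (l : ℝ) ^ k)
    (by positivity) (by positivity) hσ (fun y hy => by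
      have h4 := h l hl hl0 y hy
      have h5 : 0 ≤ ∑ p ∈ Bad a l y, Real.log p * Real.exp (-(Real.log (p / y)) ^ 2) :=
        Finset.sum_nonneg fun p _ => mul_nonneg (Real.log_natCast_nonneg p) (Real.exp_pos _).le
      have h6 : 0 ≤ C * (l : ℝ) ^ k * y ^ σ := by positivity
      have h7 : (l : ℝ) ^ 2 / 2 ≤ l * (l - 1) := by nlinarith
      have h8 := (mul_le_mul_of_nonneg_right h7 h5).trans h4
      have h9 : C * (l : ℝ) ^ k * y ^ σ ≤ (l : ℝ) ^ 2 / 2 * (C * (l : ℝ) ^ k * y ^ σ) :=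
        le_mul_of_one_le_left h6 (by nlinarith)
      refine le_of_mul_le_mul_left ?_ (show 0 < (l : ℝ) ^ 2 / 2 by positivity)
      have e : (l : ℝ) ^ 2 / 2 * (2 * C / (l : ℝ) ^ 2 * y) = C * y := by field_simp
      rw [mul_add, e]
      linarith) (x := x) (by linarith)
  rw [sub_sub_cancel]
  refine h3.trans (le_of_eq ?_)
  ring

end Crest.Agent.R027
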