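import Crest.Agent.GQ.CKum

/-! # GQ CSplit: completely split primes in Kummer fields -/

set_option autoImplicit false

noncomputable section

open NumberField Complex MeasureTheory
open scoped nonZeroDivisors

namespace Crest.Agent.GC

variable {F : Type} [Field F] [NumberField F]

theorem csp_root {P : Ideal (𝓞 F)} [P.IsPrime] {p l : ℕ} (hp : p.Prime) (hpP : (p : 𝓞 F) ∈ P)
    (hl : ¬ p ∣ l) {η : 𝓞 F} (hη : η ^ l = 1) (h1 : Ideal.Quotient.mk P η = 1) : η = 1 := by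
  by_contra hne
  have : CharP (𝓞 F ⧸ P) p := (CharP.charP_iff_prime_eq_zero hp).2 (by
    rw [← map_natCast (Ideal.Quotient.mk P)]; exact Ideal.Quotient.eq_zero_iff_mem.2 hpP)
  have h2 : (∑ i ∈ Finset.range l, η ^ i) = 0 := by
    have h3 := geom_sum_mul η l
    rw [hη, sub_self] at h3
    exact (mul_eq_zero.1 h3).resolve_right (sub_ne_zero.2 hne)
  have h3 := congrArg (Ideal.Quotient.mk P) h2
  simp only [map_sum, map_pow, h1, one_pow, Finset.sum_const, Finset.card_range, nsmul_eq_mul,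
    mul_one, map_zero] at h3
  exact hl ((CharP.cast_eq_zero_iff (𝓞 F ⧸ P) p l).1 h3)

theorem csp_fix {P : Ideal (𝓞 F)} [P.IsMaximal] {p l : ℕ} (hp : p.Prime) (hpP : (p : 𝓞 F) ∈ P)
    (h1 : l ∣ p - 1) {a : ℤ} (ha : ¬ (p : ℤ) ∣ a) (hy : ∃ y : ZMod p, y ^ l = (a : ZMod p))
    (φ : 𝓞 F →+* 𝓞 F) (hφ : P ≤ P.comap φ) {x : 𝓞 F} (hx : x ^ l = (a : 𝓞 F)) : φ x = x := by
  have hpf : Fact p.Prime := ⟨hp⟩
  letI := Ideal.Quotient.field P
  have : CharP (𝓞 F ⧸ P) p := (CharP.charP_iff_prime_eq_zero hp).2 (by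
    rw [← map_natCast (Ideal.Quotient.mk P)]; exact Ideal.Quotient.eq_zero_iff_mem.2 hpP)
  have hp1 : 0 < p - 1 := by have := hp.two_le; omega
  have hl0 : 0 < l := Nat.pos_of_dvd_of_pos h1 hp1
  have hpl : ¬ p ∣ l := fun h => by
    have := Nat.le_of_dvd hp1 (h.trans h1)
    omega
  obtain ⟨y, hy⟩ := hy
  have ha0 : (a : ZMod p) ≠ 0 := fun h => ha ((ZMod.intCast_zmod_eq_zero_iff_dvd a p).1 h)
  have hy0 : y ≠ 0 := by
    rintro rfl
    rw [zero_pow hl0.ne'] at hy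
    exact ha0 hy.symm
  obtain ⟨k, hk⟩ := h1
  have hak : (a : 𝓞 F ⧸ P) ^ k = 1 := by
    have h2 : (a : ZMod p) ^ k = 1 := by
      rw [← hy, ← pow_mul, ← hk]; exact ZMod.pow_card_sub_one_eq_one hy0
    have h3 := congrArg (ZMod.castHom (dvd_refl p) (𝓞 F ⧸ P)) h2
    simpa only [map_pow, map_intCast, map_one] using h3
  have hxk : Ideal.Quotient.mk P x ^ (p - 1) = 1 := by
    rw [hk, pow_mul, ← map_pow, hx, map_intCast, hak]
  have hx0 : Ideal.Quotient.mk P x ≠ 0 := fun h => by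
    rw [h, zero_pow hp1.ne'] at hxk
    exact zero_ne_one hxk
  have hxp : Ideal.Quotient.mk P x ^ p = Ideal.Quotient.mk P x := by
    conv_lhs => rw [show p = p - 1 + 1 by omega, pow_succ, hxk, one_mul]
  have hbot : Ideal.Quotient.mk P x ∈ (⊥ : Subfield (𝓞 F ⧸ P)) :=
    (Subfield.mem_bot_iff_pow_eq_self (𝓞 F ⧸ P) p).2 hxp
  have hfix : Ideal.Quotient.mk P (φ x) = Ideal.Quotient.mk P x := by
    have h2 : Ideal.Quotient.mk P x ∈
        RingHom.eqLocusField (Ideal.quotientMap P φ hφ) (RingHom.id _) :=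
      bot_le (a := RingHom.eqLocusField (Ideal.quotientMap P φ hφ) (RingHom.id _)) hbot
    exact h2
  have hxF : (x : F) ≠ 0 := fun h => hx0 (by
    rw [show x = 0 from RingOfIntegers.ext h, map_zero])
  have hφx : φ x ^ l = (a : 𝓞 F) := by rw [← map_pow, hx, map_intCast]
  have hηl : (((φ x : 𝓞 F) : F) / x) ^ l = 1 := by
    rw [div_pow, div_eq_one_iff_eq (pow_ne_zero _ hxF)]
    exact_mod_cast congrArg (fun t : 𝓞 F => (t : F)) (hφx.trans hx.symm)
  have hint : IsIntegral ℤ (((φ x : 𝓞 F) : F) / x) :=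
    IsIntegral.of_pow hl0 (by rw [hηl]; exact isIntegral_one)
  let η : 𝓞 F := ⟨_, hint⟩
  have hηx : η * x = φ x := RingOfIntegers.ext (by
    change ((φ x : 𝓞 F) : F) / x * x = _
    exact div_mul_cancel₀ _ hxF)
  have hη1 : η = 1 := by
    refine csp_root hp hpP hpl (RingOfIntegers.ext (by
      rw [RingOfIntegers.coe_eq_algebraMap, map_pow]; exact hηl)) ?_
    rw [← hηx, map_mul] at hfix
    exact mul_right_cancel₀ hx0 (hfix.trans (one_mul _).symm)
  rw [← hηx, hη1, one_mul]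

theorem KF.isGalois {m l : ℕ} {a : ℤ} {ζ α : F} (h : KF m l a ζ α) (hm : 0 < m) (hl : l ∣ m) :
    IsGalois ℚ F := by
  have hl0 : 0 < l := Nat.pos_of_dvd_of_pos hl hm
  obtain ⟨k, hk⟩ := hl
  have hξ : IsPrimitiveRoot (ζ ^ k) l := h.hζ.pow hm (by rw [hk, mul_comm])
  let f : Polynomial ℚ :=
    (Polynomial.X ^ m - Polynomial.C 1) * (Polynomial.X ^ l - Polynomial.C (a : ℚ))
  have hf0 : f ≠ 0 :=
    mul_ne_zero (Polynomial.X_pow_sub_C_ne_zero hm _) (Polynomial.X_pow_sub_C_ne_zero hl0 _)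
  have : Polynomial.IsSplittingField ℚ F f := by
    refine ⟨?_, ?_⟩
    · simp only [f, Polynomial.map_mul, Polynomial.map_sub, Polynomial.map_pow, Polynomial.map_X,
        Polynomial.map_C, map_one (algebraMap ℚ F), map_intCast (algebraMap ℚ F)]
      exact (Polynomial.X_pow_sub_one_splits h.hζ).mul
        (X_pow_sub_C_splits_of_isPrimitiveRoot hξ h.hα)
    · rw [eq_top_iff, ← IntermediateField.top_toSubalgebra, ← h.top,
        IntermediateField.adjoin_toSubalgebra_of_isAlgebraic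
          (fun x _ => Algebra.IsAlgebraic.isAlgebraic x)]
      apply Algebra.adjoin_mono
      rintro x (rfl | rfl)
      · rw [Polynomial.mem_rootSet_of_ne hf0]
        simp [f, h.hζ.pow_eq_one]
      · rw [Polynomial.mem_rootSet_of_ne hf0]
        simp [f, h.hα]
  have : Normal ℚ F := Normal.of_isSplittingField f
  exact {}

open scoped Pointwise in
theorem csp_stab {m l : ℕ} {a : ℤ} {ζ α : F} (h : KF m l a ζ α) (hm : 0 < m) (hl : l ∣ m)
    {p : ℕ} (hp : p.Prime) (h1 : m ∣ p - 1) (ha : ¬ (p : ℤ) ∣ a)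
    (hy : ∃ y : ZMod p, y ^ l = (a : ZMod p)) {P : Ideal (𝓞 F)} [P.IsMaximal]
    (hpP : (p : 𝓞 F) ∈ P) : MulAction.stabilizer Gal(F/ℚ) P = ⊥ := by
  have hl0 : 0 < l := Nat.pos_of_dvd_of_pos hl hm
  rw [eq_bot_iff]
  intro σ hσ
  rw [Subgroup.mem_bot]
  have hφ : P ≤ P.comap (MulSemiringAction.toRingHom Gal(F/ℚ) (𝓞 F) σ) := fun x hx => by
    have h2 : σ • x ∈ σ • P := Ideal.smul_mem_pointwise_smul σ x P hx
    rw [MulAction.mem_stabilizer_iff.1 hσ] at h2
    exact h2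
  have key : ∀ (n : ℕ) (b : ℤ) (x : F), 0 < n → n ∣ p - 1 → ¬ (p : ℤ) ∣ b →
      (∃ y : ZMod p, y ^ n = (b : ZMod p)) → x ^ n = (b : F) → σ x = x := by
    intro n b x hn hn1 hb hy hx
    have hint : IsIntegral ℤ x := IsIntegral.of_pow hn (by
      rw [hx]; exact isIntegral_algebraMap (x := b))
    have h2 := csp_fix hp hpP hn1 hb hy _ hφ (x := ⟨x, hint⟩)
      (RingOfIntegers.ext (by
        rw [RingOfIntegers.coe_eq_algebraMap, RingOfIntegers.coe_eq_algebraMap, map_pow,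
          map_intCast]
        exact hx))
    exact congrArg (fun t : 𝓞 F => (t : F)) h2
  have hζ : σ ζ = ζ := key m 1 ζ hm h1
    (fun h => hp.one_lt.ne' (by exact_mod_cast Int.eq_one_of_dvd_one (by positivity) h))
    ⟨1, by simp⟩ (by simp [h.hζ.pow_eq_one])
  have hα : σ α = α := key l a α hl0 (hl.trans h1) ha hy h.hα
  ext x
  have hx : x ∈ IntermediateField.adjoin ℚ {ζ, α} := h.top ▸ IntermediateField.mem_top
  change σ x = x
  induction hx using IntermediateField.adjoin_induction with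
  | mem x hx => rcases hx with rfl | rfl <;> assumption
  | algebraMap x => exact σ.commutes x
  | add x y _ _ hx hy => rw [map_add, hx, hy]
  | inv x _ hx => rw [map_inv₀, hx]
  | mul x y _ _ hx hy => rw [map_mul, hx, hy]

theorem KF.split {m l : ℕ} {a : ℤ} {ζ α : F} (h : KF m l a ζ α) (hm : 0 < m) (hl : l ∣ m)
    {p : ℕ} (hp : p.Prime) (h1 : m ∣ p - 1) (ha : ¬ (p : ℤ) ∣ a)
    (hy : ∃ y : ZMod p, y ^ l = (a : ZMod p)) : a1 F p = dg F := by
  have hG := h.isGalois hm hl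
  have hpf : Fact p.Prime := ⟨hp⟩
  have hp0 : (Ideal.span {(p : ℤ)}) ≠ ⊥ := by
    rw [Ne, Ideal.span_singleton_eq_bot]; exact_mod_cast hp.ne_zero
  have hall : ∀ P ∈ Ideal.primesOver (Ideal.span {(p : ℤ)}) (𝓞 F),
      (Ideal.span {(p : ℤ)}).ramificationIdxIn (𝓞 F) *
        (Ideal.span {(p : ℤ)}).inertiaDegIn (𝓞 F) = 1 ∧ Ideal.absNorm P = p := by
    rintro P ⟨hP, hPl⟩
    have hM : P.IsMaximal := Ideal.IsMaximal.of_liesOver_isMaximal P (Ideal.span {(p : ℤ)})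
    have hpP : (p : 𝓞 F) ∈ P := by
      have h2 : (p : ℤ) ∈ P.under ℤ := by
        rw [← P.over_def (Ideal.span {(p : ℤ)})]; exact Ideal.mem_span_singleton_self _
      simpa using h2
    have h2 := Ideal.card_stabilizer_eq (G := Gal(F/ℚ)) (Ideal.span {(p : ℤ)}) P
    rw [csp_stab h hm hl hp h1 ha hy hpP, Subgroup.card_bot] at h2
    refine ⟨h2.symm, ?_⟩
    rw [← Ideal.pow_inertiaDeg p P,
      ← Ideal.inertiaDegIn_eq_inertiaDeg (Ideal.span {(p : ℤ)}) P Gal(F/ℚ),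
      Nat.eq_one_of_mul_eq_one_left h2.symm, pow_one]
  obtain ⟨⟨P₀, hP₀⟩⟩ :=
    (inferInstance : Nonempty (Ideal.primesOver (Ideal.span {(p : ℤ)}) (𝓞 F)))
  have h2 := Ideal.ncard_primesOver_mul_ramificationIdxIn_mul_inertiaDegIn
    (Ideal.span {(p : ℤ)}) (𝓞 F) Gal(F/ℚ)
  rw [(hall P₀ hP₀).1, mul_one, IsGalois.card_aut_eq_finrank] at h2
  refine le_antisymm (a1_le hp) ?_
  rw [dg, ← h2]
  exact Set.ncard_le_ncard (t := {P : Ideal (𝓞 F) | Ideal.absNorm P = p})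
    (fun P hP => (hall P hP).2) (Ideal.finite_setOfPred_absNorm_eq p)

end Crest.Agent.GC
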