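import Crest.Agent.GQ.CPrime
import Crest.Agent.GQ.CSplit
import Crest.Agent.R027.ADefs
import Crest.Agent.GQ.CKCAux

/-! # GQ CKC: the Kummer–Chebotarev input of row 27 -/

set_option autoImplicit false

noncomputable section

open NumberField Complex MeasureTheory
open scoped nonZeroDivisors

namespace Crest.Agent.GC

theorem kc {a : ℤ} (ha : 2 ≤ |a|) : R027.KC a := by
  obtain ⟨C, hC, H⟩ := prime_count
  have ha0 : a ≠ 0 := by rintro rfl; simp at ha
  have ha1 : (1 : ℝ) ≤ |(a : ℝ)| := by exact_mod_cast (by linarith : (1 : ℤ) ≤ |a|)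
  have hL := Real.log_nonneg ha1
  have hG : 0 ≤ cG := by unfold cG; positivity
  refine R027.ckc_of_smooth (C := cG + C * (2 * (2 + Real.log |(a : ℝ)|))) (σ := theta1) (k := 4)
    (l₀ := a.natAbs + 5) (by positivity) (by norm_num [theta1]) (by norm_num [theta1])
    fun l hl hl0 x hx => ?_
  obtain ⟨F, _, _, ζ, α, h⟩ := exists_KF hl.pos hl.pos a
  have := h.totallyComplex (by omega)
  have hd := h.dg_eq hl.pos hl (not_pow_prime hl h.hζ (R027.ckc_not_pow ha (by omega)))
  rw [Nat.totient_prime hl] at hd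
  obtain ⟨H1, H2⟩ := H F x (by linarith)
  have hB := h.BF_le hl.pos hl.pos ha0
  have h1 : (1 : ℝ) ≤ l := by exact_mod_cast hl.one_le
  have h2 : BF F ≤ 2 * (2 + Real.log |(a : ℝ)|) * (l : ℝ) ^ 4 := by
    have h3 : Real.log (l * l) ≤ l * l := (Real.log_le_sub_one_of_pos (by positivity)).trans (by linarith)
    have h4 : (1 : ℝ) ≤ l * l := by nlinarith
    have h5 : 1 + Real.log (l * l) + Real.log |(a : ℝ)| ≤ (2 + Real.log |(a : ℝ)|) * (l * l) := by
      nlinarith [mul_le_mul_of_nonneg_left h4 hL]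
    refine hB.trans ((mul_le_mul_of_nonneg_left h5 (by positivity)).trans (le_of_eq (by ring)))
  have h3 : (l : ℝ) * (l - 1) * ∑ p ∈ R027.Bad a l x, Real.log p * Real.exp (-(Real.log (p / x)) ^ 2)
      = ∑ p ∈ R027.Bad a l x, bP F p * wG (p / x) := by
    rw [Finset.mul_sum]
    refine Finset.sum_congr rfl fun p hp => ?_
    obtain ⟨⟨h4, -⟩, h5, h6, h7⟩ := (R027.ckc_mem (by linarith)).1 hp
    have h8 : p ≠ 3 := by
      rintro rfl
      have := Nat.le_of_dvd (by norm_num) h5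
      omega
    rw [bP, if_pos ⟨h4, h8⟩, h.split hl.pos dvd_rfl h4 h5 h6 h7, hd, wG, Nat.cast_mul,
      Nat.cast_pred hl.pos]
    ring
  have h4 : ∑ p ∈ R027.Bad a l x, bP F p * wG (p / x) ≤ ∑' p : ℕ, bP F p * wG (p / x) :=
    H1.sum_le_tsum _ fun p _ => mul_nonneg (by
      unfold bP
      split_ifs
      · exact mul_nonneg (Nat.cast_nonneg _) (Real.log_natCast_nonneg p)
      · exact le_rfl) (Real.exp_pos _).le
  have h5 : 0 ≤ x ^ theta1 := Real.rpow_nonneg (by linarith) _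
  have h6 := mul_le_mul_of_nonneg_right (mul_le_mul_of_nonneg_left h2 hC.le) h5
  have h7 : 0 ≤ cG * (l : ℝ) ^ 4 * x ^ theta1 := by positivity
  have h8 : 0 ≤ C * (2 * (2 + Real.log |(a : ℝ)|)) * x := by
    have : 0 ≤ x := by linarith
    positivity
  rw [h3]
  nlinarith [(abs_le.1 H2).2]

end Crest.Agent.GC
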