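import Crest.Agent.GQ.CEuler

/-! # GQ CKum: Kummer fields -/

set_option autoImplicit false

noncomputable section

open NumberField Complex MeasureTheory
open scoped nonZeroDivisors

namespace Crest.Agent.GC

variable {F : Type} [Field F] [NumberField F]

theorem cku_int {R : Type*} [CommRing R] {K : Type*} [CommRing K] [Algebra R K] {x : K} {l : ℕ}
    (hl : 0 < l) {a : ℤ} (h : x ^ l = (a : K)) : IsIntegral R x :=
  IsIntegral.of_pow hl (by
    rw [h, ← map_intCast (algebraMap R K)]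
    exact isIntegral_algebraMap)

theorem cku_span {m l : ℕ} {a : ℤ} {ζ α : F} (h : KF m l a ζ α) (hm : 0 < m) (hl : 0 < l) :
    Submodule.span ℚ (Set.range fun q : Fin m × Fin l => ζ ^ (q.1 : ℕ) * α ^ (q.2 : ℕ)) = ⊤ := by
  have h1 : Algebra.adjoin ℚ ({ζ, α} : Set F) = ⊤ := by
    rw [← IntermediateField.adjoin_toSubalgebra_of_isAlgebraic
      fun x _ => Algebra.IsAlgebraic.isAlgebraic x, h.top, IntermediateField.top_toSubalgebra]
  have h2 := Algebra.adjoin_eq_span ℚ ({ζ, α} : Set F)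
  rw [h1, Algebra.top_toSubmodule] at h2
  rw [eq_top_iff, h2, Submodule.span_le]
  intro x hx
  obtain ⟨i, j, rfl⟩ := (Submonoid.mem_closure_pair _ _ _).1 hx
  have e : ζ ^ i * α ^ j = ((a : ℚ) ^ (j / l)) • (ζ ^ (i % m) * α ^ (j % l)) := by
    conv_lhs => rw [← Nat.div_add_mod i m, ← Nat.div_add_mod j l]
    rw [pow_add, pow_add, pow_mul, pow_mul, h.hζ.pow_eq_one, h.hα, Algebra.smul_def]
    simp only [one_pow, one_mul, map_pow, map_intCast]
    ring
  rw [e]
  exact Submodule.smul_mem _ _ (Submodule.subset_span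
    ⟨(⟨i % m, Nat.mod_lt _ hm⟩, ⟨j % l, Nat.mod_lt _ hl⟩), rfl⟩)

theorem cku_discr_le {S : Set F} (hS : Submodule.span ℚ S = ⊤) (hi : ∀ x ∈ S, IsIntegral ℤ x)
    {M : ℝ} (hM : ∀ x ∈ S, ∀ φ : F →ₐ[ℚ] ℂ, ‖φ x‖ ≤ M) :
    DD F ≤ ((dg F).factorial * M ^ dg F) ^ 2 := by
  classical
  obtain ⟨b, hb, hsp, hli⟩ := exists_linearIndependent ℚ S
  let B₀ : Module.Basis b ℚ F := Module.Basis.mk hli (by rw [Subtype.range_coe, hsp, hS])
  let B := B₀.reindex (B₀.indexEquiv (integralBasis F))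
  have hB : ∀ i, B i ∈ S := fun i => hb (by
    simp only [B, B₀, Module.Basis.reindex_apply, Module.Basis.mk_apply]
    exact Subtype.coe_prop _)
  let b' : _ → 𝓞 F := fun i => ⟨B i, hi _ (hB i)⟩
  let P := (RingOfIntegers.basis F).toMatrix b'
  have hP : (integralBasis F).toMatrix B = P.map (Int.castRingHom ℚ) := by
    ext i j
    exact integralBasis_repr_apply F (b' j) i
  have h1 := Algebra.discr_of_matrix_vecMul (integralBasis F) ((integralBasis F).toMatrix B)
  rw [Module.Basis.toMatrix_map_vecMul, hP, ← RingHom.mapMatrix_apply, ← RingHom.map_det,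
    ← coe_discr] at h1
  have h2 : P.det ≠ 0 := fun h => by
    apply Algebra.discr_not_zero_of_basis ℚ B
    rw [h1, h]
    simp
  have hc : Fintype.card (Module.Free.ChooseBasisIndex ℤ (𝓞 F)) = dg F :=
    (Module.finrank_eq_card_basis (integralBasis F)).symm
  let e : Module.Free.ChooseBasisIndex ℤ (𝓞 F) ≃ (F →ₐ[ℚ] ℂ) :=
    Fintype.equivOfCardEq (hc.trans (AlgHom.card ℚ F ℂ).symm)
  have h3 := Algebra.discr_eq_det_embeddingsMatrixReindex_pow_two ℚ ℂ B e
  have h4 : ‖(Algebra.embeddingsMatrixReindex ℚ ℂ B e).det‖ ≤ (dg F).factorial * M ^ dg F := by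
    have := Matrix.det_le (A := Algebra.embeddingsMatrixReindex ℚ ℂ B e)
      (abv := NormedField.toAbsoluteValue ℂ) (x := M) fun i j => hM _ (hB i) _
    rwa [hc, nsmul_eq_mul] at this
  have h5 : ((P.det : ℝ)) ^ 2 * DD F = ‖(Algebra.embeddingsMatrixReindex ℚ ℂ B e).det‖ ^ 2 := by
    rw [← norm_pow, ← h3, h1]
    simp [DD]
  have h6 : (1 : ℝ) ≤ (P.det : ℝ) ^ 2 := by
    have : (0 : ℤ) < P.det ^ 2 := by positivity
    exact_mod_cast this
  have h7 : 0 ≤ DD F := abs_nonneg _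
  calc DD F ≤ ((P.det : ℝ)) ^ 2 * DD F := le_mul_of_one_le_left h7 h6
    _ ≤ _ := by
      rw [h5]
      exact pow_le_pow_left₀ (norm_nonneg _) h4 2

theorem cku_finrank {m : ℕ} {ζ : F} (hζ : IsPrimitiveRoot ζ m) (hm : 0 < m) :
    Module.finrank ℚ (IntermediateField.adjoin ℚ {ζ}) = m.totient := by
  rw [IntermediateField.adjoin.finrank (Algebra.IsIntegral.isIntegral ζ),
    ← Polynomial.cyclotomic_eq_minpoly_rat hζ hm, Polynomial.natDegree_cyclotomic]

theorem cku_rat_root {l : ℕ} (hl : 0 < l) {a : ℤ} {q : ℚ} (h : q ^ l = a) :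
    ∃ b : ℤ, b ^ l = a := by
  obtain ⟨b, rfl⟩ := IsIntegrallyClosed.isIntegral_iff.1 (cku_int (R := ℤ) hl h)
  exact ⟨b, by exact_mod_cast (show (b : ℚ) ^ l = a from h)⟩

theorem exists_KF {m l : ℕ} (hm : 0 < m) (hl : 0 < l) (a : ℤ) :
    ∃ (F : Type) (_ : Field F) (_ : NumberField F) (ζ α : F), KF m l a ζ α := by
  have hζ := Complex.isPrimitiveRoot_exp m hm.ne'
  obtain ⟨α, hα⟩ := IsAlgClosed.exists_pow_nat_eq (a : ℂ) hl
  generalize Complex.exp (2 * Real.pi * I / m) = ζ at hζ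
  have : FiniteDimensional ℚ (IntermediateField.adjoin ℚ {ζ, α}) :=
    IntermediateField.finiteDimensional_adjoin_pair
      (cku_int hm (a := 1) (by simpa using hζ.pow_eq_one)) (cku_int hl hα)
  have : NumberField (IntermediateField.adjoin ℚ {ζ, α}) := {}
  refine ⟨IntermediateField.adjoin ℚ {ζ, α}, inferInstance, this,
    ⟨ζ, IntermediateField.subset_adjoin _ _ (by simp)⟩,
    ⟨α, IntermediateField.subset_adjoin _ _ (by simp)⟩, ?_, ?_, ?_⟩
  · exact IsPrimitiveRoot.of_map_of_injective (f := (IntermediateField.adjoin ℚ {ζ, α}).val) hζ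
      Subtype.val_injective
  · exact Subtype.ext (by simpa using hα)
  · apply IntermediateField.lift_injective
    refine (IntermediateField.lift_adjoin _ _ _).trans
      (Eq.trans ?_ (IntermediateField.lift_top _ _).symm)
    exact congrArg _ (Set.image_pair _ _ _)
theorem KF.totallyComplex {m l : ℕ} {a : ℤ} {ζ α : F} (h : KF m l a ζ α) (hm : 3 ≤ m) :
    IsTotallyComplex F :=
  nrRealPlaces_eq_zero_iff.1 (InfinitePlace.IsPrimitiveRoot.nrRealPlaces_eq_zero_of_two_lt hm h.hζ)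
theorem KF.dg_le {m l : ℕ} {a : ℤ} {ζ α : F} (h : KF m l a ζ α) (hm : 0 < m) (hl : 0 < l) :
    dg F ≤ m * l := by
  simpa using finrank_le_of_span_eq_top (cku_span h hm hl)
theorem KF.BF_le {m l : ℕ} {a : ℤ} {ζ α : F} (h : KF m l a ζ α) (hm : 0 < m) (hl : 0 < l)
    (ha : a ≠ 0) : BF F ≤ 2 * (m * l : ℝ) * (1 + Real.log (m * l) + Real.log |(a : ℝ)|) := by
  have ha1 : (1 : ℝ) ≤ |(a : ℝ)| := by exact_mod_cast Int.one_le_abs ha
  have hD := cku_discr_le (cku_span h hm hl) (M := |(a : ℝ)|) ?_ ?_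
  · have hn : (dg F : ℝ) ≤ m * l := by exact_mod_cast h.dg_le hm hl
    have hn0 : 0 < dg F := Module.finrank_pos
    have hn1 : (1 : ℝ) ≤ dg F := by exact_mod_cast hn0
    have hD0 : 0 < DD F := abs_pos.2 (by exact_mod_cast discr_ne_zero F)
    have hf : ((dg F).factorial : ℝ) ≤ (dg F : ℝ) ^ dg F := by
      exact_mod_cast Nat.factorial_le_pow _
    have h1 : DD F ≤ (((m * l : ℝ) * |(a : ℝ)|) ^ dg F) ^ 2 := by
      refine hD.trans ?_
      rw [mul_pow _ |(a : ℝ)|]
      gcongr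
      exact hf.trans (by gcongr)
    have h2 := Real.log_le_log hD0 h1
    rw [Real.log_pow, Real.log_pow, Real.log_mul (by linarith) (by linarith)] at h2
    have h3 : 0 ≤ Real.log (m * l) + Real.log |(a : ℝ)| :=
      add_nonneg (Real.log_nonneg (by linarith)) (Real.log_nonneg ha1)
    have h4 := mul_le_mul_of_nonneg_right hn h3
    unfold BF
    push_cast at h2
    nlinarith
  · rintro _ ⟨q, rfl⟩
    exact ((cku_int hm (a := 1) (by simpa using h.hζ.pow_eq_one)).pow _).mul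
      ((cku_int hl h.hα).pow _)
  · rintro _ ⟨q, rfl⟩ φ
    have e1 : ‖φ ζ‖ = 1 := by
      have : ‖φ ζ‖ ^ m = 1 := by rw [← norm_pow, ← map_pow, h.hζ.pow_eq_one, map_one, norm_one]
      exact (pow_eq_one_iff_of_nonneg (norm_nonneg _) hm.ne').1 this
    have e2 : ‖φ α‖ ^ l = |(a : ℝ)| := by
      rw [← norm_pow, ← map_pow, h.hα, map_intCast, Complex.norm_intCast]
    have e3 : 1 ≤ ‖φ α‖ := by
      by_contra hc
      have := pow_lt_one₀ (norm_nonneg _) (not_le.1 hc) hl.ne'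
      linarith
    simp only [map_mul, map_pow, norm_mul, norm_pow, e1, one_pow, one_mul]
    rw [← e2]
    exact pow_le_pow_right₀ e3 q.2.2.le
theorem KF.dg_one {m : ℕ} {ζ α : F} (h : KF m 1 1 ζ α) (hm : 0 < m) : dg F = m.totient := by
  have h1 : α = 1 := by simpa using h.hα
  have h2 : IntermediateField.adjoin ℚ {ζ} = ⊤ := by
    rw [eq_top_iff, ← h.top, IntermediateField.adjoin_le_iff, h1]
    rintro x (rfl | rfl)
    · exact IntermediateField.mem_adjoin_simple_self _ _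
    · exact one_mem _
  rw [← cku_finrank h.hζ hm, h2, IntermediateField.finrank_top']
theorem KF.dg_eq {m l : ℕ} {a : ℤ} {ζ α : F} (h : KF m l a ζ α) (hm : 0 < m) (hl : l.Prime)
    (ha : ∀ b ∈ IntermediateField.adjoin ℚ {ζ}, b ^ l ≠ (a : F)) : dg F = m.totient * l := by
  have h1 : IntermediateField.adjoin (IntermediateField.adjoin ℚ {ζ}) {α} = ⊤ := by
    exact (IntermediateField.restrictScalars_eq_top_iff (K := ℚ)).1
      ((IntermediateField.adjoin_simple_adjoin_simple ℚ ζ α).trans h.top)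
  have h2 : Irreducible (Polynomial.X ^ l -
      Polynomial.C ((a : ℤ) : IntermediateField.adjoin ℚ {ζ})) :=
    X_pow_sub_C_irreducible_of_prime hl fun b hb =>
      ha b b.2 (by simpa using congrArg Subtype.val hb)
  have h3 := minpoly.eq_of_irreducible_of_monic h2 (x := α) (by simp [h.hα])
    (Polynomial.monic_X_pow_sub_C _ hl.ne_zero)
  have h4 := IntermediateField.adjoin.finrank (K := IntermediateField.adjoin ℚ {ζ})
    (Algebra.IsIntegral.isIntegral α)
  rw [h1, IntermediateField.finrank_top', ← h3, Polynomial.natDegree_X_pow_sub_C] at h4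
  rw [← cku_finrank h.hζ hm, ← h4, Module.finrank_mul_finrank]
theorem not_pow_prime {l : ℕ} (hl : l.Prime) {ζ : F} (hζ : IsPrimitiveRoot ζ l) {a : ℤ}
    (ha : ∀ b : ℤ, b ^ l ≠ a) : ∀ b ∈ IntermediateField.adjoin ℚ {ζ}, b ^ l ≠ (a : F) := by
  intro b hb h
  have ha0 : (a : ℚ) ≠ 0 := fun h0 => ha 0 (by
    rw [zero_pow hl.ne_zero]
    exact_mod_cast h0.symm)
  have h1 : (⟨b, hb⟩ : IntermediateField.adjoin ℚ {ζ}) ^ l = algebraMap ℚ _ a :=
    Subtype.ext (by simpa using h)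
  have h2 := congrArg (Algebra.norm ℚ) h1
  rw [map_pow, Algebra.norm_algebraMap, cku_finrank hζ hl.pos, Nat.totient_prime hl] at h2
  obtain ⟨c, hc⟩ := cku_rat_root hl.pos (a := a)
    (q := a / Algebra.norm ℚ (⟨b, hb⟩ : IntermediateField.adjoin ℚ {ζ})) (by
      rw [div_pow, h2, div_eq_iff (pow_ne_zero _ ha0), ← pow_succ', Nat.sub_add_cancel hl.pos])
  exact ha c hc
theorem not_sq_four {ζ : F} (hζ : IsPrimitiveRoot ζ 4) {p : ℕ} (hp : p.Prime) :
    ∀ b ∈ IntermediateField.adjoin ℚ {ζ}, b ^ 2 ≠ ((p : ℤ) : F) := by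
  intro b hb h
  have h2 : ζ ^ 2 = -1 := (hζ.pow (by norm_num) (show 4 = 2 * 2 by norm_num)).eq_neg_one_of_two_right
  have h3 : ∃ x y : ℚ, b = x + y * ζ := by
    have hb' : b ∈ Algebra.adjoin ℚ {ζ} := by
      rw [← IntermediateField.adjoin_toSubalgebra_of_isAlgebraic
        fun x _ => Algebra.IsAlgebraic.isAlgebraic x]
      exact hb
    clear h hb
    induction hb' using Algebra.adjoin_induction with
    | mem x hx => exact ⟨0, 1, by simpa using hx⟩
    | algebraMap r => exact ⟨r, 0, by simp⟩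
    | add u v _ _ hu hv =>
      obtain ⟨x, y, rfl⟩ := hu
      obtain ⟨x', y', rfl⟩ := hv
      exact ⟨x + x', y + y', by push_cast; ring⟩
    | mul u v _ _ hu hv =>
      obtain ⟨x, y, rfl⟩ := hu
      obtain ⟨x', y', rfl⟩ := hv
      exact ⟨x * x' - y * y', x * y' + y * x', by
        push_cast
        linear_combination ((y : F) * y') * h2⟩
  obtain ⟨x, y, rfl⟩ := h3
  have h4 : (2 * x * y : F) * ζ = p - x ^ 2 + y ^ 2 := by
    push_cast at h
    linear_combination h - (y : F) ^ 2 * h2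
  have h5 : -(2 * x * y) ^ 2 = ((p : ℚ) - x ^ 2 + y ^ 2) ^ 2 := by
    have : -(2 * x * y : F) ^ 2 = ((p : F) - x ^ 2 + y ^ 2) ^ 2 := by
      rw [← h4]
      linear_combination (-(2 * x * y : F) ^ 2) * h2
    exact_mod_cast this
  have h6 : 2 * x * y = 0 := by nlinarith [sq_nonneg (2 * x * y), sq_nonneg ((p : ℚ) - x ^ 2 + y ^ 2)]
  have h7 : (p : ℚ) - x ^ 2 + y ^ 2 = 0 := by
    rw [h6] at h5
    exact pow_eq_zero_iff (two_ne_zero) |>.1 (by linarith)
  have hp0 : (0 : ℚ) < p := by exact_mod_cast hp.pos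
  have hx : x ≠ 0 := fun h0 => by
    rw [h0] at h7
    nlinarith [sq_nonneg y]
  have hy : y = 0 := by simpa [hx] using h6
  obtain ⟨c, hc⟩ := cku_rat_root two_pos (a := p) (q := x) (by
    rw [hy] at h7
    push_cast
    linarith)
  exact (Nat.prime_iff_prime_int.1 hp).not_isSquare ⟨c, by rw [← hc, sq]⟩
theorem dvd_of_a1_ne_zero {m : ℕ} {ζ : F} (hζ : IsPrimitiveRoot ζ m) (hm : 0 < m) {r : ℕ}
    (hr : r.Prime) (h : a1 F r ≠ 0) : r ∣ m ∨ m ∣ r - 1 := by
  refine or_iff_not_imp_left.2 fun hrm => ?_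
  obtain ⟨⟨P, hP⟩⟩ := (Nat.card_ne_zero.1 h).1
  have : NeZero m := ⟨hm.ne'⟩
  have h1 := hζ.toInteger_isPrimitiveRoot.idealQuotient_mk (I := P) (by rw [hP]; exact hr.ne_one)
    (by rw [hP]; exact (Nat.Prime.coprime_iff_not_dvd hr).2 hrm)
  have h2 : P.IsPrime := Ideal.isPrime_of_irreducible_absNorm (by rw [hP]; exact hr)
  have h3 : P ≠ ⊥ := fun h0 => hr.ne_zero (by rw [← hP, h0, Ideal.absNorm_bot])
  have : P.IsMaximal := Ring.DimensionLEOne.maximalOfPrime h3 h2
  let _ := Ideal.Quotient.field P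
  obtain ⟨u, hu⟩ := h1.isUnit hm.ne'
  rw [← hu, IsPrimitiveRoot.coe_units_iff] at h1
  have h4 := orderOf_dvd_natCard u
  rwa [← h1.eq_orderOf, Nat.card_units, ← Submodule.cardQuot_apply, ← Ideal.absNorm_apply,
    hP] at h4

end Crest.Agent.GC
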