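import Crest.Agent.GQ.CPoi

/-! # GQ CLat: the lattices of fractional ideals -/

set_option autoImplicit false

noncomputable section

open NumberField Complex MeasureTheory
open scoped nonZeroDivisors

namespace Crest.Agent.GC

variable {F : Type} [Field F] [NumberField F] [IsTotallyComplex F]

omit [NumberField F] [IsTotallyComplex F] in
theorem em_mul (x y : F) : em (x * y) = em x * em y :=
  funext fun v => map_mul v.embedding x y
omit [NumberField F] [IsTotallyComplex F] in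
theorem em_add (x y : F) : em (x + y) = em x + em y :=
  funext fun v => map_add v.embedding x y
omit [NumberField F] [IsTotallyComplex F] in
theorem em_ne_zero {x : F} (hx : x ≠ 0) (v : InfinitePlace F) : em x v ≠ 0 :=
  (map_ne_zero v.embedding).2 hx
omit [IsTotallyComplex F] in
theorem em_injective : Function.Injective (em : F → InfinitePlace F → ℂ) := fun _ _ h => by
  obtain ⟨v⟩ : Nonempty (InfinitePlace F) := inferInstance
  exact v.embedding.injective (congrFun h v)
omit [NumberField F] [IsTotallyComplex F] in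
theorem lm_mul {x y : F} (hx : x ≠ 0) (hy : y ≠ 0) : lm (x * y) = lm x + lm y := by
  funext v
  simp only [lm, em_mul, Pi.mul_apply, Pi.add_apply, norm_mul]
  exact Real.log_mul (norm_ne_zero_iff.2 (em_ne_zero hx v)) (norm_ne_zero_iff.2 (em_ne_zero hy v))
omit [IsTotallyComplex F] in
theorem gG_mul {x : F} (hx : x ≠ 0) (y : InfinitePlace F → ℝ) (z : InfinitePlace F → ℂ) :
    gG y (em x * z) = gG (y + lm x) z := by
  unfold gG
  congr 2
  refine Finset.sum_congr rfl fun v _ => ?_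
  have h : Real.exp (2 * lm x v) = ‖em x v‖ ^ 2 := by
    rw [lm, two_mul, Real.exp_add, Real.exp_log (norm_pos_iff.2 (em_ne_zero hx v)), sq]
  rw [Pi.add_apply, mul_add, Real.exp_add, h, Pi.mul_apply, norm_mul, mul_pow, mul_assoc]
theorem two_mul_rc : 2 * rc F = dg F := by
  have h := InfinitePlace.sum_mult_eq (K := F)
  simp only [IsTotallyComplex.mult_eq, Finset.sum_const, Finset.card_univ, smul_eq_mul] at h
  rw [mul_comm]
  exact h
omit [IsTotallyComplex F] in
theorem rc_pos : 0 < rc F :=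
  Fintype.card_pos
theorem prod_em (x : F) : ∏ v, ‖em x v‖ ^ 2 = |((Algebra.norm ℚ x : ℚ) : ℝ)| := by
  have h := InfinitePlace.prod_eq_abs_norm x
  simp only [IsTotallyComplex.mult_eq, Rat.cast_abs] at h
  simpa only [em, InfinitePlace.norm_embedding_eq] using h
open Classical in
omit [IsTotallyComplex F] in
theorem cla_fiber (w : InfinitePlace F) : Finset.univ.filter (fun φ => InfinitePlace.mk φ = w) =
    {w.embedding, ComplexEmbedding.conjugate w.embedding} := by
  ext φ
  rw [Finset.mem_filter_univ, Finset.mem_insert, Finset.mem_singleton]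
  conv_lhs => rw [← InfinitePlace.mk_embedding w, InfinitePlace.mk_eq_iff,
    ComplexEmbedding.conjugate, star_involutive.eq_iff]
omit [NumberField F] in
theorem cla_ne (w : InfinitePlace F) : w.embedding ≠ ComplexEmbedding.conjugate w.embedding :=
  fun h => IsTotallyComplex.complexEmbedding_not_isReal w.embedding
    (ComplexEmbedding.isReal_iff.2 h.symm)
theorem algNorm_nonneg (x : F) : 0 ≤ Algebra.norm ℚ x := by
  classical
  have h := Algebra.norm_eq_prod_embeddings ℚ ℂ x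
  rw [← Fintype.prod_equiv (RingHom.equivRatAlgHom F ℂ) (fun φ => φ x) (fun φ => φ x)
    (fun _ => by simp [RingHom.equivRatAlgHom_apply]),
    ← Finset.prod_fiberwise Finset.univ InfinitePlace.mk (fun φ : F →+* ℂ => φ x)] at h
  have h2 : ∀ w : InfinitePlace F, ∏ φ ∈ Finset.univ.filter (fun φ => InfinitePlace.mk φ = w),
      φ x = ((‖em x w‖ ^ 2 : ℝ) : ℂ) := fun w => by
    rw [cla_fiber w, Finset.prod_pair (cla_ne w), ComplexEmbedding.conjugate_coe_eq,
      Complex.mul_conj, Complex.normSq_eq_norm_sq]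
    rfl
  simp only [h2, ← Complex.ofReal_prod, eq_ratCast] at h
  have h3 : ((Algebra.norm ℚ x : ℚ) : ℝ) = ∏ w, ‖em x w‖ ^ 2 := by exact_mod_cast h
  have h4 : (0 : ℝ) ≤ ((Algebra.norm ℚ x : ℚ) : ℝ) := by rw [h3]; positivity
  exact_mod_cast h4
theorem exp_sum_lm {x : F} (hx : x ≠ 0) :
    Real.exp (2 * ∑ v, lm x v) = |((Algebra.norm ℚ x : ℚ) : ℝ)| := by
  rw [← prod_em, Finset.mul_sum, Real.exp_sum]
  refine Finset.prod_congr rfl fun v _ => ?_
  rw [lm, two_mul, Real.exp_add, Real.exp_log (norm_pos_iff.2 (em_ne_zero hx v)), sq]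
theorem sum_lm_unit (u : (𝓞 F)ˣ) : ∑ v, lm (((u : 𝓞 F) : F)) v = 0 := by
  have h := exp_sum_lm (x := ((u : 𝓞 F) : F)) (by simp)
  have h2 := congrArg (fun q : ℚ => (q : ℝ)) (Units.norm F u)
  simp only [Rat.cast_abs, Rat.cast_one] at h2
  rw [h2, Real.exp_eq_one_iff] at h
  linarith
theorem trace_em (x : F) : ((Algebra.trace ℚ F x : ℚ) : ℝ) = ∑ v, 2 * (em x v).re := by
  classical
  have h := trace_eq_sum_embeddings ℂ (K := ℚ) (x := x)
  rw [← Fintype.sum_equiv (RingHom.equivRatAlgHom F ℂ) (fun φ => φ x) (fun φ => φ x)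
    (fun _ => by simp [RingHom.equivRatAlgHom_apply]),
    ← Finset.sum_fiberwise Finset.univ InfinitePlace.mk (fun φ : F →+* ℂ => φ x)] at h
  have h2 : ∀ w : InfinitePlace F, ∑ φ ∈ Finset.univ.filter (fun φ => InfinitePlace.mk φ = w),
      φ x = ((2 * (em x w).re : ℝ) : ℂ) := fun w => by
    rw [cla_fiber w, Finset.sum_pair (cla_ne w), ComplexEmbedding.conjugate_coe_eq,
      Complex.add_conj]
    rfl
  simp only [h2, ← Complex.ofReal_sum, eq_ratCast] at h
  exact_mod_cast h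
omit [IsTotallyComplex F] in
theorem one_le_DD : 1 ≤ DD F := by
  have h := Int.one_le_abs (discr_ne_zero F)
  rw [DD]
  exact_mod_cast h
omit [IsTotallyComplex F] in
theorem c0_pos : 0 < c0 F := by
  have := one_le_DD (F := F)
  exact div_pos (Real.sqrt_pos.2 (by linarith)) (by positivity)
omit [IsTotallyComplex F] in
theorem one_le_BF : 1 ≤ BF F := by
  have h1 : (1 : ℝ) ≤ dg F := by exact_mod_cast Module.finrank_pos
  have h2 := Real.log_nonneg (one_le_DD (F := F))
  rw [BF]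
  linarith
omit [IsTotallyComplex F] in
theorem NI_pos {A : FI F} (hA : A ≠ 0) : 0 < NI A := by
  have h := lt_of_le_of_ne (FractionalIdeal.absNorm_nonneg A)
    (fun e => hA (FractionalIdeal.absNorm_eq_zero_iff.1 e.symm))
  rw [NI]
  exact_mod_cast h
omit [IsTotallyComplex F] in
theorem NI_coe (J : Ideal (𝓞 F)) : NI (J : FI F) = (Ideal.absNorm J : ℝ) := by
  rw [NI, FractionalIdeal.coeIdeal_absNorm, Rat.cast_natCast]
omit [IsTotallyComplex F] in
theorem du_ne_zero {A : FI F} (hA : A ≠ 0) : du A ≠ 0 :=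
  FractionalIdeal.dual_ne_zero ℤ ℚ hA
omit [IsTotallyComplex F] in
theorem NI_du {A : FI F} (hA : A ≠ 0) : NI (du A) = (DD F * NI A)⁻¹ := by
  have h1 : (FractionalIdeal.absNorm (FractionalIdeal.dual ℤ ℚ (1 : FI F)))⁻¹ =
      ((discr F).natAbs : ℚ) := by
    rw [← map_inv₀, ← coeIdeal_differentIdeal ℤ ℚ F (𝓞 F), FractionalIdeal.coeIdeal_absNorm,
      absNorm_differentIdeal F (𝓞 F)]
  rw [inv_eq_iff_eq_inv] at h1
  rw [NI, NI, du, FractionalIdeal.dual_eq_mul_inv, map_mul, map_inv₀, h1, DD, mul_inv]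
  simp
omit [IsTotallyComplex F] in
theorem idl_spec {A : FI F} (hA : A ≠ 0) {β : F} (hβ : β ∈ A) :
    (idl A β : FI F) = FractionalIdeal.spanSingleton (𝓞 F)⁰ β * A⁻¹ := by
  refine Classical.epsilon_spec (p := fun J : Ideal (𝓞 F) =>
    (J : FI F) = FractionalIdeal.spanSingleton (𝓞 F)⁰ β * A⁻¹)
    (FractionalIdeal.le_one_iff_exists_coeIdeal.1 ?_)
  rw [← mul_inv_cancel₀ hA]
  gcongr
  exact FractionalIdeal.spanSingleton_le_iff_mem.2 hβ
omit [IsTotallyComplex F] in
theorem absNorm_idl {A : FI F} (hA : A ≠ 0) {β : F} (hβ : β ∈ A) :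
    (Ideal.absNorm (idl A β) : ℝ) * NI A = |((Algebra.norm ℚ β : ℚ) : ℝ)| := by
  have h0 := (NI_pos hA).ne'
  rw [← NI_coe, idl_spec hA hβ, NI, map_mul, map_inv₀, FractionalIdeal.absNorm_span_singleton,
    Rat.cast_mul, Rat.cast_inv, Rat.cast_abs]
  exact inv_mul_cancel_right₀ h0 _
omit [IsTotallyComplex F] in
theorem idl_eq_iff {A : FI F} (hA : A ≠ 0) {β β' : F} (hβ : β ∈ A) (hβ' : β' ∈ A) :
    idl A β' = idl A β ↔ ∃ u : (𝓞 F)ˣ, β' = ((u : 𝓞 F) : F) * β := by
  rw [← FractionalIdeal.coeIdeal_inj (K := F), idl_spec hA hβ, idl_spec hA hβ',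
    mul_left_inj' (inv_ne_zero hA), eq_comm, FractionalIdeal.spanSingleton_eq_spanSingleton]
  exact exists_congr fun u => by rw [Units.smul_def, Algebra.smul_def, eq_comm]
omit [IsTotallyComplex F] in
theorem mem_Cl_iff {A : FI F} (hA : A ≠ 0) {J : Ideal (𝓞 F)} :
    J ∈ Cl A ↔ ∃ β : F, β ∈ A ∧ β ≠ 0 ∧ idl A β = J :=
  exists_congr fun β => and_congr_right fun hβ => and_congr_right fun _ => by
    rw [← idl_spec hA hβ, FractionalIdeal.coeIdeal_inj, eq_comm]
omit [IsTotallyComplex F] in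
theorem cla_mem {A : FI F} {n : InfinitePlace F → ℂ} : n ∈ latI A ↔ ∃ β ∈ A, em β = n := Iff.rfl
omit [NumberField F] in
theorem cla_empty : IsEmpty {w : InfinitePlace F // w.IsReal} :=
  ⟨fun w => InfinitePlace.not_isReal_iff_isComplex.2 (IsTotallyComplex.isComplex w.1) w.2⟩
open Classical in
/-- identification with the mixed space -/
def cla_e (F : Type) [Field F] [NumberField F] [IsTotallyComplex F] :
    (InfinitePlace F → ℂ) ≃L[ℝ] mixedEmbedding.mixedSpace F :=
  LinearEquiv.toContinuousLinearEquiv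
    { toFun := fun z => (0, fun w => z w.1)
      invFun := fun x v => x.2 ⟨v, IsTotallyComplex.isComplex v⟩
      map_add' := fun _ _ => Prod.ext (by simp) rfl
      map_smul' := fun _ _ => Prod.ext (by simp) rfl
      left_inv := fun _ => rfl
      right_inv := fun _ => Prod.ext (funext fun w => cla_empty.elim w) rfl }
theorem cla_e_em (x : F) : cla_e F (em x) = mixedEmbedding F x :=
  Prod.ext (funext fun w => cla_empty.elim w)
    (funext fun w => (mixedEmbedding.mixedEmbedding_apply_isComplex F x w).symm)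
open Classical in
theorem cla_latI {A : FI F} (hA : A ≠ 0) : latI A =
    ZLattice.comap ℝ (mixedEmbedding.idealLattice F (Units.mk0 A hA)) (cla_e F).toLinearMap := by
  ext n
  change _ ↔ cla_e F n ∈ mixedEmbedding.idealLattice F (Units.mk0 A hA)
  rw [cla_mem, mixedEmbedding.mem_idealLattice]
  refine exists_congr fun β => and_congr Iff.rfl ?_
  rw [← cla_e_em, (cla_e F).injective.eq_iff]
open Classical in
theorem cla_mp : MeasurePreserving (cla_e F) volume volume := by
  have := cla_empty (F := F)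
  have hp : IsProbabilityMeasure (volume : Measure ({w : InfinitePlace F // w.IsReal} → ℝ)) := by
    rw [Measure.volume_pi_eq_dirac]
    infer_instance
  have h1 := (volume_preserving_arrowCongr'
    (Equiv.subtypeUnivEquiv (IsTotallyComplex.isComplex (K := F))) (MeasurableEquiv.refl ℂ)
    (MeasurePreserving.id _)).comp
    (measurePreserving_snd (μ := (volume : Measure ({w : InfinitePlace F // w.IsReal} → ℝ)))
      (ν := (volume : Measure ({w : InfinitePlace F // w.IsComplex} → ℂ))))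
  exact MeasurePreserving.symm (cla_e F).toHomeomorph.toMeasurableEquiv.symm h1
theorem latI_discrete {A : FI F} (hA : A ≠ 0) : DiscreteTopology (latI A) := by
  classical
  rw [cla_latI hA]
  infer_instance
theorem latI_span {A : FI F} (hA : A ≠ 0) :
    Submodule.span ℝ (latI A : Set (InfinitePlace F → ℂ)) = ⊤ := by
  classical
  rw [cla_latI hA]
  exact IsZLattice.span_top
theorem covolume_latI {A : FI F} (hA : A ≠ 0) : ZLattice.covolume (latI A) = NI A * c0 F := by
  classical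
  have h1 : rc F = InfinitePlace.nrComplexPlaces F := by
    have h2 := InfinitePlace.card_eq_nrRealPlaces_add_nrComplexPlaces F
    rwa [IsTotallyComplex.nrRealPlaces_eq_zero, zero_add] at h2
  rw [cla_latI hA, ZLattice.covolume_comap _ _ _ cla_mp, mixedEmbedding.covolume_idealLattice,
    NI, c0, DD, h1]
  simp only [Units.val_mk0, Int.cast_abs, inv_pow]
  ring
/-- the pairing with `w` -/
def cla_L {ι : Type} [Fintype ι] (w : ι → ℂ) : (ι → ℂ) →ₗ[ℝ] ℝ where
  toFun n := ∑ v, 2 * (w v * n v).re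
  map_add' a b := by simp only [Pi.add_apply, mul_add, Complex.add_re, Finset.sum_add_distrib]
  map_smul' c a := by
    simp only [Pi.smul_apply, mul_smul_comm, Complex.smul_re, smul_eq_mul, RingHom.id_apply,
      Finset.mul_sum, mul_left_comm]
theorem cla_L_apply {ι : Type} [Fintype ι] (w n : ι → ℂ) :
    cla_L w n = ∑ v, 2 * (w v * n v).re := rfl
theorem cla_L_inj {ι : Type} [Fintype ι] {w w' : ι → ℂ} (h : cla_L w = cla_L w') : w = w' := by
  classical
  funext v
  have h1 : ∀ c : ℂ, (w v * c).re = (w' v * c).re := fun c => by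
    have := LinearMap.congr_fun h (Pi.single v c)
    rw [cla_L_apply, cla_L_apply, Finset.sum_eq_single v, Finset.sum_eq_single v] at this
    · simpa using this
    all_goals simp +contextual
  have h2 := h1 1
  have h3 := h1 I
  exact Complex.ext (by simpa using h2) (by simpa using h3)
theorem dualL_latI {A : FI F} (hA : A ≠ 0) : dualL (latI A) = latI (du A) := by
  ext w
  constructor
  · intro hw
    let b := basisOfFractionalIdeal F (Units.mk0 A hA)
    have hb : ∀ i, b i ∈ A := fun i =>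
      (mem_span_basisOfFractionalIdeal F).1 (Submodule.subset_span ⟨i, rfl⟩)
    choose k hk using fun i => hw _ (cla_mem.2 ⟨b i, hb i, rfl⟩)
    obtain ⟨β, hβ⟩ : ∃ β : F, ∀ a, Algebra.trace ℚ F (β * a) = b.constr ℚ (fun i => (k i : ℚ)) a :=
      ⟨_, fun a => LinearMap.BilinForm.apply_toDual_symm_apply
        (hB := traceForm_nondegenerate ℚ F) _ a⟩
    have h1 : ∀ a, ((Algebra.trace ℚ F (β * a) : ℚ) : ℝ) = cla_L w (em a) := by
      let ψ : F →+ ℝ := (cla_L w).toAddMonoidHom.comp emL.toAddMonoidHom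
      have h2 : (Algebra.linearMap ℚ ℝ).comp (b.constr ℚ fun i => (k i : ℚ)) = ψ.toRatLinearMap :=
        b.ext fun i => by
          change algebraMap ℚ ℝ (b.constr ℚ (fun i => (k i : ℚ)) (b i)) = cla_L w (em (b i))
          rw [Module.Basis.constr_basis, cla_L_apply, hk]
          simp
      intro a
      rw [hβ]
      exact LinearMap.congr_fun h2 a
    refine cla_mem.2 ⟨β, (FractionalIdeal.mem_dual hA).2 fun a ha => ?_, ?_⟩
    · obtain ⟨n, hn⟩ := hw _ (cla_mem.2 ⟨a, ha, rfl⟩)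
      refine ⟨n, ?_⟩
      have h2 := h1 a
      rw [cla_L_apply, hn] at h2
      rw [Algebra.traceForm_apply, eq_intCast]
      exact_mod_cast h2.symm
    · have h2 : cla_L (em β) = cla_L w := by
        refine LinearMap.ext_on (latI_span hA) fun n hn => ?_
        obtain ⟨a, -, rfl⟩ := cla_mem.1 hn
        rw [← h1, trace_em, em_mul, cla_L_apply]
        rfl
      exact cla_L_inj h2
  · intro hw n hn
    obtain ⟨β, hβ, rfl⟩ := cla_mem.1 hw
    obtain ⟨a, ha, rfl⟩ := cla_mem.1 hn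
    obtain ⟨k, hk⟩ := (FractionalIdeal.mem_dual hA).1 hβ a ha
    refine ⟨k, ?_⟩
    have h1 := trace_em (β * a)
    rw [em_mul, ← Algebra.traceForm_apply, ← hk, eq_intCast, Rat.cast_intCast] at h1
    exact h1.symm
/-- reindexing the lattice -/
def cla_eq (A : FI F) : {β : F | β ∈ A} ≃ latI A :=
  Equiv.ofBijective (fun β => ⟨em β.1, cla_mem.2 ⟨β.1, β.2, rfl⟩⟩)
    ⟨fun _ _ h => Subtype.ext (em_injective (congrArg Subtype.val h)), fun n => by
      obtain ⟨β, hβ, e⟩ := cla_mem.1 n.2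
      exact ⟨⟨β, hβ⟩, Subtype.ext e⟩⟩
open Classical in
omit [IsTotallyComplex F] in
theorem cla_hasSum {E : Type} [AddCommMonoid E] [TopologicalSpace E] (A : FI F)
    (f : (InfinitePlace F → ℂ) → E) {a : E} :
    HasSum (fun β : F => if β ∈ A then f (em β) else 0) a ↔ HasSum (fun n : latI A => f n) a := by
  rw [← (cla_eq A).hasSum_iff]
  exact (hasSum_subtype_iff_indicator (f := fun β => f (em β)) (s := {β : F | β ∈ A})).symm
open Classical in
omit [IsTotallyComplex F] in
theorem cla_tsum {E : Type} [AddCommMonoid E] [TopologicalSpace E] (A : FI F)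
    (f : (InfinitePlace F → ℂ) → E) :
    (∑' β : F, if β ∈ A then f (em β) else 0) = ∑' n : latI A, f n := by
  rw [← (cla_eq A).tsum_eq]
  exact (tsum_subtype {β : F | β ∈ A} fun β => f (em β)).symm
open Classical in
theorem summable_ideal {A : FI F} (hA : A ≠ 0) (y : InfinitePlace F → ℝ) (c : F) :
    Summable (fun β : F => if β ∈ A then gG y (em (β + c)) else 0) := by
  have := latI_discrete hA
  have : IsZLattice ℝ (latI A) := ⟨latI_span hA⟩
  simp only [em_add]
  exact ((cla_hasSum A fun n => gG y (n + em c)).2 (summable_gG (latI A) y (em c)).hasSum).summable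
open Classical in
theorem poisson_ideal {A : FI F} (hA : A ≠ 0) (y : InfinitePlace F → ℝ) (c : F) :
    ∑' β : F, (if β ∈ A then (gG y (em (β + c)) : ℂ) else 0) =
      ((Real.exp (-2 * ∑ v, y v) / (NI A * c0 F) : ℝ) : ℂ) * ∑' w : F, if w ∈ du A then
        (gG (fun v => Real.log 2 - y v) (em w) : ℂ) * eI (em (w * c)) else 0 := by
  have := latI_discrete hA
  have : IsZLattice ℝ (latI A) := ⟨latI_span hA⟩
  have h := poisson_lat (latI A) y (em c)
  rw [dualL_latI hA, covolume_latI hA] at h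
  simp only [em_add, em_mul]
  rw [cla_tsum A fun n => (gG y (n + em c) : ℂ),
    cla_tsum (du A) fun w => (gG (fun v => Real.log 2 - y v) w : ℂ) * eI (w * em c), h]
theorem Th1_lower {A : FI F} (hA : A ≠ 0) (y : InfinitePlace F → ℝ) :
    Real.exp (-2 * ∑ v, y v) / (NI A * c0 F) - 1 ≤ Th1 A y := by
  classical
  have h := poisson_ideal hA y 0
  have e0 : em (0 : F) = 0 := by ext v; simp [em]
  have g0 : ∀ y : InfinitePlace F → ℝ, gG y 0 = 1 := fun y => by simp [gG]
  have e1 : eI (0 : InfinitePlace F → ℂ) = 1 := by simp [eI]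
  have hc : ∀ (p : Prop) [Decidable p] (r : ℝ), (if p then (r : ℂ) else 0) =
      ((if p then r else 0 : ℝ) : ℂ) := fun p _ r => by split_ifs <;> simp
  simp only [add_zero, mul_zero, e0, e1, mul_one, hc, ← Complex.ofReal_tsum,
    ← Complex.ofReal_mul, Complex.ofReal_inj] at h
  have s1 := summable_ideal hA y 0
  have s2 := summable_ideal (du_ne_zero hA) (fun v => Real.log 2 - y v) 0
  simp only [add_zero] at s1 s2
  have h1 := s2.le_tsum 0 fun β _ => by
    split_ifs
    · exact (Real.exp_pos _).le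
    · exact le_rfl
  rw [if_pos (FractionalIdeal.zero_mem _), e0, g0] at h1
  rw [s1.tsum_eq_add_tsum_ite 0, if_pos (FractionalIdeal.zero_mem _), e0, g0] at h
  have h2 : Th1 A y = ∑' β : F, if β = 0 then 0 else if β ∈ A then gG y (em β) else 0 :=
    tsum_congr fun β => by by_cases h0 : β = 0 <;> simp [h0]
  have h3 : 0 < Real.exp (-2 * ∑ v, y v) / (NI A * c0 F) :=
    div_pos (Real.exp_pos _) (mul_pos (NI_pos hA) c0_pos)
  rw [h2]
  nlinarith
omit [IsTotallyComplex F] in
theorem cla_rep (C : ClassGroup (𝓞 F)) : ∃ a : (Ideal (𝓞 F))⁰,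
    ¬ 3 ∣ Ideal.absNorm (a : Ideal (𝓞 F)) ∧ ClassGroup.mk0 a = C := by
  obtain ⟨I, hI⟩ := ClassGroup.mk0_surjective C⁻¹
  have hI0 : (I : Ideal (𝓞 F)) ≠ 0 := nonZeroDivisors.coe_ne_zero I
  obtain ⟨x, hx⟩ := IsDedekindDomain.exists_sup_span_eq
    (I := (I : Ideal (𝓞 F)) * Ideal.span {3}) Ideal.mul_le_left (mul_ne_zero hI0 (by simp))
  obtain ⟨J, hJ⟩ : (I : Ideal (𝓞 F)) ∣ Ideal.span {x} := Ideal.dvd_iff_le.2 (hx ▸ le_sup_right)
  have h1 : Ideal.span {3} ⊔ J = ⊤ := by
    refine mul_left_cancel₀ hI0 ?_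
    rw [Ideal.mul_sup, ← hJ, hx, Ideal.mul_top]
  have h2 : ¬ 3 ∣ Ideal.absNorm J := fun h => by
    obtain ⟨P, hP, h3, h4⟩ := Ideal.exists_isMaximal_dvd_of_dvd_absNorm' Nat.prime_three J h
    have h5 : ((3 : ℕ) : ℤ) ∈ P.under ℤ := h3 ▸ Ideal.mem_span_singleton_self _
    refine hP.ne_top (top_le_iff.1 (h1 ▸ sup_le ?_ (Ideal.dvd_iff_le.1 h4)))
    rw [Ideal.span_singleton_le_iff_mem]
    simpa [Ideal.mem_comap] using h5
  have hJ0 : J ≠ 0 := fun h => h2 (by simp [h])
  refine ⟨⟨J, mem_nonZeroDivisors_of_ne_zero hJ0⟩, h2, ?_⟩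
  rw [← inv_inv C, ← hI, ClassGroup.mk0_eq_mk0_inv_iff]
  refine ⟨x, fun h => mul_ne_zero hI0 hJ0 ?_, by rw [hJ, mul_comm]⟩
  rw [← hJ, h]
  simp
omit [IsTotallyComplex F] in
/-- representatives of the ideal classes prime to `3` -/
theorem exists_reps : ∃ 𝒜 : Finset (Ideal (𝓞 F)), (∀ a ∈ 𝒜, a ≠ ⊥ ∧ ¬ 3 ∣ Ideal.absNorm a) ∧
    (∀ J : Ideal (𝓞 F), J ≠ ⊥ → ∃! a, a ∈ 𝒜 ∧ J ∈ Cl (a : FI F)) ∧
    ∀ J : Ideal (𝓞 F), ∀ a ∈ 𝒜, ∀ a' ∈ 𝒜,
      J ∈ Cl (du ((Ideal.span {3} * a : Ideal (𝓞 F)) : FI F)) →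
      J ∈ Cl (du ((Ideal.span {3} * a' : Ideal (𝓞 F)) : FI F)) → a = a' := by
  classical
  choose a ha hc using cla_rep (F := F)
  have ha0 : ∀ C, ((a C : Ideal (𝓞 F)) : FI F) ≠ 0 := fun C =>
    FractionalIdeal.coeIdeal_ne_zero.2 (nonZeroDivisors.coe_ne_zero _)
  refine ⟨Finset.univ.image fun C => (a C : Ideal (𝓞 F)), ?_, fun J hJ => ?_, ?_⟩
  · intro I hI
    obtain ⟨C, -, rfl⟩ := Finset.mem_image.1 hI
    exact ⟨nonZeroDivisors.coe_ne_zero _, ha C⟩
  · let J' : (Ideal (𝓞 F))⁰ := ⟨J, mem_nonZeroDivisors_of_ne_zero hJ⟩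
    have key : ∀ C, J ∈ Cl ((a C : Ideal (𝓞 F)) : FI F) ↔ C = (ClassGroup.mk0 J')⁻¹ := fun C => by
      rw [eq_comm, inv_eq_iff_eq_inv, ← hc C, ClassGroup.mk0_eq_mk0_inv_iff, hc C]
      constructor
      · rintro ⟨β, hβ, hβ0, e⟩
        obtain ⟨x, -, rfl⟩ := (FractionalIdeal.mem_coeIdeal _).1 hβ
        refine ⟨x, fun h0 => hβ0 (by rw [h0, map_zero]), ?_⟩
        rw [eq_mul_inv_iff_mul_eq₀ (ha0 C), ← FractionalIdeal.coeIdeal_span_singleton,
          ← FractionalIdeal.coeIdeal_mul, FractionalIdeal.coeIdeal_inj] at e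
        exact e
      · rintro ⟨x, hx, e⟩
        have e' : J * a C = Ideal.span {x} := e
        refine ⟨algebraMap _ F x, FractionalIdeal.mem_coeIdeal_of_mem _ ?_, by simpa using hx, ?_⟩
        · exact Ideal.mul_le_right (e' ▸ Ideal.mem_span_singleton_self x)
        · rw [eq_mul_inv_iff_mul_eq₀ (ha0 C), ← FractionalIdeal.coeIdeal_span_singleton,
            ← FractionalIdeal.coeIdeal_mul, e']
    refine ⟨a (ClassGroup.mk0 J')⁻¹, ⟨Finset.mem_image.2 ⟨_, Finset.mem_univ _, rfl⟩,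
      (key _).2 rfl⟩, ?_⟩
    rintro I ⟨hI, hJI⟩
    obtain ⟨C, -, rfl⟩ := Finset.mem_image.1 hI
    rw [(key C).1 hJI]
  · rintro J I hI I' hI' ⟨β, -, hβ, e⟩ ⟨β', -, hβ', e'⟩
    obtain ⟨C, -, rfl⟩ := Finset.mem_image.1 hI
    obtain ⟨C', -, rfl⟩ := Finset.mem_image.1 hI'
    have h3 : ((Ideal.span {3} : Ideal (𝓞 F)) : FI F) ≠ 0 :=
      FractionalIdeal.coeIdeal_ne_zero.2 (by simp)
    have hd : FractionalIdeal.dual ℤ ℚ (1 : FI F) ≠ 0 := du_ne_zero one_ne_zero
    have hs : FractionalIdeal.spanSingleton (𝓞 F)⁰ β' ≠ 0 :=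
      FractionalIdeal.spanSingleton_ne_zero_iff.2 hβ'
    rw [e', du, du, FractionalIdeal.dual_eq_mul_inv,
      FractionalIdeal.dual_eq_mul_inv ℤ ℚ (I := ((Ideal.span {3} * (a C : Ideal (𝓞 F)) : Ideal (𝓞 F)) : FI F)),
      FractionalIdeal.coeIdeal_mul, FractionalIdeal.coeIdeal_mul] at e
    have h4 : ClassGroup.mk0 (a C) = ClassGroup.mk0 (a C') := by
      refine (ClassGroup.mk0_eq_mk0_iff_exists_fraction_ring F).2
        ⟨β'⁻¹ * β, mul_ne_zero (inv_ne_zero hβ') hβ, ?_⟩
      rw [← FractionalIdeal.spanSingleton_mul_spanSingleton, ← FractionalIdeal.spanSingleton_inv]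
      have := ha0 C
      have := ha0 C'
      field_simp at e ⊢
      exact e.symm
    rw [hc, hc] at h4
    rw [h4]

end Crest.Agent.GC
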