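import Crest.Agent.GQ.CPrime
import Crest.Agent.GQ.CSplit

/-! # GQ CNR: a small prime modulo which `p` is not an `l`-th power -/

set_option autoImplicit false

noncomputable section

open NumberField Complex MeasureTheory
open scoped nonZeroDivisors

namespace Crest.Agent.GC

theorem cnr_wG_nonneg (u : ℝ) : 0 ≤ wG u := (Real.exp_pos _).le

theorem cnr_wG_le (u : ℝ) : wG u ≤ 1 := Real.exp_le_one_iff.2 (neg_nonpos.2 (sq_nonneg _))

theorem cnr_tail {x r : ℝ} (hx : 1 ≤ x) (h : x ^ 2 ≤ r) :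
    Real.log r * wG (r / x) ≤ Real.exp 9 * (1 / r ^ 2) := by
  have hx0 : 0 < x := by linarith
  have hr1 : 1 ≤ r := le_trans (one_le_pow₀ hx) h
  have hr0 : 0 < r := by linarith
  have hu : 0 ≤ Real.log r := Real.log_nonneg hr1
  have h1 : 2 * Real.log x ≤ Real.log r := by
    have := Real.log_le_log (by positivity) h
    rwa [Real.log_pow, Nat.cast_ofNat] at this
  have h2 : Real.log r ≤ Real.exp (Real.log r) := by linarith [Real.add_one_le_exp (Real.log r)]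
  have h3 : r ^ 2 = Real.exp (2 * Real.log r) := by
    rw [two_mul, Real.exp_add, Real.exp_log hr0, sq]
  rw [mul_one_div, le_div_iff₀ (by positivity), h3, wG, Real.log_div hr0.ne' hx0.ne']
  calc _ ≤ Real.exp (Real.log r) * Real.exp (-(Real.log r - Real.log x) ^ 2) *
        Real.exp (2 * Real.log r) := by gcongr
    _ ≤ Real.exp 9 := by
        rw [← Real.exp_add, ← Real.exp_add]
        refine Real.exp_le_exp.2 ?_
        have h4 : (Real.log r / 2) ^ 2 ≤ (Real.log r - Real.log x) ^ 2 :=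
          pow_le_pow_left₀ (by positivity) (by linarith) 2
        nlinarith [sq_nonneg (Real.log r / 2 - 3)]

theorem cnr_m {l p : ℕ} (hl : l.Prime) (hp : p.Prime) : ∃ m : ℕ, 3 ≤ m ∧ m ≤ 2 * l ∧ l ∣ m ∧
    (∀ r : ℕ, r.Prime → r ∣ m → r = l) ∧
    ∀ (F : Type) [Field F] [NumberField F] (ζ α : F), KF m l (p : ℤ) ζ α →
      dg F = m.totient * l := by
  rcases hl.eq_two_or_odd' with rfl | ho
  · refine ⟨4, by norm_num, le_rfl, by norm_num, fun r hr h => ?_, fun F _ _ ζ α h =>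
      h.dg_eq (by norm_num) hl (not_sq_four h.hζ hp)⟩
    exact (Nat.prime_dvd_prime_iff_eq hr hl).1 (hr.dvd_of_dvd_pow (n := 2) h)
  · have h2 := hl.two_le
    have h3 : l ≠ 2 := by
      rintro rfl
      exact absurd ho (by decide)
    refine ⟨l, by omega, by omega, dvd_rfl, fun r hr h => (Nat.prime_dvd_prime_iff_eq hr hl).1 h,
      fun F _ _ ζ α h => h.dg_eq hl.pos hl (not_pow_prime hl h.hζ fun b hb => ?_)⟩
    have h4 : b.natAbs ^ l = p := by rw [← Int.natAbs_pow, hb, Int.natAbs_natCast]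
    exact hl.one_lt.ne' (h4 ▸ hp : (b.natAbs ^ l).Prime).eq_one_of_pow

theorem cnr_bP_nonneg (F : Type) [Field F] [NumberField F] (r : ℕ) : 0 ≤ bP F r := by
  unfold bP
  split_ifs
  · exact mul_nonneg (Nat.cast_nonneg _) (Real.log_natCast_nonneg r)
  · exact le_rfl

theorem cnr_bP_le (F : Type) [Field F] [NumberField F] (r : ℕ) :
    bP F r ≤ dg F * Real.log r := by
  unfold bP
  split_ifs with h
  · exact mul_le_mul_of_nonneg_right (Nat.cast_le.2 (a1_le h.1)) (Real.log_natCast_nonneg r)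
  · exact mul_nonneg (Nat.cast_nonneg _) (Real.log_natCast_nonneg r)

/-- The termwise comparison. -/
theorem cnr_term {K F : Type} [Field K] [NumberField K] [Field F] [NumberField F] {m l p : ℕ}
    {ζ α : K} {ζ' α' : F} (hK : KF m 1 1 ζ α) (hF : KF m l (p : ℤ) ζ' α') (hm : 0 < m)
    (hlm : l ∣ m) (hl : l.Prime) (hp : p.Prime) (hrm : ∀ r : ℕ, r.Prime → r ∣ m → r = l)
    (hd : dg F = dg K * l) {x : ℝ} (hx : 1 ≤ x)
    (h : ∀ r : ℕ, r.Prime → (r : ℝ) ≤ x ^ 2 → l ∣ r - 1 → r ≠ p →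
      ∃ y : ZMod r, y ^ l = (p : ZMod r)) (r : ℕ) :
    bP K r * wG (r / x) ≤ 1 / 2 * (bP F r * wG (r / x)) +
      ((if r = l then dg K * Real.log l else 0) + (if r = p then dg K * Real.log p else 0) +
        dg K * Real.exp 9 * (1 / (r : ℝ) ^ 2)) := by
  have w0 := cnr_wG_nonneg (r / x)
  have a0 : 0 ≤ 1 / 2 * (bP F r * wG (r / x)) :=
    mul_nonneg (by norm_num) (mul_nonneg (cnr_bP_nonneg F r) w0)
  have a1' : 0 ≤ (if r = l then (dg K : ℝ) * Real.log l else 0) := by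
    have := Real.log_natCast_nonneg l
    split_ifs <;> positivity
  have a2 : 0 ≤ (if r = p then (dg K : ℝ) * Real.log p else 0) := by
    have := Real.log_natCast_nonneg p
    split_ifs <;> positivity
  have a3 : 0 ≤ (dg K : ℝ) * Real.exp 9 * (1 / (r : ℝ) ^ 2) := by positivity
  have a4 : bP K r * wG (r / x) ≤ dg K * Real.log r :=
    (mul_le_of_le_one_right (cnr_bP_nonneg K r) (cnr_wG_le _)).trans (cnr_bP_le K r)
  by_cases h1 : r = l
  · rw [if_pos h1, ← h1]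
    linarith
  by_cases h2 : r = p
  · rw [if_pos h2, ← h2]
    linarith
  rcases le_total (x ^ 2) r with h3 | h3
  · have b1 := mul_le_mul_of_nonneg_left (cnr_tail hx h3) (Nat.cast_nonneg (α := ℝ) (dg K))
    have b2 := mul_le_mul_of_nonneg_right (cnr_bP_le K r) w0
    nlinarith
  by_cases h4 : r.Prime ∧ r ≠ 3
  swap
  · rw [bP, if_neg h4, zero_mul]
    linarith
  by_cases h5 : a1 K r = 0
  · rw [bP, if_pos h4, h5, Nat.cast_zero, zero_mul, zero_mul]
    linarith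
  have h6 : m ∣ r - 1 := (dvd_of_a1_ne_zero hK.hζ hm h4.1 h5).resolve_left
    fun h7 => h1 (hrm r h4.1 h7)
  have h7 : a1 F r = dg F := hF.split hm hlm h4.1 h6
    (fun h8 => h2 ((Nat.prime_dvd_prime_iff_eq h4.1 hp).1 (Int.natCast_dvd_natCast.1 h8)))
    (by simpa using h r h4.1 h3 (hlm.trans h6) h2)
  have h8 : bP K r ≤ 1 / 2 * bP F r := by
    have b1 : (2 : ℝ) ≤ l := by exact_mod_cast hl.two_le
    have b2 : 0 ≤ (dg K : ℝ) * Real.log r :=
      mul_nonneg (Nat.cast_nonneg _) (Real.log_natCast_nonneg r)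
    have b3 := cnr_bP_le K r
    rw [bP.eq_def F, if_pos h4, h7, hd]
    push_cast
    nlinarith
  have h9 := mul_le_mul_of_nonneg_right h8 w0
  linarith

theorem cnr_cG : 1 ≤ cG :=
  one_le_mul_of_one_le_of_one_le (Real.one_le_sqrt.2 (by linarith [Real.pi_gt_three]))
    (Real.one_le_exp (by norm_num))

theorem cnr_main : ∃ A : ℝ, 0 < A ∧ ∀ l p : ℕ, l.Prime → p.Prime → ∀ x : ℝ, 1 ≤ x →
    (∀ r : ℕ, r.Prime → (r : ℝ) ≤ x ^ 2 → l ∣ r - 1 → r ≠ p →
      ∃ y : ZMod r, y ^ l = (p : ZMod r)) →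
    x ≤ A * ((l + Nat.log 2 p : ℕ) : ℝ) ^ 4 * x ^ theta1 := by
  obtain ⟨C, hC, hpc⟩ := prime_count
  have hS : Summable fun r : ℕ => 1 / (r : ℝ) ^ 2 := Real.summable_one_div_nat_pow.2 one_lt_two
  obtain ⟨S, hSd⟩ : ∃ S, S = Real.exp 9 * ∑' r : ℕ, 1 / (r : ℝ) ^ 2 := ⟨_, rfl⟩
  have hS0 : 0 ≤ S := by
    rw [hSd]
    exact mul_nonneg (Real.exp_pos _).le (tsum_nonneg fun r => by positivity)
  refine ⟨2 * (20 * C + 4 + 2 * S), by positivity, fun l p hl hp x hx h => ?_⟩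
  obtain ⟨m, hm3, hm2, hlm, hrm, hdeg⟩ := cnr_m hl hp
  have hm : 0 < m := by omega
  obtain ⟨K, _, _, ζ, α, hK⟩ := exists_KF hm one_pos 1
  obtain ⟨F, _, _, ζ', α', hF⟩ := exists_KF hm hl.pos (p : ℤ)
  have := hK.totallyComplex hm3
  have := hF.totallyComplex hm3
  obtain ⟨sK, eK⟩ := hpc K x (by linarith)
  obtain ⟨sF, eF⟩ := hpc F x (by linarith)
  have hd : dg F = dg K * l := by rw [hdeg F ζ' α' hF, hK.dg_one hm]
  have s1 := hasSum_ite_eq l ((dg K : ℝ) * Real.log l)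
  have s2 := hasSum_ite_eq p ((dg K : ℝ) * Real.log p)
  have s3 := hS.hasSum.mul_left ((dg K : ℝ) * Real.exp 9)
  have hsum := hasSum_le (cnr_term hK hF hm hlm hl hp hrm hd hx h) sK.hasSum
    ((sF.hasSum.mul_left (1 / 2)).add ((s1.add s2).add s3))
  rw [mul_assoc, ← hSd] at hsum
  obtain ⟨B, hB⟩ : ∃ B : ℝ, B = ((l + Nat.log 2 p : ℕ) : ℝ) := ⟨_, rfl⟩
  rw [← hB]
  have hl2 : (2 : ℝ) ≤ l := by exact_mod_cast hl.two_le
  have hlB : (l : ℝ) ≤ B := by
    rw [hB]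
    exact_mod_cast Nat.le_add_right _ _
  have hpB : Real.log p ≤ B := by
    have b1 : (p : ℝ) ≤ 2 ^ (Nat.log 2 p + 1) := by
      exact_mod_cast (Nat.lt_pow_succ_log_self one_lt_two p).le
    have b2 := Real.log_le_log (by exact_mod_cast hp.pos) b1
    have b3 : Real.log 2 ≤ 1 := by linarith [Real.log_le_sub_one_of_pos two_pos]
    have b4 : (0 : ℝ) ≤ Nat.log 2 p := Nat.cast_nonneg _
    rw [Real.log_pow] at b2
    rw [hB]
    push_cast at b2 ⊢
    nlinarith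
  have hp0 := Real.log_natCast_nonneg p
  have hm0 : (0 : ℝ) < m := by exact_mod_cast hm
  have hmB : (m : ℝ) ≤ 2 * B := by
    have : (m : ℝ) ≤ 2 * l := by exact_mod_cast hm2
    linarith
  have hB2 : 2 ≤ B := hl2.trans hlB
  have hlog : Real.log l ≤ B := by linarith [Real.log_le_sub_one_of_pos (show (0 : ℝ) < l by linarith)]
  have hn : (dg K : ℝ) ≤ 2 * B := by
    have : (dg K : ℝ) ≤ m := by exact_mod_cast (hK.dg_le hm one_pos).trans_eq (mul_one m)
    linarith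
  have hB24 : B ^ 2 ≤ B ^ 4 := pow_le_pow_right₀ (by linarith) (by norm_num)
  have hB14 : B ≤ B ^ 4 := le_self_pow₀ (by linarith) (by norm_num)
  have bK : BF K ≤ 8 * B ^ 4 := by
    have b1 := hK.BF_le hm one_pos one_ne_zero
    have b2 := Real.log_le_sub_one_of_pos hm0
    simp only [Nat.cast_one, mul_one, Int.cast_one, abs_one, Real.log_one, add_zero] at b1
    nlinarith
  have bF : BF F ≤ 12 * B ^ 4 := by
    have b1 := hF.BF_le hm hl.pos (by exact_mod_cast hp.ne_zero)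
    have b0 : (0 : ℝ) < m * l := by positivity
    have b2 := Real.log_le_sub_one_of_pos b0
    have b3 : (m : ℝ) * l ≤ 2 * B ^ 2 := by nlinarith
    rw [Int.cast_natCast, Nat.abs_cast] at b1
    have b4 : 1 + Real.log (m * l) + Real.log p ≤ 3 * B ^ 2 := by nlinarith
    have b5 := mul_le_mul_of_nonneg_left b4 (show (0 : ℝ) ≤ 2 * (m * l) by positivity)
    have b6 := mul_le_mul_of_nonneg_right b3 (sq_nonneg B)
    nlinarith
  have hθ : 1 ≤ x ^ theta1 := Real.one_le_rpow hx (by norm_num [theta1])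
  generalize x ^ theta1 = t at eK eF hθ ⊢
  have c1 := mul_le_mul_of_nonneg_right (mul_le_mul_of_nonneg_left bK hC.le) (zero_le_one.trans hθ)
  have c2 := mul_le_mul_of_nonneg_right (mul_le_mul_of_nonneg_left bF hC.le) (zero_le_one.trans hθ)
  have c3 : (dg K : ℝ) * Real.log l ≤ 2 * B * B :=
    mul_le_mul hn hlog (Real.log_natCast_nonneg l) (by linarith)
  have c4 : (dg K : ℝ) * Real.log p ≤ 2 * B * B := mul_le_mul hn hpB hp0 (by linarith)
  have c5 : (dg K : ℝ) * S ≤ 2 * B ^ 4 * S := mul_le_mul_of_nonneg_right (by linarith) hS0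
  have c6 : (4 + 2 * S) * B ^ 4 ≤ (4 + 2 * S) * B ^ 4 * t :=
    le_mul_of_one_le_right (by positivity) hθ
  have c7 : x ≤ cG * x := le_mul_of_one_le_left (by linarith) cnr_cG
  have c8 : 0 ≤ C * B ^ 4 * t := by positivity
  have c9 := (abs_le.1 eK).1
  have c10 := (abs_le.1 eF).2
  nlinarith

theorem nr : NR := by
  obtain ⟨A, hA, hmain⟩ := cnr_main
  obtain ⟨k, hk⟩ := exists_nat_gt A
  obtain ⟨N, hN⟩ : ∃ N : ℕ, (N : ℝ) = 1999 := ⟨1999, by norm_num⟩
  refine ⟨(k + 1) ^ (2 * (N + 1)) + 8 * (N + 1), fun l p hl hp => ?_⟩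
  by_contra hcon
  obtain ⟨B, hB⟩ : ∃ B : ℕ, B = l + Nat.log 2 p := ⟨_, rfl⟩
  have hB1 : 1 ≤ B := by
    have := hl.pos
    omega
  have ht : (1 : ℝ) ≤ ((k + 1) * B ^ 4 : ℕ) := by
    exact_mod_cast Nat.mul_pos k.succ_pos (pow_pos hB1 4)
  have h1 := hmain l p hl hp ((((k + 1) * B ^ 4 : ℕ) : ℝ) ^ (N + 1)) (one_le_pow₀ ht)
    (fun r hr hrx h1 h2 => by
      by_contra h3
      refine hcon ⟨r, hr, ?_, h1, h2, h3⟩
      have h4 : r ≤ (((k + 1) * B ^ 4) ^ (N + 1)) ^ 2 := by exact_mod_cast hrx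
      rw [← hB]
      refine h4.trans ?_
      rw [← pow_mul, mul_pow, ← pow_mul, mul_comm (N + 1) 2]
      exact Nat.mul_le_mul (Nat.le_add_right _ _) (Nat.pow_le_pow_right hB1 (by omega)))
  rw [← hB, ← Real.rpow_natCast_mul (zero_le_one.trans ht),
    show ((N + 1 : ℕ) : ℝ) * theta1 = N by
      rw [Nat.cast_succ, hN, theta1]
      norm_num, Real.rpow_natCast, pow_succ, mul_comm] at h1
  have h2 := le_of_mul_le_mul_right h1 (pow_pos (zero_lt_one.trans_le ht) N)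
  have h3 : (0 : ℝ) < (B : ℝ) ^ 4 := pow_pos (by exact_mod_cast hB1) 4
  push_cast at h2
  nlinarith

end Crest.Agent.GC
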