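import Crest.Agent.GQ.CDefs
import Crest.Agent.R017.Shift

/-! # GQ CPnt: from a zero-free strip to a smooth prime number theorem -/

set_option autoImplicit false

noncomputable section

open NumberField Complex MeasureTheory
open scoped nonZeroDivisors

namespace Crest.Agent.GC

/-- Borel–Carathéodory for the logarithmic derivative -/
theorem logDeriv_le {r R : ℝ} (hr : 0 < r) (hR : r < R) : ∃ C : ℝ, 0 < C ∧ ∀ (g : ℂ → ℂ) (c : ℂ)
    (M : ℝ), 0 < M → DifferentiableOn ℂ g (Metric.ball c R) → (∀ s ∈ Metric.ball c R, g s ≠ 0) →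
    (∀ s ∈ Metric.ball c R, ‖g s‖ ≤ Real.exp M * ‖g c‖) →
    ∀ s ∈ Metric.closedBall c r, ‖deriv g s / g s‖ ≤ C * M := by
  obtain ⟨δ, hδ, rfl⟩ : ∃ δ : ℝ, 0 < δ ∧ R = r + 2 * δ := ⟨(R - r) / 2, by linarith, by ring⟩
  refine ⟨2 * (r + δ) / δ ^ 2, by positivity, fun g c M hM hg h0 hb s hs => ?_⟩
  have hmem : ∀ z, z ∈ Metric.ball c (r + 2 * δ) ↔ ‖z - c‖ < r + 2 * δ := fun z => by
    rw [Metric.mem_ball, dist_eq_norm]
  rw [Metric.mem_closedBall, dist_eq_norm] at hs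
  have hcm : c ∈ Metric.ball c (r + 2 * δ) := Metric.mem_ball_self (by linarith)
  have hd : DifferentiableOn ℂ (fun z => deriv g z / g z) (Metric.ball c (r + 2 * δ)) :=
    (hg.deriv Metric.isOpen_ball).div hg h0
  obtain ⟨h, hc0, hh⟩ := hd.isExactOn_ball.with_val_at c 0
  have hder : ∀ z ∈ Metric.ball c (r + 2 * δ),
      HasDerivAt (fun z => g z * Complex.exp (-h z)) 0 z := fun z hz => by
    have h1 := (hg.differentiableAt (Metric.isOpen_ball.mem_nhds hz)).hasDerivAt.mul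
      (hh z hz).neg.cexp
    have h2 := h0 z hz
    refine h1.congr_deriv ?_
    simp only [Pi.neg_apply]
    field_simp
    ring
  have hconst : ∀ z ∈ Metric.ball c (r + 2 * δ), g z * Complex.exp (-h z) = g c := fun z hz => by
    have := Metric.isOpen_ball.is_const_of_deriv_eq_zero
      (convex_ball c (r + 2 * δ)).isPreconnected
      (fun z hz => (hder z hz).differentiableAt.differentiableWithinAt)
      (fun z hz => (hder z hz).deriv) hz hcm
    simpa [hc0] using this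
  have hgc : 0 < ‖g c‖ := norm_pos_iff.2 (h0 c hcm)
  have hre : ∀ z ∈ Metric.ball c (r + 2 * δ), (h z).re ≤ M := fun z hz => by
    have h1 : g z = g c * Complex.exp (h z) := by
      rw [← hconst z hz, mul_assoc, ← Complex.exp_add]
      simp
    have h2 := hb z hz
    rw [h1, norm_mul, Complex.norm_exp, mul_comm] at h2
    exact Real.exp_le_exp.1 (le_of_mul_le_mul_right h2 hgc)
  have hshift : ∀ w ∈ Metric.ball (0 : ℂ) (r + 2 * δ), c + w ∈ Metric.ball c (r + 2 * δ) :=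
    fun w hw => by
      rw [hmem]
      simpa using hw
  have hbc : ∀ z, ‖z - c‖ ≤ r + δ → ‖h z‖ ≤ 2 * M * (r + δ) / δ := fun z hz => by
    have h1 := Complex.borelCaratheodory_zero (f := fun w => h (c + w)) (R := r + 2 * δ)
      (z := z - c) hM
      (fun w hw => (((hh _ (hshift w hw)).differentiableAt).comp w
        (by fun_prop)).differentiableWithinAt)
      (fun w hw => hre _ (hshift w hw)) (by linarith)
      (by rw [mem_ball_zero_iff]; linarith) (by simpa using hc0)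
    simp only [add_sub_cancel] at h1
    refine h1.trans ?_
    gcongr
    linarith
  have hsub : Metric.closedBall s δ ⊆ Metric.ball c (r + 2 * δ) := fun z hz => by
    rw [Metric.mem_closedBall, dist_eq_norm] at hz
    have := norm_sub_le_norm_sub_add_norm_sub z s c
    rw [hmem]
    linarith
  have hdc : DiffContOnCl ℂ h (Metric.ball s δ) := by
    refine DifferentiableOn.diffContOnCl fun z hz => ?_
    exact (hh z (hsub
      (Metric.closure_ball_subset_closedBall hz))).differentiableAt.differentiableWithinAt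
  have h1 := Complex.norm_deriv_le_of_forall_mem_sphere_norm_le (C := 2 * M * (r + δ) / δ) hδ hdc
    fun z hz => hbc z (by
      rw [Metric.mem_sphere, dist_eq_norm] at hz
      have := norm_sub_le_norm_sub_add_norm_sub z s c
      linarith)
  rw [(hh s (hsub (Metric.mem_closedBall_self hδ.le))).deriv] at h1
  refine h1.trans (le_of_eq ?_)
  field_simp

theorem cpn_wG (u : ℝ) : wG u = R017.W (1 / 4) u := by
  rw [wG, R017.W]
  norm_num

theorem cpn_cG : R017.Wh (1 / 4) 1 = (cG : ℂ) := by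
  rw [R017.Wh, cG, show 4 * Real.pi * (1 / 4) = Real.pi by ring]
  push_cast
  norm_num

theorem cpn_cpow {x : ℝ} (hx : 0 < x) (n : ℕ) (s : ℂ) :
    (((n : ℝ) / x : ℝ) : ℂ) ^ (-s) = (n : ℂ) ^ (-s) * (x : ℂ) ^ s := by
  rw [div_eq_mul_inv, ofReal_mul, mul_cpow_ofReal_nonneg (Nat.cast_nonneg n) (inv_nonneg.2 hx.le),
    ofReal_natCast, ofReal_inv, inv_cpow _ _
      (by rw [arg_ofReal_of_nonneg hx.le]; exact Real.pi_ne_zero.symm), cpow_neg (x : ℂ), inv_inv]

theorem cpn_strip : ∃ C : ℝ, 0 < C ∧ ∀ (Φ : ℂ → ℂ) (B : ℝ), 1 ≤ B →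
    DifferentiableOn ℂ Φ {s : ℂ | GQ.theta0 < s.re} → (∀ s : ℂ, GQ.theta0 < s.re → Φ s ≠ 0) →
    (∀ s : ℂ, GQ.theta0 < s.re → s.re ≤ 4 → ‖Φ s‖ ≤ Real.exp (B * (1 + |s.im|))) →
    (∀ s : ℂ, s.re = 2 → Real.exp (-B) ≤ ‖Φ s‖) →
    ∀ s ∈ R017.strip theta1 2, ‖deriv Φ s / Φ s‖ ≤ C * B * (1 + |s.im|) := by
  obtain ⟨C, hC, h⟩ := logDeriv_le (r := 1 + 1 / 2000) (R := 1 + 1 / 1000) (by norm_num)
    (by norm_num)
  refine ⟨4 * C, by positivity, fun Φ B hB hd h0 hb h2 s hs => ?_⟩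
  have ht := abs_nonneg s.im
  have hball : ∀ z ∈ Metric.ball ((2 : ℂ) + s.im * I) (1 + 1 / 1000),
      GQ.theta0 < z.re ∧ z.re ≤ 4 ∧ |z.im| ≤ |s.im| + 2 := fun z hz => by
    rw [Metric.mem_ball, dist_eq_norm] at hz
    have e1 := abs_le.1 ((abs_re_le_norm _).trans hz.le)
    have e1' := abs_lt.1 ((abs_re_le_norm _).trans_lt hz)
    have e2 := (abs_im_le_norm _).trans hz.le
    simp only [sub_re, add_re, re_ofNat, mul_re, ofReal_re, I_re, mul_zero, ofReal_im, I_im,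
      mul_one, sub_self, add_zero, sub_im, add_im, im_ofNat, mul_im, zero_add] at e1 e1' e2
    have e3 := abs_add_le (z.im - s.im) s.im
    rw [sub_add_cancel] at e3
    unfold GQ.theta0
    refine ⟨by linarith [e1'.1], by linarith [e1.2], by linarith⟩
  have h1 := h Φ (2 + s.im * I) (B * (4 + |s.im|)) (by positivity)
    (hd.mono fun z hz => (hball z hz).1) (fun z hz => h0 z (hball z hz).1) (fun z hz => by
      obtain ⟨a1, a2, a3⟩ := hball z hz
      refine (hb z a1 a2).trans (le_trans ?_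
        (mul_le_mul_of_nonneg_left (h2 _ (by simp)) (Real.exp_pos _).le))
      rw [← Real.exp_add, Real.exp_le_exp]
      nlinarith) s (by
      rw [Metric.mem_closedBall, dist_eq_norm]
      have e : s - (2 + s.im * I) = ((s.re - 2 : ℝ) : ℂ) := by
        apply Complex.ext <;> simp
      rw [e, Complex.norm_real, Real.norm_eq_abs, abs_le]
      have a1 := hs.1
      have a2 := hs.2
      unfold theta1 at a1
      constructor <;> linarith)
  refine h1.trans ?_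
  have : 0 ≤ C * B * |s.im| := by positivity
  nlinarith

theorem cpn_summable {b : ℕ → ℝ} (hb0 : b 0 = 0)
    (hs : Summable (fun n : ℕ => |b n| / (n : ℝ) ^ 2)) {x : ℝ} (hx : 0 < x) :
    Summable (fun n : ℕ => b n * wG (n / x)) := by
  refine Summable.of_norm_bounded (hs.mul_left (Real.exp (1 / 4 * (-2) ^ 2) * x ^ 2)) fun n => ?_
  rcases Nat.eq_zero_or_pos n with rfl | hn
  · simp [hb0]
  have hn' : (0 : ℝ) < n := Nat.cast_pos.2 hn
  have h1 := R017.W_le_rpow (a := 1 / 4) (by norm_num) (div_pos hn' hx) (-2)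
  rw [Real.rpow_neg (by positivity), Real.rpow_two] at h1
  rw [norm_mul, Real.norm_eq_abs, cpn_wG, Real.norm_of_nonneg (R017.W_pos _ _).le]
  refine (mul_le_mul_of_nonneg_left h1 (abs_nonneg _)).trans_eq ?_
  field_simp

theorem cpn_sum {b : ℕ → ℝ} (hb0 : b 0 = 0)
    (hs : Summable (fun n : ℕ => |b n| / (n : ℝ) ^ 2)) {x : ℝ} (hx : 0 < x) :
    ∫ t : ℝ, (∑' n : ℕ, (b n : ℂ) * (n : ℂ) ^ (-(((2 : ℝ) : ℂ) + t * I))) *
      (x : ℂ) ^ (((2 : ℝ) : ℂ) + t * I) * R017.Wh (1 / 4) (((2 : ℝ) : ℂ) + t * I) =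
      2 * Real.pi * ((∑' n : ℕ, b n * wG (n / x) : ℝ) : ℂ) := by
  have hW : Integrable (fun t : ℝ => ‖R017.Wh (1 / 4) (((2 : ℝ) : ℂ) + t * I)‖) := by
    simpa using R017.integrable_exp_Wh (a := 1 / 4) (by norm_num) 0 2
  have hWc := (R017.differentiable_Wh (1 / 4)).continuous
  have hπ : (Real.pi : ℂ) ≠ 0 := ofReal_ne_zero.2 Real.pi_ne_zero
  have hn : ∀ (n : ℕ) (t : ℝ), ‖(b n : ℂ) * (n : ℂ) ^ (-(((2 : ℝ) : ℂ) + t * I)) *
      (x : ℂ) ^ (((2 : ℝ) : ℂ) + t * I) * R017.Wh (1 / 4) (((2 : ℝ) : ℂ) + t * I)‖ =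
      |b n| / (n : ℝ) ^ 2 * x ^ 2 * ‖R017.Wh (1 / 4) (((2 : ℝ) : ℂ) + t * I)‖ := fun n t => by
    have e : (((2 : ℝ) : ℂ) + t * I).re = 2 := by simp
    rw [norm_mul, norm_mul, norm_mul, Complex.norm_real, Real.norm_eq_abs,
      norm_natCast_cpow_of_re_ne_zero _ (by rw [neg_re, e]; norm_num),
      norm_cpow_eq_rpow_re_of_pos hx, neg_re, e, Real.rpow_neg (Nat.cast_nonneg n), Real.rpow_two,
      Real.rpow_two, div_eq_mul_inv |b n|]
  have key := hasSum_integral_of_summable_integral_norm (μ := (volume : Measure ℝ))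
    (F := fun (n : ℕ) (t : ℝ) => (b n : ℂ) * (n : ℂ) ^ (-(((2 : ℝ) : ℂ) + t * I)) *
      (x : ℂ) ^ (((2 : ℝ) : ℂ) + t * I) * R017.Wh (1 / 4) (((2 : ℝ) : ℂ) + t * I))
    (fun n => by
      refine (hW.const_mul (|b n| / (n : ℝ) ^ 2 * x ^ 2)).mono' ?_
        (Filter.Eventually.of_forall fun t => (hn n t).le)
      refine Measurable.aestronglyMeasurable ?_
      refine ((measurable_const.mul (measurable_const.pow (by fun_prop))).mul
        (measurable_const.pow (by fun_prop))).mul (hWc.measurable.comp (by fun_prop)))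
    (by
      simp only [hn, integral_const_mul]
      exact (hs.mul_right _).mul_right _)
  simp only [tsum_mul_right] at key
  rw [← key.tsum_eq, ofReal_tsum, ← tsum_mul_left]
  refine tsum_congr fun n => ?_
  rcases Nat.eq_zero_or_pos n with rfl | hn0
  · simp [hb0]
  have hn' : (0 : ℝ) < n := Nat.cast_pos.2 hn0
  rw [ofReal_mul, cpn_wG, R017.W_mellin (by norm_num) (div_pos hn' hx) 2]
  simp only [cpn_cpow hx]
  rw [← mul_assoc, ← mul_assoc, ← integral_const_mul]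
  refine integral_congr_ae (Filter.Eventually.of_forall fun t => ?_)
  field_simp

theorem pnt_abs : ∃ C : ℝ, 0 < C ∧ ∀ (Φ E : ℂ → ℂ) (b : ℕ → ℝ) (B : ℝ), 1 ≤ B →
    DifferentiableOn ℂ Φ {s : ℂ | GQ.theta0 < s.re} → (∀ s : ℂ, GQ.theta0 < s.re → Φ s ≠ 0) →
    (∀ s : ℂ, GQ.theta0 < s.re → s.re ≤ 4 → ‖Φ s‖ ≤ Real.exp (B * (1 + |s.im|))) →
    (∀ s : ℂ, s.re = 2 → Real.exp (-B) ≤ ‖Φ s‖) →
    DifferentiableOn ℂ E {s : ℂ | GQ.theta0 < s.re} → (∀ s : ℂ, GQ.theta0 < s.re → ‖E s‖ ≤ B) →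
    b 0 = 0 → Summable (fun n : ℕ => |b n| / (n : ℝ) ^ 2) →
    (∀ s : ℂ, s.re = 2 → deriv Φ s / Φ s =
      1 / (s - 1) - (∑' n : ℕ, (b n : ℂ) * (n : ℂ) ^ (-s)) - E s) →
    ∀ x : ℝ, 0 < x → Summable (fun n : ℕ => b n * wG (n / x)) ∧
      |∑' n : ℕ, b n * wG (n / x) - cG * x| ≤ C * B * x ^ theta1 := by
  obtain ⟨C, hC, hL⟩ := cpn_strip
  obtain ⟨K, hK, hI⟩ := R017.norm_integral_Wh_le_poly (a := 1 / 4) (by norm_num) zero_le_one theta1
  refine ⟨K * (2001 + C) + 1, by positivity,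
    fun Φ E b B hB hd h0 hb h2 hE hEb hb0 hs hid x hx => ⟨cpn_summable hb0 hs hx, ?_⟩⟩
  have ha : (0 : ℝ) < 1 / 4 := by norm_num
  have hθ : theta1 = 1 - 1 / 2000 := rfl
  have hθ0 : GQ.theta0 = 1 - 1 / 1000 := rfl
  have hsub : R017.strip theta1 2 ⊆ {s : ℂ | GQ.theta0 < s.re} := fun s hs => by
    have := hs.1
    rw [Set.mem_ofPred_eq, hθ0]
    linarith
  have hop : IsOpen {s : ℂ | GQ.theta0 < s.re} := isOpen_lt continuous_const continuous_re
  have hx0 : (x : ℂ) ≠ 0 := ofReal_ne_zero.2 hx.ne'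
  have hH : Differentiable ℂ fun s : ℂ => (x : ℂ) ^ s :=
    Differentiable.const_cpow differentiable_id (Or.inl hx0)
  have hLd : DifferentiableOn ℂ (fun s => (deriv Φ s / Φ s + E s) * (x : ℂ) ^ s)
      (R017.strip theta1 2) :=
    (((((hd.deriv hop).div hd h0).add hE).mono hsub).mul hH.differentiableOn)
  have hLb : ∀ s ∈ R017.strip theta1 2,
      ‖deriv Φ s / Φ s + E s‖ ≤ (C + 1) * B * (1 + |s.im|) ^ (1 : ℝ) := fun s hs => by
    rw [Real.rpow_one]
    have a1 := hL Φ B hB hd h0 hb h2 s hs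
    have a2 := hEb s (hsub hs)
    have a3 : 0 ≤ B * |s.im| := by positivity
    refine (norm_add_le _ _).trans ?_
    nlinarith
  have hLg : R017.ExpGr (fun s => (deriv Φ s / Φ s + E s) * (x : ℂ) ^ s) theta1 2 :=
    (R017.ExpGr.of_poly _ 1 0 fun s hs _ => hLb s hs).mul (R017.expGr_cpow hx _ _)
  have h12 : theta1 ≤ 2 := by rw [hθ]; norm_num
  have s1 := R017.shift_Wh ha h12 hLd hLg
  have s2 := R017.shift_Wh_pole ha (H := fun s : ℂ => (x : ℂ) ^ s) (σ₁ := theta1) (σ₂ := 2)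
    (s₀ := 1) (by rw [hθ]; norm_num) (by norm_num) hH.differentiableOn (R017.expGr_cpow hx _ _)
  have i1 : Integrable fun t : ℝ => (x : ℂ) ^ (((2 : ℝ) : ℂ) + t * I) /
      (((2 : ℝ) : ℂ) + t * I - 1) * R017.Wh (1 / 4) (((2 : ℝ) : ℂ) + t * I) := by
    refine R017.integrable_mul_Wh ha (F := fun s => (x : ℂ) ^ s / (s - 1)) (σ₁ := 2) (σ₂ := 2) ?_
      ((R017.expGr_cpow hx _ _).mul (R017.expGr_inv_sub 1 _ _)) le_rfl le_rfl
    refine hH.continuous.continuousOn.div (by fun_prop) fun s hs h0 => ?_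
    have := hs.1
    rw [sub_eq_zero.1 h0] at this
    norm_num at this
  have i2 := R017.integrable_mul_Wh ha hLd.continuousOn hLg h12 le_rfl
  have s3 := cpn_sum hb0 hs hx
  have e3 : ∀ t : ℝ, (∑' n : ℕ, (b n : ℂ) * (n : ℂ) ^ (-(((2 : ℝ) : ℂ) + t * I))) *
      (x : ℂ) ^ (((2 : ℝ) : ℂ) + t * I) * R017.Wh (1 / 4) (((2 : ℝ) : ℂ) + t * I) =
      (x : ℂ) ^ (((2 : ℝ) : ℂ) + t * I) /
        (((2 : ℝ) : ℂ) + t * I - 1) * R017.Wh (1 / 4) (((2 : ℝ) : ℂ) + t * I) -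
      (deriv Φ (((2 : ℝ) : ℂ) + t * I) / Φ (((2 : ℝ) : ℂ) + t * I) + E (((2 : ℝ) : ℂ) + t * I)) *
        (x : ℂ) ^ (((2 : ℝ) : ℂ) + t * I) * R017.Wh (1 / 4) (((2 : ℝ) : ℂ) + t * I) := fun t => by
    rw [hid _ (by simp)]
    ring
  simp only [e3] at s3
  rw [integral_sub i1 i2, ← s1, s2, cpn_cG, cpow_one] at s3
  have hre : ∀ t : ℝ, ((theta1 : ℂ) + t * I).re = theta1 := fun t => by simp
  have hxθ : 0 < x ^ theta1 := Real.rpow_pos_of_pos hx _
  have b1 := hI (fun t => (x : ℂ) ^ ((theta1 : ℂ) + t * I) / ((theta1 : ℂ) + t * I - 1))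
    (2000 * x ^ theta1) fun t => by
      have a1 : 1 / 2000 ≤ ‖(theta1 : ℂ) + t * I - 1‖ := by
        refine le_trans ?_ (abs_re_le_norm _)
        rw [sub_re, hre, one_re, hθ, le_abs]
        right
        norm_num
      rw [norm_div, norm_cpow_eq_rpow_re_of_pos hx, hre, Real.rpow_one,
        div_le_iff₀ (by linarith)]
      have a2 : 0 ≤ x ^ theta1 * |t| * ‖(theta1 : ℂ) + t * I - 1‖ := by positivity
      nlinarith
  have b2 := hI (fun t => (deriv Φ ((theta1 : ℂ) + t * I) / Φ ((theta1 : ℂ) + t * I) +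
      E ((theta1 : ℂ) + t * I)) * (x : ℂ) ^ ((theta1 : ℂ) + t * I))
    ((C + 1) * B * x ^ theta1) fun t => by
      have a1 := hLb _ (R017.line_mem_strip le_rfl h12 t)
      have e : ((theta1 : ℂ) + t * I).im = t := by simp
      rw [e] at a1
      rw [norm_mul, norm_cpow_eq_rpow_re_of_pos hx, hre]
      exact (mul_le_mul_of_nonneg_right a1 hxθ.le).trans_eq (by ring)
  generalize ∑' n : ℕ, b n * wG (n / x) = S at s3 ⊢
  generalize ∫ t : ℝ, (x : ℂ) ^ ((theta1 : ℂ) + t * I) / ((theta1 : ℂ) + t * I - 1) *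
    R017.Wh (1 / 4) ((theta1 : ℂ) + t * I) = I₁ at s3 b1
  generalize ∫ t : ℝ, (deriv Φ ((theta1 : ℂ) + t * I) / Φ ((theta1 : ℂ) + t * I) +
      E ((theta1 : ℂ) + t * I)) * (x : ℂ) ^ ((theta1 : ℂ) + t * I) *
    R017.Wh (1 / 4) ((theta1 : ℂ) + t * I) = I₂ at s3 b2
  have e4 : ((2 * Real.pi * (S - cG * x) : ℝ) : ℂ) = I₁ - I₂ := by
    push_cast
    linear_combination -s3
  have e5 := congrArg norm e4
  rw [Complex.norm_real, norm_mul, Real.norm_of_nonneg Real.two_pi_pos.le, Real.norm_eq_abs] at e5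
  have b3 := norm_sub_le I₁ I₂
  have b4 : |S - cG * x| ≤ 2 * Real.pi * |S - cG * x| :=
    le_mul_of_one_le_left (abs_nonneg _) (by linarith [Real.pi_gt_three])
  have b5 : K * x ^ theta1 ≤ B * (K * x ^ theta1) := le_mul_of_one_le_left (by positivity) hB
  have b6 : 0 ≤ B * x ^ theta1 := by positivity
  nlinarith

end Crest.Agent.GC
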