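import Crest.Agent.GQ.Fd

/-! # GQ Poisson, auxiliary file 2: completeness of the characters -/

set_option autoImplicit false

noncomputable section

open NumberField Complex
open scoped ComplexConjugate

namespace Crest.Agent.GQ

open MeasureTheory

theorem po_torus {V : Type*} [NormedAddCommGroup V] [NormedSpace ℝ V] [MeasurableSpace V]
    [BorelSpace V] {ι : Type*} [Fintype ι] (b : Module.Basis ι ℝ V) (μ : Measure V)
    [IsFiniteMeasure μ] {F : V → ℂ} (hF : Continuous F)
    (hper : ∀ z (m : ι → ℤ), F (z + ∑ i, (m i : ℝ) • b i) = F z)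
    (h0 : ∀ m : ι → ℤ,
      ∫ z, F z * cexp (2 * Real.pi * I * (∑ i, m i * b.repr z i : ℝ)) ∂μ = 0) :
    F =ᵐ[μ] 0 := by
  have hq : IsOpenQuotientMap (fun z : V => (fun i => ((b.equivFunL z i : ℝ) : UnitAddCircle) :
      UnitAddTorus ι)) :=
    (IsOpenQuotientMap.piMap (f := fun _ : ι => ((↑) : ℝ → UnitAddCircle))
      fun _ => QuotientAddGroup.isOpenQuotientMap_mk).comp
      b.equivFunL.toHomeomorph.isOpenQuotientMap
  let p : C(V, UnitAddTorus ι) := ⟨_, hq.continuous⟩
  have hp : ∀ z i, p z i = ((b.repr z i : ℝ) : UnitAddCircle) := fun _ _ => rfl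
  have hfac : Function.FactorsThrough (⟨F, hF⟩ : C(V, ℂ)) p := by
    intro z z' h
    have h1 : ∀ i, ∃ m : ℤ, (m : ℝ) = b.repr z' i - b.repr z i := by
      intro i
      have := congrFun h i
      rw [hp, hp, QuotientAddGroup.eq, AddSubgroup.mem_zmultiples_iff] at this
      obtain ⟨m, hm⟩ := this
      exact ⟨m, by rw [zsmul_eq_mul, mul_one] at hm; rw [hm]; ring⟩
    choose m hm using h1
    have h2 : z' = z + ∑ i, (m i : ℝ) • b i := by
      simp only [hm, sub_smul, Finset.sum_sub_distrib, b.sum_repr]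
      abel
    change F z = F z'
    rw [h2, hper]
  let G : C(UnitAddTorus ι, ℂ) := Topology.IsQuotientMap.lift (f := p) hq.isQuotientMap _ hfac
  have hG : ∀ z, G (p z) = F z := fun z =>
    DFunLike.congr_fun (Topology.IsQuotientMap.lift_comp (f := p) hq.isQuotientMap _ hfac) z
  have hb : ∀ (H : C(UnitAddTorus ι, ℂ)) z, ‖F z * H (p z)‖ ≤ ‖G‖ * ‖H‖ := by
    intro H z
    rw [norm_mul, ← hG]
    exact mul_le_mul (G.norm_coe_le_norm _) (H.norm_coe_le_norm _) (norm_nonneg _) (norm_nonneg _)
  have hint : ∀ H : C(UnitAddTorus ι, ℂ), Integrable (fun z => F z * H (p z)) μ := fun H =>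
    Integrable.of_bound (hF.mul (H.continuous.comp p.continuous)).aestronglyMeasurable _
      (Filter.Eventually.of_forall (hb H))
  let L : C(UnitAddTorus ι, ℂ) →ₗ[ℂ] ℂ :=
    { toFun := fun H => ∫ z, F z * H (p z) ∂μ
      map_add' := fun H H' => by
        rw [← integral_add (hint H) (hint H')]
        simp only [ContinuousMap.add_apply, mul_add]
      map_smul' := fun a H => by
        simp only [ContinuousMap.smul_apply, smul_eq_mul, RingHom.id_apply]
        rw [← integral_const_mul]
        simp only [mul_left_comm] }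
  let L' : C(UnitAddTorus ι, ℂ) →L[ℂ] ℂ := L.mkContinuous (‖G‖ * μ.real Set.univ) fun H => by
    refine (norm_integral_le_of_norm_le_const (Filter.Eventually.of_forall (hb H))).trans ?_
    exact le_of_eq (by ring)
  have hker : Submodule.span ℂ (Set.range (UnitAddTorus.mFourier (d := ι))) ≤ L'.ker := by
    rw [Submodule.span_le]
    rintro _ ⟨m, rfl⟩
    change ∫ z, F z * UnitAddTorus.mFourier m (p z) ∂μ = 0
    rw [← h0 m]
    congr 1
    funext z
    congr 1
    change ∏ i, fourier (m i) (p z i) = _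
    simp only [hp, fourier_coe_apply]
    rw [← Complex.exp_sum]
    congr 1
    push_cast
    rw [Finset.mul_sum]
    exact Finset.sum_congr rfl fun i _ => by ring
  have htop := Submodule.topologicalClosure_minimal _ hker L'.isClosed_ker
  rw [UnitAddTorus.span_mFourier_closure_eq_top] at htop
  have h1 : ∫ z, F z * (star G) (p z) ∂μ = 0 := htop (Submodule.mem_top (x := star G))
  have h2 : ∀ z, F z * (star G) (p z) = ((‖F z‖ ^ 2 : ℝ) : ℂ) := by
    intro z
    rw [ContinuousMap.star_apply, hG, Complex.star_def, Complex.mul_conj, Complex.normSq_eq_norm_sq]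
  have h3 : Integrable (fun z => ‖F z‖ ^ 2) μ := by
    refine (hint (star G)).norm.congr (Filter.Eventually.of_forall fun z => ?_)
    simp only [h2]
    simp
  simp only [h2] at h1
  rw [integral_complex_ofReal, Complex.ofReal_eq_zero,
    integral_eq_zero_iff_of_nonneg (fun z => sq_nonneg _) h3] at h1
  filter_upwards [h1] with z hz
  simpa using hz

variable {K : Type} [Field K] [NumberField K] [P : Pre K]

theorem po_discrete {x : K} (hx : x ≠ 0) :
    DiscreteTopology (AddSubgroup.toIntSubmodule (LatE x)) := by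
  obtain ⟨C, -, h⟩ := box_count (K := K)
  have hfin := (h x hx 0 (fun _ => 1) fun _ => one_pos).1
  refine discreteTopology_of_isOpen_singleton_zero ?_
  have hfin' : {z : AddSubgroup.toIntSubmodule (LatE x) | ‖(z : Pl K → ℂ)‖ < 1}.Finite := by
    refine Set.Finite.of_finite_image (f := Subtype.val) ((hfin.image embR).subset ?_)
      Subtype.val_injective.injOn
    rintro _ ⟨⟨_, n, hn, rfl⟩, hz, rfl⟩
    refine ⟨n, ⟨hn, fun v => ?_⟩, rfl⟩
    rw [Pi.zero_apply, sub_zero]
    exact (norm_le_pi_norm (embR n) v).trans (le_of_lt hz)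
  have ho : IsOpen {z : AddSubgroup.toIntSubmodule (LatE x) | ‖(z : Pl K → ℂ)‖ < 1} :=
    isOpen_lt (by fun_prop) continuous_const
  have := ho.sdiff (hfin'.subset (Set.sdiff_subset (t := {0}))).isClosed
  rwa [Set.sdiff_sdiff_cancel_left (by simp)] at this

theorem po_span {x : K} (hx : x ≠ 0) :
    Submodule.span ℝ ((AddSubgroup.toIntSubmodule (LatE x) : Submodule ℤ (Pl K → ℂ)) :
      Set (Pl K → ℂ)) = ⊤ := by
  by_contra hne
  obtain ⟨f, hf0, hf⟩ := Submodule.exists_le_ker_of_lt_top _ (lt_top_iff_ne_top.2 hne)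
  obtain ⟨r, hr⟩ := (isBounded_fd hx).exists_norm_le
  let f' := LinearMap.toContinuousLinearMap f
  have hb : ∀ z, ‖f z‖ ≤ ‖f'‖ * r := by
    intro z
    obtain ⟨n, hn, hz⟩ := exists_add_mem_fd hx z
    have h1 : f (emb (n : K)) = 0 := hf (Submodule.subset_span ⟨n, hn, rfl⟩)
    have h2 : f z = f' (z + emb (n : K)) := by simp [f', h1]
    rw [h2]
    exact (f'.le_opNorm _).trans (mul_le_mul_of_nonneg_left (hr _ hz) (norm_nonneg _))
  apply hf0
  refine LinearMap.ext fun z => ?_
  by_contra hz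
  have h3 := hb (((‖f'‖ * r + 1) / f z) • z)
  rw [map_smul, smul_eq_mul, div_mul_cancel₀ _ hz] at h3
  linarith [le_abs_self (‖f'‖ * r + 1), Real.norm_eq_abs (‖f'‖ * r + 1)]

theorem po_emb_zsmul (m : ℤ) (a : K) : emb (m • a) = (m : ℝ) • emb a := by
  funext v
  simp [emb]

theorem po_emb_sum {ι : Type*} (s : Finset ι) (a : ι → K) :
    emb (∑ i ∈ s, a i) = ∑ i ∈ s, emb (a i) := by
  funext v
  simp [emb]

theorem po_basis {x : K} (hx : x ≠ 0) : ∃ (d : ℕ) (β : Fin d → R K)
    (b : Module.Basis (Fin d) ℝ (Pl K → ℂ)), (∀ i, β i ∈ Lat x) ∧ (∀ i, b i = emb (β i : K)) ∧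
      ∀ n ∈ Lat x, ∃ m : Fin d → ℤ, (n : K) = ∑ i, m i • (β i : K) := by
  have := po_discrete hx
  have : IsZLattice ℝ (AddSubgroup.toIntSubmodule (LatE x)) := ⟨po_span hx⟩
  let b₀ := Module.finBasis ℤ (AddSubgroup.toIntSubmodule (LatE x))
  have h1 : ∀ i, ∃ n ∈ Lat x, embR n = (b₀ i : Pl K → ℂ) := fun i => (b₀ i).2
  choose β hβ hβ' using h1
  refine ⟨_, β, b₀.ofZLatticeBasis ℝ _, hβ, fun i => ?_, fun n hn => ?_⟩
  · rw [Module.Basis.ofZLatticeBasis_apply, ← hβ']
    rfl
  · refine ⟨b₀.repr ⟨embR n, n, hn, rfl⟩, emb_injective ?_⟩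
    have h2 := congrArg Subtype.val (b₀.sum_repr ⟨embR n, n, hn, rfl⟩)
    rw [Submodule.coe_sum] at h2
    rw [po_emb_sum]
    refine h2.symm.trans (Finset.sum_congr rfl fun i _ => ?_)
    rw [po_emb_zsmul, Submodule.coe_smul, ← hβ', Int.cast_smul_eq_zsmul]
    rfl

theorem po_dual {d : ℕ} {β : Fin d → K} (b : Module.Basis (Fin d) ℝ (Pl K → ℂ))
    (hb : ∀ i, b i = emb (β i)) (m : Fin d → ℤ) :
    ∃ y : K, ∀ i, Algebra.trace ℚ K (y * β i) = m i := by
  have hli : LinearIndependent ℚ β := by
    rw [Fintype.linearIndependent_iff]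
    intro g hg i
    have h1 : ∑ i, (g i : ℝ) • b i = 0 := by
      have := congrArg emb hg
      rw [po_emb_sum] at this
      funext v
      have := congrFun this v
      simpa [hb, emb, Rat.smul_def] using this
    have := Fintype.linearIndependent_iff.1 b.linearIndependent _ h1 i
    exact_mod_cast this
  obtain ⟨g, hg⟩ := (Fintype.linearCombination ℚ β).exists_leftInverse_of_injective
    (LinearMap.ker_eq_bot.2 hli.fintypeLinearCombination_injective)
  let ℓ : Module.Dual ℚ K := (Fintype.linearCombination ℚ fun i => (m i : ℚ)) ∘ₗ g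
  refine ⟨((Algebra.traceForm ℚ K).toDual (traceForm_nondegenerate ℚ K)).symm ℓ, fun i => ?_⟩
  rw [← Algebra.traceForm_apply, LinearMap.BilinForm.apply_toDual_symm_apply]
  have h2 := LinearMap.congr_fun hg (Pi.single i 1)
  rw [LinearMap.comp_apply, Fintype.linearCombination_apply_single, one_smul] at h2
  simp [ℓ, h2]

theorem po_complete {x : K} (hx : x ≠ 0) {F : (Pl K → ℂ) → ℂ} (hF : Continuous F)
    (hper : ∀ z, ∀ n ∈ Lat x, F (z + emb ((n : R K) : K)) = F z)
    (h0 : ∀ y ∈ Lat (x * dl K)⁻¹, ∫ z in fd x, F z * eC (-(emb ((y : R K) : K) * z)) = 0) :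
    F = 0 := by
  obtain ⟨d, β, b, hβ, hb, hspan⟩ := po_basis hx
  have : IsFiniteMeasure ((volume : Measure (Pl K → ℂ)).restrict (fd x)) :=
    isFiniteMeasure_restrict.2 (by rw [volume_fd hx]; exact ENNReal.ofReal_ne_top)
  have h1 : F =ᵐ[volume.restrict (fd x)] 0 := by
    refine po_torus b _ hF (fun z m => ?_) fun m => ?_
    · rw [← hper z (∑ i, m i • β i) (sum_mem fun i _ => zsmul_mem (hβ i) _)]
      congr 2
      push_cast
      rw [po_emb_sum]
      exact Finset.sum_congr rfl fun i _ => by rw [po_emb_zsmul, hb]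
    · obtain ⟨y, hy⟩ := po_dual b hb (-m)
      obtain ⟨hyR, hyT⟩ := (dual_Lat hx y).1 fun n hn => by
        obtain ⟨k, hk⟩ := hspan n hn
        have : Algebra.trace ℚ K (y * n) = (∑ i, k i * (-m) i : ℤ) := by
          rw [hk, Finset.mul_sum, map_sum]
          push_cast
          exact Finset.sum_congr rfl fun i _ => by
            rw [mul_smul_comm, map_zsmul, hy]; simp
        rw [eT, this, Rat.cast_intCast, mul_comm]
        exact Complex.exp_int_mul_two_pi_mul_I _
      rw [← h0 ⟨y, hyR⟩ hyT]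
      congr 1
      funext z
      rw [eC]
      congr 4
      have h2 : ∀ i, (m i : ℝ) = -∑ v, 2 * (emb y v * b i v).re := by
        intro i
        have := trace_eq (y * β i)
        rw [hy, emb_mul, ← hb] at this
        simp only [Pi.mul_apply] at this
        rw [← this]
        simp
      conv_rhs => rw [← b.sum_repr z]
      simp only [h2, Pi.neg_apply, Pi.mul_apply, Finset.sum_apply, Pi.smul_apply, Finset.mul_sum,
        neg_re, re_sum, mul_neg, neg_mul, Finset.sum_neg_distrib, Finset.sum_mul]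
      rw [Finset.sum_comm]
      congr 1
      refine Finset.sum_congr rfl fun v _ => Finset.sum_congr rfl fun i _ => ?_
      simp only [real_smul, mul_re, mul_im, ofReal_re, ofReal_im]
      ring
  have h2 : ∫⁻ z, ‖F z‖ₑ = 0 := by
    rw [lintegral_eq_tsum_fd hx, ENNReal.tsum_eq_zero]
    intro n
    simp only [hper _ _ n.2]
    rw [lintegral_eq_zero_iff hF.enorm.measurable]
    filter_upwards [h1] with z hz
    simp [hz]
  rw [lintegral_eq_zero_iff hF.enorm.measurable] at h2
  refine (hF.ae_eq_iff_eq volume continuous_zero).1 ?_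
  filter_upwards [h2] with z hz
  simpa using hz

end Crest.Agent.GQ
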