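import Crest.Agent.GQ.CDefs
import Crest.Agent.GQ.PoissonAux2

/-! # GQ CPoi: Poisson summation for Gaussians on a lattice in `ι → ℂ` -/

set_option autoImplicit false

noncomputable section

open NumberField Complex MeasureTheory
open scoped nonZeroDivisors ComplexConjugate

namespace Crest.Agent.GC

section aux

variable {ι : Type} [Fintype ι]

theorem cpo_norm_eI (z : ι → ℂ) : ‖eI z‖ = 1 := by
  rw [eI, mul_right_comm, ← ofReal_ofNat, ← ofReal_mul, ← ofReal_mul, norm_exp_ofReal_mul_I]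

theorem cpo_eI_add (z w : ι → ℂ) : eI (z + w) = eI z * eI w := by
  simp only [eI, Pi.add_apply, add_re, mul_add, Finset.sum_add_distrib, ofReal_add, Complex.exp_add]

theorem cpo_cont : Continuous (eI (ι := ι)) := by
  unfold eI
  fun_prop

theorem cpo_eI_dual {Λ : Submodule ℤ (ι → ℂ)} {w n : ι → ℂ} (hw : w ∈ dualL Λ) (hn : n ∈ Λ)
    (z : ι → ℂ) : eI (w * (n + z)) = eI (w * z) := by
  obtain ⟨k, hk⟩ := hw n hn
  rw [mul_add, cpo_eI_add, eI]
  simp only [Pi.mul_apply]
  rw [hk, ofReal_intCast, mul_comm _ (k : ℂ), Complex.exp_int_mul_two_pi_mul_I, one_mul]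

theorem cpo_pos (y : ι → ℝ) (z : ι → ℂ) : 0 < gG y z := Real.exp_pos _

theorem cpo_le (y : ι → ℝ) : ∃ c : ℝ, 0 < c ∧ ∀ u, gG y u ≤ Real.exp (-c * ‖u‖ ^ 2) := by
  refine ⟨Real.pi * Real.exp (2 * -‖y‖), by positivity, fun u => Real.exp_le_exp.2 ?_⟩
  have h1 : ‖u‖ ^ 2 ≤ ∑ v, ‖u v‖ ^ 2 := by
    rw [← Real.le_sqrt (norm_nonneg _) (by positivity), pi_norm_le_iff_of_nonneg (by positivity)]
    exact fun v => Real.le_sqrt_of_sq_le
      (Finset.single_le_sum (f := fun v => ‖u v‖ ^ 2) (fun _ _ => sq_nonneg _) (Finset.mem_univ v))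
  rw [neg_mul, neg_mul, neg_le_neg_iff, mul_assoc]
  refine mul_le_mul_of_nonneg_left ((mul_le_mul_of_nonneg_left h1 (Real.exp_pos _).le).trans ?_)
    Real.pi_pos.le
  rw [Finset.mul_sum]
  refine Finset.sum_le_sum fun v _ => ?_
  have := (abs_le.1 (norm_le_pi_norm y v)).1
  gcongr

theorem cpo_summable (L : Submodule ℤ (ι → ℂ)) [DiscreteTopology L] {c : ℝ} (hc : 0 < c) :
    Summable fun n : L => Real.exp (-c * ‖(n : ι → ℂ)‖ ^ 2) := by
  set N := Module.finrank ℤ L + 1
  refine Summable.of_norm_bounded_eventually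
    ((ZLattice.summable_norm_pow_inv L (2 * N) (by omega)).mul_left (N.factorial / c ^ N)) ?_
  filter_upwards [(Set.finite_singleton (0 : L)).compl_mem_cofinite] with n hn
  have h0 : 0 < ‖n‖ := norm_pos_iff.2 hn
  have h1 := Real.pow_div_factorial_le_exp (c * ‖n‖ ^ 2) (by positivity) N
  rw [Real.norm_of_nonneg (Real.exp_pos _).le, neg_mul, Real.exp_neg]
  refine (inv_anti₀ (by positivity) h1).trans (le_of_eq ?_)
  rw [mul_pow, pow_mul, inv_pow, inv_pow]
  field_simp

theorem cpo_bd (L : Submodule ℤ (ι → ℂ)) [DiscreteTopology L] (y : ι → ℝ) (r : ℝ) :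
    ∃ g : L → ℝ, Summable g ∧ ∀ (n : L) (z : ι → ℂ), ‖z‖ ≤ r → gG y ((n : ι → ℂ) + z) ≤ g n := by
  obtain ⟨c, hc, h⟩ := cpo_le y
  refine ⟨_, (cpo_summable L (half_pos hc)).mul_left (Real.exp (c * r ^ 2)), fun n z hz =>
    (h _).trans ?_⟩
  rw [← Real.exp_add]
  have h1 : ‖(n : ι → ℂ)‖ ≤ ‖(n : ι → ℂ) + z‖ + ‖z‖ := by simpa using norm_sub_le (n + z) z
  have h2 : ‖z‖ ^ 2 ≤ r ^ 2 := by gcongr
  have h3 : ‖(n : ι → ℂ)‖ ^ 2 ≤ 2 * ‖(n : ι → ℂ) + z‖ ^ 2 + 2 * ‖z‖ ^ 2 := by
    nlinarith [norm_nonneg (n : ι → ℂ), norm_nonneg z, norm_nonneg (n + z),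
      sq_nonneg (‖n + z‖ - ‖z‖)]
  exact Real.exp_le_exp.2 (by nlinarith)

theorem cpo_factor (y : ι → ℝ) (w z : ι → ℂ) : (gG y z : ℂ) * eI (-w * z) =
    ∏ v, cexp (-((Real.pi * Real.exp (2 * y v) : ℝ) : ℂ) * ‖z v‖ ^ 2 +
      (-(4 * Real.pi * I)) * (inner ℝ (conj (w v)) (z v) : ℝ)) := by
  rw [← Complex.exp_sum, eI, gG, Complex.ofReal_exp, ← Complex.exp_add]
  congr 1
  simp only [ofReal_mul, ofReal_sum, ofReal_neg, ofReal_pow, ofReal_ofNat]
  rw [Finset.mul_sum, Finset.mul_sum, ← Finset.sum_add_distrib]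
  refine Finset.sum_congr rfl fun v _ => ?_
  rw [Complex.inner, conj_conj, mul_comm (z v)]
  simp only [Pi.neg_apply, Pi.mul_apply, neg_mul, neg_re, ofReal_neg]
  ring

theorem cpo_integrable (y : ι → ℝ) (w : ι → ℂ) :
    Integrable fun z : ι → ℂ => (gG y z : ℂ) * eI (-w * z) := by
  simp only [cpo_factor]
  exact Integrable.fintype_prod (μ := fun _ : ι => (volume : Measure ℂ))
    fun v => GaussianFourier.integrable_cexp_neg_mul_sq_norm_add (V := ℂ)
      (by rw [ofReal_re]; positivity) (-(4 * Real.pi * I)) (conj (w v))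

theorem cpo_integral (y : ι → ℝ) (w : ι → ℂ) : ∫ z, (gG y z : ℂ) * eI (-w * z) =
    (Real.exp (-2 * ∑ v, y v) : ℂ) * gG (fun v => Real.log 2 - y v) w := by
  simp only [cpo_factor]
  rw [integral_fintype_prod_volume_eq_prod fun v (u : ℂ) =>
    cexp (-((Real.pi * Real.exp (2 * y v) : ℝ) : ℂ) * ‖u‖ ^ 2 +
      (-(4 * Real.pi * I)) * (inner ℝ (conj (w v)) u : ℝ)), gG, Finset.mul_sum, Finset.mul_sum,
    Real.exp_sum, Real.exp_sum, ofReal_prod, ofReal_prod, ← Finset.prod_mul_distrib]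
  refine Finset.prod_congr rfl fun v _ => ?_
  have h0 : Real.exp (-2 * y v) = (Real.exp (2 * y v))⁻¹ := by rw [neg_mul, Real.exp_neg]
  have h3 : Real.exp (2 * (Real.log 2 - y v)) = 4 / Real.exp (2 * y v) := by
    rw [mul_sub, Real.exp_sub, two_mul, Real.exp_add, Real.exp_log two_pos]
    norm_num
  rw [GaussianFourier.integral_cexp_neg_mul_sq_norm_add (by rw [ofReal_re]; positivity),
    finrank_real_complex, norm_conj, h0, h3, ofReal_exp]
  have h4 := Real.exp_pos (2 * y v)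
  generalize Real.exp (2 * y v) = ρ at h4
  have h1 : (ρ : ℂ) ≠ 0 := by exact_mod_cast h4.ne'
  have h2 : (Real.pi : ℂ) ≠ 0 := by exact_mod_cast Real.pi_pos.ne'
  push_cast
  congr 1
  · rw [show (Real.pi : ℂ) / (Real.pi * ρ) = (ρ : ℂ)⁻¹ by field_simp]
    simp
  · congr 1
    field_simp
    rw [I_sq]
    ring

/-- the pairing -/
def cpoB (w : ι → ℂ) : (ι → ℂ) →ₗ[ℝ] ℝ where
  toFun z := ∑ v, 2 * (w v * z v).re
  map_add' a b := by simp only [Pi.add_apply, mul_add, add_re, Finset.sum_add_distrib]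
  map_smul' c a := by
    simp only [Pi.smul_apply, mul_smul_comm, smul_re, smul_eq_mul, RingHom.id_apply,
      Finset.mul_sum, mul_left_comm]

theorem cpoB_inj {w : ι → ℂ} (h : cpoB w (star w) = 0) : w = 0 := by
  have h1 : ∑ v, 2 * normSq (w v) = 0 := by
    simpa only [cpoB, LinearMap.coe_mk, AddHom.coe_mk, Pi.star_apply, star_def, mul_conj,
      ofReal_re] using h
  rw [Finset.sum_eq_zero_iff_of_nonneg fun v _ => mul_nonneg two_pos.le (normSq_nonneg _)] at h1
  funext v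
  simpa using h1 v (Finset.mem_univ v)

theorem cpoB_surj (l : (ι → ℂ) →ₗ[ℝ] ℝ) : ∃ w, cpoB w = l := by
  classical
  refine ⟨fun v => ⟨l (Pi.single v 1) / 2, -l (Pi.single v I) / 2⟩, LinearMap.ext fun z => ?_⟩
  have h : z = ∑ v, ((z v).re • (Pi.single v 1 : ι → ℂ) + (z v).im • (Pi.single v I : ι → ℂ)) := by
    rw [← Finset.univ_sum_single z]
    refine Finset.sum_congr rfl fun v _ => ?_
    rw [Finset.univ_sum_single, ← Pi.single_smul, ← Pi.single_smul, ← Pi.single_add]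
    simp
  conv_rhs => rw [h]
  simp only [cpoB, LinearMap.coe_mk, AddHom.coe_mk, map_sum, map_add, map_smul, smul_eq_mul, mul_re]
  exact Finset.sum_congr rfl fun v _ => by ring

theorem cpo_half {w : ι → ℂ} (hw : w ≠ 0) : ∃ t, eI (w * t) = -1 := by
  have h : cpoB w (star w) ≠ 0 := fun h => hw (cpoB_inj h)
  refine ⟨(2 * cpoB w (star w))⁻¹ • star w, ?_⟩
  have h1 : cpoB w ((2 * cpoB w (star w))⁻¹ • star w) = 1 / 2 := by
    rw [map_smul, smul_eq_mul]
    field_simp
  change cexp (2 * Real.pi * I * (cpoB w _ : ℝ)) = _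
  rw [h1, ← exp_pi_mul_I]
  congr 1
  push_cast
  ring

end aux

variable {ι : Type} [Fintype ι] (Λ : Submodule ℤ (ι → ℂ)) [DiscreteTopology Λ] [IsZLattice ℝ Λ]

theorem cpo_disc : DiscreteTopology (dualL Λ) := by
  let b₀ := Module.Free.chooseBasis ℤ Λ
  choose f hf using fun (w : dualL Λ) i => w.2 (b₀ i) (b₀ i).2
  refine DiscreteTopology.of_continuous_injective (f := f) (continuous_pi fun i => ?_)
    fun w w' h => Subtype.ext (sub_eq_zero.1 (cpoB_inj ?_))
  · rw [Int.isClosedEmbedding_coe_real.isInducing.continuous_iff]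
    simp only [Function.comp_def, ← hf]
    exact continuous_finset_sum _ fun v _ => continuous_const.mul (continuous_re.comp
      (((continuous_apply v).comp continuous_subtype_val).mul continuous_const))
  · have : cpoB (w - w' : ι → ℂ) = 0 := (b₀.ofZLatticeBasis ℝ Λ).ext fun i => by
      have h1 := hf w i
      rw [h, ← hf w' i, ← sub_eq_zero, ← Finset.sum_sub_distrib] at h1
      simpa only [Module.Basis.ofZLatticeBasis_apply, cpoB, LinearMap.coe_mk, AddHom.coe_mk,
        Pi.sub_apply, sub_mul, sub_re, mul_sub, LinearMap.zero_apply] using h1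
    rw [this, LinearMap.zero_apply]

instance cpo_i1 : MeasurableVAdd Λ (ι → ℂ) :=
  (inferInstance : MeasurableVAdd Λ.toAddSubgroup (ι → ℂ))
instance cpo_i2 : VAddInvariantMeasure Λ (ι → ℂ) volume :=
  (inferInstance : VAddInvariantMeasure Λ.toAddSubgroup (ι → ℂ) volume)

/-- the fundamental domain -/
def cpoD : Set (ι → ℂ) :=
  ZSpan.fundamentalDomain ((Module.Free.chooseBasis ℤ Λ).ofZLatticeBasis ℝ Λ)

theorem cpoD_fd : IsAddFundamentalDomain Λ (cpoD Λ) volume := ZLattice.isAddFundamentalDomain _ _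

theorem cpoD_bd : Bornology.IsBounded (cpoD Λ) := ZSpan.fundamentalDomain_isBounded _

theorem cpoD_int {H : (ι → ℂ) → ℂ} (hH : Continuous H) : IntegrableOn H (cpoD Λ) :=
  (hH.continuousOn.integrableOn_compact (cpoD_bd Λ).isCompact_closure).mono_set subset_closure

open Pointwise in
theorem cpo_orth {w : ι → ℂ} (hw : w ∈ dualL Λ) (h0 : w ≠ 0) : ∫ z in cpoD Λ, eI (w * z) = 0 := by
  obtain ⟨t, ht⟩ := cpo_half h0
  have h1 := ((cpoD_fd Λ).vadd_of_comm t).setIntegral_eq (cpoD_fd Λ) (f := fun z => eI (w * z))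
    fun n z => cpo_eI_dual hw n.2 z
  have h2 := (measurePreserving_add_left volume t).setIntegral_image_emb
    (measurableEmbedding_addLeft t) (fun z => eI (w * z)) (cpoD Λ)
  simp only [mul_add, cpo_eI_add, ht, integral_const_mul] at h2
  have h3 := h1.symm.trans h2
  linear_combination h3 / 2

theorem cpo_complete {F : (ι → ℂ) → ℂ} (hF : Continuous F)
    (hper : ∀ z, ∀ n ∈ Λ, F (n + z) = F z)
    (h0 : ∀ w ∈ dualL Λ, ∫ z in cpoD Λ, F z * eI (-w * z) = 0) : F = 0 := by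
  let b₀ := Module.Free.chooseBasis ℤ Λ
  have : IsFiniteMeasure ((volume : Measure (ι → ℂ)).restrict (cpoD Λ)) :=
    isFiniteMeasure_restrict.2 (cpoD_bd Λ).measure_lt_top.ne
  have h1 : F =ᵐ[volume.restrict (cpoD Λ)] 0 := by
    refine GQ.po_torus (b₀.ofZLatticeBasis ℝ Λ) _ hF (fun z m => ?_) fun m => ?_
    · rw [add_comm, hper]
      refine sum_mem fun i _ => ?_
      rw [Int.cast_smul_eq_zsmul, Module.Basis.ofZLatticeBasis_apply]
      exact zsmul_mem (b₀ i).2 _
    · obtain ⟨w, hw⟩ := cpoB_surj (∑ i, (m i : ℝ) • (b₀.ofZLatticeBasis ℝ Λ).coord i)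
      have hw' : ∀ z, ∑ v, 2 * (w v * z v).re = ∑ i, m i * (b₀.ofZLatticeBasis ℝ Λ).repr z i :=
        fun z => by simpa [cpoB] using LinearMap.congr_fun hw z
      rw [← h0 (-w) (neg_mem fun n hn => ⟨∑ i, m i * b₀.repr ⟨n, hn⟩ i, ?_⟩)]
      · simp only [neg_neg, eI, Pi.mul_apply, hw']
      · rw [hw']
        push_cast
        exact Finset.sum_congr rfl fun i _ => congrArg _
          (b₀.ofZLatticeBasis_repr_apply ℝ Λ ⟨n, hn⟩ i)
  have h2 : ∫⁻ z, ‖F z‖ₑ = 0 := by
    rw [(cpoD_fd Λ).lintegral_eq_tsum'', ENNReal.tsum_eq_zero]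
    intro n
    have : ∀ z, F (n +ᵥ z) = F z := fun z => hper z n n.2
    simp only [this]
    rw [lintegral_eq_zero_iff hF.enorm.measurable]
    filter_upwards [h1] with z hz
    simp [hz]
  rw [lintegral_eq_zero_iff hF.enorm.measurable] at h2
  refine (hF.ae_eq_iff_eq volume continuous_zero).1 ?_
  filter_upwards [h2] with z hz
  simpa using hz

theorem summable_gG (y : ι → ℝ) (z : ι → ℂ) : Summable (fun n : Λ => gG y ((n : ι → ℂ) + z)) := by
  obtain ⟨g, hg, h⟩ := cpo_bd Λ y ‖z‖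
  exact hg.of_nonneg_of_le (fun _ => (cpo_pos _ _).le) fun n => h n z le_rfl
theorem summable_gG_dual (y : ι → ℝ) : Summable (fun w : dualL Λ => gG y (w : ι → ℂ)) := by
  have := cpo_disc Λ
  obtain ⟨g, hg, h⟩ := cpo_bd (dualL Λ) y 0
  exact hg.of_nonneg_of_le (fun _ => (cpo_pos _ _).le) fun n => by simpa using h n 0 (by simp)
theorem poisson_lat (y : ι → ℝ) (z : ι → ℂ) :
    ∑' n : Λ, (gG y ((n : ι → ℂ) + z) : ℂ) =
      ((Real.exp (-2 * ∑ v, y v) / ZLattice.covolume Λ : ℝ) : ℂ) *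
        ∑' w : dualL Λ, (gG (fun v => Real.log 2 - y v) (w : ι → ℂ) : ℂ) * eI ((w : ι → ℂ) * z) := by
  have := cpo_disc Λ
  have : Countable (dualL Λ) := countable_of_Lindelof_of_discrete
  have hV := ZLattice.covolume_eq_measure_fundamentalDomain Λ volume (cpoD_fd Λ)
  have hV' : ((ZLattice.covolume Λ : ℝ) : ℂ) ≠ 0 := by
    exact_mod_cast ZLattice.covolume_ne_zero Λ volume
  have hn : ∀ y (u : ι → ℂ), ‖(gG y u : ℂ)‖ = gG y u := fun y u => by
    rw [norm_real, Real.norm_of_nonneg (cpo_pos _ _).le]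
  have hgc : Continuous fun u : ι → ℂ => (gG y u : ℂ) := by
    unfold gG
    fun_prop
  have hE : ∀ w : ι → ℂ, Continuous fun z : ι → ℂ => eI (w * z) := fun w =>
    cpo_cont.comp (by fun_prop)
  set F : (ι → ℂ) → ℂ := fun z => ∑' n : Λ, (gG y ((n : ι → ℂ) + z) : ℂ) with hF
  have hFc : Continuous F := by
    rw [continuous_iff_continuousAt]
    intro z
    obtain ⟨g, hg, h⟩ := cpo_bd Λ y (‖z‖ + 1)
    refine (continuousOn_tsum (s := Metric.closedBall 0 (‖z‖ + 1)) (fun n => ?_) hg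
      (fun n u hu => (hn _ _).trans_le (h n u (by simpa using hu)))).continuousAt ?_
    · exact (hgc.comp (by fun_prop)).continuousOn
    · exact Metric.closedBall_mem_nhds_of_mem (by simp)
  have ha := summable_gG_dual Λ fun v => Real.log 2 - y v
  set a : dualL Λ → ℝ := fun w => gG (fun v => Real.log 2 - y v) (w : ι → ℂ) with ha'
  set G : (ι → ℂ) → ℂ := fun z => ∑' w : dualL Λ, (a w : ℂ) * eI ((w : ι → ℂ) * z) with hG
  have hGc : Continuous G :=
    continuous_tsum (fun w => continuous_const.mul (hE _)) ha fun w z => by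
      rw [norm_mul, cpo_norm_eI, mul_one, hn]
  obtain ⟨r, hr⟩ := (cpoD_bd Λ).exists_norm_le
  obtain ⟨g, hg, hb⟩ := cpo_bd Λ y r
  have hlt := (cpoD_bd Λ).measure_lt_top (μ := volume)
  have key := cpo_complete Λ (F := fun z => F z -
      ((Real.exp (-2 * ∑ v, y v) / ZLattice.covolume Λ : ℝ) : ℂ) * G z)
    (hFc.sub (continuous_const.mul hGc)) (fun z n hn => ?_) (fun w hw => ?_)
  · exact sub_eq_zero.1 (congrFun key z)
  · congr 1
    · rw [hF]
      beta_reduce
      rw [← (Equiv.addRight (⟨n, hn⟩ : Λ)).tsum_eq fun m : Λ => (gG y ((m : ι → ℂ) + z) : ℂ)]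
      exact tsum_congr fun m => by simp [add_assoc]
    · exact congrArg _ (tsum_congr fun w => by rw [cpo_eI_dual w.2 hn])
  · have e1 : ∫ z in cpoD Λ, F z * eI (-w * z) = ∫ z, (gG y z : ℂ) * eI (-w * z) := by
      rw [(cpoD_fd Λ).integral_eq_tsum'' _ (cpo_integrable y w),
        integral_tsum_of_summable_integral_norm]
      · congr 1
        funext z
        rw [hF, ← tsum_mul_right]
        exact tsum_congr fun n => congrArg _ (cpo_eI_dual (neg_mem hw) n.2 z).symm
      · exact fun n => cpoD_int Λ ((hgc.mul (hE _)).comp (continuous_const.add continuous_id))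
      · refine Summable.of_nonneg_of_le (fun n => integral_nonneg fun _ => norm_nonneg _)
          (fun n => ?_) (hg.mul_right (volume.real (cpoD Λ)))
        refine (Real.le_norm_self _).trans (norm_setIntegral_le_of_norm_le_const hlt fun z hz => ?_)
        rw [norm_norm, norm_mul, cpo_norm_eI, mul_one, hn]
        exact hb n z (hr z hz)
    have e2 : ∫ z in cpoD Λ, G z * eI (-w * z) = a ⟨w, hw⟩ * ZLattice.covolume Λ := by
      simp only [hG, ← tsum_mul_right, mul_assoc, ← cpo_eI_add, ← add_mul]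
      rw [← integral_tsum_of_summable_integral_norm, tsum_eq_single ⟨w, hw⟩]
      · simp [eI, hV, mul_comm]
      · intro w' h
        rw [integral_const_mul, cpo_orth Λ (add_mem w'.2 (neg_mem hw))
          fun h' => h (Subtype.ext (add_neg_eq_zero.1 h')), mul_zero]
      · exact fun w' => cpoD_int Λ (continuous_const.mul (hE _))
      · simp only [norm_mul, cpo_norm_eI, mul_one, ha', hn, integral_const, smul_eq_mul]
        exact ha.mul_left _
    simp only [sub_mul, mul_assoc]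
    have := hE (-w)
    rw [integral_sub (cpoD_int Λ (by fun_prop)) (cpoD_int Λ (by fun_prop)), integral_const_mul, e1, e2,
      cpo_integral, ofReal_div, ha']
    field_simp
    ring

end Crest.Agent.GC
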