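import Crest.Agent.GQ.Strip
import Crest.Agent.GQ.CHecke
import Crest.Agent.GQ.CDec
import Crest.Agent.GQ.CEuler2
import Crest.Agent.GQ.CPnt

/-! # GQ CPrime: the uniform prime ideal theorem -/

set_option autoImplicit false

noncomputable section

open NumberField Complex MeasureTheory
open scoped nonZeroDivisors

namespace Crest.Agent.GC

theorem cpr_cop {F : Type} [Field F] [NumberField F] (J : Ideal (𝓞 F)) :
    J ⊔ Ideal.span {(3 : 𝓞 F)} = ⊤ ↔ ¬ 3 ∣ Ideal.absNorm J := by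
  constructor
  · intro h h3
    obtain ⟨P, hP, hu, hd⟩ := Ideal.exists_isMaximal_dvd_of_dvd_absNorm' Nat.prime_three J h3
    have h1 : (3 : 𝓞 F) ∈ P := by
      have : ((3 : ℕ) : ℤ) ∈ P.under ℤ := by rw [hu]; exact Ideal.mem_span_singleton_self _
      have h2 : algebraMap ℤ (𝓞 F) ((3 : ℕ) : ℤ) ∈ P := this
      simpa using h2
    have h4 : J ⊔ Ideal.span {(3 : 𝓞 F)} ≤ P :=
      sup_le (Ideal.le_of_dvd hd) ((Ideal.span_singleton_le_iff_mem _).2 h1)
    rw [h] at h4
    exact hP.ne_top (top_le_iff.1 h4)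
  · intro h3
    by_contra h
    obtain ⟨P, hP, hle⟩ := Ideal.exists_le_maximal _ h
    have h1 : (3 : 𝓞 F) ∈ P := hle (Ideal.mem_sup_right (Ideal.mem_span_singleton_self _))
    exact h3 ((cde_three hP.isPrime h1).trans
      (Ideal.absNorm_dvd_absNorm_of_le (le_sup_left.trans hle)))

/-- the principal character modulo `3` as a ray class character -/
def cpr_chi (F : Type) [Field F] [NumberField F] :
    GQ.RayChar F (Ideal.span {(3 : 𝓞 F)}) where
  toFun J := chi0 (Ideal.absNorm J)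
  map_mul J J' := by rw [map_mul, psi_chi0.mul]
  eq_zero_of_not_coprime J h := by
    have := (cpr_cop J).not.1 h
    simp only [chi0]
    rw [if_pos (not_not.1 this)]
  ne_zero_of_coprime J h := by
    have := (cpr_cop J).1 h
    simp only [chi0]
    rw [if_neg this]
    exact one_ne_zero
  map_span_of_sub_one_mem z _ h := by
    have h1 : Ideal.span {z} ⊔ Ideal.span {(3 : 𝓞 F)} = ⊤ := by
      rw [Ideal.eq_top_iff_one]
      have : (1 : 𝓞 F) = z - (z - 1) := by ring
      rw [this]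
      exact Ideal.sub_mem _ (Ideal.mem_sup_left (Ideal.mem_span_singleton_self _))
        (Ideal.mem_sup_right h)
    have := (cpr_cop _).1 h1
    simp only [chi0]
    rw [if_neg this]

theorem cpr_ext {f g : ℂ → ℂ} (hf : DifferentiableOn ℂ f {s : ℂ | GQ.theta0 < s.re})
    (hg : DifferentiableOn ℂ g {s : ℂ | GQ.theta0 < s.re}) (h : ∀ s : ℂ, 1 < s.re → f s = g s) :
    ∀ s : ℂ, GQ.theta0 < s.re → f s = g s := by
  have ho : IsOpen {s : ℂ | GQ.theta0 < s.re} := isOpen_lt continuous_const Complex.continuous_re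
  have ho' : IsOpen {s : ℂ | 1 < s.re} := isOpen_lt continuous_const Complex.continuous_re
  have hc : IsPreconnected {s : ℂ | GQ.theta0 < s.re} :=
    (convex_halfSpace_re_gt GQ.theta0).isPreconnected
  have h2 : (2 : ℂ) ∈ {s : ℂ | GQ.theta0 < s.re} := by
    simp only [Set.mem_ofPred_eq, GQ.theta0]; norm_num
  have h3 : f =ᶠ[nhds 2] g := by
    filter_upwards [ho'.mem_nhds (show (2 : ℂ) ∈ {s : ℂ | 1 < s.re} by
      simp only [Set.mem_ofPred_eq]; norm_num)] with s hs using h s hs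
  exact fun s hs => (hf.analyticOnNhd ho).eqOn_of_preconnected_of_eventuallyEq
    (hg.analyticOnNhd ho) hc h2 h3 hs

theorem zf_omega (F : Type) [Field F] [NumberField F] {w : F} (hw : IsPrimitiveRoot w 3) :
    ∃ G : ℂ → ℂ, DifferentiableOn ℂ G {s : ℂ | GQ.theta0 < s.re} ∧
      ∀ s : ℂ, 1 < s.re → G s * ZZ F chi0 s = 1 := by
  have hm : Ideal.span {(3 : 𝓞 F)} ≠ ⊥ := by
    rw [Ne, Ideal.span_singleton_eq_bot]; norm_num
  obtain ⟨G, hG, hG'⟩ := GQ.strip F w hw _ hm (cpr_chi F)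
  refine ⟨G, hG, fun s hs => ?_⟩
  rw [hG' s hs]
  exact mu_mul_ZZ psi_chi0 hs


theorem zf (F : Type) [Field F] [NumberField F] [IsTotallyComplex F] : ZF F := by
  by_cases h : ∃ w : F, IsPrimitiveRoot w 3
  · obtain ⟨w, hw⟩ := h
    obtain ⟨G, hG, hG'⟩ := zf_omega F hw
    refine ⟨fun s => (s - 1) * G s, (differentiableOn_id.sub_const 1).mul hG, fun s hs => ?_⟩
    simp only
    rw [mul_assoc, hG' s hs, mul_one]
  · obtain ⟨L, _, _, _, w, h2, hw, hF⟩ := exists_ext F h
    obtain ⟨G, hG, hG'⟩ := zf_omega L hw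
    obtain ⟨C, -, hC⟩ := hecke
    obtain ⟨Φ, hΦ, hΦ1, -, -⟩ := hC F chi3 psi_chi3
    refine ⟨fun s => G s * Φ s, hG.mul hΦ.differentiableOn, fun s hs => ?_⟩
    have h3 := hG' s hs
    rw [ZZ_ext F L h2 hw hF hs] at h3
    simp only
    rw [hΦ1 s hs]
    linear_combination (s - 1) * h3


theorem prime_count : ∃ C : ℝ, 0 < C ∧ ∀ (F : Type) [Field F] [NumberField F] [IsTotallyComplex F]
    (x : ℝ), 0 < x → Summable (fun p : ℕ => bP F p * wG (p / x)) ∧
      |∑' p : ℕ, bP F p * wG (p / x) - cG * x| ≤ C * BF F * x ^ theta1 := by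
  obtain ⟨C1, hC1, H1⟩ := hecke
  obtain ⟨C2, hC2, H2⟩ := logDeriv_ZZ
  obtain ⟨C3, hC3, H3⟩ := pnt_abs
  refine ⟨C3 * (C1 + C2 + 1), by positivity, fun F _ _ _ x hx => ?_⟩
  obtain ⟨Φ, hΦ, hΦ1, hΦ2, hΦ3⟩ := H1 F chi0 psi_chi0
  obtain ⟨E, hE, hE1, hE2⟩ := H2 F
  obtain ⟨H, hH, hH1⟩ := zf F
  have hB : 1 ≤ BF F := one_le_BF
  have hn : (dg F : ℝ) ≤ BF F := by
    have := Real.log_nonneg (one_le_DD (F := F))
    unfold BF; linarith
  have hn0 : (0 : ℝ) ≤ dg F := Nat.cast_nonneg _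
  have ht : (3 / 4 : ℝ) < GQ.theta0 := by unfold GQ.theta0; norm_num
  have hid : ∀ s : ℂ, GQ.theta0 < s.re → Φ s * H s = (s - 1) ^ 2 := by
    refine cpr_ext (f := fun s => Φ s * H s) (g := fun s => (s - 1) ^ 2)
      (hΦ.differentiableOn.mul hH) (by fun_prop) fun s hs => ?_
    have := hH1 s hs
    rw [hΦ1 s hs]
    linear_combination (s - 1) * this
  have hne : ∀ s : ℂ, GQ.theta0 < s.re → Φ s ≠ 0 := by
    intro s hs h0
    have h1 := hid s hs
    rw [h0, zero_mul] at h1
    have h2 : s = 1 := sub_eq_zero.1 (pow_eq_zero_iff (two_ne_zero) |>.1 h1.symm)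
    rw [h2] at h0
    exact hΦ3 rfl h0
  have key := H3 Φ E (bP F) ((C1 + C2 + 1) * BF F) (by nlinarith) hΦ.differentiableOn hne
    (fun s hs hs' => (hΦ2 s (by linarith) hs').trans (Real.exp_le_exp.2 (by
      have : 0 ≤ 1 + |s.im| := by positivity
      gcongr
      linarith)))
    (fun s hs => by
      have hs1 : 1 < s.re := by rw [hs]; norm_num
      rw [hΦ1 s hs1, norm_mul, ZZ_eq_exp psi_chi0 hs1, Complex.norm_exp]
      have h1 : 1 ≤ ‖s - 1‖ := by
        have := Complex.re_le_norm (s - 1)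
        rw [Complex.sub_re, hs, Complex.one_re] at this
        linarith
      have h2 := norm_ell_le (F := F) psi_chi0 hs.ge
      have h3 := Complex.abs_re_le_norm (ell F chi0 s)
      have h4 := neg_abs_le (ell F chi0 s).re
      refine le_trans ?_ (le_mul_of_one_le_left (Real.exp_pos _).le h1)
      refine Real.exp_le_exp.2 ?_
      nlinarith)
    (hE.mono fun s hs => lt_trans ht hs)
    (fun s hs => (hE1 s (lt_trans ht hs)).trans (by nlinarith))
    (by simp [bP]) (summable_bP F)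
    (fun s hs => by
      have hs1 : 1 < s.re := by rw [hs]; norm_num
      have ho' : IsOpen {s : ℂ | 1 < s.re} := isOpen_lt continuous_const Complex.continuous_re
      have h1 : Φ =ᶠ[nhds s] fun s => (s - 1) * ZZ F chi0 s := by
        filter_upwards [ho'.mem_nhds (show s ∈ {s : ℂ | 1 < s.re} from hs1)] with s hs
          using hΦ1 s hs
      have h2 := ((hasDerivAt_id s).sub_const 1).mul (hE2 s hs1)
      have h3 : HasDerivAt Φ _ s := h2.congr_of_eventuallyEq h1
      have h4 : s - 1 ≠ 0 := fun h => by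
        rw [sub_eq_zero.1 h] at hs1; simp at hs1
      have h5 : ZZ F chi0 s ≠ 0 := by
        rw [ZZ_eq_exp psi_chi0 hs1]; exact Complex.exp_ne_zero _
      rw [h3.deriv, hΦ1 s hs1]
      simp only [id]
      field_simp
      ring)
    x hx
  refine ⟨key.1, key.2.trans (le_of_eq (by ring))⟩

end Crest.Agent.GC
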