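import Crest.Agent.GQ.Defs
import Crest.Agent.R017.FE2

/-! # GQ Gam: auxiliary Gamma function facts -/

set_option autoImplicit false

noncomputable section

open Complex MeasureTheory Set Filter Topology

namespace Crest.Agent.GQ

/-- The Gamma integrand in logarithmic coordinates. -/
def gm_A (α : ℂ) (p : ℝ) : ℂ := Complex.exp (α * p - Real.exp p)

theorem gm_A_eq (α : ℂ) (p : ℝ) : gm_A α p =
    |Real.exp p| • ((Real.exp (-Real.exp p) : ℂ) * (Real.exp p : ℂ) ^ (α - 1)) := by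
  rw [abs_of_pos (Real.exp_pos _), Complex.real_smul, gm_A,
    Complex.cpow_def_of_ne_zero (ofReal_ne_zero.2 (Real.exp_pos _).ne'),
    ← Complex.ofReal_log (Real.exp_pos _).le, Real.log_exp, Complex.ofReal_exp (-_)]
  nth_rewrite 2 [Complex.ofReal_exp]
  rw [← Complex.exp_add, ← Complex.exp_add]
  congr 1
  push_cast
  ring

theorem gm_A_int {α : ℂ} (h : 0 < α.re) : Integrable (gm_A α) := by
  have := (integrableOn_image_iff_integrableOn_abs_deriv_smul MeasurableSet.univ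
    (fun x _ => (Real.hasDerivAt_exp x).hasDerivWithinAt) Real.exp_injective.injOn
    (fun x : ℝ => (Real.exp (-x) : ℂ) * (x : ℂ) ^ (α - 1))).1
    (by rw [image_univ, Real.range_exp]; exact Complex.GammaIntegral_convergent h)
  rw [integrableOn_univ] at this
  exact this.congr (Eventually.of_forall fun p => (gm_A_eq α p).symm)

theorem gm_A_integral {α : ℂ} (h : 0 < α.re) : ∫ p, gm_A α p = Gamma α := by
  have := integral_image_eq_integral_abs_deriv_smul MeasurableSet.univ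
    (fun x _ => (Real.hasDerivAt_exp x).hasDerivWithinAt) Real.exp_injective.injOn
    (fun x : ℝ => (Real.exp (-x) : ℂ) * (x : ℂ) ^ (α - 1))
  rw [image_univ, Real.range_exp, Measure.restrict_univ] at this
  rw [Complex.Gamma_eq_integral h, Complex.GammaIntegral, this]
  exact integral_congr_ae (Eventually.of_forall fun p => gm_A_eq α p)

theorem gm_a_int : Integrable fun p : ℝ => Real.exp (p / 3 - Real.exp p) := by
  refine (gm_A_int (α := 1 / 3) (by norm_num)).norm.congr (Eventually.of_forall fun p => ?_)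
  simp only [gm_A, Complex.norm_exp, sub_re, mul_re, ofReal_re, ofReal_im, mul_zero, sub_zero]
  congr 2
  norm_num
  ring

theorem gm_F_le {x : ℝ} (hx : 0 < x) (s : ℝ) :
    Real.exp (s / 3 - 4 * Real.pi * x * Real.cosh s) ≤ x ^ (-(1 / 3) : ℝ) * Real.exp (-x) *
      Real.exp ((s + Real.log x) / 3 - Real.exp (s + Real.log x)) := by
  rw [Real.rpow_def_of_pos hx, ← Real.exp_add, ← Real.exp_add, Real.exp_add s, Real.exp_log hx]
  refine Real.exp_le_exp.2 ?_
  have h1 := Real.one_le_cosh s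
  have h2 : Real.exp s ≤ 2 * Real.cosh s := by
    rw [Real.cosh_eq]
    linarith [Real.exp_pos (-s)]
  have h3 : 1 + Real.exp s ≤ 4 * Real.pi * Real.cosh s := by nlinarith [Real.pi_gt_three]
  nlinarith [mul_le_mul_of_nonneg_left h3 hx.le]

theorem gm_F_int {x : ℝ} (hx : 0 < x) :
    Integrable fun s : ℝ => Real.exp (s / 3 - 4 * Real.pi * x * Real.cosh s) :=
  ((gm_a_int.comp_add_right (Real.log x)).const_mul _).mono' (by fun_prop)
    (Eventually.of_forall fun s => by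
      rw [Real.norm_of_nonneg (Real.exp_pos _).le]
      exact gm_F_le hx s)

theorem gm_F_anti {x y : ℝ} (hxy : x ≤ y) (s : ℝ) :
    Real.exp (s / 3 - 4 * Real.pi * y * Real.cosh s) ≤
      Real.exp (s / 3 - 4 * Real.pi * x * Real.cosh s) := by
  have := Real.cosh_pos s
  have := Real.pi_pos
  gcongr

theorem gm_rpow_exp {a : ℝ} (ha : 0 ≤ a) : ∃ C : ℝ, ∀ x : ℝ, 0 < x → x ^ a * Real.exp (-x) ≤ C := by
  refine ⟨(⌈a⌉₊).factorial * Real.exp 1, fun x hx => ?_⟩
  have h1 : x ^ a ≤ (1 + x) ^ ⌈a⌉₊ := by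
    rw [← Real.rpow_natCast]
    exact (Real.rpow_le_rpow hx.le (by linarith) ha).trans
      (Real.rpow_le_rpow_of_exponent_le (by linarith) (Nat.le_ceil a))
  have h2 := Real.pow_div_factorial_le_exp (1 + x) (by linarith) ⌈a⌉₊
  rw [div_le_iff₀ (by positivity), Real.exp_add] at h2
  rw [Real.exp_neg, ← div_eq_mul_inv, div_le_iff₀ (Real.exp_pos _)]
  linarith

theorem gm_norm_cpow (z : ℂ) : ‖(2 * Real.pi : ℂ) ^ z‖ = (2 * Real.pi) ^ z.re := by
  rw [← Complex.norm_cpow_eq_rpow_re_of_pos Real.two_pi_pos]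
  push_cast
  rfl

theorem gm_two_pi : (2 * Real.pi : ℂ) ≠ 0 := by exact_mod_cast Real.two_pi_pos.ne'

theorem gm_inv (s : ℂ) : (khat s)⁻¹ =
    2 * (2 * Real.pi : ℂ) ^ (s + 2) * (Gamma (7 / 6 + s / 2))⁻¹ * (Gamma (5 / 6 + s / 2))⁻¹ := by
  rw [khat, mul_inv, mul_inv, show -s - 2 = -(s + 2) by ring, Complex.cpow_neg, inv_div,
    div_inv_eq_mul]

theorem gm_ratio {α : ℝ} (hα : 0 < α) (B : ℝ) : ∃ (C : ℝ) (n : ℕ), 0 ≤ C ∧ ∀ z w : ℂ,
    α ≤ z.re → z.re ≤ B → |w.re| ≤ B → w.im = -z.im →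
      ‖Gamma z‖ * ‖(Gamma w)⁻¹‖ ≤ C * (1 + |z.im|) ^ n := by
  obtain ⟨n, hn⟩ := exists_nat_ge (2 * B + 2)
  refine ⟨(|B| + 1 + n) ^ n / α, n, by positivity, fun z w h1 h2 h3 h4 => ?_⟩
  have e1 : ‖Gamma z‖ = ‖Gamma (starRingEnd ℂ z)‖ := by rw [Complex.Gamma_conj, Complex.norm_conj]
  have e2 : w + n = starRingEnd ℂ z + ((w.re + n - z.re : ℝ) : ℂ) := by
    apply Complex.ext <;> simp [h4]
  have h5 := R017.f2_inv_Gamma_le n w
  rw [e2] at h5
  have h6 := R017.f2_ratio_le hα (u := starRingEnd ℂ z) (v := w.re + n - z.re) (by simpa using h1)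
    (by linarith [(abs_le.1 h3).1])
  have h7 : ‖w‖ + n ≤ (|B| + 1 + n) * (1 + |z.im|) := by
    have a1 := Complex.norm_le_abs_re_add_abs_im w
    rw [h4, abs_neg] at a1
    nlinarith [abs_nonneg z.im, le_abs_self B, abs_nonneg B, Nat.cast_nonneg (α := ℝ) n]
  rw [e1]
  refine (mul_le_mul_of_nonneg_left (h5.trans (mul_le_mul_of_nonneg_right
    (pow_le_pow_left₀ (by positivity) h7 n) (norm_nonneg _))) (norm_nonneg _)).trans ?_
  rw [mul_left_comm]
  refine (mul_le_mul_of_nonneg_left h6 (by positivity)).trans_eq ?_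
  rw [mul_pow]
  ring

theorem gm_ratio_khat {σ₀ : ℝ} (h₀ : -(5 / 3) < σ₀) (σ₁ : ℝ) : ∃ (C : ℝ) (n : ℕ), 0 ≤ C ∧
    ∀ σ τ : ℝ, σ₀ ≤ σ → σ ≤ σ₁ →
      ‖khat (σ + τ * I) / khat (-(σ + τ * I))‖ ≤ C * (1 + |τ|) ^ n := by
  obtain ⟨C, n, hC, h⟩ := gm_ratio (α := 5 / 6 + σ₀ / 2) (by linarith) (|σ₁| + 2)
  have hp : 1 ≤ 2 * Real.pi := by linarith [Real.pi_gt_three]
  refine ⟨(2 * Real.pi) ^ (4 : ℝ) * (C * C), n + n, by positivity, fun σ τ h1 h2 => ?_⟩
  have h3 := le_abs_self σ₁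
  have h4 := abs_nonneg σ₁
  have key : ∀ c : ℝ, 5 / 6 ≤ c → c ≤ 7 / 6 → ‖Gamma (c + (σ + τ * I) / 2)‖ *
      ‖(Gamma (c + -(σ + τ * I) / 2))⁻¹‖ ≤ C * (1 + |τ|) ^ n := by
    intro c a1 a2
    refine (h _ _ ?_ ?_ ?_ ?_).trans ?_
    · simp; linarith
    · simp; linarith
    · rw [abs_le]
      constructor <;> simp <;> linarith
    · simp; ring
    · have : |((c : ℂ) + (σ + τ * I) / 2).im| ≤ |τ| := by
        simp [abs_div]
      gcongr
  have k1 := key (7 / 6) (by norm_num) le_rfl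
  have k2 := key (5 / 6) le_rfl (by norm_num)
  push_cast at k1 k2
  have k3 : (2 * Real.pi) ^ (-((σ : ℂ) + τ * I) - 2).re *
      (2 * Real.pi) ^ (-((σ : ℂ) + τ * I) + 2).re ≤ (2 * Real.pi) ^ (4 : ℝ) := by
    rw [← Real.rpow_add Real.two_pi_pos]
    refine Real.rpow_le_rpow_of_exponent_le hp ?_
    simp
    linarith
  rw [div_eq_mul_inv, gm_inv, khat]
  simp only [norm_mul, norm_div, gm_norm_cpow, Complex.norm_ofNat]
  refine le_trans (le_of_eq (by ring))
    ((mul_le_mul k3 (mul_le_mul k1 k2 (by positivity) (by positivity)) (by positivity)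
      (by positivity)).trans_eq (by ring))

theorem gm_upgrade {C y : ℝ} (n : ℕ) (hy : 0 ≤ y) :
    C * (1 + y) ^ n ≤ max C n * (1 + y) ^ max C n := by
  rw [← Real.rpow_natCast]
  exact mul_le_mul (le_max_left _ _)
    (Real.rpow_le_rpow_of_exponent_le (by linarith) (le_max_right _ _)) (by positivity)
    (le_max_of_le_right n.cast_nonneg)

theorem gm_poly_gauss {lam : ℝ} (hlam : 0 < lam) (n : ℕ) (τ ξ : ℝ) :
    (1 + |τ|) ^ n * Real.exp (-(τ - ξ) ^ 2 / (4 * lam)) ≤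
      (1 + |ξ|) ^ n * Real.exp (2 * lam * n ^ 2) * Real.exp (-(1 / (8 * lam)) * (τ - ξ) ^ 2) := by
  have h1 : 1 + |τ| ≤ (1 + |ξ|) * Real.exp |τ - ξ| := by
    have := Real.add_one_le_exp |τ - ξ|
    have h2 := abs_add_le (τ - ξ) ξ
    rw [sub_add_cancel] at h2
    nlinarith [abs_nonneg ξ, abs_nonneg (τ - ξ)]
  refine (mul_le_mul_of_nonneg_right (pow_le_pow_left₀ (by positivity) h1 n)
    (Real.exp_pos _).le).trans ?_
  rw [mul_pow, ← Real.exp_nat_mul, mul_assoc, mul_assoc, ← Real.exp_add, ← Real.exp_add,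
    ← sq_abs (τ - ξ)]
  refine mul_le_mul_of_nonneg_left (Real.exp_le_exp.2 ?_) (by positivity)
  generalize |τ - ξ| = y
  have : 2 * lam * n ^ 2 + -(1 / (8 * lam)) * y ^ 2 - (n * y + -y ^ 2 / (4 * lam)) =
      (y - 4 * lam * n) ^ 2 / (8 * lam) := by
    field_simp
    ring
  have h3 : 0 ≤ (y - 4 * lam * n) ^ 2 / (8 * lam) := by positivity
  linarith

end Crest.Agent.GQ

end
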