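import Crest.Agent.GQ.CLat
import Crest.Agent.GQ.CEuler
import Crest.Agent.GQ.GamAux

/-! # GQ CUnf: partition of unity and unfolding -/

set_option autoImplicit false
set_option linter.unusedSectionVars false

noncomputable section

open NumberField Complex MeasureTheory
open scoped nonZeroDivisors

namespace Crest.Agent.GC

variable {F : Type} [Field F] [NumberField F] [IsTotallyComplex F]

/-- the gamma factor at a real point -/
def gamR (F : Type) [Field F] [NumberField F] (σ : ℝ) : ℝ :=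
  (Real.pi ^ (-σ) * Real.Gamma σ / 2) ^ rc F

omit [IsTotallyComplex F] in
theorem cun_count : Countable F := (Module.finBasis ℚ F).equivFun.injective.countable

omit [NumberField F] [IsTotallyComplex F] in
theorem cun_inj : Function.Injective fun u : (𝓞 F)ˣ => ((u : 𝓞 F) : F) := fun _ _ h =>
  Units.ext (RingOfIntegers.ext h)

omit [IsTotallyComplex F] in
theorem cun_countU : Countable (𝓞 F)ˣ := by
  have := cun_count (F := F)
  exact cun_inj.countable

omit [NumberField F] [IsTotallyComplex F] in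
theorem cun_ne (u : (𝓞 F)ˣ) : ((u : 𝓞 F) : F) ≠ 0 := RingOfIntegers.coe_ne_zero_iff.2 u.ne_zero

omit [NumberField F] [IsTotallyComplex F] in
theorem cun_inv (u : (𝓞 F)ˣ) : lm (((u⁻¹ : (𝓞 F)ˣ) : 𝓞 F) : F) = -lm ((u : 𝓞 F) : F) := by
  have h := lm_mul (cun_ne u⁻¹) (cun_ne u)
  rw [show (((u⁻¹ : (𝓞 F)ˣ) : 𝓞 F) : F) * ((u : 𝓞 F) : F) = 1 by
    rw [RingOfIntegers.coe_eq_algebraMap, RingOfIntegers.coe_eq_algebraMap, ← map_mul,
      Units.inv_mul, map_one]] at h
  rw [eq_neg_iff_add_eq_zero]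
  exact h.symm.trans (funext fun v => by simp [lm, em])

omit [IsTotallyComplex F] in
theorem cun_gG {x : F} (hx : x ≠ 0) (y : InfinitePlace F → ℝ) :
    gG y (em x) = gG (y + lm x) (1 : InfinitePlace F → ℂ) := by rw [← gG_mul hx, mul_one]

omit [NumberField F] [IsTotallyComplex F] in
theorem cun_neg {φ : (InfinitePlace F → ℝ) → ℝ} (h : PU φ) (y : InfinitePlace F → ℝ) :
    HasSum (fun u : (𝓞 F)ˣ => φ (y - lm ((u : 𝓞 F) : F))) 1 := by
  simpa only [Function.comp_def, Equiv.inv_apply, cun_inv, ← sub_eq_add_neg] using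
    (Equiv.inv (𝓞 F)ˣ).hasSum_iff.2 (h.sum y)

theorem exists_PU : ∃ φ : (InfinitePlace F → ℝ) → ℝ, PU φ := by
  have := cun_countU (F := F)
  have hr : (rc F : ℝ) ≠ 0 := Nat.cast_ne_zero.2 rc_pos.ne'
  set G : (InfinitePlace F → ℝ) → ℝ := fun y =>
    gG (fun v => y v - (∑ w, y w) / rc F) (1 : InfinitePlace F → ℂ) with hG
  have h1 : Measurable G := by
    simp only [hG, gG]
    fun_prop
  have h2 : ∀ y, 0 < G y := fun y => Real.exp_pos _
  have h3 : ∀ y, Summable fun u : (𝓞 F)ˣ => G (y + lm ((u : 𝓞 F) : F)) := fun y => by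
    refine ((summable_ideal (F := F) one_ne_zero (fun v => y v - (∑ w, y w) / rc F)
      0).comp_injective cun_inj).congr fun u => ?_
    rw [Function.comp_apply, if_pos (FractionalIdeal.coe_mem_one _ _), add_zero, cun_gG (cun_ne u)]
    simp only [hG, Pi.add_apply, Finset.sum_add_distrib, sum_lm_unit, add_zero]
    congr 1
    funext v
    simp only [Pi.add_apply]
    ring
  have h4 : ∀ y (c : ℝ), G (fun v => y v + c) = G y := fun y c => by
    simp only [hG, Finset.sum_add_distrib, Finset.sum_const, Finset.card_univ, nsmul_eq_mul]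
    congr 1
    funext v
    field_simp
    ring
  refine ⟨fun y => G y / ∑' u : (𝓞 F)ˣ, G (y + lm ((u : 𝓞 F) : F)), h1.div
    (Measurable.tsum fun u => h1.comp (measurable_add_const _)),
    fun y => div_nonneg (h2 y).le (tsum_nonneg fun u => (h2 _).le), fun y c => ?_, fun y => ?_⟩
  · rw [h4]
    congr 2
    funext u
    rw [← h4 (y + _) c]
    congr 1
    funext v
    simp only [Pi.add_apply]
    ring
  · have h5 : ∀ u' : (𝓞 F)ˣ, ∑' u : (𝓞 F)ˣ, G (y + lm ((u' : 𝓞 F) : F) + lm ((u : 𝓞 F) : F)) =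
        ∑' u : (𝓞 F)ˣ, G (y + lm ((u : 𝓞 F) : F)) := fun u' => by
      rw [← (Equiv.mulLeft u').tsum_eq fun u : (𝓞 F)ˣ => G (y + lm ((u : 𝓞 F) : F))]
      refine tsum_congr fun u => ?_
      rw [add_assoc, ← lm_mul (cun_ne u') (cun_ne u)]
      simp
    simp only [h5]
    rw [← div_self ((h3 y).tsum_pos (fun u => (h2 _).le) 1 (h2 _)).ne']
    exact (h3 y).hasSum.div_const _

omit [IsTotallyComplex F] in
theorem PU.reflect {φ : (InfinitePlace F → ℝ) → ℝ} (h : PU φ) (c : ℝ) :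
    PU (fun y : InfinitePlace F → ℝ => φ (fun v => c - y v)) := by
  refine ⟨h.meas.comp (by fun_prop), fun y => h.nonneg _, fun y c' => ?_, fun y => ?_⟩
  · rw [← h.diag (fun v => c - y v) (-c')]
    congr 1
    funext v
    ring
  · convert cun_neg h (fun v => c - y v) using 4 with u v
    simp only [Pi.add_apply, Pi.sub_apply]
    ring

open Classical in
theorem cun_sum {A : FI F} (hA : A ≠ 0) (y : InfinitePlace F → ℝ) :
    Summable fun β : F => if β ∈ A ∧ β ≠ 0 then gG y (em β) else 0 := by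
  refine Summable.of_nonneg_of_le (fun β => ?_) (fun β => ?_) (summable_ideal hA y 0)
  · split_ifs
    exacts [(Real.exp_pos _).le, le_rfl]
  · by_cases h : β ∈ A ∧ β ≠ 0
    · rw [if_pos h, if_pos h.1, add_zero]
    · rw [if_neg h]
      split_ifs
      exacts [(Real.exp_pos _).le, le_rfl]

open Classical in
omit [IsTotallyComplex F] in
theorem cun_le {A : FI F} {g : Ideal (𝓞 F) → ℂ} (hg : ∀ J, ‖g J‖ ≤ 1)
    {y y' : InfinitePlace F → ℝ} (h : y' ≤ y) (β : F) :
    ‖if β ∈ A ∧ β ≠ 0 then g (idl A β) * (gG y (em β) : ℂ) else 0‖ ≤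
      if β ∈ A ∧ β ≠ 0 then gG y' (em β) else 0 := by
  split_ifs
  · rw [norm_mul, Complex.norm_real, gG, Real.norm_of_nonneg (Real.exp_pos _).le]
    refine (mul_le_of_le_one_left (Real.exp_pos _).le (hg _)).trans (Real.exp_le_exp.2 ?_)
    refine mul_le_mul_of_nonpos_left (Finset.sum_le_sum fun v _ => ?_) (neg_nonpos.2 Real.pi_pos.le)
    have := h v
    gcongr
  · simp

omit [IsTotallyComplex F] in
theorem cun_Th1 (A : FI F) (y : InfinitePlace F → ℝ) : (Th1 A y : ℂ) = Th A (fun _ => 1) y := by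
  rw [Th1, Th, ofReal_tsum]
  exact tsum_congr fun β => by split_ifs <;> simp

theorem continuous_Th {A : FI F} (hA : A ≠ 0) {g : Ideal (𝓞 F) → ℂ} (hg : ∀ J, ‖g J‖ ≤ 1) :
    Continuous (Th A g) := by
  refine continuous_iff_continuousAt.2 fun y₀ => (continuousOn_tsum (fun β => ?_)
    (cun_sum hA fun v => y₀ v - 1) fun β y hy => cun_le hg hy β).continuousAt
    (pi_Ici_mem_nhds fun v => sub_one_lt (y₀ v))
  split_ifs
  · unfold gG
    fun_prop
  · exact continuousOn_const

theorem continuous_Th1 {A : FI F} (hA : A ≠ 0) : Continuous (Th1 A) := by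
  simpa only [Function.comp_def, ← cun_Th1, ofReal_re] using
    continuous_re.comp (continuous_Th hA (g := fun _ => 1) fun _ => norm_one.le)

omit [IsTotallyComplex F] in
theorem Th1_nonneg (A : FI F) (y : InfinitePlace F → ℝ) : 0 ≤ Th1 A y := by
  refine tsum_nonneg fun β => ?_
  split_ifs
  exacts [(Real.exp_pos _).le, le_rfl]

theorem norm_Th_le {A : FI F} (hA : A ≠ 0) {g : Ideal (𝓞 F) → ℂ} (hg : ∀ J, ‖g J‖ ≤ 1)
    (y : InfinitePlace F → ℝ) : ‖Th A g y‖ ≤ Th1 A y := by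
  exact tsum_of_norm_bounded (cun_sum hA y).hasSum (cun_le hg le_rfl)

theorem cun_int {ι α : Type} [Countable ι] [MeasurableSpace α] {μ : Measure α} {f : ι → α → ℂ}
    (hf : ∀ i, Integrable (f i) μ) (hs : Summable fun i => ∫ a, ‖f i a‖ ∂μ) :
    Integrable (fun a => ∑' i, f i a) μ := by
  refine ⟨(AEMeasurable.tsum fun i => (hf i).aemeasurable).aestronglyMeasurable,
    (lintegral_mono fun a => enorm_tsum_le_tsum_enorm).trans_lt ?_⟩
  rw [lintegral_tsum fun i => (hf i).1.enorm]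
  simp only [fun i => (ofReal_integral_norm_eq_lintegral_enorm (hf i)).symm]
  exact hs.tsum_ofReal_lt_top

omit [IsTotallyComplex F] in
theorem cun_core {φ : (InfinitePlace F → ℝ) → ℝ} (hφ : PU φ) {E : Type} [NormedAddCommGroup E]
    [NormedSpace ℝ E] {W : (InfinitePlace F → ℝ) → E} (hW : Integrable W) (a : InfinitePlace F → ℝ) :
    (∀ u : (𝓞 F)ˣ, Integrable fun y => φ y • W (y + (lm ((u : 𝓞 F) : F) + a))) ∧
    HasSum (fun u : (𝓞 F)ˣ => ∫ y, φ y • W (y + (lm ((u : 𝓞 F) : F) + a))) (∫ y, W y) := by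
  have := cun_countU (F := F)
  have h1 : ∀ y, φ y ≤ 1 := fun y => by
    simpa [show lm (1 : F) = 0 from funext fun v => by simp [lm, em]] using
      le_hasSum (hφ.sum y) 1 fun u _ => hφ.nonneg _
  refine ⟨fun u => (hW.comp_add_right _).bdd_smul 1 hφ.meas.aestronglyMeasurable
    (.of_forall fun y => (Real.norm_of_nonneg (hφ.nonneg y)).trans_le (h1 y)), ?_⟩
  have h2 : ∀ u : (𝓞 F)ˣ, ∫ y, φ y • W (y + (lm ((u : 𝓞 F) : F) + a)) =
      ∫ y, φ (y - a - lm ((u : 𝓞 F) : F)) • W y := fun u => by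
    rw [← integral_add_right_eq_self (fun y => φ (y - a - lm ((u : 𝓞 F) : F)) • W y)
      (lm ((u : 𝓞 F) : F) + a)]
    simp only [← add_assoc, add_sub_cancel_right]
  simp only [h2]
  refine hasSum_integral_of_dominated_convergence (fun u y => φ (y - a - lm ((u : 𝓞 F) : F)) * ‖W y‖)
    (fun u => (hφ.meas.comp (by fun_prop)).aestronglyMeasurable.smul hW.1)
    (fun u => .of_forall fun y => by rw [norm_smul, Real.norm_of_nonneg (hφ.nonneg _)])
    (.of_forall fun y => (cun_neg hφ _).summable.mul_right _) ?_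
    (.of_forall fun y => by simpa using (cun_neg hφ (y - a)).smul_const (W y))
  simpa only [tsum_mul_right, (cun_neg hφ _).tsum_eq, one_mul] using hW.norm

theorem cun_gam1 {s : ℂ} (hs : 0 < s.re) :
    Integrable (fun t : ℝ => (Real.exp (-Real.pi * Real.exp (2 * t)) : ℂ) * cexp (2 * s * t)) ∧
    ∫ t : ℝ, (Real.exp (-Real.pi * Real.exp (2 * t)) : ℂ) * cexp (2 * s * t) =
      (Real.pi : ℂ) ^ (-s) * Complex.Gamma s / 2 := by
  have e : ∀ t : ℝ, (Real.exp (-Real.pi * Real.exp (2 * t)) : ℂ) * cexp (2 * s * t) =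
      (Real.pi : ℂ) ^ (-s) * GQ.gm_A s (2 * t + Real.log Real.pi) := fun t => by
    rw [GQ.gm_A, Real.exp_add, Real.exp_log Real.pi_pos,
      cpow_def_of_ne_zero (ofReal_ne_zero.2 Real.pi_ne_zero), ← ofReal_log Real.pi_pos.le,
      ofReal_exp, ← Complex.exp_add, ← Complex.exp_add]
    congr 1
    push_cast
    ring
  simp only [e]
  refine ⟨(((GQ.gm_A_int hs).comp_add_right _).comp_mul_left' two_ne_zero).const_mul _, ?_⟩
  rw [integral_const_mul, Measure.integral_comp_mul_left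
    (fun t => GQ.gm_A s (t + Real.log Real.pi)), integral_add_right_eq_self, GQ.gm_A_integral hs,
    abs_of_pos (by norm_num), real_smul]
  push_cast
  ring

theorem cun_main {φ : (InfinitePlace F → ℝ) → ℝ} (hφ : PU φ) {A : FI F} (hA : A ≠ 0)
    {g : Ideal (𝓞 F) → ℂ} (hg : ∀ J, ‖g J‖ ≤ 1) {s : ℂ} (hs : 1 < s.re) :
    Integrable (fun y => (φ y : ℂ) * Th A g y * Complex.exp (2 * s * (∑ v, y v : ℝ))) ∧
    ∫ y, (φ y : ℂ) * Th A g y * Complex.exp (2 * s * (∑ v, y v : ℝ)) =
      gam F s * (NI A : ℂ) ^ (-s) * Zc A g s := by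
  have := cun_count (F := F)
  have := cun_countU (F := F)
  choose sec s1 s2 s3 using fun J : Cl A => (mem_Cl_iff hA).1 J.2
  have : Countable (Cl A) := Function.Injective.countable (f := sec) fun J J' h =>
    Subtype.ext (by rw [← s3, h, s3])
  set i : Cl A × (𝓞 F)ˣ → F := fun p => ((p.2 : 𝓞 F) : F) * sec p.1 with hi
  have i1 : ∀ p, i p ∈ A ∧ i p ≠ 0 := fun p =>
    ⟨(A : Submodule (𝓞 F) F).smul_mem (p.2 : 𝓞 F) (s1 _), mul_ne_zero (cun_ne _) (s2 _)⟩
  have i2 : ∀ p, idl A (i p) = p.1 := fun p =>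
    ((idl_eq_iff hA (s1 _) (i1 p).1).2 ⟨_, rfl⟩).trans (s3 _)
  have i3 : Function.Injective i := fun p p' h => by
    have e : p.1 = p'.1 := Subtype.ext (by rw [← i2, h, i2])
    exact Prod.ext e (cun_inj (mul_right_cancel₀ (s2 p.1) (h.trans (by rw [e]))))
  set W : (InfinitePlace F → ℝ) → ℂ := fun y =>
    ∏ v, ((Real.exp (-Real.pi * Real.exp (2 * y v)) : ℂ) * cexp (2 * s * y v)) with hW
  obtain ⟨w1, w2⟩ := cun_gam1 (one_pos.trans hs)
  have w3 : Integrable W := Integrable.fintype_prod (μ := fun _ => volume) fun _ => w1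
  have w4 : ∫ y, W y = gam F s := by
    rw [gam, ← w2]
    exact integral_fintype_prod_volume_eq_pow fun t : ℝ =>
      (Real.exp (-Real.pi * Real.exp (2 * t)) : ℂ) * cexp (2 * s * t)
  have hN := NI_pos hA
  have n0 : ∀ J : Cl A, (0 : ℝ) < Ideal.absNorm J.1 := fun J => by
    refine (mul_pos_iff_of_pos_right hN).1 ?_
    rw [← s3, absNorm_idl hA (s1 J), ← exp_sum_lm (s2 J)]
    exact Real.exp_pos _
  set c : Cl A → ℂ := fun J => (NI A : ℂ) ^ (-s) * (g J * (Ideal.absNorm J.1 : ℂ) ^ (-s)) with hc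
  have e : ∀ y, (φ y : ℂ) * Th A g y * Complex.exp (2 * s * (∑ v, y v : ℝ)) =
      ∑' p : Cl A × (𝓞 F)ˣ, c p.1 * φ y • W (y + (lm ((p.2 : 𝓞 F) : F) + lm (sec p.1))) := fun y => by
    rw [Th, ← i3.tsum_eq fun β hβ => ?_, ← tsum_mul_left, ← tsum_mul_right]
    · refine tsum_congr fun p => ?_
      have a1 : 2 * ∑ v, lm (sec p.1) v = Real.log (Ideal.absNorm p.1.1) + Real.log (NI A) := by
        rw [← Real.log_mul (n0 _).ne' hN.ne', ← s3, absNorm_idl hA (s1 _), ← exp_sum_lm (s2 _),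
          Real.log_exp]
      have a2 := congrArg (fun t : ℝ => (t : ℂ)) a1
      rw [if_pos (i1 p), i2, cun_gG (i1 p).2, hi, lm_mul (cun_ne _) (s2 _), hc, hW, real_smul]
      dsimp only
      rw [Finset.prod_mul_distrib, ← ofReal_prod, ← Real.exp_sum, ← Complex.exp_sum,
        ← Finset.mul_sum, ← Finset.mul_sum, ← ofReal_sum, ← ofReal_natCast,
        cpow_def_of_ne_zero (ofReal_ne_zero.2 hN.ne'), ← ofReal_log hN.le,
        cpow_def_of_ne_zero (ofReal_ne_zero.2 (n0 _).ne'), ← ofReal_log (n0 _).le]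
      simp only [gG, Pi.one_apply, norm_one, one_pow, mul_one, Pi.add_apply, Finset.sum_add_distrib,
        sum_lm_unit, zero_add, ofReal_add, ofReal_mul, ofReal_ofNat] at a2 ⊢
      rw [show (2 * s * (∑ v, y v : ℝ) : ℂ) = Real.log (NI A) * -s +
        Real.log (Ideal.absNorm p.1.1) * -s + 2 * s * ((∑ v, y v : ℝ) + (∑ v, lm (sec p.1) v : ℝ)) by
          linear_combination (-s) * a2, Complex.exp_add, Complex.exp_add]
      ring
    · have b1 : β ∈ A ∧ β ≠ 0 := by_contra fun h => hβ (if_neg h)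
      obtain ⟨u, hu⟩ := (idl_eq_iff hA (s1 ⟨_, (mem_Cl_iff hA).2 ⟨β, b1.1, b1.2, rfl⟩⟩) b1.1).1
        (by rw [s3])
      exact ⟨(_, u), hu.symm⟩
  have f1 : ∀ p : Cl A × (𝓞 F)ˣ, Integrable fun y =>
      c p.1 * φ y • W (y + (lm ((p.2 : 𝓞 F) : F) + lm (sec p.1))) := fun p =>
    ((cun_core hφ w3 _).1 _).const_mul _
  have f2 : Summable fun p : Cl A × (𝓞 F)ˣ =>
      ∫ y, ‖c p.1 * φ y • W (y + (lm ((p.2 : 𝓞 F) : F) + lm (sec p.1)))‖ := by
    have b1 := fun J => ((cun_core hφ w3.norm (lm (sec J))).2).mul_left ‖c J‖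
    simp only [norm_mul, norm_smul, Real.norm_of_nonneg (hφ.nonneg _), integral_const_mul]
    refine (summable_prod_of_nonneg fun p => mul_nonneg (norm_nonneg _) (integral_nonneg fun y =>
      mul_nonneg (hφ.nonneg _) (norm_nonneg _))).2 ⟨fun J => (b1 J).summable, ?_⟩
    refine Summable.congr (Summable.mul_right (∫ y, ‖W y‖) ?_) fun J => (b1 J).tsum_eq.symm
    refine Summable.of_nonneg_of_le (fun J => norm_nonneg _) (fun J => ?_)
      (((summable_absNorm hs).subtype (Cl A)).mul_left ‖(NI A : ℂ) ^ (-s)‖)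
    rw [hc, norm_mul, norm_mul, ← ofReal_natCast, norm_cpow_eq_rpow_re_of_pos (n0 J), neg_re]
    exact mul_le_mul_of_nonneg_left (mul_le_of_le_one_left (by positivity) (hg _)) (norm_nonneg _)
  simp only [e]
  refine ⟨cun_int f1 f2, ?_⟩
  rw [← ((hasSum_integral_of_summable_integral_norm f1 f2).prod_fiberwise fun J => by
    simpa only [integral_const_mul] using (cun_core hφ w3 (lm (sec J))).2.mul_left (c J)).tsum_eq,
    tsum_mul_right, w4, hc, tsum_mul_left, mul_comm, ← mul_assoc, Zc,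
    tsum_subtype (Cl A) fun J => g J * (Ideal.absNorm J : ℂ) ^ (-s)]
  exact congrArg _ (tsum_congr fun J => by classical exact Set.indicator_apply _ _ _)

theorem unfold_real {φ : (InfinitePlace F → ℝ) → ℝ} (hφ : PU φ) {A : FI F} (hA : A ≠ 0) {σ : ℝ}
    (hσ : 1 < σ) : Integrable (fun y => φ y * Th1 A y * Real.exp (2 * σ * ∑ v, y v)) ∧
    ∫ y, φ y * Th1 A y * Real.exp (2 * σ * ∑ v, y v) = gamR F σ * NI A ^ (-σ) * Zr A σ := by
  obtain ⟨h1, h2⟩ := cun_main hφ hA (g := fun _ => 1) (fun _ => norm_one.le) (s := σ) hσ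
  have e : ∀ y : InfinitePlace F → ℝ, (φ y : ℂ) * Th A (fun _ => 1) y *
      cexp (2 * σ * (∑ v, y v : ℝ)) = (φ y * Th1 A y * Real.exp (2 * σ * ∑ v, y v) : ℝ) := fun y => by
    simp only [← cun_Th1, ofReal_mul, ofReal_exp, ofReal_ofNat]
  simp only [e] at h1 h2
  refine ⟨h1.re, ofReal_injective ?_⟩
  rw [← integral_complex_ofReal, h2, gam, gamR, Zc, Zr, ofReal_mul, ofReal_mul, ofReal_tsum,
    ofReal_cpow (NI_pos hA).le, ofReal_pow, ofReal_div, ofReal_mul, ofReal_cpow Real.pi_pos.le,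
    Gamma_ofReal, ofReal_neg, ofReal_ofNat]
  congr 2
  funext J
  split_ifs
  · rw [one_mul, ofReal_cpow (Nat.cast_nonneg _), ofReal_natCast, ofReal_neg]
  · rfl

theorem unfold {φ : (InfinitePlace F → ℝ) → ℝ} (hφ : PU φ) {A : FI F} (hA : A ≠ 0)
    {g : Ideal (𝓞 F) → ℂ} (hg : ∀ J, ‖g J‖ ≤ 1) {s : ℂ} (hs : 1 < s.re) :
    ∫ y, (φ y : ℂ) * Th A g y * Complex.exp (2 * s * (∑ v, y v : ℝ)) =
      gam F s * (NI A : ℂ) ^ (-s) * Zc A g s := by
  exact (cun_main hφ hA hg hs).2

theorem cun_one {A : FI F} (hA : A ≠ 0) {y : InfinitePlace F → ℝ}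
    (h : ∑ v, y v ≤ -Real.log (2 * (NI A * c0 F)) / 2) : 1 ≤ Th1 A y := by
  have h0 := mul_pos (NI_pos hA) (c0_pos (F := F))
  refine le_trans ?_ (Th1_lower hA y)
  rw [le_sub_iff_add_le, le_div_iff₀ h0, one_add_one_eq_two, ← Real.log_le_iff_le_exp (by positivity)]
  linarith

theorem exists_slab {φ : (InfinitePlace F → ℝ) → ℝ} (hφ : PU φ) : ∃ κ : ℝ, 0 < κ ∧ Slab φ κ := by
  have := cun_countU (F := F)
  have hr : (rc F : ℝ) ≠ 0 := Nat.cast_ne_zero.2 rc_pos.ne'
  have m1 : Measurable fun y : InfinitePlace F → ℝ => ∑ v, y v := by fun_prop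
  have m2 : Measurable fun y => ENNReal.ofReal (φ y) := hφ.meas.ennreal_ofReal
  set μ := (volume.withDensity fun y => ENNReal.ofReal (φ y)).map fun y => ∑ v, y v with hμ
  have h1 : ∀ S, MeasurableSet S → μ S = ∫⁻ y, S.indicator 1 (∑ v, y v) * ENNReal.ofReal (φ y) :=
    fun S hS => by
      rw [hμ, Measure.map_apply m1 hS, withDensity_apply _ (m1 hS), ← lintegral_indicator (m1 hS)]
      exact lintegral_congr fun y => by by_cases h : ∑ v, y v ∈ S <;> simp [Set.indicator, h]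
  have : μ.IsAddLeftInvariant := (forall_measure_preimage_add_iff μ).1 fun c S hS => by
    rw [h1 _ hS, h1 _ (measurable_const_add c hS),
      ← lintegral_add_right_eq_self (fun y => S.indicator 1 (∑ v, y v) * ENNReal.ofReal (φ y))
        fun _ => c / rc F]
    refine lintegral_congr fun y => ?_
    rw [show φ (y + fun _ => c / rc F) = φ y from hφ.diag y _,
      show ∑ v, (y + fun _ : InfinitePlace F => c / rc F) v = c + ∑ v, y v by
        simp [Finset.sum_add_distrib, mul_div_cancel₀ _ hr, add_comm]]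
    rfl
  set T := -Real.log (2 * (NI (1 : FI F) * c0 F)) / 2
  have h2 : μ (Set.Ioo (T - 2) T) < ⊤ := by
    rw [h1 _ measurableSet_Ioo]
    refine lt_of_le_of_lt (lintegral_mono fun y => ?_)
      ((unfold_real hφ one_ne_zero one_lt_two).1.mul_const (Real.exp (-(4 * (T - 2))))).lintegral_lt_top
    by_cases h : ∑ v, y v ∈ Set.Ioo (T - 2) T
    · rw [Set.indicator_of_mem h, Pi.one_apply, one_mul, mul_assoc, ← Real.exp_add, mul_assoc]
      exact ENNReal.ofReal_le_ofReal (le_mul_of_one_le_right (hφ.nonneg y) (one_le_mul_of_one_le_of_one_le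
        (cun_one (A := (1 : FI F)) one_ne_zero h.2.le) (Real.one_le_exp (by linarith [h.1]))))
    · simp [Set.indicator_of_notMem h]
  have : IsLocallyFiniteMeasure μ := ⟨fun x => ⟨(fun t => (T - 1 - x) + t) ⁻¹' Set.Ioo (T - 2) T,
    (isOpen_Ioo.preimage (continuous_const_add _)).mem_nhds ⟨by linarith, by linarith⟩,
    by rwa [measure_preimage_add]⟩⟩
  have h3 := Measure.isAddLeftInvariant_eq_smul μ volume
  generalize Measure.addHaarScalarFactor μ volume = κ at h3
  refine ⟨κ, NNReal.coe_pos.2 (pos_iff_ne_zero.2 ?_), fun h hh => ?_⟩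
  · rintro rfl
    have a1 := h1 _ MeasurableSet.univ
    simp only [h3, zero_smul, Measure.coe_zero, Pi.zero_apply, Set.indicator_univ, Pi.one_apply,
      one_mul] at a1
    obtain ⟨y, hy⟩ := (ae_all_iff.2 fun u : (𝓞 F)ˣ => (measurePreserving_add_right volume
      (lm ((u : 𝓞 F) : F))).quasiMeasurePreserving.ae ((lintegral_eq_zero_iff m2).1 a1.symm)).exists
    exact absurd (hasSum_le (fun u => ENNReal.ofReal_eq_zero.1 (hy u)) (hφ.sum y) hasSum_zero)
      (by norm_num)
  have a1 : Integrable h μ := h3 ▸ hh.smul_measure_nnreal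
  have a2 := (integrable_withDensity_iff_integrable_smul' m2 (by simp)).1
    ((integrable_map_measure a1.1 m1.aemeasurable).1 a1)
  have a3 := integral_map m1.aemeasurable a1.1
  rw [integral_withDensity_eq_integral_toReal_smul m2 (by simp), ← hμ, h3,
    integral_smul_nnreal_measure] at a3
  simp only [ENNReal.toReal_ofReal (hφ.nonneg _), real_smul, Function.comp_apply] at a2 a3
  exact ⟨a2, a3.symm⟩

theorem kappa_le {φ : (InfinitePlace F → ℝ) → ℝ} (hφ : PU φ) {κ : ℝ} (hκ : Slab φ κ) {A : FI F}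
    (hA : A ≠ 0) : κ ≤ 16 * c0 F ^ 2 * gamR F 2 * Zr A 2 := by
  have hN := NI_pos hA
  have hc := c0_pos (F := F)
  set T := -Real.log (2 * (NI A * c0 F)) / 2 with hT
  obtain ⟨h1, h2⟩ := unfold_real hφ hA one_lt_two
  have h3 := (hκ (fun t => ((Set.Iic T).indicator (fun x => Real.exp (4 * x)) t : ℝ))
    ((integrable_indicator_iff measurableSet_Iic).2 (integrableOn_exp_mul_Iic four_pos T)).ofReal).2
  simp only [← ofReal_mul, integral_complex_ofReal, ofReal_inj] at h3
  have h4 : ∫ y, φ y * (Set.Iic T).indicator (fun x => Real.exp (4 * x)) (∑ v, y v) ≤ _ :=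
    integral_mono_of_nonneg (.of_forall fun y => mul_nonneg (hφ.nonneg y)
      (Set.indicator_nonneg (fun _ _ => (Real.exp_pos _).le) _)) h1 (.of_forall fun y => by
      dsimp only
      rw [mul_assoc]
      refine mul_le_mul_of_nonneg_left ?_ (hφ.nonneg y)
      by_cases h : ∑ v, y v ∈ Set.Iic T
      · rw [Set.indicator_of_mem h, show (2 : ℝ) * 2 = 4 by norm_num]
        exact le_mul_of_one_le_left (Real.exp_pos _).le (cun_one hA h)
      · rw [Set.indicator_of_notMem h]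
        exact mul_nonneg (Th1_nonneg A y) (Real.exp_pos _).le)
  rw [h3, h2, integral_indicator measurableSet_Iic, integral_exp_mul_Iic four_pos,
    show 4 * T = -((2 : ℕ) * Real.log (2 * (NI A * c0 F))) by rw [hT]; push_cast; ring, Real.exp_neg,
    Real.exp_nat_mul, Real.exp_log (by positivity), Real.rpow_neg hN.le, Real.rpow_two] at h4
  refine le_of_mul_le_mul_right (h4.trans (le_of_eq ?_)) (by positivity)
  field_simp
  ring


end Crest.Agent.GC
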