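import Crest.Agent.GQ.Iface

/-!
# Project GQ: basic definitions

`K` is a number field with a primitive cube root of unity `w`; `M` is an integer with `6 ∣ M`
such that `R = 𝓞[1/M]` is a PID containing the inverse different.  `T` is the semilocal ring of
elements integral at the primes dividing `M`.
-/

set_option autoImplicit false

noncomputable section

open NumberField Complex
open scoped ComplexConjugate

namespace Crest.Agent.GQ

/-- `ω = (-1 + i√3)/2`. -/
def omC : ℂ := ⟨-1 / 2, Real.sqrt 3 / 2⟩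

section rings
variable (K : Type) [Field K] [NumberField K]

/-- `𝓞[1/M]` as a subring of `K`. -/
def RS (M : ℕ) : Subring K where
  carrier := {x | ∃ k : ℕ, IsIntegral ℤ ((M : K) ^ k * x)}
  one_mem' := ⟨0, by simpa using isIntegral_one⟩
  zero_mem' := ⟨0, by simpa using isIntegral_zero⟩
  mul_mem' := by
    rintro x y ⟨a, ha⟩ ⟨b, hb⟩
    refine ⟨a + b, ?_⟩
    have := ha.mul hb
    rwa [show (M : K) ^ a * x * ((M : K) ^ b * y) = (M : K) ^ (a + b) * (x * y) by ring] at this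
  add_mem' := by
    rintro x y ⟨a, ha⟩ ⟨b, hb⟩
    have hM : IsIntegral ℤ (M : K) := by simpa using isIntegral_algebraMap (R := ℤ) (A := K) (x := (M : ℤ))
    refine ⟨a + b, ?_⟩
    have := ((hM.pow b).mul ha).add ((hM.pow a).mul hb)
    rwa [show (M : K) ^ b * ((M : K) ^ a * x) + (M : K) ^ a * ((M : K) ^ b * y)
      = (M : K) ^ (a + b) * (x + y) by ring] at this
  neg_mem' := by
    rintro x ⟨a, ha⟩
    exact ⟨a, by simpa using ha.neg⟩

/-- Elements of `K` integral at all primes dividing `M`. -/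
def TS (M : ℕ) : Subring K where
  carrier := {x | ∃ b : ℕ, Nat.Coprime b M ∧ IsIntegral ℤ ((b : K) * x)}
  one_mem' := ⟨1, by simp, by simpa using isIntegral_one⟩
  zero_mem' := ⟨1, by simp, by simpa using isIntegral_zero⟩
  mul_mem' := by
    rintro x y ⟨a, ha', ha⟩ ⟨b, hb', hb⟩
    refine ⟨a * b, Nat.Coprime.mul_left ha' hb', ?_⟩
    have := ha.mul hb
    rwa [show (a : K) * x * ((b : K) * y) = ((a * b : ℕ) : K) * (x * y) by push_cast; ring] at this
  add_mem' := by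
    rintro x y ⟨a, ha', ha⟩ ⟨b, hb', hb⟩
    have hn : ∀ n : ℕ, IsIntegral ℤ (n : K) := fun n => by
      simpa using isIntegral_algebraMap (R := ℤ) (A := K) (x := (n : ℤ))
    refine ⟨a * b, Nat.Coprime.mul_left ha' hb', ?_⟩
    have := ((hn b).mul ha).add ((hn a).mul hb)
    rwa [show (b : K) * ((a : K) * x) + (a : K) * ((b : K) * y)
      = ((a * b : ℕ) : K) * (x + y) by push_cast; ring] at this
  neg_mem' := by
    rintro x ⟨a, ha', ha⟩
    exact ⟨a, ha', by simpa using ha.neg⟩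

/-- The basic data. -/
class Pre where
  w : K
  hw : IsPrimitiveRoot w 3
  M : ℕ
  M0 : M ≠ 0
  six : 6 ∣ M
  pid : IsPrincipalIdealRing (RS K M)
  dual : ∀ y : K, (∀ x : K, IsIntegral ℤ x → ∃ n : ℤ, Algebra.trace ℚ K (y * x) = n) → y ∈ RS K M

variable [P : Pre K]

/-- `R = 𝓞[1/M]`. -/
abbrev R : Subring K := RS K P.M
/-- The semilocal ring at the primes dividing `M`. -/
abbrev T : Subring K := TS K P.M
/-- `M` as an element of `K`. -/
abbrev MK : K := (P.M : K)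

instance : IsPrincipalIdealRing (R K) := P.pid

/-- The complex embeddings sending `w` to `ω`: one for each infinite place. -/
def Pl : Type := {φ : K →+* ℂ // φ P.w = omC}

instance : Fintype (Pl K) := by
  classical
  unfold Pl
  infer_instance

instance : DecidableEq (Pl K) := Classical.decEq _

/-- Number of infinite places. -/
abbrev rr : ℕ := Fintype.card (Pl K)

/-- `w` as an element of `R`. -/
def wR : R K := ⟨P.w, 0, by simpa using P.hw.isIntegral (by norm_num)⟩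

variable {K}

/-- Minkowski embedding. -/
def emb (x : K) : Pl K → ℂ := fun v => v.1 x
/-- Archimedean norm `|N_{K/ℚ} x|`. -/
def Nm (x : K) : ℝ := ∏ v : Pl K, ‖emb x v‖ ^ 2
/-- Logarithmic embedding. -/
def lg (x : K) : Pl K → ℝ := fun v => Real.log ‖emb x v‖
/-- Angular character. -/
def ang (x : K) : ℂ := ∏ v : Pl K, emb x v / (‖emb x v‖ : ℂ)

/-- Norm of an ideal of `R` (zero for `⊥`). -/
def nmI (I : Ideal (R K)) : ℕ := Nat.card (R K ⧸ I)
/-- Prime-to-`M` norm of an element of `R`. -/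
def nm (n : R K) : ℕ := nmI (Ideal.span {n})
/-- Real version. -/
def Nr (n : R K) : ℝ := (nm n : ℝ)
/-- Extension of `Nr` to `K`. -/
def NrK (x : K) : ℝ :=
  Nr (Classical.epsilon (fun p : R K × R K => p.2 ≠ 0 ∧ x * p.2 = p.1)).1 /
    Nr (Classical.epsilon (fun p : R K × R K => p.2 ≠ 0 ∧ x * p.2 = p.1)).2
/-- The `M`-part of the norm. -/
def NS (x : K) : ℝ := Nm x / NrK x

/-- `y ∈ x T`. -/
def InT (x y : K) : Prop := ∃ t ∈ T K, y = x * t
/-- `U_j = 1 + M^j T`. -/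
def U (j : ℕ) : Set K := {u | InT (MK K ^ j) (u - 1)}
/-- The class of `c` of level `j`. -/
def cls (j : ℕ) (c : K) : Set (R K) := {n | InT (c * MK K ^ j) ((n : K) - c)}
/-- The lattice `x T ∩ R`. -/
def Lat (x : K) : AddSubgroup (R K) where
  carrier := {n | InT x (n : K)}
  zero_mem' := ⟨0, (T K).zero_mem, by simp⟩
  add_mem' := by
    rintro a b ⟨s, hs, h1⟩ ⟨t, ht, h2⟩
    exact ⟨s + t, (T K).add_mem hs ht, by push_cast; rw [h1, h2]; ring⟩
  neg_mem' := by
    rintro a ⟨s, hs, h1⟩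
    exact ⟨-s, (T K).neg_mem hs, by push_cast; rw [h1]; ring⟩

/-- `exp (2 π i Tr x)`. -/
def eT (x : K) : ℂ := Complex.exp (2 * Real.pi * I * ((Algebra.trace ℚ K x : ℚ) : ℂ))
/-- The prime-to-`M` part of the additive character: `eS (ρ + t) = eT t`. -/
def eS (x : K) : ℂ := eT (Classical.epsilon (fun t : K => t ∈ T K ∧ x - t ∈ R K))
/-- The `M`-part of the additive character. -/
def eM (x : K) : ℂ := eT x * conj (eS x)
/-- A generator of the different at the primes dividing `M`: the dual of `𝓞` is `Lat (dl⁻¹)`. -/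
def dl (K : Type) [Field K] [NumberField K] [Pre K] : K :=
  Classical.epsilon (fun d : K => d ≠ 0 ∧ d ∈ T K ∧ ∀ y : K,
    (∀ x : K, IsIntegral ℤ x → ∃ n : ℤ, Algebra.trace ℚ K (y * x) = n) ↔ (y ∈ R K ∧ InT d⁻¹ y))

/-- `k` is a balanced generator of `I`. -/
def IsBal (C : ℕ) (I : Ideal (R K)) (k : R K) : Prop :=
  Ideal.span {k} = I ∧ (k : K) ∈ T K ∧ InT (k : K) (MK K ^ C) ∧
    ∀ v : Pl K, |lg (k : K) v - Real.log (nmI I) / (2 * rr K)| ≤ C
/-- The balance constant. -/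
def balC (K : Type) [Field K] [NumberField K] [Pre K] : ℕ :=
  Classical.epsilon (fun C : ℕ => ∀ I : Ideal (R K), I ≠ ⊥ → ∃ k, IsBal C I k)
open Classical in
/-- A balanced generator. -/
def gen (I : Ideal (R K)) : R K :=
  if I = ⊥ then 0 else Classical.epsilon (fun k => IsBal (balC K) I k)

/-- Exact quotient in `R`. -/
def rdiv (a b : R K) : R K := Classical.epsilon (fun c => a = b * c)

open Classical in
/-- A complete residue system modulo `n ≠ 0`. -/
def reps (n : R K) : Finset (R K) :=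
  if h : (Set.range (fun x : R K ⧸ Ideal.span {n} => (Quotient.out x : R K))).Finite
  then h.toFinset else ∅

open Classical in
/-- The non-zero ideals of norm at most `H`. -/
def rows (K : Type) [Field K] [NumberField K] [Pre K] (H : ℝ) : Finset (Ideal (R K)) :=
  if h : {I : Ideal (R K) | I ≠ ⊥ ∧ (nmI I : ℝ) ≤ H}.Finite then h.toFinset else ∅

open Classical in
/-- Cubic residue symbol modulo a prime. -/
def kapP (p x : R K) : ℂ :=
  ∑ j ∈ Finset.range 3, if p ∣ x ^ ((nm p - 1) / 3) - wR K ^ j then omC ^ j else 0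

open Classical in
/-- Quadratic residue symbol modulo a prime. -/
def rhoP (p x : R K) : ℂ :=
  if p ∣ x then 0 else if p ∣ x ^ ((nm p - 1) / 2) - 1 then 1 else -1

/-- Cubic residue symbol `(x / n)₃` (denominator first; `kap 0 x = 1`). -/
def kap (n x : R K) : ℂ := ((UniqueFactorizationMonoid.factors n).map (fun p => kapP p x)).prod
/-- Quadratic residue symbol `(x / n)₂`. -/
def rho (n x : R K) : ℂ := ((UniqueFactorizationMonoid.factors n).map (fun p => rhoP p x)).prod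
/-- Sextic residue symbol: `chi ^ 2 = kap`, `chi ^ 3 = rho`. -/
def chi (n x : R K) : ℂ := rho n x * kap n x ^ 2
/-- Sextic symbol with an ideal as denominator. -/
def chiI (I : Ideal (R K)) (x : R K) : ℂ := chi (gen I) x

open Classical in
/-- Möbius function on `R`. -/
def mu (n : R K) : ℂ :=
  if Squarefree n then (-1) ^ (Multiset.card (UniqueFactorizationMonoid.factors n)) else 0

/-- Gauss sum `∑_{x mod n} f(x) eS(h x / n)`. -/
def gs (f : R K → ℂ) (n h : R K) : ℂ := ∑ x ∈ reps n, f x * eS ((h : K) * x / n)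
/-- Normalised Gauss sum of `chi ^ e`. -/
def g6 (e : ℕ) (n : R K) : ℂ := gs (fun x => chi n x ^ e) n 1 / (Real.sqrt (Nr n) : ℂ)
/-- Normalised cubic Gauss sum. -/
def g3 (n : R K) : ℂ := gs (kap n) n 1 / (Real.sqrt (Nr n) : ℂ)
/-- Normalised quadratic Gauss sum `∑ eS(x²/n)`. -/
def gam (n : R K) : ℂ := (∑ x ∈ reps n, eS ((x : K) ^ 2 / n)) / (Real.sqrt (Nr n) : ℂ)

open Classical in
/-- Squarefree part of the theta coefficient. -/
def Gsf (n : R K) : ℂ := if Squarefree n then conj (g3 n) else 0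

open Classical in
/-- The theta coefficient: `Gf (n₀ m³) = √(N m) conj (g3 n₀)` for squarefree `n₀`. -/
def Gf (r : R K) : ℂ :=
  ∑ᶠ I : Ideal (R K),
    if gen I ^ 3 ∣ r then (Real.sqrt (nmI I) : ℂ) * Gsf (rdiv r (gen I ^ 3)) else 0

/-- Log-Gaussian packet. -/
def pk (lam : ℝ) (t ξ : Pl K → ℝ) (x : K) : ℂ :=
  ∏ v : Pl K, Complex.exp (-(lam * (lg x v - t v) ^ 2 : ℝ) + I * (ξ v * lg x v : ℝ))

open Classical in
/-- Smooth sum over a class. -/
def Sm (a : R K → ℂ) (j : ℕ) (c : K) (lam : ℝ) (t ξ : Pl K → ℝ) : ℂ :=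
  ∑' n : R K, if n ∈ cls j c then a n * pk lam t ξ (n : K) else 0

/-- Size of the smooth sum. -/
def sz (c : K) (t : Pl K → ℝ) : ℝ := Real.exp (2 * ∑ v, t v) / NS c

/-- Reciprocity data. -/
class Rec (K : Type) [Field K] [NumberField K] [Pre K] where
  k : ℕ
  hk : 1 ≤ k
  B : K → K → ℂ
  B_mul_left : ∀ x x' y : K, x ≠ 0 → x' ≠ 0 → y ≠ 0 → B (x * x') y = B x y * B x' y
  B_mul_right : ∀ x y y' : K, x ≠ 0 → y ≠ 0 → y' ≠ 0 → B x (y * y') = B x y * B x y'
  B_cube : ∀ x y : K, x ≠ 0 → y ≠ 0 → B x y ^ 3 = 1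
  B_stein : ∀ x : K, x ≠ 0 → x ≠ 1 → B x (1 - x) = 1
  B_coprime : ∀ a b : R K, a ≠ 0 → b ≠ 0 → IsCoprime a b → B a b = kap b a * conj (kap a b)
  B_U : ∀ u y : K, u ∈ U k → y ≠ 0 → B u y = 1
  gam_cls : ∀ s s' : R K, s ≠ 0 → s' ∈ cls k (s : K) → gam s' = gam s

/-- Mellin transform of `x² 𝒦(x)`. -/
def khat (s : ℂ) : ℂ :=
  (2 * Real.pi : ℂ) ^ (-s - 2) / 2 * Gamma (7 / 6 + s / 2) * Gamma (5 / 6 + s / 2)
/-- Mellin transform `∫ P(x) x^w dx/x` of a one-variable packet. -/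
def phat (lam t ξ : ℝ) (w : ℂ) : ℂ :=
  (Real.sqrt (Real.pi / lam) : ℂ) * Complex.exp ((w + I * ξ) * t + (w + I * ξ) ^ 2 / (4 * lam))
/-- The dual weight written on the line `Re s = σ` (independent of `σ > -5/3`). -/
def WdS (σ lam t ξ x : ℝ) : ℂ :=
  (1 / (2 * Real.pi) : ℂ) * ∫ τ : ℝ, khat (σ + τ * I) / khat (-(σ + τ * I)) *
    phat lam t ξ (1 - (σ + τ * I)) * (x : ℂ) ^ (-(σ + τ * I))
/-- The dual weight of the Voronoi formula with denominator `h`. -/
def Wd (lam : ℝ) (t ξ : Pl K → ℝ) (h r : K) : ℂ :=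
  ∏ v : Pl K, ((‖emb r v‖ : ℂ)⁻¹ * WdS 0 lam (t v) (ξ v) (‖emb r v‖ / ‖emb h v‖ ^ 2))

/-- The core Voronoi formula. -/
def CV (K : Type) [Field K] [NumberField K] [Pre K] [Rec K] : Prop :=
  ∀ j : ℕ, Rec.k K ≤ j → ∃ (j' : ℕ) (C : ℝ), j ≤ j' ∧ ∀ (e : ℤ), (e = 1 ∨ e = -1) →
    ∀ (c : K), c ≠ 0 → ∀ h : R K, h ≠ 0 → ∃ κ : R K → ℂ,
      (∀ r r' : R K, r' ∈ cls j' (r : K) → κ r' = κ r) ∧
      (∀ r : R K, κ r ≠ 0 → r ≠ 0 ∧ InT ((h : K) ^ 2 / (c * MK K ^ j')) r) ∧
      (∀ r : R K, ‖κ r‖ ≤ C * (NS (r : K) * NS c / NS (h : K) ^ 2) ^ (1 / 6 : ℝ)) ∧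
      ∀ a b : R K, h ∣ a * b - 1 → ∀ lam : ℝ, 0 < lam → ∀ t ξ : Pl K → ℝ,
        Sm (fun n => Gf n * eS ((n : K) * a / h) * ang (n : K) ^ e) j c lam t ξ =
          kap h a * ((NS (h : K) / NS c : ℝ) : ℂ) *
            ∑' r : R K, κ r * Gf r * eS (-((r : K) * b / h)) * ang (r : K) ^ (-e) *
              Wd lam t ξ (h : K) (r : K)

end rings

end Crest.Agent.GQ
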