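import Crest.Agent.GQ.Base4

/-! # GQ Fd: fundamental domains of the lattices -/

set_option autoImplicit false

noncomputable section

open NumberField Complex
open scoped ComplexConjugate

namespace Crest.Agent.GQ

variable {K : Type} [Field K] [NumberField K] [P : Pre K]

open MeasureTheory

/-- `emb` as an additive homomorphism on `R`. -/
def embR : R K →+ (Pl K → ℂ) where
  toFun n := emb (n : K)
  map_zero' := by ext v; simp [emb]
  map_add' a b := by ext v; simp [emb]

/-- The image of `Lat x` in `K_∞`. -/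
def LatE (x : K) : AddSubgroup (Pl K → ℂ) := (Lat x).map embR

/-- Covolume of `𝓞`. -/
def cov (K : Type) [Field K] [NumberField K] [Pre K] : ℝ :=
  ZLattice.covolume (AddSubgroup.toIntSubmodule (LatE (1 : K)))

/-- A bounded measurable fundamental domain for `Lat x`. -/
def fd (x : K) : Set (Pl K → ℂ) :=
  Classical.epsilon (fun F : Set (Pl K → ℂ) => MeasurableSet F ∧ Bornology.IsBounded F ∧
    IsAddFundamentalDomain (LatE x) F volume ∧ ∀ z, ∃ n ∈ Lat x, z + emb (n : K) ∈ F)

theorem fd_embR_inj : Function.Injective (embR : R K → Pl K → ℂ) := fun _ _ h =>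
  Subtype.ext (emb_injective h)

/-- `Lat x` is identified with its image. -/
def fd_equiv (x : K) : Lat x ≃ LatE x := ((Lat x).equivMapOfInjective embR fd_embR_inj).toEquiv

theorem fd_equiv_coe (x : K) (n : Lat x) : (fd_equiv x n : Pl K → ℂ) = emb ((n : R K) : K) := rfl

instance fd_countable (x : K) : Countable (LatE x) := (fd_equiv x).symm.injective.countable

/-- The lattice as a `ℤ`-submodule. -/
abbrev fd_LatZ (x : K) : Submodule ℤ (Pl K → ℂ) := AddSubgroup.toIntSubmodule (LatE x)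

theorem fd_discrete {x : K} (hx : x ≠ 0) : DiscreteTopology (fd_LatZ x) := by
  obtain ⟨C, -, hC⟩ := box_count (K := K)
  have hf := (hC x hx 0 (fun _ => 1) fun _ => one_pos).1
  have hf' : {g : fd_LatZ x | ‖(g : Pl K → ℂ)‖ < 1}.Finite := by
    refine Set.Finite.of_finite_image (f := fun g : fd_LatZ x => (g : Pl K → ℂ))
      ((hf.image fun n : R K => emb (n : K)).subset ?_) Subtype.val_injective.injOn
    rintro _ ⟨⟨_, n, hn, rfl⟩, hg, rfl⟩
    refine ⟨n, ⟨hn, fun v => ?_⟩, rfl⟩
    simpa using (norm_le_pi_norm (emb (n : K)) v).trans (le_of_lt hg)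
  refine discreteTopology_iff_isOpen_singleton_zero.2 ?_
  have ho : IsOpen {g : fd_LatZ x | ‖(g : Pl K → ℂ)‖ < 1} :=
    isOpen_lt continuous_subtype_val.norm continuous_const
  have := ho.sdiff (hf'.subset (Set.diff_subset (t := {0}))).isClosed
  rwa [Set.diff_diff_cancel_left (by simp)] at this

theorem fd_span {x : K} (hx : x ≠ 0) :
    Submodule.span ℝ (fd_LatZ x : Set (Pl K → ℂ)) = ⊤ := by
  classical
  set b := integralBasis K
  set b' := (Algebra.traceForm ℚ K).dualBasis (traceForm_nondegenerate ℚ K) b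
  have hli : LinearIndependent ℝ fun i => emb (b i) := by
    rw [Fintype.linearIndependent_iff]
    intro c hc j
    have h1 : ∀ i, ∑ v : Pl K, 2 * (emb (b' j) v * emb (b i) v).re = if i = j then 1 else 0 := by
      intro i
      have h2 := trace_eq (b' j * b i)
      rw [emb_mul] at h2
      have h3 : Algebra.trace ℚ K (b' j * b i) = if i = j then 1 else 0 :=
        LinearMap.BilinForm.apply_dualBasis_left (traceForm_nondegenerate ℚ K) b j i
      rw [h3] at h2
      simp only [Pi.mul_apply] at h2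
      rw [← h2]
      split_ifs <;> simp
    have h4 : ∑ v : Pl K, 2 * (emb (b' j) v * (∑ i, c i • emb (b i)) v).re = 0 := by
      rw [hc]; simp
    have h5 : ∑ v : Pl K, 2 * (emb (b' j) v * (∑ i, c i • emb (b i)) v).re =
        ∑ i, c i * ∑ v : Pl K, 2 * (emb (b' j) v * emb (b i) v).re := by
      simp only [Finset.sum_apply, Pi.smul_apply, Finset.mul_sum, Complex.re_sum]
      rw [Finset.sum_comm]
      refine Finset.sum_congr rfl fun i _ => Finset.sum_congr rfl fun v _ => ?_
      rw [mul_smul_comm, Complex.smul_re, smul_eq_mul]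
      ring
    rw [h5] at h4
    simp only [h1] at h4
    simpa using h4
  have hsp := hli.span_eq_top_of_card_eq_finrank' (by
    rw [← Module.finrank_eq_card_basis b, ← two_mul_rr, Module.finrank_pi_fintype]
    simp [mul_comm])
  refine eq_top_iff.2 (hsp ▸ Submodule.span_le.2 ?_)
  rintro _ ⟨i, rfl⟩
  obtain ⟨k, hk⟩ := exists_pow_InT hx
  have hb : IsIntegral ℤ (b i) := by
    rw [integralBasis_apply]
    exact (RingOfIntegers.basis K i).isIntegral_coe
  have hR : MK K ^ k * b i ∈ R K := (R K).mul_mem ((R K).pow_mem MK_mem_R k) (mem_R_of_int hb)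
  have h1 : emb (MK K ^ k * b i) ∈ Submodule.span ℝ (fd_LatZ x : Set (Pl K → ℂ)) :=
    Submodule.subset_span ⟨⟨_, hR⟩, hk.mul_T (mem_T_of_int hb), rfl⟩
  have hM : ((P.M : ℝ) ^ k) ≠ 0 := pow_ne_zero _ (Nat.cast_ne_zero.2 P.M0)
  have h2 : emb (b i) = ((P.M : ℝ) ^ k)⁻¹ • emb (MK K ^ k * b i) := by
    rw [eq_inv_smul_iff₀ hM]
    ext v
    simp [emb]
  change emb (b i) ∈ _
  rw [h2]
  exact Submodule.smul_mem _ _ h1

theorem fd_spec {x : K} (hx : x ≠ 0) : MeasurableSet (fd x) ∧ Bornology.IsBounded (fd x) ∧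
    IsAddFundamentalDomain (LatE x) (fd x) volume ∧ ∀ z, ∃ n ∈ Lat x, z + emb (n : K) ∈ fd x := by
  refine Classical.epsilon_spec (p := fun F : Set (Pl K → ℂ) => MeasurableSet F ∧
    Bornology.IsBounded F ∧ IsAddFundamentalDomain (LatE x) F volume ∧
      ∀ z, ∃ n ∈ Lat x, z + emb (n : K) ∈ F) ?_
  have := fd_discrete hx
  have : IsZLattice ℝ (fd_LatZ x) := ⟨fd_span hx⟩
  set b := Module.Free.chooseBasis ℤ (fd_LatZ x)
  refine ⟨ZSpan.fundamentalDomain (b.ofZLatticeBasis ℝ), ZSpan.fundamentalDomain_measurableSet _,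
    ZSpan.fundamentalDomain_isBounded _, ZLattice.isAddFundamentalDomain b volume, fun z => ?_⟩
  obtain ⟨⟨g, hg⟩, h, -⟩ := ZSpan.exist_unique_vadd_mem_fundamentalDomain (b.ofZLatticeBasis ℝ) z
  have hg' := hg
  rw [b.ofZLatticeBasis_span ℝ] at hg'
  obtain ⟨n, hn, rfl⟩ := hg'
  exact ⟨n, hn, by rw [add_comm]; exact h⟩

theorem cov_pos : 0 < cov K := by
  have := fd_discrete (one_ne_zero (α := K))
  have : IsZLattice ℝ (fd_LatZ (1 : K)) := ⟨fd_span one_ne_zero⟩
  exact ZLattice.covolume_pos (fd_LatZ (1 : K)) volume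
theorem measurableSet_fd {x : K} (hx : x ≠ 0) : MeasurableSet (fd x) := (fd_spec hx).1
theorem isBounded_fd {x : K} (hx : x ≠ 0) : Bornology.IsBounded (fd x) := (fd_spec hx).2.1
theorem isFund_fd {x : K} (hx : x ≠ 0) : IsAddFundamentalDomain (LatE x) (fd x) volume :=
  (fd_spec hx).2.2.1
theorem exists_add_mem_fd {x : K} (hx : x ≠ 0) (z : Pl K → ℂ) :
    ∃ n ∈ Lat x, z + emb (n : K) ∈ fd x := (fd_spec hx).2.2.2 z

open Pointwise in
theorem fd_volume_index {x x' : K} (hx : x ≠ 0) (hx' : x' ≠ 0) (h : InT x x') :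
    volume.real (fd x') = NS x' / NS x * volume.real (fd x) := by
  obtain ⟨F, h1, h2, h3⟩ := lat_reps hx' h
  let e : F × Lat x' → Lat x := fun p =>
    ⟨(p.2 : R K) + p.1, (Lat x).add_mem (h.trans p.2.2) (h1 _ p.1.2)⟩
  have he : Function.Bijective e := by
    constructor
    · rintro ⟨y, m⟩ ⟨y', m'⟩ hh
      have hh' : (m : R K) + y = m' + y' := congrArg Subtype.val hh
      have hy : y = y' := Subtype.ext ((h2 _ (e (y, m)).2).unique
        ⟨y.2, by simp [e]⟩ ⟨y'.2, by simp [e, hh']⟩)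
      subst hy
      exact Prod.ext rfl (Subtype.ext (add_right_cancel hh'))
    · rintro ⟨n, hn⟩
      obtain ⟨y, ⟨hy, hy'⟩, -⟩ := h2 n hn
      exact ⟨(⟨y, hy⟩, ⟨_, hy'⟩), Subtype.ext (sub_add_cancel _ _)⟩
  have key : volume (fd x') = F.card * volume (fd x) := by
    rw [(isFund_fd hx).measure_eq_tsum' (fd x'), ← (fd_equiv x).tsum_eq,
      ← (Equiv.ofBijective e he).tsum_eq, ENNReal.tsum_prod']
    have h4 : ∀ y : F, ∑' m : Lat x', volume (fd x' ∩ (fd_equiv x (Equiv.ofBijective e he (y, m)) +ᵥ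
        fd x)) = volume (fd x) := fun y => by
      rw [← measure_vadd volume (emb ((y : R K) : K)) (fd x),
        (isFund_fd hx').measure_eq_tsum, ← (fd_equiv x').tsum_eq]
      refine tsum_congr fun m => ?_
      rw [Set.inter_comm]
      congr 2
      change (emb (((m : R K) + y : R K) : K)) +ᵥ fd x =
        emb ((m : R K) : K) +ᵥ (emb ((y : R K) : K) +ᵥ fd x)
      rw [vadd_vadd, ← emb_add]
      rfl
    simp only [h4]
    rw [tsum_fintype, Finset.sum_const, Finset.card_univ, Fintype.card_coe, nsmul_eq_mul]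
  rw [← h3, measureReal_def, key, ENNReal.toReal_mul, ENNReal.toReal_natCast, measureReal_def]

theorem fd_volume_real {x : K} (hx : x ≠ 0) : volume.real (fd x) = cov K * NS x := by
  have := fd_discrete (one_ne_zero (α := K))
  have : IsZLattice ℝ (fd_LatZ (1 : K)) := ⟨fd_span one_ne_zero⟩
  have h1 : cov K = volume.real (fd (1 : K)) :=
    ZLattice.covolume_eq_measure_fundamentalDomain (fd_LatZ (1 : K)) volume (isFund_fd one_ne_zero)
  obtain ⟨k, hk⟩ := exists_pow_InT hx
  have hM : MK K ^ k ≠ 0 := pow_ne_zero _ MK_ne_zero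
  have h2 := fd_volume_index hx hM hk
  have h3 := fd_volume_index one_ne_zero hM (InT_one_iff.2 ((T K).pow_mem MK_mem_T k))
  rw [h2, NS_one, ← h1] at h3
  have h4 := NS_pos hx
  have h5 := NS_pos hM
  field_simp at h3
  linarith

theorem volume_fd {x : K} (hx : x ≠ 0) : volume (fd x) = ENNReal.ofReal (cov K * NS x) := by
  rw [← fd_volume_real hx, ofReal_measureReal (isBounded_fd hx).measure_lt_top.ne]
theorem lintegral_eq_tsum_fd {x : K} (hx : x ≠ 0) (f : (Pl K → ℂ) → ENNReal) :
    ∫⁻ z, f z = ∑' n : Lat x, ∫⁻ z in fd x, f (z + emb ((n : R K) : K)) := by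
  rw [(isFund_fd hx).lintegral_eq_tsum'' f, ← (fd_equiv x).tsum_eq]
  refine tsum_congr fun n => lintegral_congr fun z => ?_
  rw [add_comm]
  rfl
theorem integral_eq_tsum_fd {x : K} (hx : x ≠ 0) {f : (Pl K → ℂ) → ℂ} (hf : Integrable f) :
    ∫ z, f z = ∑' n : Lat x, ∫ z in fd x, f (z + emb ((n : R K) : K)) := by
  rw [(isFund_fd hx).integral_eq_tsum'' f hf, ← (fd_equiv x).tsum_eq]
  refine tsum_congr fun n => integral_congr_ae (.of_forall fun z => ?_)
  simp only
  rw [add_comm]
  rfl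
open Classical in
theorem integral_fd_eC {x : K} (hx : x ≠ 0) {y : R K} (hy : y ∈ Lat (x * dl K)⁻¹) :
    ∫ z in fd x, eC (emb (y : K) * z) = if y = 0 then ((cov K * NS x : ℝ) : ℂ) else 0 := by
  split_ifs with h0
  · have e : ∀ z : Pl K → ℂ, eC (emb (y : K) * z) = 1 := fun z => by simp [h0, eC, emb]
    simp only [e]
    rw [integral_const, measureReal_restrict_apply_univ, fd_volume_real hx, Complex.real_smul,
      mul_one]
  · have hy0 : (y : K) ≠ 0 := fun h => h0 (Subtype.ext h)
    obtain ⟨v⟩ : Nonempty (Pl K) := inferInstance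
    set z₀ : Pl K → ℂ := Pi.single v ((1 / 4) / emb (y : K) v) with hz₀
    have h1 : eC (emb (y : K) * z₀) = -1 := by
      have h2 : ∑ w : Pl K, 2 * ((emb (y : K) * z₀) w).re = 1 / 2 := by
        rw [Finset.sum_eq_single v (fun w _ hw => by simp [hz₀, Pi.single_eq_of_ne hw])
          (by simp), Pi.mul_apply, hz₀, Pi.single_eq_same,
          mul_div_cancel₀ _ (emb_ne_zero hy0 v)]
        norm_num
      rw [eC, h2, ← Complex.exp_pi_mul_I]
      congr 1
      push_cast
      ring
    have h3 := (isFund_fd hx).setIntegral_eq ((isFund_fd hx).vadd_of_comm z₀)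
      (f := fun z => eC (emb (y : K) * z)) (by
        rintro ⟨_, n, hn, rfl⟩ z
        change eC (emb (y : K) * (emb (n : K) + z)) = _
        rw [mul_add, eC_add, ← emb_mul, eC_emb, (dual_Lat hx (y : K)).2 ⟨y.2, hy⟩ n hn, one_mul])
    have h4 := (measurePreserving_vadd z₀ (volume : Measure (Pl K → ℂ))).setIntegral_image_emb
      (measurableEmbedding_const_vadd z₀) (fun z => eC (emb (y : K) * z)) (fd x)
    have h5 : ∀ z : Pl K → ℂ, eC (emb (y : K) * (z₀ +ᵥ z)) = -eC (emb (y : K) * z) := fun z => by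
      rw [vadd_eq_add, mul_add, eC_add, h1, neg_one_mul]
    simp only [h5] at h4
    rw [integral_neg] at h4
    have h6 := h3.trans h4
    linear_combination (1 / 2 : ℂ) * h6

theorem fd_emb_sub (x y : K) : emb (x - y) = emb x - emb y := by
  ext v; simp [emb]

theorem fd_finite {x : K} (hx : x ≠ 0) : IsFiniteMeasure (volume.restrict (fd x)) :=
  isFiniteMeasure_restrict.2 (isBounded_fd hx).measure_lt_top.ne

theorem fd_coeff {x : K} (hx : x ≠ 0) {a : R K → ℂ} (h1 : ∀ y, a y ≠ 0 → y ∈ Lat (x * dl K)⁻¹)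
    (h2 : Summable (fun y => ‖a y‖)) {y₀ : R K} (hy₀ : y₀ ∈ Lat (x * dl K)⁻¹) :
    ∫ z in fd x, (∑' y : R K, a y * eC (emb (y : K) * z)) * eC (-(emb (y₀ : K) * z)) =
      ((cov K * NS x : ℝ) : ℂ) * a y₀ := by
  have := fd_finite hx
  have e : ∀ z : Pl K → ℂ, (∑' y : R K, a y * eC (emb (y : K) * z)) * eC (-(emb (y₀ : K) * z)) =
      ∑' y : R K, a y * eC (emb ((y - y₀ : R K) : K) * z) := fun z => by
    rw [← tsum_mul_right]
    refine tsum_congr fun y => ?_
    rw [mul_assoc, ← eC_add, AddSubgroupClass.coe_sub, fd_emb_sub, sub_mul, sub_eq_add_neg]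
  simp only [e]
  rw [← integral_tsum_of_summable_integral_norm, tsum_eq_single y₀]
  · rw [integral_const_mul, integral_fd_eC hx ((Lat _).sub_mem hy₀ hy₀), if_pos (sub_self _),
      mul_comm]
  · intro y hy
    by_cases ha : a y = 0
    · simp [ha]
    · rw [integral_const_mul, integral_fd_eC hx ((Lat _).sub_mem (h1 y ha) hy₀),
        if_neg (sub_ne_zero.2 hy), mul_zero]
  · intro y
    refine Integrable.of_bound (Continuous.aestronglyMeasurable
      (continuous_const.mul (continuous_eC.comp (by fun_prop)))) ‖a y‖ (.of_forall fun z => ?_)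
    rw [norm_mul, norm_eC, mul_one]
  · simp only [norm_mul, norm_eC, mul_one, integral_const, smul_eq_mul]
    exact h2.mul_left _

/-- Parseval for absolutely convergent Fourier series -/
theorem parseval_fd {x : K} (hx : x ≠ 0) {a : R K → ℂ} (h1 : ∀ y, a y ≠ 0 → y ∈ Lat (x * dl K)⁻¹)
    (h2 : Summable (fun y => ‖a y‖)) :
    ∫ z in fd x, ‖∑' y : R K, a y * eC (emb (y : K) * z)‖ ^ 2 = cov K * NS x * ∑' y, ‖a y‖ ^ 2 := by
  have := fd_finite hx
  set S : (Pl K → ℂ) → ℂ := fun z => ∑' y : R K, a y * eC (emb (y : K) * z) with hS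
  have hn : ∀ (y : R K) (z : Pl K → ℂ), ‖a y * eC (emb (y : K) * z)‖ ≤ ‖a y‖ := fun y z => by
    rw [norm_mul, norm_eC, mul_one]
  have hc : Continuous S := continuous_tsum
    (fun y => continuous_const.mul (continuous_eC.comp (by fun_prop))) h2 hn
  have hb : ∀ z, ‖S z‖ ≤ ∑' y, ‖a y‖ := fun z => tsum_of_norm_bounded h2.hasSum fun y => hn y z
  have e : ∀ z, ((‖S z‖ ^ 2 : ℝ) : ℂ) =
      ∑' y : R K, conj (a y) * (S z * eC (-(emb (y : K) * z))) := fun z => by
    have e1 : conj (S z) = ∑' y : R K, conj (a y) * eC (-(emb (y : K) * z)) := by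
      rw [hS]
      simp only [Complex.conj_tsum, map_mul, eC_neg]
    rw [Complex.ofReal_pow, ← Complex.mul_conj', e1, ← tsum_mul_left]
    exact tsum_congr fun y => by ring
  have hI : ∀ y : R K, Integrable (fun z => conj (a y) * (S z * eC (-(emb (y : K) * z))))
      (volume.restrict (fd x)) := fun y =>
    Integrable.of_bound (Continuous.aestronglyMeasurable
      (continuous_const.mul (hc.mul (continuous_eC.comp (by fun_prop)))))
      (‖a y‖ * ∑' y, ‖a y‖) (.of_forall fun z => by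
        rw [norm_mul, norm_mul, norm_eC, mul_one, Complex.norm_conj]
        exact mul_le_mul_of_nonneg_left (hb z) (norm_nonneg _))
  apply Complex.ofReal_injective
  rw [← integral_complex_ofReal]
  change ∫ z in fd x, ((‖S z‖ ^ 2 : ℝ) : ℂ) = _
  simp only [e]
  rw [← integral_tsum_of_summable_integral_norm hI, Complex.ofReal_mul, Complex.ofReal_tsum,
    ← tsum_mul_left]
  · refine tsum_congr fun y => ?_
    by_cases ha : a y = 0
    · simp [ha]
    · rw [integral_const_mul, hS, fd_coeff hx h1 h2 (h1 y ha), Complex.ofReal_pow,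
        ← Complex.conj_mul']
      ring
  · simp only [norm_mul, norm_eC, mul_one, Complex.norm_conj, integral_const_mul]
    exact h2.mul_right _
/-- extraction of a Fourier coefficient -/
theorem coeff_fd {x : K} (hx : x ≠ 0) {a : R K → ℂ} (h1 : ∀ y, a y ≠ 0 → y ∈ Lat (x * dl K)⁻¹)
    (h2 : Summable (fun y => ‖a y‖)) {y₀ : R K} (hy₀ : y₀ ∈ Lat (x * dl K)⁻¹) :
    ∫ z in fd x, (∑' y : R K, a y * eC (emb (y : K) * z)) * eC (-(emb (y₀ : K) * z)) =
      ((cov K * NS x : ℝ) : ℂ) * a y₀ := fd_coeff hx h1 h2 hy₀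

end Crest.Agent.GQ
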