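import Crest.Agent.GQ.Gauss

/-! # GQ Flip: consequences of reciprocity -/

set_option autoImplicit false

noncomputable section

open NumberField Complex
open scoped ComplexConjugate

namespace Crest.Agent.GQ

variable {K : Type} [Field K] [NumberField K] [P : Pre K]

theorem fl_conj_of_mul {z w : ℂ} (hz : ‖z‖ = 1) (h : w * z = 1) : w = conj z := by
  have h0 : z ≠ 0 := fun h0 => by simp [h0] at hz
  refine mul_right_cancel₀ h0 ?_
  rw [h, mul_comm, Complex.mul_conj, Complex.normSq_eq_norm_sq, hz]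
  simp

theorem fl_mul_conj {z : ℂ} (hz : ‖z‖ = 1) : z * conj z = 1 := by
  rw [Complex.mul_conj, Complex.normSq_eq_norm_sq, hz]
  simp

theorem fl_norm_kap {n x : R K} (hn : n ≠ 0) (h : IsCoprime n x) : ‖kap n x‖ = 1 :=
  norm_kap fun h0 => (kap_eq_zero hn).1 h0 h

theorem fl_coe_ne {n : R K} (hn : n ≠ 0) : (n : K) ≠ 0 := fun h => hn (Subtype.ext h)

variable [Q : Rec K]

theorem norm_B {x y : K} (hx : x ≠ 0) (hy : y ≠ 0) : ‖Q.B x y‖ = 1 :=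
  Complex.norm_eq_one_of_pow_eq_one (Q.B_cube x y hx hy) (by norm_num)
theorem B_ne_zero {x y : K} (hx : x ≠ 0) (hy : y ≠ 0) : Q.B x y ≠ 0 := fun h => by
  simpa [h] using norm_B hx hy
theorem conj_B {x y : K} (hx : x ≠ 0) (hy : y ≠ 0) : conj (Q.B x y) = Q.B x y ^ 2 :=
  (fl_conj_of_mul (norm_B hx hy) (by rw [← pow_succ]; exact Q.B_cube x y hx hy)).symm
theorem B_one_left {y : K} (hy : y ≠ 0) : Q.B 1 y = 1 := by
  have h := Q.B_mul_left 1 1 y one_ne_zero one_ne_zero hy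
  rw [mul_one] at h
  exact (mul_eq_left₀ (B_ne_zero one_ne_zero hy)).1 h.symm
theorem B_one_right {x : K} (hx : x ≠ 0) : Q.B x 1 = 1 := by
  have h := Q.B_mul_right x 1 1 hx one_ne_zero one_ne_zero
  rw [mul_one] at h
  exact (mul_eq_left₀ (B_ne_zero hx one_ne_zero)).1 h.symm
theorem B_inv_left {x y : K} (hx : x ≠ 0) (hy : y ≠ 0) : Q.B x⁻¹ y = conj (Q.B x y) :=
  fl_conj_of_mul (norm_B hx hy) (by
    rw [← Q.B_mul_left _ _ _ (inv_ne_zero hx) hx hy, inv_mul_cancel₀ hx, B_one_left hy])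
theorem B_inv_right {x y : K} (hx : x ≠ 0) (hy : y ≠ 0) : Q.B x y⁻¹ = conj (Q.B x y) :=
  fl_conj_of_mul (norm_B hx hy) (by
    rw [← Q.B_mul_right _ _ _ hx (inv_ne_zero hy) hy, inv_mul_cancel₀ hy, B_one_right hx])
theorem B_pow_left {x y : K} (hx : x ≠ 0) (hy : y ≠ 0) (k : ℕ) : Q.B (x ^ k) y = Q.B x y ^ k := by
  induction k with
  | zero => rw [pow_zero, pow_zero, B_one_left hy]
  | succ k ih => rw [pow_succ, pow_succ, Q.B_mul_left _ _ _ (pow_ne_zero _ hx) hx hy, ih]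
theorem B_pow_right {x y : K} (hx : x ≠ 0) (hy : y ≠ 0) (k : ℕ) : Q.B x (y ^ k) = Q.B x y ^ k := by
  induction k with
  | zero => rw [pow_zero, pow_zero, B_one_right hx]
  | succ k ih => rw [pow_succ, pow_succ, Q.B_mul_right _ _ _ hx (pow_ne_zero _ hy) hy, ih]
theorem B_neg_left {x y : K} (hx : x ≠ 0) (hy : y ≠ 0) : Q.B (-x) y = Q.B x y := by
  have h0 : (-1 : K) ≠ 0 := neg_ne_zero.2 one_ne_zero
  have h1 : Q.B (-1) y ^ 2 = 1 := by rw [← B_pow_left h0 hy, neg_one_sq, B_one_left hy]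
  have h2 := Q.B_cube _ y h0 hy
  rw [pow_succ, h1, one_mul] at h2
  rw [← neg_one_mul, Q.B_mul_left _ _ _ h0 hx hy, h2, one_mul]
theorem B_neg_right {x y : K} (hx : x ≠ 0) (hy : y ≠ 0) : Q.B x (-y) = Q.B x y := by
  have h0 : (-1 : K) ≠ 0 := neg_ne_zero.2 one_ne_zero
  have h1 : Q.B x (-1) ^ 2 = 1 := by rw [← B_pow_right hx h0, neg_one_sq, B_one_right hx]
  have h2 := Q.B_cube x _ hx h0
  rw [pow_succ, h1, one_mul] at h2
  rw [← neg_one_mul, Q.B_mul_right _ _ _ hx h0 hy, h2, one_mul]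
theorem B_self {x : K} (hx : x ≠ 0) : Q.B x x = 1 := by
  by_cases h1 : x = 1
  · rw [h1, B_one_left one_ne_zero]
  have h2 : 1 - x ≠ 0 := sub_ne_zero.2 (Ne.symm h1)
  have h3 : x⁻¹ ≠ 1 := fun h => h1 (inv_eq_one.1 h)
  have h4 : 1 - x⁻¹ ≠ 0 := sub_ne_zero.2 (Ne.symm h3)
  have h5 : x - 1 ≠ 0 := sub_ne_zero.2 h1
  have e : -x = (1 - x) * (1 - x⁻¹)⁻¹ := by
    field_simp
    ring
  rw [← B_neg_right hx hx, e, Q.B_mul_right _ _ _ hx h2 (inv_ne_zero h4), Q.B_stein x hx h1,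
    B_inv_right hx h4, ← B_inv_left hx h4, Q.B_stein _ (inv_ne_zero hx) h3, one_mul]
theorem B_symm {x y : K} (hx : x ≠ 0) (hy : y ≠ 0) : Q.B y x = conj (Q.B x y) := by
  refine fl_conj_of_mul (norm_B hx hy) ?_
  have h := B_self (mul_ne_zero hx hy)
  rw [Q.B_mul_left _ _ _ hx hy (mul_ne_zero hx hy), Q.B_mul_right _ _ _ hx hx hy,
    Q.B_mul_right _ _ _ hy hx hy, B_self hx, B_self hy, one_mul, mul_one] at h
  rw [mul_comm, h]
theorem B_U_right {x u : K} (hx : x ≠ 0) (hu : u ∈ U Q.k) : Q.B x u = 1 := by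
  rw [B_symm (U_ne_zero Q.hk hu) hx, Q.B_U u x hu hx, map_one]
theorem B_cls_left {j : ℕ} (hj : Q.k ≤ j) {c y : K} (hc : c ≠ 0) (hy : y ≠ 0) {n : R K}
    (hn : n ∈ cls j c) : Q.B n y = Q.B c y := by
  have hu := U_mono hj ((mem_cls_iff hc).1 hn)
  rw [show (n : K) = c * (n / c) by field_simp, Q.B_mul_left _ _ _ hc (U_ne_zero Q.hk hu) hy,
    Q.B_U _ _ hu hy, mul_one]
theorem B_cls_right {j : ℕ} (hj : Q.k ≤ j) {c x : K} (hc : c ≠ 0) (hx : x ≠ 0) {n : R K}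
    (hn : n ∈ cls j c) : Q.B x n = Q.B x c := by
  have hu := U_mono hj ((mem_cls_iff hc).1 hn)
  rw [show (n : K) = c * (n / c) by field_simp, Q.B_mul_right _ _ _ hx hc (U_ne_zero Q.hk hu),
    B_U_right hx hu, mul_one]
theorem B_unit {u n : R K} (hu : IsUnit u) (hn : n ≠ 0) : kap n u = Q.B u n := by
  rw [Q.B_coprime u n hu.ne_zero hn (by
    obtain ⟨v, rfl⟩ := hu
    exact ⟨(v⁻¹ : (R K)ˣ), 0, by simp⟩), kap_unit_left hu, map_one, mul_one]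
/-- cubic reciprocity (both sides vanish when `a, b` are not coprime) -/
theorem kap_flip {a b : R K} (ha : a ≠ 0) (hb : b ≠ 0) : kap b a = Q.B a b * kap a b := by
  by_cases h : IsCoprime a b
  · rw [Q.B_coprime a b ha hb h, mul_assoc, mul_comm (conj _), fl_mul_conj (fl_norm_kap ha h),
      mul_one]
  · rw [(kap_eq_zero ha).2 h, (kap_eq_zero hb).2 fun h' => h h'.symm, mul_zero]
/-- the cocycle identity for `s(g) = (d / c)` on `SL₂(R)` -/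
theorem kap_cocycle {a₁ b₁ c₁ d₁ a₂ b₂ c₂ d₂ : R K} (h₁ : a₁ * d₁ - b₁ * c₁ = 1)
    (h₂ : a₂ * d₂ - b₂ * c₂ = 1) (hc₁ : c₁ ≠ 0) (hc₂ : c₂ ≠ 0) (hc : c₁ * a₂ + d₁ * c₂ ≠ 0) :
    kap c₁ d₁ * kap c₂ d₂ = kap (c₁ * a₂ + d₁ * c₂) (c₁ * b₂ + d₁ * d₂) *
      Q.B (((c₁ * a₂ + d₁ * c₂ : R K) : K) / c₁) (((c₁ * a₂ + d₁ * c₂ : R K) : K) / c₂) := by
  obtain ⟨e₁, e₂, he₂, hco, he⟩ := exists_frac ((c₁ : K) / c₂)
  have he' : c₁ * e₂ = e₁ * c₂ := by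
    apply Subtype.ext
    push_cast
    rw [← he]
    field_simp [fl_coe_ne hc₂]
  obtain ⟨h, rfl⟩ : e₂ ∣ c₂ := hco.symm.dvd_of_dvd_mul_left ⟨c₁, by rw [← he', mul_comm]⟩
  obtain rfl : c₁ = e₁ * h := mul_right_cancel₀ he₂ (by rw [he']; ring)
  have hh : h ≠ 0 := right_ne_zero_of_mul hc₂
  have he₁ : e₁ ≠ 0 := left_ne_zero_of_mul hc₁
  set e := e₁ * a₂ + d₁ * e₂ with hedef
  have hce : e₁ * h * a₂ + d₁ * (e₂ * h) = e * h := by rw [hedef]; ring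
  rw [hce] at hc ⊢
  have he0 : e ≠ 0 := left_ne_zero_of_mul hc
  have k₁ : IsCoprime e₁ d₁ := ⟨-(b₁ * h), a₁, by rw [← h₁]; ring⟩
  have k₂ : IsCoprime e₂ a₂ := ⟨-(b₂ * h), d₂, by rw [← h₂]; ring⟩
  have k₃ : IsCoprime e₁ e := by
    rw [hedef, add_comm]
    exact (k₁.mul_right hco).add_mul_left_right a₂
  have k₄ : IsCoprime e e₂ := by
    rw [hedef]
    exact (hco.mul_left k₂.symm).add_mul_right_left d₁
  have q₁ := fl_coe_ne he₁
  have q₂ := fl_coe_ne he₂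
  have q₀ := fl_coe_ne he0
  have qh := fl_coe_ne hh
  have hB : Q.B (((e * h : R K) : K) / (e₁ * h : R K)) (((e * h : R K) : K) / (e₂ * h : R K)) =
      conj (Q.B e e₂) * conj (Q.B e₁ e) * Q.B e₁ e₂ := by
    have t₁ : ((e * h : R K) : K) / (e₁ * h : R K) = e * (e₁ : K)⁻¹ := by
      push_cast; field_simp
    have t₂ : ((e * h : R K) : K) / (e₂ * h : R K) = e * (e₂ : K)⁻¹ := by
      push_cast; field_simp
    rw [t₁, t₂, Q.B_mul_left _ _ _ q₀ (inv_ne_zero q₁) (mul_ne_zero q₀ (inv_ne_zero q₂)),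
      Q.B_mul_right _ _ _ q₀ q₀ (inv_ne_zero q₂),
      Q.B_mul_right _ _ _ (inv_ne_zero q₁) q₀ (inv_ne_zero q₂), B_self q₀, B_inv_right q₀ q₂,
      B_inv_left q₁ q₀, B_inv_left q₁ (inv_ne_zero q₂), B_inv_right q₁ q₂, Complex.conj_conj]
    ring
  have r₁ : kap e₂ e = kap e₂ e₁ * kap e₂ a₂ := by
    rw [← kap_mul_right]
    exact kap_congr' ⟨d₁, by rw [hedef]; ring⟩
  have r₂ : kap e₁ e = kap e₁ d₁ * kap e₁ e₂ := by
    rw [← kap_mul_right]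
    exact kap_congr' ⟨a₂, by rw [hedef]; ring⟩
  have r₃ : kap e₂ d₂ = conj (kap e₂ a₂) := by
    refine fl_conj_of_mul (fl_norm_kap he₂ k₂) ?_
    rw [← kap_mul_right, ← kap_one_right e₂]
    exact kap_congr' ⟨b₂ * h, by rw [← h₂]; ring⟩
  have r₄ : kap e e₂ * kap e (e₁ * h * b₂ + d₁ * d₂) = kap e e₁ := by
    rw [← kap_mul_right, ← kap_neg_right e e₁]
    exact kap_congr' ⟨d₂, by rw [hedef]; linear_combination (-e₁) * h₂⟩
  have r₅ : kap h (e₁ * h * b₂ + d₁ * d₂) = kap h d₁ * kap h d₂ := by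
    rw [← kap_mul_right]
    exact kap_congr' ⟨e₁ * b₂, by ring⟩
  have s₁ := fl_mul_conj (fl_norm_kap he₂ hco.symm)
  have s₂ := fl_mul_conj (fl_norm_kap he₁ hco)
  have s₃ := fl_mul_conj (fl_norm_kap he0 k₃.symm)
  rw [hB, Q.B_coprime _ _ he0 he₂ k₄, Q.B_coprime _ _ he₁ he0 k₃, Q.B_coprime _ _ he₁ he₂ hco,
    kap_mul_left he₁ hh, kap_mul_left he₂ hh, kap_mul_left he0 hh, r₁, r₂, r₅]
  simp only [map_mul, Complex.conj_conj]
  rw [← r₃]
  calc _ = kap e₁ d₁ * kap h d₁ * (kap e₂ d₂ * kap h d₂) * (kap e₂ e₁ * conj (kap e₂ e₁)) *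
        (kap e₁ e₂ * conj (kap e₁ e₂)) * (kap e e₁ * conj (kap e e₁)) := by
        rw [s₁, s₂, s₃, mul_one, mul_one, mul_one]
    _ = _ := by
        nth_rewrite 1 [← r₄]
        ring
theorem fl_gam_cls {j : ℕ} (hj : Q.k ≤ j) {c : K} (hc : c ≠ 0) {n n' : R K} (hn : n ∈ cls j c)
    (hn' : n' ∈ cls j c) : gam n' = gam n := by
  refine Q.gam_cls n n' (ne_zero_of_mem_cls (Q.hk.trans hj) hc hn) (cls_mono hj _ ?_)
  rwa [cls_eq_of_mem (Q.hk.trans hj) hc hn]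
/-- quadratic reciprocity -/
theorem rho_flip : ∃ β : K → K → ℂ, (∀ c c', ‖β c c'‖ = 1) ∧ ∀ j : ℕ, Q.k ≤ j → ∀ c c' : K,
    c ≠ 0 → c' ≠ 0 → ∀ n ∈ cls j c, ∀ n' ∈ cls j c', rho n' n = β c c' * rho n n' := by
  classical
  have key : ∀ c c' : K, ∃ β : ℂ, ‖β‖ = 1 ∧ ∀ j : ℕ, Q.k ≤ j → c ≠ 0 → c' ≠ 0 →
      ∀ n ∈ cls j c, ∀ n' ∈ cls j c', rho n' n = β * rho n n' := by
    intro c c'
    by_cases hc : c = 0
    · exact ⟨1, norm_one, fun _ _ h => absurd hc h⟩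
    by_cases hc' : c' = 0
    · exact ⟨1, norm_one, fun _ _ _ h => absurd hc' h⟩
    obtain ⟨m, hm⟩ := cls_nonempty Q.k hc
    obtain ⟨m', hm'⟩ := cls_nonempty Q.k hc'
    have hm0 := ne_zero_of_mem_cls Q.hk hc hm
    have hm0' := ne_zero_of_mem_cls Q.hk hc' hm'
    have g1 := norm_gam hm0
    have g2 := norm_gam hm0'
    refine ⟨gam (m * m') * conj (gam m) * conj (gam m'), ?_, fun j hj _ _ n hn n' hn' => ?_⟩
    · rw [norm_mul, norm_mul, Complex.norm_conj, Complex.norm_conj, g1, g2,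
        norm_gam (mul_ne_zero hm0 hm0'), mul_one, mul_one]
    have hn0 := ne_zero_of_mem_cls (Q.hk.trans hj) hc hn
    have hn0' := ne_zero_of_mem_cls (Q.hk.trans hj) hc' hn'
    by_cases h : IsCoprime n n'
    · have hk := cls_mono hj _ hn
      have hk' := cls_mono hj _ hn'
      have h1 := gam_mul hn0 hn0' h
      rw [fl_gam_cls le_rfl hc hm hk, fl_gam_cls le_rfl hc' hm' hk',
        fl_gam_cls le_rfl (mul_ne_zero hc hc') (mul_mem_cls hm hm') (mul_mem_cls hk hk')] at h1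
      have h2 := rho_sq fun h0 => (rho_eq_zero hn0).1 h0 h
      rw [h1]
      calc _ = rho n' n * rho n n' ^ 2 * (gam m * conj (gam m)) * (gam m' * conj (gam m')) := by
            rw [h2, fl_mul_conj g1, fl_mul_conj g2, mul_one, mul_one, mul_one]
        _ = _ := by ring
    · rw [(rho_eq_zero hn0).2 h, (rho_eq_zero hn0').2 fun h' => h h'.symm, mul_zero]
  choose β h1 h2 using key
  exact ⟨β, h1, fun j hj c c' => h2 c c' j hj⟩
/-- sextic reciprocity -/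
theorem chi_flip : ∃ β : K → K → ℂ, (∀ c c', ‖β c c'‖ = 1) ∧ ∀ j : ℕ, Q.k ≤ j → ∀ c c' : K,
    c ≠ 0 → c' ≠ 0 → ∀ n ∈ cls j c, ∀ n' ∈ cls j c', chi n' n = β c c' * chi n n' := by
  classical
  obtain ⟨β, h1, h2⟩ := rho_flip (K := K)
  refine ⟨fun c c' => β c c' * if c ≠ 0 ∧ c' ≠ 0 then Q.B c c' ^ 2 else 1, fun c c' => ?_,
    fun j hj c c' hc hc' n hn n' hn' => ?_⟩
  · simp only
    split_ifs with h
    · rw [norm_mul, norm_pow, h1, norm_B h.1 h.2, one_pow, mul_one]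
    · rw [mul_one, h1]
  · have hn0 := ne_zero_of_mem_cls (Q.hk.trans hj) hc hn
    have hn0' := ne_zero_of_mem_cls (Q.hk.trans hj) hc' hn'
    simp only
    rw [if_pos ⟨hc, hc'⟩, chi, chi, h2 j hj c c' hc hc' n hn n' hn', kap_flip hn0 hn0',
      B_cls_left hj hc (fl_coe_ne hn0') hn, B_cls_right hj hc' hc hn']
    ring
/-- symbols of units are class functions -/
theorem chi_unit_cls {u : R K} (hu : IsUnit u) {j : ℕ} (hj : Q.k ≤ j) {c : K} (hc : c ≠ 0)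
    {n n' : R K} (hn : n ∈ cls j c) (hn' : n' ∈ cls j c) : chi n u = chi n' u := by
  obtain ⟨β, -, h2⟩ := chi_flip (K := K)
  rw [h2 j hj u c (fl_coe_ne hu.ne_zero) hc u (self_mem_cls j u) n hn,
    h2 j hj u c (fl_coe_ne hu.ne_zero) hc u (self_mem_cls j u) n' hn', chi_unit_left hu,
    chi_unit_left hu]
theorem g6_three_cls {j : ℕ} (hj : Q.k ≤ j) {c : K} (hc : c ≠ 0) : ∃ β : ℂ, ‖β‖ = 1 ∧
    ∀ n ∈ cls j c, Squarefree n → g6 3 n = β := by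
  obtain ⟨m, hm⟩ := cls_nonempty j hc
  exact ⟨gam m, norm_gam (ne_zero_of_mem_cls (Q.hk.trans hj) hc hm), fun n hn hs => by
    rw [← gam_eq_g6 hs, fl_gam_cls hj hc hm hn]⟩
/-- `Gsf (a n)` for `n` in a class -/
theorem Gsf_mul_cls {a : R K} (ha : Squarefree a) {j : ℕ} (hj : Q.k ≤ j) {c : K} (hc : c ≠ 0) :
    ∃ β : ℂ, ‖β‖ = 1 ∧ ∀ n ∈ cls j c, Gsf (a * n) = β * Gsf n * chi a n ^ 2 := by
  have ha0 : a ≠ 0 := ha.ne_zero
  refine ⟨Gsf a * conj (Q.B a c), ?_, fun n hn => ?_⟩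
  · rw [norm_mul, Complex.norm_conj, norm_Gsf ha, norm_B (fl_coe_ne ha0) hc, mul_one]
  have hn0 := ne_zero_of_mem_cls (Q.hk.trans hj) hc hn
  have h4 : kap a n ^ 2 * kap a n ^ 2 = kap a n := by
    by_cases h0 : kap a n = 0
    · simp [h0]
    · linear_combination kap a n * kap_cube h0
  rw [Gsf_mul ha0 hn0, kap_flip ha0 hn0, B_cls_right hj hc (fl_coe_ne ha0) hn, chi_sq, map_mul,
    map_mul, conj_kap]
  linear_combination Gsf a * Gsf n * conj (Q.B a c) * h4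

end Crest.Agent.GQ
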