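import Crest.Agent.GQ.Defs
import Crest.Agent.GQ.GamAux

/-! # GQ Gam: the Bessel kernel, its Mellin transform and the dual weight -/

set_option autoImplicit false

noncomputable section

open NumberField Complex
open scoped ComplexConjugate

namespace Crest.Agent.GQ

variable {K : Type} [Field K] [NumberField K] [P : Pre K]

open MeasureTheory

/-- `2 K_{1/3}(4 π x)` -/
def Kf (x : ℝ) : ℝ := ∫ s : ℝ, Real.exp (s / 3 - 4 * Real.pi * x * Real.cosh s)
/-- `x² Kf x` -/
def kk (x : ℝ) : ℝ := x ^ 2 * Kf x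

theorem Kf_pos {x : ℝ} (hx : 0 < x) : 0 < Kf x := by
  exact integral_exp_pos (gm_F_int hx)
theorem continuousOn_Kf : ContinuousOn Kf (Set.Ioi 0) := by
  intro x hx
  have hx' : (0 : ℝ) < x := hx
  refine (continuousAt_of_dominated (bound := fun s => Real.exp
    (s / 3 - 4 * Real.pi * (x / 2) * Real.cosh s)) (Filter.Eventually.of_forall fun y => by fun_prop)
    ?_ (gm_F_int (half_pos hx')) (Filter.Eventually.of_forall fun s => by
      fun_prop)).continuousWithinAt
  filter_upwards [lt_mem_nhds (half_lt_self hx')] with y hy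
  refine Filter.Eventually.of_forall fun s => ?_
  rw [Real.norm_of_nonneg (Real.exp_pos _).le]
  exact gm_F_anti hy.le s
theorem Kf_anti {x y : ℝ} (hx : 0 < x) (hxy : x ≤ y) : Kf y ≤ Kf x := by
  exact integral_mono (gm_F_int (hx.trans_le hxy)) (gm_F_int hx) (gm_F_anti hxy)
theorem Kf_le : ∃ C : ℝ, ∀ x : ℝ, 0 < x → Kf x ≤ C * x ^ (-(1 / 3) : ℝ) * Real.exp (-x) := by
  refine ⟨∫ p : ℝ, Real.exp (p / 3 - Real.exp p), fun x hx => ?_⟩
  refine (integral_mono (gm_F_int hx) ((gm_a_int.comp_add_right (Real.log x)).const_mul _)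
    (gm_F_le hx)).trans_eq ?_
  rw [integral_const_mul,
    integral_add_right_eq_self (fun p : ℝ => Real.exp (p / 3 - Real.exp p)) (Real.log x)]
  ring
theorem kk_le {σ : ℝ} (hσ : -(5 / 3) ≤ σ) : ∃ C : ℝ, ∀ x : ℝ, 0 < x → kk x ≤ C * x ^ (-σ) := by
  obtain ⟨C, hC⟩ := Kf_le
  obtain ⟨D, hD⟩ := gm_rpow_exp (a := 5 / 3 + σ) (by linarith)
  refine ⟨|C| * D, fun x hx => ?_⟩
  have e : x ^ 2 * x ^ (-(1 / 3) : ℝ) = x ^ (5 / 3 + σ) * x ^ (-σ) := by
    rw [← Real.rpow_two, ← Real.rpow_add hx, ← Real.rpow_add hx]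
    congr 1
    ring
  calc kk x ≤ x ^ 2 * (|C| * x ^ (-(1 / 3) : ℝ) * Real.exp (-x)) := by
        refine mul_le_mul_of_nonneg_left ((hC x hx).trans ?_) (sq_nonneg _)
        gcongr
        exact le_abs_self C
    _ = |C| * (x ^ 2 * x ^ (-(1 / 3) : ℝ) * Real.exp (-x)) := by ring
    _ = |C| * (x ^ (5 / 3 + σ) * Real.exp (-x)) * x ^ (-σ) := by rw [e]; ring
    _ ≤ _ := by
        gcongr
        exact hD x hx
theorem gm_conv (s : ℂ) (u : ℝ) : (kk (Real.exp u) : ℂ) * Complex.exp (s * u) =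
    (2 * Real.pi : ℂ) ^ (-s - 2) * convolution (gm_A (7 / 6 + s / 2)) (gm_A (5 / 6 + s / 2))
      (ContinuousLinearMap.mul ℂ ℂ) volume (2 * (u + Real.log (2 * Real.pi))) := by
  rw [convolution_def, ← integral_add_right_eq_self _ (u + Real.log (2 * Real.pi)), kk, Kf,
    ofReal_mul, ← integral_complex_ofReal, ← integral_const_mul, ← integral_const_mul,
    ← integral_mul_const]
  refine integral_congr_ae (Filter.Eventually.of_forall fun v => ?_)
  have e1 : (2 * Real.pi : ℂ) ^ (-s - 2) =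
      Complex.exp ((Real.log (2 * Real.pi) : ℝ) * (-s - 2)) := by
    rw [cpow_def_of_ne_zero gm_two_pi, ofReal_log Real.two_pi_pos.le]
    push_cast
    rfl
  have e2 : Real.exp (v + (u + Real.log (2 * Real.pi))) +
      Real.exp (2 * (u + Real.log (2 * Real.pi)) - (v + (u + Real.log (2 * Real.pi)))) =
      4 * Real.pi * Real.exp u * Real.cosh v := by
    rw [show 2 * (u + Real.log (2 * Real.pi)) - (v + (u + Real.log (2 * Real.pi))) =
      -v + (u + Real.log (2 * Real.pi)) by ring, Real.cosh_eq]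
    simp only [Real.exp_add, Real.exp_log Real.two_pi_pos]
    ring
  simp only [ContinuousLinearMap.mul_apply', gm_A]
  rw [e1, ← e2, ← Real.exp_nat_mul, ofReal_exp (_ * u), ofReal_exp (_ - _)]
  simp only [← Complex.exp_add]
  congr 1
  generalize Real.log (2 * Real.pi) = c
  generalize Real.exp (v + (u + c)) = a
  generalize Real.exp (2 * (u + c) - (v + (u + c))) = b
  push_cast
  ring

theorem gm_mellin {s : ℂ} (hs : -(5 / 3) < s.re) :
    Integrable (fun u : ℝ => (kk (Real.exp u) : ℂ) * Complex.exp (s * u)) ∧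
      ∫ u : ℝ, (kk (Real.exp u) : ℂ) * Complex.exp (s * u) = khat s := by
  have h1 : 0 < (7 / 6 + s / 2).re := by simp; linarith
  have h2 : 0 < (5 / 6 + s / 2).re := by simp; linarith
  simp only [gm_conv]
  refine ⟨((((gm_A_int h1).integrable_convolution _ (gm_A_int h2)).comp_mul_left'
    two_ne_zero).comp_add_right _).const_mul _, ?_⟩
  rw [integral_const_mul, integral_add_right_eq_self (fun u : ℝ => convolution (gm_A _) (gm_A _)
    (ContinuousLinearMap.mul ℂ ℂ) volume (2 * u)), Measure.integral_comp_mul_left,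
    integral_convolution _ (gm_A_int h1) (gm_A_int h2), gm_A_integral h1, gm_A_integral h2, khat]
  simp only [ContinuousLinearMap.mul_apply', real_smul]
  norm_num
  ring

theorem integrable_kk {σ : ℝ} (hσ : -(5 / 3) < σ) :
    Integrable (fun u : ℝ => kk (Real.exp u) * Real.exp (σ * u)) := by
  refine (gm_mellin (s := σ) (by simpa using hσ)).1.re.congr
    (Filter.Eventually.of_forall fun u => ?_)
  simp only [RCLike.re_to_complex]
  rw [← ofReal_mul, ← ofReal_exp, ← ofReal_mul, ofReal_re]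
theorem mellin_kk {s : ℂ} (hs : -(5 / 3) < s.re) :
    ∫ u : ℝ, (kk (Real.exp u) : ℂ) * Complex.exp (s * u) = khat s := by
  exact (gm_mellin hs).2
theorem differentiable_inv_khat : Differentiable ℂ (fun s => (khat s)⁻¹) := by
  simp only [gm_inv]
  refine (((differentiable_const _).mul (Differentiable.const_cpow (by fun_prop)
    (Or.inl gm_two_pi))).mul ?_).mul ?_
  · exact differentiable_one_div_Gamma.comp (f := fun s : ℂ => 7 / 6 + s / 2) (by fun_prop)
  · exact differentiable_one_div_Gamma.comp (f := fun s : ℂ => 5 / 6 + s / 2) (by fun_prop)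
theorem gm_ne {s : ℂ} (hs : -(5 / 3) < s.re) : khat s ≠ 0 := by
  refine mul_ne_zero (mul_ne_zero (div_ne_zero ?_ two_ne_zero) ?_) ?_
  · exact fun h => gm_two_pi ((cpow_eq_zero_iff _ _).1 h).1
  · exact Gamma_ne_zero_of_re_pos (by simp; linarith)
  · exact Gamma_ne_zero_of_re_pos (by simp; linarith)

theorem differentiableOn_khat : DifferentiableOn ℂ khat {s | -(5 / 3) < s.re} := by
  exact (differentiable_inv_khat.differentiableOn.inv fun s hs =>
    inv_ne_zero (gm_ne hs)).congr fun s _ => (inv_inv _).symm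
theorem khat_ne_zero {s : ℂ} (hs : -(5 / 3) < s.re) : khat s ≠ 0 := by
  exact gm_ne hs
theorem norm_inv_khat_le (σ₁ : ℝ) : ∃ C : ℝ, ∀ σ τ : ℝ, |σ| ≤ σ₁ →
    ‖(khat (σ + τ * I))⁻¹‖ ≤ C * Real.exp (C * |τ|) := by
  obtain ⟨C, hC, h⟩ := R017.f1_inv_Gamma (σ₁ + 2)
  have hp : 1 ≤ 2 * Real.pi := by linarith [Real.pi_gt_three]
  refine ⟨max (2 * (2 * Real.pi) ^ (σ₁ + 2) * (C * C)) Real.pi, fun σ τ hσ => ?_⟩
  have h1 := abs_le.1 hσ
  have key : ∀ c : ℝ, 0 ≤ c → c ≤ 2 →
      ‖(Gamma (c + (σ + τ * I) / 2))⁻¹‖ ≤ C * Real.exp (Real.pi * (|τ| / 2)) := by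
    intro c a1 a2
    refine (h _ ?_).trans_eq ?_
    · rw [abs_le]
      constructor <;> simp <;> linarith
    · simp [abs_div]
  have k1 := key (7 / 6) (by norm_num) (by norm_num)
  have k2 := key (5 / 6) (by norm_num) (by norm_num)
  push_cast at k1 k2
  have k3 : (2 * Real.pi) ^ ((σ : ℂ) + τ * I + 2).re ≤ (2 * Real.pi) ^ (σ₁ + 2) :=
    Real.rpow_le_rpow_of_exponent_le hp (by simp; linarith)
  rw [gm_inv]
  simp only [norm_mul, gm_norm_cpow, Complex.norm_ofNat]
  calc _ ≤ 2 * (2 * Real.pi) ^ (σ₁ + 2) * (C * Real.exp (Real.pi * (|τ| / 2))) *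
        (C * Real.exp (Real.pi * (|τ| / 2))) := by gcongr
    _ = 2 * (2 * Real.pi) ^ (σ₁ + 2) * (C * C) * Real.exp (Real.pi * |τ|) := by
        rw [show Real.pi * |τ| = Real.pi * (|τ| / 2) + Real.pi * (|τ| / 2) by ring, Real.exp_add]
        ring
    _ ≤ _ := by
        gcongr
        · exact le_max_left _ _
        · exact le_max_right _ _
theorem norm_khat_ratio_le {σ₀ : ℝ} (h₀ : -(5 / 3) < σ₀) (σ₁ : ℝ) : ∃ C : ℝ, ∀ σ τ : ℝ,
    σ₀ ≤ σ → σ ≤ σ₁ → ‖khat (σ + τ * I) / khat (-(σ + τ * I))‖ ≤ C * (1 + |τ|) ^ C := by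
  obtain ⟨C, n, -, h⟩ := gm_ratio_khat h₀ σ₁
  exact ⟨max C n, fun σ τ h1 h2 => (h σ τ h1 h2).trans (gm_upgrade n (abs_nonneg _))⟩
theorem differentiable_phat (lam t ξ : ℝ) : Differentiable ℂ (phat lam t ξ) := by
  unfold phat
  fun_prop
theorem norm_phat {lam : ℝ} (hlam : 0 < lam) (t ξ σ τ : ℝ) : ‖phat lam t ξ (σ + τ * I)‖ =
    Real.sqrt (Real.pi / lam) * Real.exp (σ * t + (σ ^ 2 - (τ + ξ) ^ 2) / (4 * lam)) := by
  rw [phat, norm_mul, Complex.norm_real, Real.norm_of_nonneg (Real.sqrt_nonneg _), Complex.norm_exp]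
  congr 2
  rw [show (4 * lam : ℂ) = ((4 * lam : ℝ) : ℂ) by push_cast; rfl, add_re, div_ofReal_re]
  simp [sq]
theorem integral_phat {lam : ℝ} (hlam : 0 < lam) (t ξ : ℝ) (w : ℂ) :
    ∫ u : ℝ, Complex.exp (-(lam * (u - t) ^ 2 : ℝ) + I * (ξ * u : ℝ)) * Complex.exp (w * u) =
      phat lam t ξ w := by
  have h := integral_cexp_quadratic (b := -lam) (by simpa using hlam) (2 * lam * t + (w + I * ξ))
    (-lam * t ^ 2)
  have hl : (lam : ℂ) ≠ 0 := ofReal_ne_zero.2 hlam.ne'
  convert h using 1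
  · refine integral_congr_ae (Filter.Eventually.of_forall fun u => ?_)
    simp only [← Complex.exp_add]
    congr 1
    push_cast
    ring
  · rw [phat, Real.sqrt_eq_rpow, ofReal_cpow (by positivity), neg_neg]
    congr 1
    · push_cast
      rfl
    · congr 1
      field_simp
      ring
/-- shifting a vertical line of integration -/
theorem integral_vertical_shift {f : ℂ → ℂ} {a b : ℝ} (hab : a ≤ b)
    (hf : DifferentiableOn ℂ f {s | a ≤ s.re ∧ s.re ≤ b}) {g : ℝ → ℝ} (hg : Integrable g)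
    (hg0 : Filter.Tendsto g (Filter.cocompact ℝ) (nhds 0))
    (hb : ∀ σ τ : ℝ, a ≤ σ → σ ≤ b → ‖f (σ + τ * I)‖ ≤ g τ) :
    ∫ τ : ℝ, f (a + τ * I) = ∫ τ : ℝ, f (b + τ * I) := by
  have hint : ∀ σ : ℝ, a ≤ σ → σ ≤ b → Integrable fun y : ℝ => f (σ + y * I) := by
    intro σ h1 h2
    refine hg.mono' (Continuous.aestronglyMeasurable ?_)
      (Filter.Eventually.of_forall fun y => hb σ y h1 h2)
    exact hf.continuousOn.comp_continuous (by fun_prop) fun y => by simp [h1, h2]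
  have key : ∀ T : ℝ, (∫ x in a..b, f (x + (-T : ℝ) * I)) - (∫ x in a..b, f (x + T * I)) +
      I • (∫ y in (-T)..T, f (b + y * I)) - I • (∫ y in (-T)..T, f (a + y * I)) = 0 := by
    intro T
    exact integral_boundary_rect_eq_zero_of_differentiableOn f ⟨a, -T⟩ ⟨b, T⟩
      (hf.mono fun z hz => by
        have h := (mem_reProdIm.1 hz).1
        rw [Set.uIcc_of_le hab] at h
        exact h)
  have hor : ∀ e : ℝ → ℝ, Filter.Tendsto e Filter.atTop (Filter.cocompact ℝ) →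
      Filter.Tendsto (fun T : ℝ => ∫ x in a..b, f (x + (e T : ℝ) * I)) Filter.atTop (nhds 0) := by
    intro e he
    have h0 : Filter.Tendsto (fun T => g (e T) * |b - a|) Filter.atTop (nhds 0) := by
      simpa using (hg0.comp he).mul_const |b - a|
    refine squeeze_zero_norm (fun T => ?_) h0
    refine intervalIntegral.norm_integral_le_of_norm_le_const fun x hx => ?_
    rw [Set.uIoc_of_le hab] at hx
    exact hb _ _ hx.1.le hx.2
  have t1 := intervalIntegral_tendsto_integral (hint a le_rfl hab)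
    Filter.tendsto_neg_atTop_atBot Filter.tendsto_id
  have t2 := intervalIntegral_tendsto_integral (hint b hab le_rfl)
    Filter.tendsto_neg_atTop_atBot Filter.tendsto_id
  have lim := (((hor (fun T => -T) (Filter.tendsto_neg_atTop_atBot.mono_right
    atBot_le_cocompact)).sub (hor id atTop_le_cocompact)).add (t2.const_smul I)).sub
    (t1.const_smul I)
  have h0 := tendsto_nhds_unique lim (tendsto_const_nhds.congr fun T => (key T).symm)
  rw [sub_zero, zero_add, ← smul_sub, smul_eq_mul, mul_eq_zero] at h0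
  exact (sub_eq_zero.1 (h0.resolve_left I_ne_zero)).symm
theorem gm_bound {σ₀ : ℝ} (h₀ : -(5 / 3) < σ₀) (σ₁ : ℝ) {lam : ℝ} (hlam : 0 < lam) :
    ∃ (C : ℝ) (n : ℕ), 0 ≤ C ∧ ∀ σ t ξ x τ : ℝ, σ₀ ≤ σ → σ ≤ σ₁ → 0 < x →
      ‖khat (σ + τ * I) / khat (-(σ + τ * I)) * phat lam t ξ (1 - (σ + τ * I)) *
        (x : ℂ) ^ (-(σ + τ * I))‖ ≤ C * (1 + |ξ|) ^ n * Real.exp ((1 - σ) * t) * x ^ (-σ) *
          Real.exp (-(1 / (8 * lam)) * (τ - ξ) ^ 2) := by
  obtain ⟨C, n, hC, h⟩ := gm_ratio_khat h₀ σ₁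
  refine ⟨C * Real.sqrt (Real.pi / lam) * Real.exp ((3 + |σ₁|) ^ 2 / (4 * lam)) *
    Real.exp (2 * lam * n ^ 2), n, by positivity, fun σ t ξ x τ h1 h2 hx => ?_⟩
  have e1 : 1 - ((σ : ℂ) + τ * I) = ((1 - σ : ℝ) : ℂ) + ((-τ : ℝ) : ℂ) * I := by
    push_cast
    ring
  have e2 : (1 - σ) * t + ((1 - σ) ^ 2 - (-τ + ξ) ^ 2) / (4 * lam) =
      (1 - σ) * t + (1 - σ) ^ 2 / (4 * lam) + -(τ - ξ) ^ 2 / (4 * lam) := by ring
  have h3 : (1 - σ) ^ 2 ≤ (3 + |σ₁|) ^ 2 :=
    sq_le_sq' (by linarith [le_abs_self σ₁]) (by linarith [abs_nonneg σ₁])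
  rw [norm_mul, norm_mul, e1, norm_phat hlam, norm_cpow_eq_rpow_re_of_pos hx, e2, Real.exp_add,
    Real.exp_add, show (-((σ : ℂ) + τ * I)).re = -σ by simp]
  calc _ ≤ C * (1 + |τ|) ^ n * (Real.sqrt (Real.pi / lam) * (Real.exp ((1 - σ) * t) *
        Real.exp ((3 + |σ₁|) ^ 2 / (4 * lam)) * Real.exp (-(τ - ξ) ^ 2 / (4 * lam)))) *
        x ^ (-σ) := by
        gcongr
        exact h σ τ h1 h2
    _ = C * Real.sqrt (Real.pi / lam) * Real.exp ((3 + |σ₁|) ^ 2 / (4 * lam)) *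
        Real.exp ((1 - σ) * t) * x ^ (-σ) *
        ((1 + |τ|) ^ n * Real.exp (-(τ - ξ) ^ 2 / (4 * lam))) := by ring
    _ ≤ _ := (mul_le_mul_of_nonneg_left (gm_poly_gauss hlam n τ ξ) (by positivity)).trans_eq
        (by ring)

theorem WdS_shift {σ lam x : ℝ} (hσ : -(5 / 3) < σ) (hlam : 0 < lam) (hx : 0 < x) (t ξ : ℝ) :
    WdS σ lam t ξ x = WdS 0 lam t ξ x := by
  have key : ∀ a b : ℝ, -(5 / 3) < a → a ≤ b → WdS a lam t ξ x = WdS b lam t ξ x := by
    intro a b ha hab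
    obtain ⟨C, n, hC, h⟩ := gm_bound ha b hlam
    unfold WdS
    congr 1
    refine integral_vertical_shift (f := fun s => khat s / khat (-s) * phat lam t ξ (1 - s) *
      (x : ℂ) ^ (-s)) hab ?_ (g := fun τ => C * (1 + |ξ|) ^ n *
        Real.exp ((1 + (|a| + |b|)) * |t| + (|a| + |b|) * |Real.log x|) *
        Real.exp (-(1 / (8 * lam)) * (τ - ξ) ^ 2)) ?_ ?_ fun σ τ h1 h2 => ?_
    · simp only [div_eq_mul_inv]
      refine (((differentiableOn_khat.mono fun s hs => ha.trans_le hs.1).mul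
        (differentiable_inv_khat.comp differentiable_neg).differentiableOn).mul
        ((differentiable_phat lam t ξ).comp (by fun_prop)).differentiableOn).mul ?_
      exact (differentiable_neg.const_cpow (Or.inl (ofReal_ne_zero.2 hx.ne'))).differentiableOn
    · exact ((integrable_exp_neg_mul_sq (by positivity)).comp_sub_right ξ).const_mul _
    · have := (tendsto_rpow_abs_mul_exp_neg_mul_sq_cocompact (a := 1 / (8 * lam)) (by positivity)
        0).comp (Homeomorph.subRight ξ).isClosedEmbedding.tendsto_cocompact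
      simpa [Function.comp_def] using this.const_mul (C * (1 + |ξ|) ^ n *
        Real.exp ((1 + (|a| + |b|)) * |t| + (|a| + |b|) * |Real.log x|))
    · refine (h σ t ξ x τ h1 h2 hx).trans ?_
      rw [Real.rpow_def_of_pos hx, mul_assoc (C * _), ← Real.exp_add]
      have h3 : |σ| ≤ |a| + |b| := abs_le.2
        ⟨by linarith [neg_abs_le a, abs_nonneg b], by linarith [le_abs_self b, abs_nonneg a]⟩
      have h4 : (1 - σ) * t ≤ (1 + (|a| + |b|)) * |t| := by
        refine (le_abs_self _).trans ?_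
        rw [abs_mul]
        gcongr
        exact (abs_sub _ _).trans (by simpa using h3)
      have h5 : Real.log x * -σ ≤ (|a| + |b|) * |Real.log x| := by
        refine (le_abs_self _).trans ?_
        rw [abs_mul, abs_neg, mul_comm]
        gcongr
      gcongr
  rcases le_total σ 0 with h | h
  · exact key σ 0 hσ h
  · exact (key 0 σ (by norm_num) h).symm
theorem norm_WdS_le {σ lam : ℝ} (hσ : -(5 / 3) < σ) (hlam : 0 < lam) : ∃ C : ℝ, ∀ t ξ x : ℝ,
    0 < x → ‖WdS 0 lam t ξ x‖ ≤ C * (1 + |ξ|) ^ C * Real.exp ((1 - σ) * t) * x ^ (-σ) := by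
  obtain ⟨C, n, hC, h⟩ := gm_bound hσ σ hlam
  refine ⟨max (C * ∫ τ : ℝ, Real.exp (-(1 / (8 * lam)) * τ ^ 2)) n, fun t ξ x hx => ?_⟩
  have h1 : ‖(1 / (2 * Real.pi) : ℂ)‖ ≤ 1 := by
    rw [norm_div, norm_one, norm_mul, Complex.norm_ofNat, Complex.norm_real,
      Real.norm_of_nonneg Real.pi_pos.le, div_le_one Real.two_pi_pos]
    linarith [Real.pi_gt_three]
  rw [← WdS_shift hσ hlam hx, WdS, norm_mul]
  refine (mul_le_of_le_one_left (norm_nonneg _) h1).trans ?_
  refine (norm_integral_le_of_norm_le (((integrable_exp_neg_mul_sq (b := 1 / (8 * lam))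
    (by positivity)).comp_sub_right ξ).const_mul _)
    (Filter.Eventually.of_forall fun τ => h σ t ξ x τ le_rfl le_rfl hx)).trans ?_
  rw [integral_const_mul,
    integral_sub_right_eq_self (fun τ : ℝ => Real.exp (-(1 / (8 * lam)) * τ ^ 2)) ξ]
  refine le_trans (le_of_eq (by ring)) (mul_le_mul_of_nonneg_right (mul_le_mul_of_nonneg_right
    (gm_upgrade n (abs_nonneg ξ)) (Real.exp_pos _).le) (Real.rpow_nonneg hx.le _))

end Crest.Agent.GQ
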