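import Crest.Agent.GQ.Sym

/-! # GQ Gauss: Gauss sums on R -/

set_option autoImplicit false

noncomputable section

open NumberField Complex
open scoped ComplexConjugate

namespace Crest.Agent.GQ

variable {K : Type} [Field K] [NumberField K] [P : Pre K]

/-- `f` is periodic modulo `n` and homogeneous under units modulo `n` with character `ξ`. -/
structure Homog (n : R K) (ξ f : R K → ℂ) : Prop where
  per : ∀ x y, n ∣ x - y → f x = f y
  hom : ∀ u x, IsCoprime u n → f (u * x) = ξ u * f x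
  abs : ∀ u, IsCoprime u n → ‖ξ u‖ = 1

/-! ### the additive character `x ↦ eS (x / n)` on `R` -/

/-- `eS (x / n)` -/
def ga_e (x n : R K) : ℂ := eS ((x : K) / n)

theorem ga_e_congr {n x y : R K} (h : n ∣ x - y) : ga_e x n = ga_e y n := eS_div_congr h

theorem ga_e_add (x y n : R K) : ga_e (x + y) n = ga_e x n * ga_e y n := by
  unfold ga_e
  rw [← eS_add]
  congr 1
  push_cast
  ring

theorem ga_e_neg (x n : R K) : ga_e (-x) n = conj (ga_e x n) := by
  unfold ga_e
  rw [← eS_neg]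
  congr 1
  push_cast
  ring

theorem ga_e_norm (x n : R K) : ‖ga_e x n‖ = 1 := norm_eS _

theorem ga_e_zero (n : R K) : ga_e 0 n = 1 := by
  unfold ga_e
  refine eS_R ?_
  simp

theorem ga_e_of_dvd {x n : R K} (h : n ∣ x) : ga_e x n = 1 := by
  rw [ga_e_congr (y := 0) (by simpa using h), ga_e_zero]

theorem ga_e_mul_cancel {k : R K} (hk : k ≠ 0) (x n : R K) : ga_e (k * x) (k * n) = ga_e x n := by
  unfold ga_e
  congr 1
  have hk' : (k : K) ≠ 0 := fun h => hk (Subtype.ext h)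
  push_cast
  rw [mul_div_mul_left _ _ hk']

theorem ga_e_eq (h x n : R K) : eS ((h : K) * x / n) = ga_e (h * x) n := by
  unfold ga_e
  push_cast
  rfl

theorem ga_gs (f : R K → ℂ) (n h : R K) : gs f n h = ∑ x ∈ reps n, f x * ga_e (h * x) n := by
  unfold gs
  simp only [ga_e_eq]

open Classical in
theorem ga_sum_e {n : R K} (hn : n ≠ 0) (h : R K) :
    ∑ x ∈ reps n, ga_e (h * x) n = if n ∣ h then (Nr n : ℂ) else 0 := by
  rw [← sum_reps_eS hn h]
  simp only [ga_e_eq]

theorem ga_per {n m : R K} {f : R K → ℂ} (hf : ∀ x y, n ∣ x - y → f x = f y) (hnm : n ∣ m)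
    (h : R K) : ∀ x y, m ∣ x - y → f x * ga_e (h * x) m = f y * ga_e (h * y) m := by
  intro x y hxy
  rw [hf x y (hnm.trans hxy), ga_e_congr (x := h * x) (y := h * y)]
  rw [← mul_sub]
  exact hxy.mul_left h

theorem ga_conj_mul {z : ℂ} (hz : ‖z‖ = 1) : conj z * z = 1 := by
  rw [mul_comm, Complex.mul_conj, Complex.normSq_eq_norm_sq, hz]
  simp

theorem ga_unit_coprime {u : R K} (hu : IsUnit u) (n : R K) : IsCoprime u n := by
  obtain ⟨v, rfl⟩ := hu
  exact ⟨↑v⁻¹, 0, by simp⟩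

theorem ga_coprime_prime {p x : R K} (hp : Prime p) (h : ¬ p ∣ x) : IsCoprime p x :=
  (hp.irreducible.coprime_iff_not_dvd).2 h

theorem gs_congr {f : R K → ℂ} {n h h' : R K} (hh : n ∣ h - h') : gs f n h = gs f n h' := by
  rw [ga_gs, ga_gs]
  refine Finset.sum_congr rfl fun x _ => ?_
  rw [ga_e_congr (x := h * x) (y := h' * x)]
  rw [← sub_mul]
  exact hh.mul_right x

theorem Homog.gs_mul {n : R K} {ξ f : R K → ℂ} (hn : n ≠ 0) (H : Homog n ξ f) {u : R K}
    (hu : IsCoprime u n) (h : R K) : gs f n (u * h) = conj (ξ u) * gs f n h := by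
  have key := sum_reps_affine hn (fun x => f x * ga_e (h * x) n) (ga_per H.per dvd_rfl h) hu 0
  have h1 : ξ u * gs f n (u * h) = gs f n h := by
    rw [ga_gs, ga_gs, ← key, Finset.mul_sum]
    refine Finset.sum_congr rfl fun x _ => ?_
    simp only [add_zero]
    rw [H.hom u x hu, show h * (u * x) = u * h * x by ring]
    ring
  rw [← h1, ← mul_assoc, ga_conj_mul (H.abs u hu), one_mul]

theorem Homog.gs_unit {n : R K} {ξ f : R K → ℂ} (hn : n ≠ 0) (H : Homog n ξ f) {u : R K}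
    (hu : IsUnit u) (h : R K) : gs f (u * n) h = ξ u * gs f n h := by
  have hass : Associated n (u * n) := (associated_unit_mul_right n u hu)
  have hcop : IsCoprime u n := ga_unit_coprime hu n
  have hu0 : u ≠ 0 := hu.ne_zero
  have hper : ∀ x y, n ∣ x - y → f x * ga_e (h * x) (u * n) = f y * ga_e (h * y) (u * n) :=
    fun x y hxy => ga_per H.per (Dvd.intro_left u rfl) h x y (hass.symm.dvd.trans hxy)
  rw [ga_gs, ga_gs, ← sum_reps_associated hass,
    ← sum_reps_affine hn (fun x => f x * ga_e (h * x) (u * n)) hper hcop 0, Finset.mul_sum]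
  refine Finset.sum_congr rfl fun x _ => ?_
  simp only [add_zero]
  rw [H.hom u x hcop, show h * (u * x) = u * (h * x) by ring, ga_e_mul_cancel hu0]
  ring

theorem gs_mul_coprime {n₁ n₂ : R K} {ξ₁ f₁ ξ₂ f₂ : R K → ℂ} (h₁ : n₁ ≠ 0) (h₂ : n₂ ≠ 0)
    (hc : IsCoprime n₁ n₂) (H₁ : Homog n₁ ξ₁ f₁) (H₂ : Homog n₂ ξ₂ f₂) (h : R K) :
    gs (fun x => f₁ x * f₂ x) (n₁ * n₂) h = ξ₁ n₂ * ξ₂ n₁ * gs f₁ n₁ h * gs f₂ n₂ h := by
  have hper : ∀ x y, n₁ * n₂ ∣ x - y → f₁ x * f₂ x = f₁ y * f₂ y := fun x y hxy => by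
    rw [H₁.per x y ((Dvd.intro _ rfl).trans hxy), H₂.per x y ((Dvd.intro_left _ rfl).trans hxy)]
  rw [ga_gs, ga_gs, ga_gs,
    sum_reps_crt h₁ h₂ hc _ (ga_per (f := fun x => f₁ x * f₂ x) hper dvd_rfl h), mul_assoc,
    Finset.sum_mul_sum, Finset.mul_sum]
  refine Finset.sum_congr rfl fun x _ => ?_
  rw [Finset.mul_sum]
  refine Finset.sum_congr rfl fun y _ => ?_
  have e1 : f₁ (x * n₂ + y * n₁) = ξ₁ n₂ * f₁ x := by
    rw [← H₁.hom n₂ x hc.symm]
    exact H₁.per _ _ ⟨y, by ring⟩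
  have e2 : f₂ (x * n₂ + y * n₁) = ξ₂ n₁ * f₂ y := by
    rw [← H₂.hom n₁ y hc]
    exact H₂.per _ _ ⟨x, by ring⟩
  have e3 : ga_e (h * (x * n₂ + y * n₁)) (n₁ * n₂) = ga_e (h * x) n₁ * ga_e (h * y) n₂ := by
    rw [show h * (x * n₂ + y * n₁) = n₂ * (h * x) + n₁ * (h * y) by ring, ga_e_add,
      ga_e_mul_cancel h₁, mul_comm n₁ n₂, ga_e_mul_cancel h₂]
  rw [e1, e2, e3]
  ring

open Classical in
theorem gs_tower {n k : R K} {f : R K → ℂ} (hn : n ≠ 0) (hk : k ≠ 0)
    (hf : ∀ x y, n ∣ x - y → f x = f y) (h : R K) :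
    gs f (n * k) h = if k ∣ h then (Nr k : ℂ) * gs f n (rdiv h k) else 0 := by
  have e0 : gs f (n * k) h = (∑ x ∈ reps n, f x * ga_e (h * x) (n * k)) *
      ∑ y ∈ reps k, ga_e (h * y) k := by
    rw [ga_gs, sum_reps_tower hn hk _ (ga_per hf (Dvd.intro _ rfl) h), Finset.sum_mul_sum]
    refine Finset.sum_congr rfl fun x _ => Finset.sum_congr rfl fun y _ => ?_
    rw [hf (x + n * y) x ⟨y, by ring⟩,
      show h * (x + n * y) = h * x + n * (h * y) by ring, ga_e_add, ga_e_mul_cancel hn]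
    ring
  rw [e0, ga_sum_e hk]
  split_ifs with hkh
  · obtain ⟨h', rfl⟩ := hkh
    rw [rdiv_mul hk, mul_comm]
    congr 1
    rw [ga_gs]
    refine Finset.sum_congr rfl fun x _ => ?_
    rw [mul_assoc, mul_comm n k, ga_e_mul_cancel hk]
  · simp

theorem conj_gs (f : R K → ℂ) (n h : R K) : conj (gs f n h) = gs (fun x => conj (f x)) n (-h) := by
  rw [ga_gs, ga_gs, map_sum]
  refine Finset.sum_congr rfl fun x _ => ?_
  rw [map_mul, neg_mul, ga_e_neg]

theorem norm_gs_le {n : R K} (hn : n ≠ 0) {f : R K → ℂ} (hf : ∀ x, ‖f x‖ ≤ 1) (h : R K) :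
    ‖gs f n h‖ ≤ Nr n := by
  rw [ga_gs]
  refine (norm_sum_le _ _).trans ?_
  calc ∑ x ∈ reps n, ‖f x * ga_e (h * x) n‖ ≤ ∑ _x ∈ reps n, (1 : ℝ) := by
        refine Finset.sum_le_sum fun x _ => ?_
        rw [norm_mul, ga_e_norm, mul_one]
        exact hf x
    _ = Nr n := by simp [card_reps hn, Nr]

theorem gs_unit_mod {u : R K} (hu : IsUnit u) (f : R K → ℂ) (hf : ∀ x y, f x = f y) (h : R K) :
    gs f u h = f 0 := by
  classical
  have := ga_sum_e hu.ne_zero h
  rw [if_pos hu.dvd, Nr_eq_one.2 hu] at this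
  rw [ga_gs, Finset.sum_congr rfl fun x _ => by rw [hf x 0], ← Finset.mul_sum, this]
  simp

theorem ga_normsq (z : ℂ) : ((‖z‖ ^ 2 : ℝ) : ℂ) = z * conj z := by
  rw [Complex.mul_conj, Complex.normSq_eq_norm_sq]

theorem gs_plancherel {n : R K} (hn : n ≠ 0) (f : R K → ℂ) :
    ∑ h ∈ reps n, ‖gs f n h‖ ^ 2 = Nr n * ∑ x ∈ reps n, ‖f x‖ ^ 2 := by
  classical
  apply Complex.ofReal_injective
  rw [Complex.ofReal_sum, Complex.ofReal_mul, Complex.ofReal_sum]
  simp only [ga_normsq]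
  have e1 : ∀ h : R K, gs f n h * conj (gs f n h) =
      ∑ x ∈ reps n, ∑ y ∈ reps n, f x * conj (f y) * ga_e ((x - y) * h) n := by
    intro h
    rw [conj_gs, ga_gs, ga_gs, Finset.sum_mul_sum]
    refine Finset.sum_congr rfl fun x _ => Finset.sum_congr rfl fun y _ => ?_
    rw [show (x - y) * h = h * x + -h * y by ring, ga_e_add]
    ring
  simp only [e1]
  rw [Finset.sum_comm, Finset.mul_sum]
  refine Finset.sum_congr rfl fun x hx => ?_
  rw [Finset.sum_comm]
  simp only [← Finset.mul_sum, ga_sum_e hn]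
  rw [Finset.sum_eq_single x]
  · simp only [sub_self, dvd_zero, if_true]
    ring
  · intro y hy hyx
    rw [if_neg, mul_zero]
    intro hd
    obtain ⟨z, -, hz⟩ := reps_existsUnique hn y
    exact hyx ((hz y ⟨hy, by simp⟩).trans (hz x ⟨hx, hd⟩).symm)
  · intro h
    exact absurd hx h

/-- a periodic multiplicative function does not vanish on invertible classes -/
theorem ga_ne_zero {n : R K} {F : R K → ℂ} (hper : ∀ x y, n ∣ x - y → F x = F y)
    (hmul : ∀ x y, F (x * y) = F x * F y) (h1 : F 1 = 1) {u : R K} (hu : IsCoprime u n) :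
    F u ≠ 0 := by
  obtain ⟨a, b, hab⟩ := hu
  intro h0
  have : F (a * u) = F 1 := hper _ _ ⟨-b, by linear_combination hab⟩
  rw [hmul, h0, h1, mul_zero] at this
  exact zero_ne_one this

theorem ga_chi_ne {n u : R K} (hu : IsCoprime u n) : chi n u ≠ 0 :=
  ga_ne_zero (fun _ _ => chi_congr') (chi_mul_right n) (chi_one_right n) hu

theorem ga_kap_ne {n u : R K} (hu : IsCoprime u n) : kap n u ≠ 0 :=
  ga_ne_zero (fun _ _ => kap_congr') (kap_mul_right n) (kap_one_right n) hu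

theorem ga_rho_ne {n u : R K} (hu : IsCoprime u n) : rho n u ≠ 0 :=
  ga_ne_zero (fun _ _ => rho_congr') (rho_mul_right n) (rho_one_right n) hu

theorem homog_chi_pow (n : R K) (k : ℕ) :
    Homog n (fun x => chi n x ^ k) (fun x => chi n x ^ k) :=
  ⟨fun x y hxy => by rw [chi_congr' hxy], fun u x _ => by rw [chi_mul_right, mul_pow],
    fun u hu => by rw [norm_pow, norm_chi (ga_chi_ne hu), one_pow]⟩

theorem homog_kap (n : R K) : Homog n (kap n) (kap n) :=
  ⟨fun _ _ hxy => kap_congr' hxy, fun u x _ => kap_mul_right n u x,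
    fun _ hu => norm_kap (ga_kap_ne hu)⟩

theorem homog_kap_pow (n : R K) (k : ℕ) :
    Homog n (fun x => kap n x ^ k) (fun x => kap n x ^ k) :=
  ⟨fun x y hxy => by rw [kap_congr' hxy], fun u x _ => by rw [kap_mul_right, mul_pow],
    fun u hu => by rw [norm_pow, norm_kap (ga_kap_ne hu), one_pow]⟩

theorem homog_rho (n : R K) : Homog n (rho n) (rho n) := by
  refine ⟨fun _ _ hxy => rho_congr' hxy, fun u x _ => rho_mul_right n u x, fun u hu => ?_⟩
  rcases rho_cases n u with h | h | h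
  · exact absurd h (ga_rho_ne hu)
  · rw [h, norm_one]
  · rw [h, norm_neg, norm_one]

/-- a nontrivial homogeneity character kills the sum at `h = 0` -/
theorem ga_gs_zero {n : R K} {ξ f : R K → ℂ} (hn : n ≠ 0) (H : Homog n ξ f) {u : R K}
    (hu : IsCoprime u n) (hu1 : ξ u ≠ 1) : gs f n 0 = 0 := by
  have e := H.gs_mul hn hu 0
  rw [mul_zero] at e
  by_contra hne
  have h1 : conj (ξ u) = 1 := by
    have : (conj (ξ u) - 1) * gs f n 0 = 0 := by linear_combination -e
    rcases mul_eq_zero.1 this with h | h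
    · exact sub_eq_zero.1 h
    · exact absurd h hne
  apply hu1
  have := congrArg conj h1
  simpa using this

theorem ga_chi_dvd {p x : R K} (hp : Prime p) (hx : p ∣ x) : chi p x = 0 :=
  (chi_eq_zero hp.ne_zero).2 fun hc => hp.not_isUnit (hc.isUnit_of_dvd' dvd_rfl hx)

theorem ga_kap_dvd {p x : R K} (hp : Prime p) (hx : p ∣ x) : kap p x = 0 :=
  (kap_eq_zero hp.ne_zero).2 fun hc => hp.not_isUnit (hc.isUnit_of_dvd' dvd_rfl hx)

theorem ga_sep_prime {p : R K} (hp : Prime p) {k : ℕ} (hk : ¬ 6 ∣ k) (h : R K) :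
    gs (fun x => chi p x ^ k) p h = conj (chi p h ^ k) * gs (fun x => chi p x ^ k) p 1 := by
  have hH := homog_chi_pow p k
  have hk0 : k ≠ 0 := by rintro rfl; exact hk (dvd_zero _)
  by_cases hd : p ∣ h
  · obtain ⟨u, hu0, hu1⟩ := chi_order hp hk
    have hu : IsCoprime u p := by
      refine (ga_coprime_prime hp fun hpu => hu0 ?_).symm
      rw [ga_chi_dvd hp hpu, zero_pow hk0]
    rw [gs_congr (h' := 0) (by simpa using hd), ga_gs_zero hp.ne_zero hH hu hu1,
      ga_chi_dvd hp hd, zero_pow hk0]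
    simp
  · have e := hH.gs_mul hp.ne_zero (ga_coprime_prime hp hd).symm 1
    rwa [mul_one] at e

theorem ga_sqf_coprime {p a : R K} (hp : Prime p) (hs : Squarefree (p * a)) : IsCoprime p a :=
  ga_coprime_prime hp fun hpa => hp.not_isUnit (hs p (mul_dvd_mul_left p hpa))

theorem gs_chi_pow {n : R K} (hs : Squarefree n) {k : ℕ} (hk : ¬ 6 ∣ k) (h : R K) :
    gs (fun x => chi n x ^ k) n h = conj (chi n h ^ k) * gs (fun x => chi n x ^ k) n 1 := by
  induction n using UniqueFactorizationMonoid.induction_on_prime with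
  | h₁ => exact absurd hs not_squarefree_zero
  | h₂ u hu =>
    rw [chi_unit_left hu h, gs_congr (h' := 1) (hu.dvd)]
    simp
  | h₃ a p ha hp ih =>
    have hsa : Squarefree a := hs.of_mul_right
    have hc : IsCoprime p a := ga_sqf_coprime hp hs
    have e : (fun x => chi (p * a) x ^ k) = fun x => chi p x ^ k * chi a x ^ k :=
      funext fun x => by rw [chi_mul_left hp.ne_zero ha, mul_pow]
    have key := fun h => gs_mul_coprime hp.ne_zero ha hc (homog_chi_pow p k) (homog_chi_pow a k) h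
    rw [e, key h, key 1, ga_sep_prime hp hk h, ih hsa, chi_mul_left hp.ne_zero ha, mul_pow]
    simp only [map_mul]
    ring

theorem norm_gs_chi_pow {n : R K} (hs : Squarefree n) {k : ℕ} (hk : ¬ 6 ∣ k) :
    ‖gs (fun x => chi n x ^ k) n 1‖ = Real.sqrt (Nr n) := by
  have hn : n ≠ 0 := hs.ne_zero
  have hH := homog_chi_pow n k
  have e := gs_plancherel hn (fun x => chi n x ^ k)
  have e1 : ∑ h ∈ reps n, ‖gs (fun x => chi n x ^ k) n h‖ ^ 2 =
      ‖gs (fun x => chi n x ^ k) n 1‖ ^ 2 * ∑ x ∈ reps n, ‖chi n x ^ k‖ ^ 2 := by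
    rw [Finset.mul_sum]
    refine Finset.sum_congr rfl fun h _ => ?_
    rw [gs_chi_pow hs hk h, norm_mul, Complex.norm_conj]
    ring
  have hpos : 0 < ∑ x ∈ reps n, ‖chi n x ^ k‖ ^ 2 := by
    obtain ⟨x, ⟨hx, hd⟩, -⟩ := reps_existsUnique hn 1
    refine Finset.sum_pos' (fun _ _ => by positivity) ⟨x, hx, ?_⟩
    rw [chi_congr' hd, chi_one_right]
    norm_num
  rw [e1] at e
  have e2 := mul_right_cancel₀ hpos.ne' e
  rw [← e2, Real.sqrt_sq (norm_nonneg _)]

open Classical in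
theorem gs_coprime_prime {p : R K} (hp : Prime p) (h : R K) :
    gs (fun x => if p ∣ x then 0 else 1) p h = if p ∣ h then (Nr p : ℂ) - 1 else -1 := by
  obtain ⟨x₀, ⟨hx, hd⟩, huniq⟩ := reps_existsUnique hp.ne_zero 0
  rw [sub_zero] at hd
  rw [← show (if p ∣ h then (Nr p : ℂ) else 0) - 1 = if p ∣ h then (Nr p : ℂ) - 1 else -1 by
    split_ifs <;> simp, ← ga_sum_e hp.ne_zero h]
  have e : (1 : ℂ) = ∑ x ∈ reps p, if x = x₀ then ga_e (h * x) p else 0 := by
    rw [Finset.sum_ite_eq' (reps p) x₀, if_pos hx, ga_e_of_dvd (hd.mul_left h)]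
  rw [ga_gs]
  conv_rhs => rw [e, ← Finset.sum_sub_distrib]
  refine Finset.sum_congr rfl fun x hxr => ?_
  by_cases hpx : p ∣ x
  · have : x = x₀ := huniq x ⟨hxr, by simpa using hpx⟩
    rw [if_pos hpx, if_pos this]
    simp
  · have : x ≠ x₀ := by rintro rfl; exact hpx hd
    rw [if_neg hpx, if_neg this]
    simp

theorem g6_two (n : R K) : g6 2 n = g3 n := by
  unfold g6 g3
  simp only [chi_sq]

theorem ga_norm_div {z : ℂ} {n : R K} (hn : n ≠ 0) (h : ‖z‖ = Real.sqrt (Nr n)) :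
    ‖z / (Real.sqrt (Nr n) : ℂ)‖ = 1 := by
  have : 0 < Real.sqrt (Nr n) := Real.sqrt_pos.2 (Nr_pos hn)
  rw [norm_div, h, Complex.norm_real, Real.norm_eq_abs, abs_of_pos this, div_self this.ne']

theorem norm_g6 {n : R K} (hs : Squarefree n) {k : ℕ} (hk : ¬ 6 ∣ k) : ‖g6 k n‖ = 1 :=
  ga_norm_div hs.ne_zero (norm_gs_chi_pow hs hk)

theorem norm_g3 {n : R K} (hs : Squarefree n) : ‖g3 n‖ = 1 := by
  rw [← g6_two]
  exact norm_g6 hs (by norm_num)

theorem g6_unit {u : R K} (hu : IsUnit u) (k : ℕ) : g6 k u = 1 := by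
  unfold g6
  rw [gs_unit_mod hu _ (fun x y => by rw [chi_unit_left hu, chi_unit_left hu]), chi_unit_left hu,
    Nr_eq_one.2 hu]
  simp

theorem g6_mul {a b : R K} (ha : a ≠ 0) (hb : b ≠ 0) (h : IsCoprime a b) (k : ℕ) :
    g6 k (a * b) = chi a b ^ k * chi b a ^ k * g6 k a * g6 k b := by
  have e : (fun x => chi (a * b) x ^ k) = fun x => chi a x ^ k * chi b x ^ k :=
    funext fun x => by rw [chi_mul_left ha hb, mul_pow]
  unfold g6
  rw [e, gs_mul_coprime ha hb h (homog_chi_pow a k) (homog_chi_pow b k) 1, Nr_mul,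
    Real.sqrt_mul (Nr_nonneg a)]
  push_cast
  ring

theorem ga_chi_pow_add (n x : R K) {k : ℕ} (hk : k ≠ 0) (j : ℕ) :
    chi n x ^ (k + 6 * j) = chi n x ^ k := by
  induction j with
  | zero => simp
  | succ j ih =>
    rw [show k + 6 * (j + 1) = (k + 6 * j) + 6 by ring, chi_pow_add_six n x (by omega), ih]

theorem ga_chi_pow_mod (n x : R K) {k l : ℕ} (hk : k ≠ 0) (hl : l ≠ 0) (h : k % 6 = l % 6) :
    chi n x ^ k = chi n x ^ l := by
  rcases le_total k l with hkl | hkl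
  · rw [show l = k + 6 * ((l - k) / 6) by omega, ga_chi_pow_add n x hk]
  · rw [show k = l + 6 * ((k - l) / 6) by omega, ga_chi_pow_add n x hl]

theorem g6_conj (n : R K) {k l : ℕ} (hk : k ≠ 0) (hl : l ≠ 0) (h : 6 ∣ k + l) :
    g6 l n = chi n (-1) ^ l * conj (g6 k n) := by
  by_cases hn : n = 0
  · subst hn
    simp [g6, Nr_zero]
  have e : (fun x => conj (chi n x ^ k)) = fun x => chi n x ^ l := funext fun x => by
    rw [map_pow, conj_chi, ← pow_mul]
    exact ga_chi_pow_mod n x (by omega) hl (by omega)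
  have hc : IsCoprime (-1 : R K) n := ga_unit_coprime isUnit_one.neg n
  have h1 := (homog_chi_pow n l).gs_mul hn hc 1
  have h2 := ga_conj_mul ((homog_chi_pow n l).abs _ hc)
  rw [mul_one] at h1
  unfold g6
  rw [map_div₀, conj_gs, e, h1, Complex.conj_ofReal]
  linear_combination (-(gs (fun x => chi n x ^ l) n 1 / (Real.sqrt (Nr n) : ℂ))) * h2

theorem g3_unit_cube {n u : R K} (hu : IsUnit u) : g3 (n * u ^ 3) = g3 n := by
  by_cases hn : n = 0
  · rw [hn, zero_mul]
  have hass : Associated (n * u ^ 3) n := associated_mul_unit_left n _ (hu.pow 3)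
  have e : kap (n * u ^ 3) = kap n := funext fun x => kap_associated hass x
  unfold g3
  rw [e, Nr_associated hass, mul_comm n, (homog_kap n).gs_unit hn (hu.pow 3), kap_pow_right,
    kap_cube (ga_kap_ne (ga_unit_coprime hu n)), one_mul]

open Classical in
theorem ga_kap_cube_eq {q : R K} (hq : Prime q) :
    (fun x => kap q x ^ 3) = fun x => if q ∣ x then 0 else 1 := by
  funext x
  split_ifs with h
  · rw [ga_kap_dvd hq h]; simp
  · exact kap_cube (ga_kap_ne (ga_coprime_prime hq h).symm)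

theorem ga_kap_pow_three {q : R K} {i : ℕ} (hi : i ≠ 0) (h3 : 3 ∣ i) (x : R K) :
    kap q x ^ i = kap q x ^ 3 := by
  obtain ⟨j, rfl⟩ := h3
  by_cases h : kap q x = 0
  · rw [h, zero_pow hi]; simp
  · rw [pow_mul, kap_cube h, one_pow]

theorem ga_omC_pow {i : ℕ} (h3 : ¬ 3 ∣ i) : omC ^ i ≠ 1 :=
  fun h => h3 ((omC_prim.pow_eq_one_iff_dvd i).1 h)

theorem ga_omC_ne : omC ≠ 0 := omC_prim.ne_zero (by norm_num)

/-- cubic Gauss sums modulo prime powers: `g(r q^k, q^i)` -/
theorem gs_kap_prime_pow {q r : R K} (hq : Prime q) (hr : ¬ q ∣ r) (k i : ℕ) :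
    gs (kap (q ^ i)) (q ^ i) (r * q ^ k) =
      if i = 0 then 1
      else if i ≤ k then (if 3 ∣ i then (Nr q : ℂ) ^ i - (Nr q : ℂ) ^ (i - 1) else 0)
      else if i = k + 1 then (Nr q : ℂ) ^ k * gs (fun x => if 3 ∣ i then kap q x ^ 3 else kap q x ^ i) q r
      else 0 := by
  classical
  have hq0 := hq.ne_zero
  rcases i with _ | j
  · rw [if_pos rfl, pow_zero,
      gs_unit_mod isUnit_one _ (fun x y => by
        rw [kap_unit_left isUnit_one, kap_unit_left isUnit_one]), kap_unit_left isUnit_one]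
  rw [if_neg (by omega)]
  have e : kap (q ^ (j + 1)) = fun x => kap q x ^ (j + 1) := funext fun x => kap_pow_left hq0 _ x
  have hH := homog_kap_pow q (j + 1)
  have ht := gs_tower hq0 (pow_ne_zero j hq0) hH.per (r * q ^ k)
  rw [e, pow_succ' q j, ht, Nr_pow]
  by_cases hjk : j ≤ k
  · obtain ⟨d, rfl⟩ := Nat.exists_eq_add_of_le hjk
    have e2 : r * q ^ (j + d) = q ^ j * (r * q ^ d) := by ring
    rw [e2, if_pos (dvd_mul_right _ _), rdiv_mul (pow_ne_zero j hq0)]
    rcases d with _ | d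
    · rw [if_neg (by omega), if_pos (by omega), pow_zero, mul_one, add_zero]
      push_cast
      congr 2
      funext x
      split_ifs with h3
      · exact ga_kap_pow_three (by omega) h3 x
      · rfl
    · rw [if_pos (by omega)]
      have hd : q ∣ r * q ^ (d + 1) := (dvd_pow_self q (by omega)).mul_left r
      split_ifs with h3
      · rw [show (fun x => kap q x ^ (j + 1)) = fun x => kap q x ^ 3 from
          funext (ga_kap_pow_three (by omega) h3), ga_kap_cube_eq hq, gs_coprime_prime hq,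
          if_pos hd, Nat.add_sub_cancel]
        push_cast
        ring
      · obtain ⟨u, hu⟩ := kap_nontrivial hq
        have huq : IsCoprime u q := by
          refine (ga_coprime_prime hq fun h => ?_).symm
          rw [ga_kap_dvd hq h] at hu
          exact ga_omC_ne hu.symm
        rw [gs_congr (h' := 0) (by simpa using hd), ga_gs_zero hq0 hH huq (by
          simpa only [hu] using ga_omC_pow h3), mul_zero]
  · rw [if_neg, if_neg (by omega), if_neg (by omega)]
    intro hd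
    have h1 : q ^ (k + 1) ∣ r * q ^ k := (pow_dvd_pow q (by omega)).trans hd
    rw [pow_succ', mul_dvd_mul_iff_right (pow_ne_zero k hq0)] at h1
    exact hr h1

theorem gs_kap_cube_prime {q r : R K} (hq : Prime q) (hr : ¬ q ∣ r) :
    gs (fun x => kap q x ^ 3) q r = -1 := by
  classical
  rw [ga_kap_cube_eq hq, gs_coprime_prime hq, if_neg hr]

open Classical in
/-- Euler's function of `R / n` divided by the norm -/
def phiN (n : R K) : ℝ := (((reps n).filter (fun x => IsCoprime n x)).card : ℝ) / Nr n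

/-- moving a non-trivial value of `kap a` to `kap (a * b)` -/
theorem ga_kap_lift {a b : R K} (ha : a ≠ 0) (hb : b ≠ 0) (h : IsCoprime a b) {u : R K}
    (hu : IsCoprime u a) (hu1 : kap a u ≠ 1) : ∃ v, IsCoprime v (a * b) ∧ kap (a * b) v ≠ 1 := by
  obtain ⟨x, y, hxy⟩ := h
  have e : kap (a * b) (u * (y * b) + x * a) = kap a u := by
    rw [kap_mul_left ha hb, kap_congr' (n := a) (y := u) ⟨x - u * x, by linear_combination u * hxy⟩,
      kap_congr' (n := b) (y := 1) ⟨u * y - y, by linear_combination hxy⟩, kap_one_right, mul_one]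
  refine ⟨u * (y * b) + x * a, ?_, by rwa [e]⟩
  by_contra hc
  have := (kap_eq_zero (mul_ne_zero ha hb)).2 fun h' => hc h'.symm
  rw [e] at this
  exact ga_kap_ne hu this

theorem ga_cube_or (c : R K) : c ≠ 0 →
    (∃ m : R K, Associated c (m ^ 3)) ∨ ∃ u, IsCoprime u c ∧ kap c u ≠ 1 := by
  refine UniqueFactorizationMonoid.induction_on_coprime (P := fun c => c ≠ 0 →
    (∃ m : R K, Associated c (m ^ 3)) ∨ ∃ u, IsCoprime u c ∧ kap c u ≠ 1) c ?_ ?_ ?_ ?_
  · intro h; exact absurd rfl h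
  · intro u hu _
    exact Or.inl ⟨1, by rw [one_pow]; exact associated_one_iff_isUnit.2 hu⟩
  · intro p i hp _
    by_cases h3 : 3 ∣ i
    · obtain ⟨j, rfl⟩ := h3
      exact Or.inl ⟨p ^ j, by rw [← pow_mul, mul_comm]⟩
    · obtain ⟨u, hu⟩ := kap_nontrivial hp
      have huq : IsCoprime u p := by
        refine (ga_coprime_prime hp fun h => ?_).symm
        rw [ga_kap_dvd hp h] at hu
        exact ga_omC_ne hu.symm
      refine Or.inr ⟨u, huq.pow_right, ?_⟩
      rw [kap_pow_left hp.ne_zero, hu]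
      exact ga_omC_pow h3
  · intro a b hab iha ihb h0
    have ha : a ≠ 0 := left_ne_zero_of_mul h0
    have hb : b ≠ 0 := right_ne_zero_of_mul h0
    have hc : IsCoprime a b := hab.isCoprime
    rcases iha ha with ⟨m, hm⟩ | ⟨u, hu, hu1⟩
    · rcases ihb hb with ⟨m', hm'⟩ | ⟨u, hu, hu1⟩
      · exact Or.inl ⟨m * m', by rw [mul_pow]; exact hm.mul_mul hm'⟩
      · rw [mul_comm]
        exact Or.inr (ga_kap_lift hb ha hc.symm hu hu1)
    · exact Or.inr (ga_kap_lift ha hb hc hu hu1)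

open Classical in
theorem gs_kap_zero {c : R K} (hc : c ≠ 0) :
    gs (kap c) c 0 = if ∃ m : R K, Associated c (m ^ 3) then ((phiN c * Nr c : ℝ) : ℂ) else 0 := by
  split_ifs with h
  · obtain ⟨m, hm⟩ := h
    have hm0 : m ≠ 0 := by
      rintro rfl
      exact hc (by simpa using hm)
    rw [phiN, div_mul_cancel₀ _ (Nr_pos hc).ne', ga_gs, Finset.card_filter]
    push_cast
    refine Finset.sum_congr rfl fun x _ => ?_
    rw [zero_mul, ga_e_zero, mul_one]
    split_ifs with hx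
    · have h0 := ga_kap_ne hx.symm
      rw [kap_associated hm, kap_pow_left hm0] at h0 ⊢
      exact kap_cube fun h => h0 (by rw [h]; simp)
    · exact (kap_eq_zero hc).2 hx
  · obtain ⟨u, hu, hu1⟩ := (ga_cube_or c hc).resolve_left h
    exact ga_gs_zero hc (homog_kap c) hu hu1

/-! ### quadratic sums -/

/-- `∑_{x mod n} eS (b x² / n)` -/
def ga_Q (n b : R K) : ℂ := ∑ x ∈ reps n, ga_e (b * x ^ 2) n

theorem ga_gam (n : R K) : gam n = ga_Q n 1 / (Real.sqrt (Nr n) : ℂ) := by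
  unfold gam ga_Q ga_e
  simp only [one_mul]
  push_cast
  rfl

theorem ga_Q_per (n b : R K) : ∀ x y, n ∣ x - y → ga_e (b * x ^ 2) n = ga_e (b * y ^ 2) n := by
  intro x y hxy
  refine ga_e_congr ?_
  rw [show b * x ^ 2 - b * y ^ 2 = (x - y) * (b * (x + y)) by ring]
  exact hxy.mul_right _

theorem ga_Q_norm {n : R K} (hn : n ≠ 0) : ‖ga_Q n 1‖ = Real.sqrt (Nr n) := by
  classical
  have key : ((‖ga_Q n 1‖ ^ 2 : ℝ) : ℂ) = (Nr n : ℂ) := by
    rw [ga_normsq]
    have e1 : ∀ x : R K, ga_Q n 1 * conj (ga_e (1 * x ^ 2) n) =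
        ∑ h ∈ reps n, ga_e (1 * h ^ 2) n * ga_e (2 * h * x) n := by
      intro x
      rw [ga_Q, ← sum_reps_affine hn _ (ga_Q_per n 1) isCoprime_one_left x, Finset.sum_mul]
      refine Finset.sum_congr rfl fun h _ => ?_
      rw [← ga_e_neg, ← ga_e_add, ← ga_e_add]
      congr 1
      ring
    conv_lhs => rw [show conj (ga_Q n 1) = ∑ x ∈ reps n, conj (ga_e (1 * x ^ 2) n) from
      map_sum _ _ _, Finset.mul_sum]
    simp only [e1]
    rw [Finset.sum_comm]
    simp only [← Finset.mul_sum, ga_sum_e hn]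
    obtain ⟨x₀, ⟨hx, hd⟩, huniq⟩ := reps_existsUnique hn 0
    rw [sub_zero] at hd
    rw [Finset.sum_eq_single x₀]
    · rw [if_pos (hd.mul_left 2), ga_e_of_dvd, one_mul]
      exact ((dvd_pow_self x₀ two_ne_zero).mul_left 1 |> hd.trans)
    · intro y hy hyx
      rw [if_neg, mul_zero]
      intro h2
      exact hyx (huniq y ⟨hy, by rw [sub_zero]; exact (isUnit_two.dvd_mul_left).1 h2⟩)
    · intro h
      exact absurd hx h
  have key2 : ‖ga_Q n 1‖ ^ 2 = Nr n := by exact_mod_cast key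
  rw [← key2, Real.sqrt_sq (norm_nonneg _)]

theorem norm_gam {n : R K} (hn : n ≠ 0) : ‖gam n‖ = 1 := by
  rw [ga_gam]
  exact ga_norm_div hn (ga_Q_norm hn)

theorem ga_Q_unit {u : R K} (hu : IsUnit u) (b : R K) : ga_Q u b = 1 := by
  unfold ga_Q
  rw [Finset.sum_congr rfl fun x _ => ga_e_of_dvd hu.dvd, Finset.sum_const, card_reps hu.ne_zero]
  have := Nr_eq_one.2 hu
  unfold Nr at this
  have h2 : nm u = 1 := by exact_mod_cast this
  simp [h2]

theorem ga_Q_crt {a a' : R K} (ha : a ≠ 0) (ha' : a' ≠ 0) (hc : IsCoprime a a') (b : R K) :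
    ga_Q (a * a') b = ga_Q a (a' * b) * ga_Q a' (a * b) := by
  unfold ga_Q
  rw [sum_reps_crt ha ha' hc _ (ga_Q_per _ b), Finset.sum_mul_sum]
  refine Finset.sum_congr rfl fun x _ => Finset.sum_congr rfl fun y _ => ?_
  rw [← ga_e_mul_cancel ha' (a' * b * x ^ 2) a, ← ga_e_mul_cancel ha (a * b * y ^ 2) a',
    mul_comm a' a, ← ga_e_add]
  exact ga_e_congr ⟨2 * b * x * y, by ring⟩

theorem ga_Q_prime {p h : R K} (hp : Prime p) (hh : ¬ p ∣ h) : ga_Q p h = gs (rho p) p h := by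
  classical
  have hp0 := hp.ne_zero
  have h1 : ∀ x : R K,
      ga_e (h * x ^ 2) p = ∑ y ∈ reps p, if p ∣ x ^ 2 - y then ga_e (h * y) p else 0 := by
    intro x
    obtain ⟨y, ⟨hy, hy'⟩, huniq⟩ := reps_existsUnique hp0 (x ^ 2)
    rw [Finset.sum_eq_single y]
    · rw [if_pos (dvd_sub_comm.1 hy')]
      refine ga_e_congr ?_
      rw [← mul_sub]
      exact (dvd_sub_comm.1 hy').mul_left _
    · intro z hz hzy
      rw [if_neg]
      intro hd
      exact hzy (huniq z ⟨hz, dvd_sub_comm.1 hd⟩)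
    · intro hn
      exact absurd hy hn
  calc ga_Q p h
      = ∑ x ∈ reps p, ∑ y ∈ reps p, if p ∣ x ^ 2 - y then ga_e (h * y) p else 0 :=
        Finset.sum_congr rfl fun x _ => h1 x
    _ = ∑ y ∈ reps p, (1 + rho p y) * ga_e (h * y) p := by
        rw [Finset.sum_comm]
        refine Finset.sum_congr rfl fun y _ => ?_
        rw [← Finset.sum_filter, Finset.sum_const, nsmul_eq_mul, ← card_sqrt_prime hp y]
    _ = _ := by
        simp only [add_mul, one_mul, Finset.sum_add_distrib]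
        rw [ga_sum_e hp0, if_neg hh, zero_add, ga_gs]

open Classical in
/-- multiples of `p` modulo `p * n` -/
theorem ga_sum_multiples {p n : R K} (hp : p ≠ 0) (hn : n ≠ 0) (F : R K → ℂ)
    (hF : ∀ x y, p * n ∣ x - y → p ∣ x → F x = F y) :
    ∑ x ∈ reps (p * n), (if p ∣ x then F x else 0) = ∑ z ∈ reps n, F (p * z) := by
  rw [sum_reps_tower hp hn]
  swap
  · intro x y hxy
    have h1 : p ∣ x ↔ p ∣ y := by
      have : p ∣ x - y := (dvd_mul_right p n).trans hxy
      exact ⟨fun h => by simpa using dvd_sub h this, fun h => by simpa using dvd_add this h⟩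
    by_cases hx : p ∣ x
    · rw [if_pos hx, if_pos (h1.1 hx), hF x y hxy hx]
    · rw [if_neg hx, if_neg (mt h1.2 hx)]
  obtain ⟨x₀, ⟨hx, hd⟩, huniq⟩ := reps_existsUnique hp 0
  rw [sub_zero] at hd
  rw [Finset.sum_eq_single x₀]
  · obtain ⟨c, rfl⟩ := hd
    rw [← sum_reps_affine hn (fun z => F (p * z)) (fun x y hxy => hF _ _ (by
      rw [← mul_sub]; exact mul_dvd_mul_left p hxy) (dvd_mul_right _ _)) isCoprime_one_left c]
    refine Finset.sum_congr rfl fun y _ => ?_
    rw [if_pos (dvd_add (dvd_mul_right _ _) (dvd_mul_right _ _))]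
    congr 1
    ring
  · intro x hx' hxx
    refine Finset.sum_eq_zero fun y _ => if_neg fun h => hxx (huniq x ⟨hx', ?_⟩)
    rw [sub_zero]
    exact (dvd_add_left (dvd_mul_right p y)).1 h
  · intro h
    exact absurd hx h

theorem ga_Q_pow {p b : R K} (hp : Prime p) (hb : ¬ p ∣ b) (i : ℕ) :
    ga_Q (p ^ (i + 2)) b = (Nr p : ℂ) * ga_Q (p ^ i) b := by
  classical
  have hp0 := hp.ne_zero
  have hpi : ∀ j, p ^ j ≠ 0 := fun j => pow_ne_zero j hp0
  have e1 : ga_Q (p ^ (i + 2)) b = ∑ x ∈ reps (p ^ (i + 1)),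
      ga_e (b * x ^ 2) (p ^ (i + 2)) * ∑ y ∈ reps p, ga_e (2 * b * x * y) p := by
    unfold ga_Q
    rw [pow_succ p (i + 1), sum_reps_tower (hpi _) hp0 _ (ga_Q_per _ b)]
    refine Finset.sum_congr rfl fun x _ => ?_
    rw [Finset.mul_sum]
    refine Finset.sum_congr rfl fun y _ => ?_
    rw [← ga_e_mul_cancel (hpi (i + 1)) (2 * b * x * y) p, ← ga_e_add]
    exact ga_e_congr ⟨b * p ^ i * y ^ 2, by ring⟩
  have e2 : ∀ x : R K, ga_e (b * x ^ 2) (p ^ (i + 2)) * ∑ y ∈ reps p, ga_e (2 * b * x * y) p =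
      (Nr p : ℂ) * if p ∣ x then ga_e (b * x ^ 2) (p ^ (i + 2)) else 0 := by
    intro x
    rw [ga_sum_e hp0]
    have : p ∣ 2 * b * x ↔ p ∣ x := by
      rw [mul_assoc, isUnit_two.dvd_mul_left]
      exact ⟨fun h => (hp.dvd_or_dvd h).resolve_left hb, fun h => h.mul_left b⟩
    by_cases hx : p ∣ x
    · rw [if_pos hx, if_pos (this.2 hx), mul_comm]
    · rw [if_neg hx, if_neg (mt this.1 hx), mul_zero, mul_zero]
  rw [e1]
  simp only [e2]
  rw [← Finset.mul_sum, pow_succ' p i, ga_sum_multiples hp0 (hpi i)]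
  · congr 1
    refine Finset.sum_congr rfl fun z _ => ?_
    rw [← ga_e_mul_cancel (hpi 2) (b * z ^ 2) (p ^ i)]
    congr 1 <;> ring
  · rintro x y ⟨c, hc⟩ ⟨d, rfl⟩
    refine ga_e_congr ⟨b * c * (2 * d - p ^ i * c), ?_⟩
    have : y = p * d - p * p ^ i * c := by linear_combination -hc
    rw [this]
    ring

theorem ga_Q_prime_pow {p : R K} (hp : Prime p) (i : ℕ) :
    ∀ b, ¬ p ∣ b → ga_Q (p ^ i) b = rho (p ^ i) b * ga_Q (p ^ i) 1 := by
  have h1 : ¬ p ∣ 1 := hp.not_dvd_one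
  induction i using Nat.twoStepInduction with
  | zero =>
    intro b _
    rw [pow_zero, ga_Q_unit isUnit_one, ga_Q_unit isUnit_one, rho_unit_left isUnit_one, one_mul]
  | one =>
    intro b hb
    have := (homog_rho p).gs_mul hp.ne_zero (ga_coprime_prime hp hb).symm 1
    rw [mul_one, conj_rho] at this
    rw [pow_one, ga_Q_prime hp hb, ga_Q_prime hp h1, this]
  | more i ih _ =>
    intro b hb
    rw [ga_Q_pow hp hb, ga_Q_pow hp h1, ih b hb, rho_pow_left hp.ne_zero, rho_pow_left hp.ne_zero,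
      pow_add, rho_sq (ga_rho_ne (ga_coprime_prime hp hb).symm)]
    ring

theorem ga_Q_rho (a : R K) : a ≠ 0 → ∀ b, IsCoprime a b → ga_Q a b = rho a b * ga_Q a 1 := by
  refine UniqueFactorizationMonoid.induction_on_coprime (P := fun a => a ≠ 0 →
    ∀ b, IsCoprime a b → ga_Q a b = rho a b * ga_Q a 1) a ?_ ?_ ?_ ?_
  · intro h; exact absurd rfl h
  · intro u hu _ b _
    rw [ga_Q_unit hu, ga_Q_unit hu, rho_unit_left hu, one_mul]
  · intro p i hp _ b hb
    rcases i with _ | i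
    · rw [pow_zero, ga_Q_unit isUnit_one, ga_Q_unit isUnit_one, rho_unit_left isUnit_one, one_mul]
    · refine ga_Q_prime_pow hp _ b fun h => hp.not_isUnit ?_
      exact hb.isUnit_of_dvd' (dvd_pow_self p (by omega)) h
  · intro a a' hab iha ihb h0 b hb
    have ha : a ≠ 0 := left_ne_zero_of_mul h0
    have ha' : a' ≠ 0 := right_ne_zero_of_mul h0
    have hc : IsCoprime a a' := hab.isCoprime
    rw [ga_Q_crt ha ha' hc, ga_Q_crt ha ha' hc, iha ha _ (hc.mul_right hb.of_mul_left_left),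
      ihb ha' _ (hc.symm.mul_right hb.of_mul_left_right), mul_one, mul_one, iha ha a' hc,
      ihb ha' a hc.symm, rho_mul_left ha ha', rho_mul_right, rho_mul_right]
    ring

theorem gam_mul {a b : R K} (ha : a ≠ 0) (hb : b ≠ 0) (h : IsCoprime a b) :
    gam (a * b) = rho a b * rho b a * gam a * gam b := by
  rw [ga_gam, ga_gam, ga_gam, ga_Q_crt ha hb h, mul_one, mul_one, ga_Q_rho a ha b h,
    ga_Q_rho b hb a h.symm, Nr_mul, Real.sqrt_mul (Nr_nonneg a)]
  push_cast
  ring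

theorem gam_eq_g6 {n : R K} (hs : Squarefree n) : gam n = g6 3 n := by
  induction n using UniqueFactorizationMonoid.induction_on_prime with
  | h₁ => exact absurd hs not_squarefree_zero
  | h₂ u hu => rw [g6_unit hu, ga_gam, ga_Q_unit hu, Nr_eq_one.2 hu]; simp
  | h₃ a p ha hp ih =>
    have hc : IsCoprime p a := ga_sqf_coprime hp hs
    have e : gam p = g6 3 p := by
      rw [ga_gam, ga_Q_prime hp hp.not_dvd_one, g6]
      simp only [chi_cube]
    rw [gam_mul hp.ne_zero ha hc, g6_mul hp.ne_zero ha hc, ih hs.of_mul_right, e, chi_cube, chi_cube]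

/-! ### theta coefficients -/

theorem norm_Gsf_le (n : R K) : ‖Gsf n‖ ≤ 1 := by
  unfold Gsf
  split_ifs with h
  · rw [Complex.norm_conj, norm_g3 h]
  · simp

theorem norm_Gsf {n : R K} (hs : Squarefree n) : ‖Gsf n‖ = 1 := by
  rw [Gsf, if_pos hs, Complex.norm_conj, norm_g3 hs]

theorem Gsf_eq_zero {n : R K} (h : ¬ Squarefree n) : Gsf n = 0 := by
  rw [Gsf, if_neg h]

/-- twisted multiplicativity; both sides vanish if `a, b` are not coprime -/
theorem Gsf_mul {a b : R K} (ha : a ≠ 0) (hb : b ≠ 0) :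
    Gsf (a * b) = Gsf a * Gsf b * conj (kap a b * kap b a) := by
  by_cases hc : IsCoprime a b
  · by_cases hsa : Squarefree a
    · by_cases hsb : Squarefree b
      · have hs : Squarefree (a * b) := squarefree_mul_iff.2 ⟨hc.isRelPrime, hsa, hsb⟩
        rw [Gsf, Gsf, Gsf, if_pos hs, if_pos hsa, if_pos hsb, ← g6_two, ← g6_two, ← g6_two,
          g6_mul ha hb hc, chi_sq, chi_sq]
        simp only [map_mul]
        ring
      · rw [Gsf_eq_zero hsb, Gsf_eq_zero fun h => hsb h.of_mul_right]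
        simp
    · rw [Gsf_eq_zero hsa, Gsf_eq_zero fun h => hsa h.of_mul_left]
      simp
  · rw [Gsf_eq_zero fun h => hc (squarefree_mul_iff.1 h).1.isCoprime, (kap_eq_zero ha).2 hc]
    simp

theorem Gsf_unit_cube (n : R K) {u : R K} (hu : IsUnit u) : Gsf (n * u ^ 3) = Gsf n := by
  have hass : Associated (n * u ^ 3) n := associated_mul_unit_left n _ (hu.pow 3)
  by_cases hs : Squarefree n
  · rw [Gsf, Gsf, if_pos hs, if_pos (hass.squarefree_iff.2 hs), g3_unit_cube hu]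
  · rw [Gsf_eq_zero hs, Gsf_eq_zero fun h => hs (hass.squarefree_iff.1 h)]

theorem ga_cube_dvd {n : R K} (hs : Squarefree n) (j : R K) :
    j ≠ 0 → ∀ i, j ^ 3 ∣ n * i ^ 3 → j ∣ i := by
  induction j using UniqueFactorizationMonoid.induction_on_prime with
  | h₁ => intro h; exact absurd rfl h
  | h₂ u hu => intro _ i _; exact hu.dvd
  | h₃ j p hj hp ih =>
    intro _ i h
    rw [mul_pow] at h
    obtain ⟨c, rfl⟩ : p ∣ i := by
      by_contra h0
      exact hp.not_isUnit (hs p (((pow_two p) ▸ pow_dvd_pow p (by norm_num : 2 ≤ 3)).trans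
        ((ga_coprime_prime hp h0).pow.dvd_of_dvd_mul_right (dvd_of_mul_right_dvd h))))
    rw [mul_pow, mul_left_comm, mul_dvd_mul_iff_left (pow_ne_zero 3 hp.ne_zero)] at h
    exact mul_dvd_mul_left p (ih hj c h)

theorem ga_gen_ne {I : Ideal (R K)} {r : R K} (hr : r ≠ 0) (h : gen I ^ 3 ∣ r) : gen I ≠ 0 := by
  intro h0
  rw [h0] at h
  exact hr (by simpa using h)

theorem Gf_eq {n m : R K} (hs : Squarefree n) (hm : m ≠ 0) :
    Gf (n * m ^ 3) = (Real.sqrt (Nr m) : ℂ) * Gsf n := by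
  classical
  have hr : n * m ^ 3 ≠ 0 := mul_ne_zero hs.ne_zero (pow_ne_zero 3 hm)
  unfold Gf
  rw [finsum_eq_single _ (Ideal.span {m})]
  · obtain ⟨u, hu⟩ := associated_gen_span m
    have e : n * m ^ 3 = gen (Ideal.span {m}) ^ 3 * (n * (u : R K) ^ 3) := by
      conv_lhs => rw [← hu]
      ring
    have hd : gen (Ideal.span {m}) ^ 3 ∣ n * m ^ 3 := ⟨_, e⟩
    rw [if_pos hd]
    conv_lhs => rw [e, rdiv_mul (pow_ne_zero 3 (ga_gen_ne hr hd)), Gsf_unit_cube n u.isUnit]
    rfl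
  · intro I hI
    split_ifs with hd
    · have hg := ga_gen_ne hr hd
      rw [Gsf_eq_zero, mul_zero]
      intro hs'
      apply hI
      have e := rdiv_spec hd
      have h1 : gen I ∣ m := ga_cube_dvd hs _ hg m hd
      have h2 : m ∣ gen I := ga_cube_dvd hs' m hm _ ⟨n, by rw [mul_comm _ (gen I ^ 3), ← e]; ring⟩
      rw [← span_gen I]
      exact Ideal.span_singleton_eq_span_singleton.2 (associated_of_dvd_dvd h1 h2)
    · rfl

theorem Gf_eq_zero {r : R K} (h : ¬ ∃ n m : R K, Squarefree n ∧ m ≠ 0 ∧ r = n * m ^ 3) :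
    Gf r = 0 := by
  classical
  unfold Gf
  refine finsum_eq_zero_of_forall_eq_zero fun I => ?_
  split_ifs with hd
  · by_cases hI : I = ⊥
    · rw [hI, nmI_bot]
      simp
    · rw [Gsf_eq_zero, mul_zero]
      intro hs
      exact h ⟨_, gen I, hs, gen_ne_zero hI, (rdiv_spec hd).trans (mul_comm _ _)⟩
  · rfl

theorem Gf_cube (r : R K) {m : R K} (hm : m ≠ 0) :
    Gf (r * m ^ 3) = (Real.sqrt (Nr m) : ℂ) * Gf r := by
  by_cases h : ∃ n m' : R K, Squarefree n ∧ m' ≠ 0 ∧ r = n * m' ^ 3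
  · obtain ⟨n, m', hs, hm', rfl⟩ := h
    rw [mul_assoc, ← mul_pow, Gf_eq hs (mul_ne_zero hm' hm), Gf_eq hs hm', Nr_mul,
      Real.sqrt_mul (Nr_nonneg m')]
    push_cast
    ring
  · rw [Gf_eq_zero h, mul_zero, Gf_eq_zero]
    rintro ⟨n, m', hs, hm', e⟩
    obtain ⟨c, rfl⟩ := ga_cube_dvd hs m hm m' (e ▸ dvd_mul_left _ _)
    exact h ⟨n, c, hs, right_ne_zero_of_mul hm',
      mul_right_cancel₀ (pow_ne_zero 3 hm) (e.trans (by ring))⟩

theorem norm_Gf_le (r : R K) : ‖Gf r‖ ≤ Nr r ^ (1 / 6 : ℝ) := by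
  by_cases h : ∃ n m' : R K, Squarefree n ∧ m' ≠ 0 ∧ r = n * m' ^ 3
  · obtain ⟨n, m, hs, hm, rfl⟩ := h
    rw [Gf_eq hs hm, norm_mul, norm_Gsf hs, mul_one, Complex.norm_real, Real.norm_eq_abs,
      abs_of_nonneg (Real.sqrt_nonneg _), Nr_mul, Nr_pow, Real.sqrt_eq_rpow]
    have h0 := Nr_nonneg m
    calc Nr m ^ (1 / 2 : ℝ) = (Nr m ^ 3) ^ (1 / 6 : ℝ) := by
          rw [← Real.rpow_natCast, ← Real.rpow_mul h0]
          norm_num
      _ ≤ (Nr n * Nr m ^ 3) ^ (1 / 6 : ℝ) :=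
          Real.rpow_le_rpow (by positivity)
            (le_mul_of_one_le_left (by positivity) (one_le_Nr hs.ne_zero)) (by norm_num)
  · rw [Gf_eq_zero h, norm_zero]
    exact Real.rpow_nonneg (Nr_nonneg r) _

end Crest.Agent.GQ
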