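import Crest.Agent.GQ.HeckeAux2
import Crest.Agent.GQ.Gauss

/-! # GQ HeckeAux3: Hecke's formula for the quadratic Gauss sum -/

set_option autoImplicit false

noncomputable section

open NumberField Complex Filter Topology
open scoped ComplexConjugate

namespace Crest.Agent.GQ

variable {K : Type} [Field K] [NumberField K] [P : Pre K]

open MeasureTheory

theorem he_f_cont (s : Pl K → ℂ) (ε : ℝ) : Continuous (he_f s ε) := by
  unfold he_f gau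
  refine Continuous.mul (by fun_prop) (continuous_eC.comp ?_)
  refine continuous_pi fun v => ?_
  simp only [Pi.div_apply, Pi.pow_apply]
  fun_prop

theorem he_f_bound {s : Pl K → ℂ} (hs : ∀ v, s v ≠ 0) {ε : ℝ} (hε : 0 < ε) (z : Pl K → ℂ) :
    ‖he_f s ε z‖ ≤ 1 * Real.exp (-(Real.pi * ε / (‖s‖ + 1)) * ‖z‖ ^ 2) := by
  rw [he_f, norm_mul, norm_eC, mul_one, he_norm_gau, one_mul, gau, Real.exp_le_exp]
  have h0 : 0 ≤ ∑ v, ‖z v‖ ^ 2 := Finset.sum_nonneg fun v _ => sq_nonneg _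
  have h1 : ‖z‖ ^ 2 ≤ ∑ v, ‖z v‖ ^ 2 := by
    have : ‖z‖ ≤ Real.sqrt (∑ v, ‖z v‖ ^ 2) :=
      (pi_norm_le_iff_of_nonneg (Real.sqrt_nonneg _)).2 fun v =>
        Real.le_sqrt_of_sq_le (Finset.single_le_sum (f := fun v => ‖z v‖ ^ 2)
          (fun _ _ => sq_nonneg _) (Finset.mem_univ v))
    calc ‖z‖ ^ 2 ≤ Real.sqrt (∑ v, ‖z v‖ ^ 2) ^ 2 := by gcongr
      _ = _ := Real.sq_sqrt h0
  have h2 : ε / (‖s‖ + 1) * ∑ v, ‖z v‖ ^ 2 ≤ ∑ v, ‖z v‖ ^ 2 / (‖s v‖ / ε) := by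
    rw [Finset.mul_sum]
    refine Finset.sum_le_sum fun v _ => ?_
    have a1 := norm_pos_iff.2 (hs v)
    have a2 : ‖s v‖ ≤ ‖s‖ + 1 := by linarith [norm_le_pi_norm s v]
    rw [div_div_eq_mul_div, mul_comm (ε / _), ← mul_div_assoc]
    gcongr
  have h3 : ε / (‖s‖ + 1) * ‖z‖ ^ 2 ≤ ε / (‖s‖ + 1) * ∑ v, ‖z v‖ ^ 2 := by gcongr
  have h4 := mul_le_mul_of_nonneg_left (h3.trans h2) Real.pi_pos.le
  rw [mul_div_assoc]
  linarith

theorem he_prod_lim (g : Pl K → ℝ → ℝ) (hg : ∀ v, Continuous (g v)) (h0 : ∀ v, g v 0 = 0) :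
    Tendsto (fun ε => ∏ v, g v ε) (𝓝[>] 0) (𝓝 0) := by
  have h1 : Tendsto (fun ε => ∏ v, g v ε) (𝓝 0) (𝓝 (∏ v, g v 0)) :=
    tendsto_finset_prod _ fun v _ => (hg v).tendsto 0
  have h2 : ∏ v, g v 0 = 0 :=
    Finset.prod_eq_zero (Finset.mem_univ (Classical.arbitrary _)) (h0 _)
  rw [h2] at h1
  exact h1.mono_left nhdsWithin_le_nhds

/-- the dual side -/
theorem he_dual {s : Pl K → ℂ} (hs : ∀ v, s v ≠ 0) {x x' : K} (hx : x ≠ 0) (hx' : x' ≠ 0)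
    (hsub : InT x x') {F : Finset (R K)} (h1 : ∀ y ∈ F, y ∈ Lat x)
    (h2 : ∀ n ∈ Lat x, ∃! y, y ∈ F ∧ n - y ∈ Lat x') (φ : R K → ℂ)
    (hφ : ∀ y : R K, φ y = eC (fun v => -(s v * emb (y : K) v ^ 2) / 4))
    (hper : ∀ y ∈ Lat x, ∀ n ∈ Lat x', φ (n + y) = φ y) :
    Tendsto (fun ε : ℝ => (∑' n : Lat x,
      (gau (fun v => (ε ^ 2 + 16) / (4 * ε * ‖s v‖)) (emb ((n : R K) : K)) : ℂ) *
        eC (fun v => -(4 / (ε ^ 2 + 16) : ℝ) * (s v * emb ((n : R K) : K) v ^ 2))) /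
      ((∏ v, (ε ^ 2 + 16) / (4 * ε * ‖s v‖) : ℝ) : ℂ)) (𝓝[>] 0)
      (𝓝 ((∑ y ∈ F, φ y) / ((cov K * NS x' : ℝ) : ℂ))) := by
  have hn : ∀ v, 0 < ‖s v‖ := fun v => norm_pos_iff.2 (hs v)
  have hρ : ∀ ε : ℝ, 0 < ε → ∀ v, 0 < (ε ^ 2 + 16) / (4 * ε * ‖s v‖) := fun ε hε v => by
    have := hn v
    positivity
  have hρ' : ∀ᶠ ε : ℝ in 𝓝[>] 0, ∀ v, 0 < (ε ^ 2 + 16) / (4 * ε * ‖s v‖) := by
    filter_upwards [self_mem_nhdsWithin] with ε hε using hρ ε hε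
  have h0 : ∀ c : ℝ, Tendsto (fun ε : ℝ => ∏ v, c * ε * ‖s v‖ / (ε ^ 2 + 16)) (𝓝[>] 0) (𝓝 0) :=
    fun c => he_prod_lim (fun v ε => c * ε * ‖s v‖ / (ε ^ 2 + 16))
      (fun v => Continuous.div (by fun_prop) (by fun_prop) fun ε => by positivity) (by simp)
  have h0' : Tendsto (fun ε : ℝ => ∏ v, 1 / (4 * ((ε ^ 2 + 16) / (4 * ε * ‖s v‖))))
      (𝓝[>] 0) (𝓝 0) := by
    refine (h0 1).congr' ?_
    filter_upwards [self_mem_nhdsWithin] with ε hε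
    refine Finset.prod_congr rfl fun v _ => ?_
    have := hn v
    have : (0 : ℝ) < ε := hε
    field_simp
  have hA := he_avg hx hx' hsub h1 h2 φ (fun y => by rw [hφ, norm_eC]) hper hρ' h0'
  obtain ⟨C, hC⟩ := tsum_gau_le (K := K)
  refine hA.congr_dist ?_
  have hε0 : Tendsto (fun ε : ℝ => ε) (𝓝[>] 0) (𝓝 0) := tendsto_id.mono_left nhdsWithin_le_nhds
  have hb : Tendsto (fun ε : ℝ => ε / 2 * (C * (∏ v, 4 * ε * ‖s v‖ / (ε ^ 2 + 16) +
      (∏ _v : Pl K, (2 : ℝ)) / NS x))) (𝓝[>] 0) (𝓝 0) := by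
    simpa using (hε0.div_const 2).mul (((h0 4).add_const ((∏ _v : Pl K, (2 : ℝ)) / NS x)).const_mul C)
  refine squeeze_zero' (Eventually.of_forall fun _ => dist_nonneg) ?_ hb
  filter_upwards [self_mem_nhdsWithin] with ε hε
  have hε : (0 : ℝ) < ε := hε
  have hp : 0 < ∏ v, (ε ^ 2 + 16) / (4 * ε * ‖s v‖) := Finset.prod_pos fun v _ => hρ ε hε v
  have hρ2 : ∀ v, 0 < 2 * ((ε ^ 2 + 16) / (4 * ε * ‖s v‖)) := fun v => by
    have := hρ ε hε v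
    positivity
  have hs0 := he_summable0 hx (hρ ε hε)
  have hs1 : ∀ g : Lat x → Pl K → ℂ, Summable (fun n : Lat x =>
      (gau (fun v => (ε ^ 2 + 16) / (4 * ε * ‖s v‖)) (emb ((n : R K) : K)) : ℂ) * eC (g n)) :=
    fun g => Summable.of_norm_bounded hs0 fun n => by
      rw [norm_mul, norm_eC, mul_one, he_norm_gau]
  simp only [hφ]
  rw [dist_comm, dist_eq_norm, ← sub_div, ← (hs1 _).tsum_sub (hs1 _), norm_div, Complex.norm_real,
    Real.norm_of_nonneg hp.le, div_le_iff₀ hp]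
  refine (tsum_of_norm_bounded ((he_summable0 hx hρ2).mul_left (ε / 2)).hasSum
    fun n => he_err hs hε _).trans ?_
  rw [tsum_mul_left, mul_assoc]
  refine mul_le_mul_of_nonneg_left ?_ (by positivity)
  have h3 := hC x hx _ hρ2 0
  simp only [add_zero] at h3
  refine h3.trans (le_of_eq ?_)
  have h4 : (∏ v, 4 * ε * ‖s v‖ / (ε ^ 2 + 16)) * ∏ v, (ε ^ 2 + 16) / (4 * ε * ‖s v‖) = 1 := by
    rw [← Finset.prod_mul_distrib]
    refine Finset.prod_eq_one fun v _ => ?_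
    have := hn v
    field_simp
  rw [Finset.prod_mul_distrib, mul_assoc, add_mul, h4]
  ring

theorem he_emb_div (x y : K) : emb (x / y) = emb x / emb y := by
  ext v; simp [emb]

theorem he_emb_pow (x : K) (k : ℕ) : emb (x ^ k) = emb x ^ k := by
  ext v; simp [emb]

theorem he_prod_norm (s : R K) :
    ∏ v, ‖emb (s : K) v‖ = Real.sqrt (Nr s) * Real.sqrt (NS (s : K)) := by
  rw [← Real.sqrt_mul (Nr_nonneg s), ← Nm_coe, Nm, Finset.prod_pow, Real.sqrt_sq]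
  exact Finset.prod_nonneg fun v _ => norm_nonneg _

/-- the primal side -/
theorem he_primal {s : R K} (hs : s ≠ 0) {x : K} (hx : x ≠ 0) :
    Tendsto (fun ε : ℝ => (∑' k : Lat x,
      (gau (fun v => ‖emb (s : K) v‖ / ε) (emb ((k : R K) : K)) : ℂ) *
        eS (((k : R K) : K) ^ 2 / s)) / ((∏ v, ‖emb (s : K) v‖ / ε : ℝ) : ℂ)) (𝓝[>] 0)
      (𝓝 ((Real.sqrt (Nr s) * gam s) / ((cov K * NS x * Nr s : ℝ) : ℂ))) := by
  have hsK : (s : K) ≠ 0 := fun h => hs (Subtype.ext h)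
  have hn : ∀ v, 0 < ‖emb (s : K) v‖ := fun v => norm_pos_iff.2 (emb_ne_zero hsK v)
  have hd : (s : K) / (x * dl K) ≠ 0 := div_ne_zero hsK (mul_ne_zero hx dl_ne_zero)
  have hρ' : ∀ᶠ ε : ℝ in 𝓝[>] 0, ∀ v, 0 < ε * ‖emb (s : K) v‖ / 4 := by
    filter_upwards [self_mem_nhdsWithin] with ε hε v
    have := hn v
    have : (0 : ℝ) < ε := hε
    positivity
  have h0 : Tendsto (fun ε : ℝ => ∏ v, ε * ‖emb (s : K) v‖ / 4) (𝓝[>] 0) (𝓝 0) :=
    he_prod_lim (fun v ε => ε * ‖emb (s : K) v‖ / 4) (fun v => by fun_prop) (by simp)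
  have hl := he_lim hd hρ' h0 (fun κ => gs (fun k : R K => eS ((k : K) ^ 2 / s)) s κ)
    (B := Nr s) (fun κ => norm_gs_le hs (fun k => (norm_eS _).le) _)
  have hN : (Real.sqrt (Nr s) : ℂ) ≠ 0 := by
    exact_mod_cast (Real.sqrt_pos.2 (Nr_pos hs)).ne'
  have hg : gs (fun k : R K => eS ((k : K) ^ 2 / s)) s
      ((0 : Lat ((s : K) / (x * dl K))) : R K) = Real.sqrt (Nr s) * gam s := by
    rw [gam, mul_div_cancel₀ _ hN, gs]
    refine Finset.sum_congr rfl fun k _ => ?_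
    simp [eS_R (R K).zero_mem]
  rw [hg] at hl
  refine (hl.div_const _).congr' ?_
  filter_upwards [self_mem_nhdsWithin] with ε hε
  have hε : (0 : ℝ) < ε := hε
  have hρ : ∀ v, 0 < ‖emb (s : K) v‖ / ε := fun v => div_pos (hn v) hε
  have hp : ((∏ v, ‖emb (s : K) v‖ / ε : ℝ) : ℂ) ≠ 0 := by
    exact_mod_cast (Finset.prod_pos fun v _ => hρ v).ne'
  rw [poisson_per hx hρ hs (fun k : R K => eS ((k : K) ^ 2 / s)) (fun a b hab => by
    have : s ∣ a ^ 2 - b ^ 2 := hab.trans (sub_dvd_pow_sub_pow a b 2)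
    simpa using eS_div_congr this)]
  have h5 : ∀ κ : K, gau (fun v => 1 / (4 * (‖emb (s : K) v‖ / ε))) (emb (κ / s)) =
      gau (fun v => ε * ‖emb (s : K) v‖ / 4) (emb κ) := by
    intro κ
    rw [gau, gau, he_emb_div]
    congr 2
    refine Finset.sum_congr rfl fun v _ => ?_
    have := hn v
    rw [Pi.div_apply, norm_div]
    field_simp
  simp only [h5]
  rw [Complex.ofReal_div (∏ v, ‖emb (s : K) v‖ / ε)]
  field_simp

/-- Hecke's formula -/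
theorem he_main {s : R K} (hs : s ≠ 0) {x x' : K} (hx : x ≠ 0) (hx' : x' ≠ 0)
    (h0 : ∀ k ∈ Lat x, InT (dl K)⁻¹ ((k : K) ^ 2 / s)) (hsub : InT (x * dl K)⁻¹ x')
    {F : Finset (R K)} (h1 : ∀ y ∈ F, y ∈ Lat (x * dl K)⁻¹)
    (h2 : ∀ n ∈ Lat (x * dl K)⁻¹, ∃! y, y ∈ F ∧ n - y ∈ Lat x')
    (hper : ∀ y ∈ Lat (x * dl K)⁻¹, ∀ n ∈ Lat x',
      eT (-(s * ((n + y : R K) : K) ^ 2) / 4) = eT (-(s * (y : K) ^ 2) / 4)) :
    gam s = (∑ y ∈ F, eT (-(s * (y : K) ^ 2) / 4)) /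
      ((cov K * NS x' * Real.sqrt (NS (s : K)) : ℝ) : ℂ) := by
  have hsK : (s : K) ≠ 0 := fun h => hs (Subtype.ext h)
  have hne := emb_ne_zero hsK
  have hn : ∀ v, 0 < ‖emb (s : K) v‖ := fun v => norm_pos_iff.2 (hne v)
  have hd : (x * dl K)⁻¹ ≠ 0 := inv_ne_zero (mul_ne_zero hx dl_ne_zero)
  have hA := he_primal hs hx
  have hB := he_dual hne hd hx' hsub h1 h2 (fun y => eT (-(s * (y : K) ^ 2) / 4)) (fun y => by
    rw [← eC_emb]; congr 1; ext v; simp [emb, map_ofNat]) hper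
  have hc : Tendsto (fun ε : ℝ => ((∏ v, Real.sqrt (ε ^ 2 + 16) / (4 * ‖emb (s : K) v‖) : ℝ) : ℂ))
      (𝓝[>] 0) (𝓝 ((∏ v, Real.sqrt (0 ^ 2 + 16) / (4 * ‖emb (s : K) v‖) : ℝ) : ℂ)) := by
    refine (Continuous.tendsto ?_ 0).mono_left nhdsWithin_le_nhds
    fun_prop
  have hC := (hc.mul hB).const_mul (((cov K * NS x : ℝ) : ℂ)⁻¹)
  have hE := tendsto_nhds_unique (hA.congr' ?_) hC
  · have e1 : ∏ v, Real.sqrt (0 ^ 2 + 16) / (4 * ‖emb (s : K) v‖) =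
        (Real.sqrt (Nr s) * Real.sqrt (NS (s : K)))⁻¹ := by
      rw [← he_prod_norm, ← Finset.prod_inv_distrib]
      refine Finset.prod_congr rfl fun v _ => ?_
      have : Real.sqrt (0 ^ 2 + 16) = 4 := by
        rw [show (0 : ℝ) ^ 2 + 16 = 4 ^ 2 by norm_num, Real.sqrt_sq (by norm_num)]
      have := hn v
      rw [‹Real.sqrt (0 ^ 2 + 16) = 4›]
      field_simp
    rw [e1] at hE
    have a1 : (Real.sqrt (Nr s) : ℂ) ≠ 0 := by
      exact_mod_cast (Real.sqrt_pos.2 (Nr_pos hs)).ne'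
    have a2 : (Real.sqrt (NS (s : K)) : ℂ) ≠ 0 := by
      exact_mod_cast (Real.sqrt_pos.2 (NS_pos hsK)).ne'
    have a3 : (cov K : ℂ) ≠ 0 := by exact_mod_cast (cov_pos (K := K)).ne'
    have a4 : (NS x : ℂ) ≠ 0 := by exact_mod_cast (NS_pos hx).ne'
    have a5 : (NS x' : ℂ) ≠ 0 := by exact_mod_cast (NS_pos hx').ne'
    have a6 : (Nr s : ℂ) = (Real.sqrt (Nr s) : ℂ) ^ 2 := by
      exact_mod_cast (Real.sq_sqrt (Nr_nonneg s)).symm
    push_cast at hE ⊢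
    rw [a6] at hE
    field_simp at hE ⊢
    exact hE
  filter_upwards [self_mem_nhdsWithin] with ε hε
  have hε : (0 : ℝ) < ε := hε
  have hρ : ∀ v, 0 < (ε ^ 2 + 16) / (4 * ε * ‖emb (s : K) v‖) := fun v => by
    have := hn v
    positivity
  have hP := poisson hx (he_f_cont (emb (s : K)) ε) (by positivity) (he_f_bound hne hε) (by
    simp_rw [he_ft hne hε, norm_mul, norm_eC, mul_one, he_norm_gau]
    exact (he_summable0 hd hρ).mul_left _)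
  simp_rw [he_ft hne hε] at hP
  have e2 : ∀ k : Lat x, (gau (fun v => ‖emb (s : K) v‖ / ε) (emb ((k : R K) : K)) : ℂ) *
      eS (((k : R K) : K) ^ 2 / s) = he_f (emb (s : K)) ε (emb ((k : R K) : K)) := by
    intro k
    rw [he_f, eS_eq_eT (h0 _ k.2), ← eC_emb, he_emb_div, he_emb_pow]
  rw [tsum_congr e2, hP, tsum_mul_left, mul_div_assoc]
  congr 1
  have hq : 0 < Real.sqrt (ε ^ 2 + 16) := Real.sqrt_pos.2 (by positivity)
  have e3 : (∏ v, ‖emb (s : K) v‖ / Real.sqrt (ε ^ 2 + 16)) / (∏ v, ‖emb (s : K) v‖ / ε) =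
      (∏ v, Real.sqrt (ε ^ 2 + 16) / (4 * ‖emb (s : K) v‖)) /
        ∏ v, (ε ^ 2 + 16) / (4 * ε * ‖emb (s : K) v‖) := by
    rw [← Finset.prod_div_distrib, ← Finset.prod_div_distrib]
    refine Finset.prod_congr rfl fun v _ => ?_
    have := hn v
    have h16 : Real.sqrt (ε ^ 2 + 16) ^ 2 = ε ^ 2 + 16 := Real.sq_sqrt (by positivity)
    field_simp
    exact h16.symm
  rw [mul_div_right_comm, ← Complex.ofReal_div, e3, Complex.ofReal_div]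
  ring

end Crest.Agent.GQ
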