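import Crest.Agent.GQ.Poisson
import Crest.Agent.GQ.Gauss
import Crest.Agent.GQ.HeckeAux3

/-! # GQ Hecke: the quadratic Gauss sum is a class function -/

set_option autoImplicit false

noncomputable section

open NumberField Complex
open scoped ComplexConjugate

namespace Crest.Agent.GQ

variable {K : Type} [Field K] [NumberField K] [P : Pre K]

theorem he_gam_unit (u : (R K)ˣ) {s : R K} (hs : s ≠ 0) : gam ((u : R K) ^ 2 * s) = gam s := by
  have ha : Associated ((u : R K) ^ 2 * s) s :=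
    associated_unit_mul_left _ _ (u.isUnit.pow 2)
  have hu : ((u : R K) : K) ≠ 0 := fun h => u.ne_zero (Subtype.ext h)
  rw [gam, gam, Nr_associated ha, sum_reps_associated ha]
  congr 1
  rw [← sum_reps_affine hs (fun x : R K => eS ((x : K) ^ 2 / (((u : R K) ^ 2 * s : R K) : K)))
    (fun a b hab => ?_) (u := u) ⟨(u⁻¹ : (R K)ˣ), 0, by simp⟩ 0]
  · refine Finset.sum_congr rfl fun x _ => ?_
    congr 1
    push_cast
    rw [add_zero, mul_pow, mul_div_mul_left _ _ (pow_ne_zero 2 hu)]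
  · have : (u : R K) ^ 2 * s ∣ a ^ 2 - b ^ 2 :=
      ha.dvd.trans (hab.trans (sub_dvd_pow_sub_pow a b 2))
    simpa using eS_div_congr this

theorem he_InT_dl {t : K} (ht : t ∈ T K) : InT (dl K)⁻¹ t :=
  ⟨dl K * t, (T K).mul_mem dl_mem_T ht, by
    rw [← mul_assoc, inv_mul_cancel₀ dl_ne_zero, one_mul]⟩

theorem he_quarter : (4 : K)⁻¹ ∈ R K := by
  obtain ⟨b, hb⟩ := (isUnit_two (K := K)).exists_right_inv
  have h : (2 : K) * (b : K) = 1 := congrArg Subtype.val hb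
  have : (4 : K)⁻¹ = (b : K) * b := by
    refine inv_eq_of_mul_eq_one_right ?_
    linear_combination ((2 : K) * b + 1) * h
  rw [this]
  exact (R K).mul_mem b.2 b.2

theorem he_eT_congr {a b : K} (ha : a ∈ R K) (hb : b ∈ R K) (h : a - b ∈ T K) : eT a = eT b := by
  rw [← eM_R ha, ← eM_R hb, show a = b + (a - b) by ring, eM_add, eM_T (he_InT_dl h), mul_one]

theorem he_phase_mem (s y : R K) : -((s : K) * (y : K) ^ 2) / 4 ∈ R K := by
  rw [div_eq_mul_inv]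
  exact (R K).mul_mem ((R K).neg_mem ((R K).mul_mem s.2 ((R K).pow_mem y.2 2))) he_quarter

theorem he_level {σ : K} (hσ : σ ≠ 0) : ∃ k : ℕ, 1 ≤ k ∧
    ∀ s s' : R K, s ∈ cls 1 σ → s' ∈ cls k (s : K) → gam s' = gam s := by
  obtain ⟨a, t₀, ht₀, ha⟩ := exists_pow_InT hσ
  set x : K := MK K ^ a with hxdef
  have hx : x ≠ 0 := pow_ne_zero _ MK_ne_zero
  have hxT : x ∈ T K := (T K).pow_mem MK_mem_T a
  set x₁ : K := (x * dl K)⁻¹ with hx₁def
  have hx₁ : x₁ ≠ 0 := inv_ne_zero (mul_ne_zero hx dl_ne_zero)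
  obtain ⟨c, hc⟩ := exists_pow_mul_mem_T (σ * x₁ ^ 2 / 4)
  set m : K := MK K ^ (c + 1) with hm
  have hmT : m ∈ T K := (T K).pow_mem MK_mem_T _
  have hτ : m * (σ * x₁ ^ 2 / 4) ∈ T K := by
    rw [hm, pow_succ', mul_assoc]
    exact (T K).mul_mem MK_mem_T hc
  have hx' : x₁ * m ≠ 0 := mul_ne_zero hx₁ (pow_ne_zero _ MK_ne_zero)
  have hsub : InT x₁ (x₁ * m) := ⟨m, hmT, rfl⟩
  obtain ⟨F, h1, h2, -⟩ := lat_reps hx' hsub
  have key : ∀ s : R K, s ∈ cls 1 σ → gam s = (∑ y ∈ F, eT (-(s * (y : K) ^ 2) / 4)) /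
      ((cov K * NS (x₁ * m) * Real.sqrt (NS (s : K)) : ℝ) : ℂ) := by
    intro s hs
    have hs0 := ne_zero_of_mem_cls le_rfl hσ hs
    have hsK : (s : K) ≠ 0 := fun h => hs0 (Subtype.ext h)
    obtain ⟨u, hu, hsu⟩ := mem_Lat.1 (mem_Lat_of_mem_cls hs)
    obtain ⟨u', hu', hsu'⟩ := InT_of_mem_cls le_rfl hσ hs
    refine he_main hs0 hx hx' (fun k hk => he_InT_dl ?_) hsub h1 h2 fun y hy n hn => ?_
    · obtain ⟨t, ht, hk⟩ := mem_Lat.1 hk
      have : (k : K) ^ 2 / s = x * t₀ * u' * t ^ 2 := by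
        rw [hk, div_eq_iff hsK]
        linear_combination (x * t ^ 2) * ha + (x * t₀ * t ^ 2) * hsu'
      rw [this]
      exact (T K).mul_mem ((T K).mul_mem ((T K).mul_mem hxT ht₀) hu') ((T K).pow_mem ht 2)
    · obtain ⟨t, ht, hy⟩ := mem_Lat.1 hy
      obtain ⟨t', ht', hn⟩ := mem_Lat.1 hn
      refine he_eT_congr (he_phase_mem _ _) (he_phase_mem _ _) ?_
      have : -((s : K) * ((n + y : R K) : K) ^ 2) / 4 - -((s : K) * (y : K) ^ 2) / 4 =
          -(m * (σ * x₁ ^ 2 / 4) * (u * (t * t' + t * t' + m * t' ^ 2))) := by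
        push_cast
        rw [hy, hn, hsu]
        ring
      rw [this]
      exact (T K).neg_mem ((T K).mul_mem hτ ((T K).mul_mem hu ((T K).add_mem
        ((T K).add_mem ((T K).mul_mem ht ht') ((T K).mul_mem ht ht'))
        ((T K).mul_mem hmT ((T K).pow_mem ht' 2)))))
  refine ⟨c + 1, by omega, fun s s' hs hs' => ?_⟩
  have hs0 := ne_zero_of_mem_cls le_rfl hσ hs
  have hsK : (s : K) ≠ 0 := fun h => hs0 (Subtype.ext h)
  have hs'' : s' ∈ cls 1 σ := by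
    rw [← cls_eq_of_mem le_rfl hσ hs]
    exact cls_mono (by omega) _ hs'
  rw [key s hs, key s' hs'', NS_cls (by omega) hsK hs']
  congr 1
  refine Finset.sum_congr rfl fun y hy => ?_
  obtain ⟨t, ht, hy⟩ := mem_Lat.1 (h1 y hy)
  obtain ⟨u, hu, hsu⟩ := mem_Lat.1 (mem_Lat_of_mem_cls hs)
  obtain ⟨t', ht', h'⟩ := hs'
  refine he_eT_congr (he_phase_mem _ _) (he_phase_mem _ _) ?_
  have : -((s' : K) * (y : K) ^ 2) / 4 - -((s : K) * (y : K) ^ 2) / 4 =
      -(m * (σ * x₁ ^ 2 / 4) * (u * t' * t ^ 2)) := by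
    rw [hy, eq_add_of_sub_eq h', hsu]
    ring
  rw [this]
  exact (T K).neg_mem ((T K).mul_mem hτ ((T K).mul_mem ((T K).mul_mem hu ht')
    ((T K).pow_mem ht 2)))

theorem exists_gam_level : ∃ k : ℕ, 1 ≤ k ∧
    ∀ s s' : R K, s ≠ 0 → s' ∈ cls k (s : K) → gam s' = gam s := by
  classical
  obtain ⟨𝒮, h𝒮, hfin⟩ := cls_fin (K := K) 1 (m := 2) (by norm_num)
  have h : ∀ σ : K, ∃ k : ℕ, σ ≠ 0 →
      ∀ s s' : R K, s ∈ cls 1 σ → s' ∈ cls k (s : K) → gam s' = gam s := by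
    intro σ
    by_cases hσ : σ = 0
    · exact ⟨0, fun h => (h hσ).elim⟩
    · obtain ⟨k, -, hk⟩ := he_level hσ
      exact ⟨k, fun _ => hk⟩
  choose k hk using h
  refine ⟨𝒮.sup k + 1, by omega, fun s s' hs hs' => ?_⟩
  have hsK : (s : K) ≠ 0 := fun h => hs (Subtype.ext h)
  have hs0 : s' ≠ 0 := ne_zero_of_mem_cls (by omega) hsK hs'
  obtain ⟨σ, hσ, u, hu⟩ := hfin s hsK
  have hu0 : ((u : R K) : K) ≠ 0 := fun h => u.ne_zero (Subtype.ext h)
  have hinv : (((u⁻¹ : (R K)ˣ) : R K) : K) = ((u : R K) : K)⁻¹ := by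
    refine eq_inv_of_mul_eq_one_left ?_
    exact_mod_cast congrArg Subtype.val u.inv_mul
  have hσ0 := h𝒮 σ hσ
  rw [← he_gam_unit u⁻¹ hs, ← he_gam_unit u⁻¹ hs0]
  refine hk σ hσ0 _ _ ?_ ?_
  · rw [mem_cls_iff hσ0]
    convert hu using 1
    push_cast
    rw [hinv]
    field_simp
  · have h1 : s' ∈ cls (k σ) (s : K) :=
      cls_mono ((Finset.le_sup (f := k) hσ).trans (Nat.le_succ _)) _ hs'
    have h2 := mul_mem_cls (self_mem_cls (k σ) (((u⁻¹ : (R K)ˣ) : R K) ^ 2)) h1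
    simpa using h2

end Crest.Agent.GQ
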