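import Crest.Agent.GQ.Poisson

/-! # GQ HeckeAux1: Fourier transform of a Gaussian with a quadratic phase -/

set_option autoImplicit false

noncomputable section

open NumberField Complex
open scoped ComplexConjugate

namespace Crest.Agent.GQ

open MeasureTheory

/-- change of variables `z = c ζ` on `ℂ` -/
theorem he_scale (g : ℂ → ℂ) {c : ℂ} (hc : c ≠ 0) :
    ∫ z : ℂ, g z = ((‖c‖ ^ 2 : ℝ) : ℂ) * ∫ z : ℂ, g (c * z) := by
  have hn : 0 < ‖c‖ := norm_pos_iff.2 hc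
  have hnC : (‖c‖ : ℂ) ≠ 0 := by exact_mod_cast hn.ne'
  let u : Circle := ⟨c / ‖c‖, by
    simp [Submonoid.unitSphere, hn.ne']⟩
  have h1 := MeasureTheory.integral_comp (rotation u) g
  have h2 := Measure.integral_comp_smul_of_nonneg (volume : Measure ℂ)
    (fun z => g (rotation u z)) ‖c‖ (hR := hn.le)
  have h3 : ∀ z : ℂ, rotation u (‖c‖ • z) = c * z := by
    intro z
    rw [rotation_apply]
    change c / ‖c‖ * (‖c‖ • z) = c * z
    rw [Complex.real_smul]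
    field_simp
  simp only [h3, Complex.finrank_real_complex] at h2
  rw [h2, h1, Complex.real_smul, ← mul_assoc]
  push_cast
  rw [mul_inv_cancel₀ (pow_ne_zero 2 hnC), one_mul]

theorem he_sqrt {A : ℂ} (hA : 0 < A.re) :
    (1 / A) ^ (1 / 2 : ℂ) * (1 / conj A) ^ (1 / 2 : ℂ) = ((Real.sqrt (normSq A))⁻¹ : ℝ) := by
  have hA0 : A ≠ 0 := fun h => by simp [h] at hA
  have hA0' : conj A ≠ 0 := by simpa using hA0
  have harg : A.arg ≠ Real.pi := fun h => by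
    have := (arg_eq_pi_iff.1 h).1
    linarith
  have harg' : (conj A).arg ≠ Real.pi := fun h => by
    have := (arg_eq_pi_iff.1 h).1
    simp at this
    linarith
  have hN : 0 < normSq A := normSq_pos.2 hA0
  rw [one_div A, one_div (conj A), cpow_def_of_ne_zero (inv_ne_zero hA0),
    cpow_def_of_ne_zero (inv_ne_zero hA0'), ← Complex.exp_add, Complex.log_inv _ harg,
    Complex.log_inv _ harg', Complex.log_conj _ harg, Real.sqrt_eq_rpow, ← Real.rpow_neg hN.le,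
    Real.rpow_def_of_pos hN, Complex.ofReal_exp]
  congr 1
  have h1 : Complex.log A + conj (Complex.log A) = ((2 * Real.log ‖A‖ : ℝ) : ℂ) := by
    rw [Complex.add_conj, Complex.log_re]
  have h2 : Real.log (normSq A) = 2 * Real.log ‖A‖ := by
    rw [Complex.normSq_eq_norm_sq, Real.log_pow]; norm_num
  rw [h2]
  push_cast at h1 ⊢
  linear_combination (-1 / 2 : ℂ) * h1

/-- the standard quadratic phase -/
theorem he_std {ε : ℝ} (hε : 0 < ε) (W : ℂ) :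
    ∫ z : ℂ, cexp (-(Real.pi * ε * ‖z‖ ^ 2 : ℝ) + 2 * Real.pi * I * (2 * (z ^ 2).re : ℝ) +
        2 * Real.pi * I * (2 * (-(W * z)).re : ℝ)) =
      ((Real.sqrt (ε ^ 2 + 16))⁻¹ : ℝ) *
        cexp (-(4 * Real.pi * ε * ‖W‖ ^ 2 / (ε ^ 2 + 16) : ℝ) +
          2 * Real.pi * I * (2 * (-(4 / (ε ^ 2 + 16) : ℝ) * W ^ 2).re : ℝ)) := by
  have hπ : (Real.pi : ℂ) ≠ 0 := by exact_mod_cast Real.pi_ne_zero
  set A : ℂ := ε - 4 * I with hA
  have hAre : A.re = ε := by simp [hA]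
  have hcA : conj A = ε + 4 * I := by simp [hA, map_ofNat]
  have hN : normSq A = ε ^ 2 + 16 := by simp [hA, normSq_apply]; ring
  have hA0 : A ≠ 0 := fun h => by rw [h] at hAre; simp at hAre; linarith
  have hA0' : conj A ≠ 0 := by simpa using hA0
  have hD : (0 : ℝ) < ε ^ 2 + 16 := by positivity
  have hDC : ((ε : ℂ) ^ 2 + 16) ≠ 0 := by exact_mod_cast hD.ne'
  rw [← (Complex.volume_preserving_equiv_real_prod.symm).integral_comp
    measurableEquivRealProd.symm.measurableEmbedding]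
  have h1 : ∀ p : ℝ × ℝ, cexp (-(Real.pi * ε * ‖measurableEquivRealProd.symm p‖ ^ 2 : ℝ) +
      2 * Real.pi * I * (2 * ((measurableEquivRealProd.symm p) ^ 2).re : ℝ) +
        2 * Real.pi * I * (2 * (-(W * measurableEquivRealProd.symm p)).re : ℝ)) =
      cexp ((-Real.pi * A) * (p.1 : ℂ) ^ 2 + (-4 * Real.pi * I * W.re) * p.1 + 0) *
      cexp ((-Real.pi * conj A) * (p.2 : ℂ) ^ 2 + (4 * Real.pi * I * W.im) * p.2 + 0) := by
    intro p
    rw [← Complex.exp_add, hcA, hA]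
    congr 1
    have e0 : measurableEquivRealProd.symm p = ⟨p.1, p.2⟩ := by
      simp [measurableEquivRealProd]
      rfl
    rw [e0, Complex.sq_norm, normSq_apply, pow_two (⟨p.1, p.2⟩ : ℂ)]
    simp only [mul_re, neg_re]
    push_cast
    ring
  simp_rw [h1]
  rw [Measure.volume_eq_prod, integral_prod_mul (fun x : ℝ => cexp ((-Real.pi * A) * (x : ℂ) ^ 2 +
      (-4 * Real.pi * I * W.re) * x + 0))
      (fun x : ℝ => cexp ((-Real.pi * conj A) * (x : ℂ) ^ 2 + (4 * Real.pi * I * W.im) * x + 0)),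
    integral_cexp_quadratic (by simp [hAre]; positivity),
    integral_cexp_quadratic (by simp [hAre]; positivity)]
  have e1 : (Real.pi : ℂ) / -(-Real.pi * A) = 1 / A := by field_simp
  have e2 : (Real.pi : ℂ) / -(-Real.pi * conj A) = 1 / conj A := by field_simp
  rw [e1, e2, mul_mul_mul_comm, he_sqrt (by rw [hAre]; exact hε), hN, ← Complex.exp_add]
  congr 2
  have hAA : A * conj A = (ε : ℂ) ^ 2 + 16 := by
    rw [Complex.mul_conj, hN]; push_cast; ring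
  have i1 : A⁻¹ = conj A / ((ε : ℂ) ^ 2 + 16) := by
    rw [← hAA]; field_simp
  have i2 : (conj A)⁻¹ = A / ((ε : ℂ) ^ 2 + 16) := by
    rw [← hAA]; field_simp
  have e3 : (0 : ℂ) - (-4 * Real.pi * I * W.re) ^ 2 / (4 * (-Real.pi * A)) =
      -4 * Real.pi * W.re ^ 2 * A⁻¹ := by
    field_simp
    linear_combination (4 * (Real.pi : ℂ) * (W.re : ℂ) ^ 2) * I_mul_I
  have e4 : (0 : ℂ) - (4 * Real.pi * I * W.im) ^ 2 / (4 * (-Real.pi * conj A)) =
      -4 * Real.pi * W.im ^ 2 * (conj A)⁻¹ := by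
    field_simp
    linear_combination (4 * (Real.pi : ℂ) * (W.im : ℂ) ^ 2) * I_mul_I
  rw [e3, e4, i1, i2, hcA, hA, Complex.sq_norm, normSq_apply,
    ← Complex.ofReal_neg (4 / (ε ^ 2 + 16)), re_ofReal_mul, pow_two W, mul_re]
  push_cast
  field_simp
  ring

/-- one complex place -/
theorem he_one {ε : ℝ} (hε : 0 < ε) {s : ℂ} (hs : s ≠ 0) (w : ℂ) :
    ∫ z : ℂ, cexp (-(Real.pi * (‖z‖ ^ 2 / (‖s‖ / ε)) : ℝ) +
        2 * Real.pi * I * (2 * (z ^ 2 / s).re : ℝ) + 2 * Real.pi * I * (2 * (-(w * z)).re : ℝ)) =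
      ((‖s‖ / Real.sqrt (ε ^ 2 + 16) : ℝ) : ℂ) *
        cexp (-(Real.pi * (‖w‖ ^ 2 / ((ε ^ 2 + 16) / (4 * ε * ‖s‖))) : ℝ) +
          2 * Real.pi * I * (2 * (-(4 / (ε ^ 2 + 16) : ℝ) * (s * w ^ 2)).re : ℝ)) := by
  obtain ⟨c, hc⟩ := IsAlgClosed.exists_eq_mul_self s
  have hc0 : c ≠ 0 := fun h => hs (by rw [hc, h, mul_zero])
  have hn : ‖c‖ ^ 2 = ‖s‖ := by rw [hc, norm_mul, sq]
  have hs0 : 0 < ‖s‖ := norm_pos_iff.2 hs
  rw [he_scale _ hc0]
  have h1 : ∀ z : ℂ, cexp (-(Real.pi * (‖c * z‖ ^ 2 / (‖s‖ / ε)) : ℝ) +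
        2 * Real.pi * I * (2 * ((c * z) ^ 2 / s).re : ℝ) +
        2 * Real.pi * I * (2 * (-(w * (c * z))).re : ℝ)) =
      cexp (-(Real.pi * ε * ‖z‖ ^ 2 : ℝ) + 2 * Real.pi * I * (2 * (z ^ 2).re : ℝ) +
        2 * Real.pi * I * (2 * (-(w * c * z)).re : ℝ)) := by
    intro z
    have a1 : Real.pi * (‖c * z‖ ^ 2 / (‖s‖ / ε)) = Real.pi * ε * ‖z‖ ^ 2 := by
      rw [norm_mul, mul_pow, hn]; field_simp
    have a2 : (c * z) ^ 2 / s = z ^ 2 := by
      rw [hc]; field_simp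
    rw [a1, a2, mul_assoc w c z]
  simp_rw [h1]
  rw [he_std hε, hn, ← mul_assoc]
  have a3 : 4 * Real.pi * ε * ‖w * c‖ ^ 2 / (ε ^ 2 + 16) =
      Real.pi * (‖w‖ ^ 2 / ((ε ^ 2 + 16) / (4 * ε * ‖s‖))) := by
    rw [norm_mul, mul_pow, hn]; field_simp
  have a4 : (w * c) ^ 2 = s * w ^ 2 := by rw [hc]; ring
  rw [a3, a4]
  congr 1
  push_cast
  rw [div_eq_mul_inv]

variable {K : Type} [Field K] [NumberField K] [P : Pre K]

/-- Gaussian with a quadratic phase -/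
def he_f (s : Pl K → ℂ) (ε : ℝ) (z : Pl K → ℂ) : ℂ :=
  (gau (fun v => ‖s v‖ / ε) z : ℂ) * eC (z ^ 2 / s)

theorem he_ft {s : Pl K → ℂ} (hs : ∀ v, s v ≠ 0) {ε : ℝ} (hε : 0 < ε) (w : Pl K → ℂ) :
    ∫ z, he_f s ε z * eC (-(w * z)) =
      ((∏ v, ‖s v‖ / Real.sqrt (ε ^ 2 + 16) : ℝ) : ℂ) *
        ((gau (fun v => (ε ^ 2 + 16) / (4 * ε * ‖s v‖)) w : ℂ) *
          eC (fun v => -(4 / (ε ^ 2 + 16) : ℝ) * (s v * w v ^ 2))) := by
  have h1 : ∀ z : Pl K → ℂ, he_f s ε z * eC (-(w * z)) = ∏ v,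
      cexp (-(Real.pi * (‖z v‖ ^ 2 / (‖s v‖ / ε)) : ℝ) +
        2 * Real.pi * I * (2 * (z v ^ 2 / s v).re : ℝ) +
        2 * Real.pi * I * (2 * (-(w v * z v)).re : ℝ)) := by
    intro z
    rw [he_f, gau, eC, eC, Complex.ofReal_exp, ← Complex.exp_add, ← Complex.exp_add,
      ← Complex.exp_sum]
    congr 1
    simp only [Finset.sum_add_distrib, Pi.div_apply, Pi.pow_apply, Pi.neg_apply, Pi.mul_apply]
    push_cast
    simp only [Finset.mul_sum, Finset.sum_neg_distrib, neg_mul]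
  simp_rw [h1]
  rw [integral_fintype_prod_volume_eq_prod (fun v (z : ℂ) =>
    cexp (-(Real.pi * (‖z‖ ^ 2 / (‖s v‖ / ε)) : ℝ) +
        2 * Real.pi * I * (2 * (z ^ 2 / s v).re : ℝ) +
        2 * Real.pi * I * (2 * (-(w v * z)).re : ℝ)))]
  simp_rw [fun v => he_one hε (hs v) (w v)]
  rw [Finset.prod_mul_distrib, ← Complex.ofReal_prod, gau, eC, Complex.ofReal_exp,
    ← Complex.exp_add, ← Complex.exp_sum]
  congr 2
  simp only [Finset.sum_add_distrib]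
  push_cast
  simp only [Finset.mul_sum, Finset.sum_neg_distrib, neg_mul]

end Crest.Agent.GQ
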