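import Crest.Agent.GQ.HeckeAux1

/-! # GQ HeckeAux2: limits of Gaussian sums over lattices -/

set_option autoImplicit false

noncomputable section

open NumberField Complex Filter Topology
open scoped ComplexConjugate

namespace Crest.Agent.GQ

variable {K : Type} [Field K] [NumberField K] [P : Pre K]

theorem he_gau_pos (ρ : Pl K → ℝ) (z : Pl K → ℂ) : 0 < gau ρ z := Real.exp_pos _

theorem he_norm_gau (ρ : Pl K → ℝ) (z : Pl K → ℂ) : ‖(gau ρ z : ℂ)‖ = gau ρ z := by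
  rw [Complex.norm_real, Real.norm_of_nonneg (he_gau_pos ρ z).le]

theorem he_summable {x : K} (hx : x ≠ 0) {ρ : Pl K → ℝ} (hρ : ∀ v, 0 < ρ v) (z : Pl K → ℂ) :
    Summable (fun n : Lat x => gau ρ (emb ((n : R K) : K) + z)) := by
  simpa using summable_gau hx hρ z 0

theorem he_summable0 {x : K} (hx : x ≠ 0) {ρ : Pl K → ℝ} (hρ : ∀ v, 0 < ρ v) :
    Summable (fun n : Lat x => gau ρ (emb ((n : R K) : K))) := by
  simpa using he_summable hx hρ 0

theorem he_emb_zero : emb (0 : K) = 0 := by ext v; simp [emb]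

theorem he_eC_zero : eC (0 : Pl K → ℂ) = 1 := by simp [eC]

theorem he_small : ∃ C : ℝ, ∀ x : K, x ≠ 0 → ∀ ρ : Pl K → ℝ, (∀ v, 0 < ρ v) →
    ∀ (a : Lat x → ℂ) (B : ℝ), (∀ n, ‖a n‖ ≤ B) →
    ‖∑' n : Lat x, a n * (gau ρ (emb ((n : R K) : K)) : ℂ) - a 0‖ ≤
      B * (|C| * ((∏ v, ρ v) / NS x)) := by
  classical
  obtain ⟨C, hC⟩ := tsum_gau_ne_zero_le (K := K) (A := 0) (B := 1) le_rfl (by norm_num)
  refine ⟨C, fun x hx ρ hρ a B ha => ?_⟩
  have hB : 0 ≤ B := (norm_nonneg _).trans (ha 0)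
  have h1 := hC x hx ρ hρ
  simp only [Real.rpow_zero, one_mul, add_zero, Real.rpow_one, min_self] at h1
  have hs := he_summable0 hx hρ
  have hs1 : Summable (fun n : Lat x => a n * (gau ρ (emb ((n : R K) : K)) : ℂ)) := by
    refine Summable.of_norm_bounded (hs.mul_left B) fun n => ?_
    rw [norm_mul, he_norm_gau]
    exact mul_le_mul_of_nonneg_right (ha n) (he_gau_pos _ _).le
  have hs2 : Summable (fun n : Lat x =>
      if (n : R K) = 0 then (0 : ℝ) else gau ρ (emb ((n : R K) : K))) := by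
    refine Summable.of_nonneg_of_le (fun n => ?_) (fun n => ?_) hs
    · split_ifs
      · exact le_rfl
      · exact (he_gau_pos _ _).le
    · split_ifs
      · exact (he_gau_pos _ _).le
      · exact le_rfl
  rw [hs1.tsum_eq_add_tsum_ite 0]
  have h0 : (gau ρ (emb (((0 : Lat x) : R K) : K)) : ℂ) = 1 := by
    simp [gau, emb]
  rw [h0, mul_one, add_sub_cancel_left]
  have hq : 0 ≤ (∏ v, ρ v) / NS x :=
    div_nonneg (Finset.prod_nonneg fun v _ => (hρ v).le) (NS_pos hx).le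
  refine (tsum_of_norm_bounded (hs2.mul_left B).hasSum fun n => ?_).trans ?_
  · by_cases hn : n = 0
    · simp [hn]
    · have hn' : (n : R K) ≠ 0 := fun h => hn (Subtype.ext h)
      rw [if_neg hn, if_neg hn', norm_mul, he_norm_gau]
      exact mul_le_mul_of_nonneg_right (ha n) (he_gau_pos _ _).le
  · rw [tsum_mul_left]
    refine mul_le_mul_of_nonneg_left (le_trans (le_of_eq ?_) (h1.trans ?_)) hB
    · congr
    · exact mul_le_mul_of_nonneg_right (le_abs_self C) hq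

theorem he_lim {α : Type} {l : Filter α} {x : K} (hx : x ≠ 0) {ρ : α → Pl K → ℝ}
    (hρ : ∀ᶠ ε in l, ∀ v, 0 < ρ ε v) (h0 : Tendsto (fun ε => ∏ v, ρ ε v) l (𝓝 0))
    (a : Lat x → ℂ) {B : ℝ} (ha : ∀ n, ‖a n‖ ≤ B) :
    Tendsto (fun ε => ∑' n : Lat x, a n * (gau (ρ ε) (emb ((n : R K) : K)) : ℂ)) l (𝓝 (a 0)) := by
  obtain ⟨C, hC⟩ := he_small (K := K)
  rw [tendsto_iff_norm_sub_tendsto_zero]
  have h1 : Tendsto (fun ε => B * (|C| * ((∏ v, ρ ε v) / NS x))) l (𝓝 0) := by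
    simpa using ((h0.div_const (NS x)).const_mul |C|).const_mul B
  refine squeeze_zero' (Eventually.of_forall fun _ => norm_nonneg _) ?_ h1
  filter_upwards [hρ] with ε hε using hC x hx (ρ ε) hε a B ha

/-- decomposition of a lattice sum into cosets -/
theorem he_coset {x x' : K} (hsub : InT x x') {F : Finset (R K)} (h1 : ∀ y ∈ F, y ∈ Lat x)
    (h2 : ∀ n ∈ Lat x, ∃! y, y ∈ F ∧ n - y ∈ Lat x') (g : R K → ℂ)
    (hg : Summable (fun n : Lat x => g n)) :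
    ∑' n : Lat x, g n = ∑ y ∈ F, ∑' n : Lat x', g (n + y) := by
  have hle : ∀ n : R K, n ∈ Lat x' → n ∈ Lat x := fun n hn => hsub.trans hn
  let e : F × Lat x' → Lat x := fun p => ⟨p.2 + p.1, (Lat x).add_mem (hle _ p.2.2) (h1 _ p.1.2)⟩
  have he : Function.Bijective e := by
    constructor
    · rintro ⟨y, n⟩ ⟨y', n'⟩ h
      have h' : (n : R K) + y = n' + y' := congrArg Subtype.val h
      obtain ⟨z, -, hz⟩ := h2 _ (e (y, n)).2
      have a1 : (y : R K) = z := hz y ⟨y.2, by simpa [e] using n.2⟩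
      have a2 : (y' : R K) = z := hz y' ⟨y'.2, by
        change (n : R K) + y - y' ∈ Lat x'
        rw [h']; simpa using n'.2⟩
      have a3 : (y : R K) = y' := a1.trans a2.symm
      rw [a3] at h'
      exact Prod.ext (Subtype.ext a3) (Subtype.ext (add_right_cancel h'))
    · intro n
      obtain ⟨y, ⟨hy, hy'⟩, -⟩ := h2 _ n.2
      exact ⟨(⟨y, hy⟩, ⟨n - y, hy'⟩), Subtype.ext (by simp [e])⟩
  rw [← (Equiv.ofBijective e he).tsum_eq]
  have hs : Summable (fun p => g ((Equiv.ofBijective e he) p)) :=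
    (Equiv.ofBijective e he).summable_iff.2 hg
  rw [hs.tsum_prod, tsum_fintype, ← Finset.sum_coe_sort F]
  rfl

/-- averages of periodic functions against wide Gaussians -/
theorem he_avg {α : Type} {l : Filter α} {x x' : K} (hx : x ≠ 0) (hx' : x' ≠ 0) (hsub : InT x x')
    {F : Finset (R K)} (h1 : ∀ y ∈ F, y ∈ Lat x)
    (h2 : ∀ n ∈ Lat x, ∃! y, y ∈ F ∧ n - y ∈ Lat x') (φ : R K → ℂ) (hφ : ∀ y, ‖φ y‖ ≤ 1)
    (hper : ∀ y ∈ Lat x, ∀ n ∈ Lat x', φ (n + y) = φ y) {ρ : α → Pl K → ℝ}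
    (hρ : ∀ᶠ ε in l, ∀ v, 0 < ρ ε v) (h0 : Tendsto (fun ε => ∏ v, 1 / (4 * ρ ε v)) l (𝓝 0)) :
    Tendsto (fun ε => (∑' n : Lat x, (gau (ρ ε) (emb ((n : R K) : K)) : ℂ) * φ n) /
      ((∏ v, ρ ε v : ℝ) : ℂ)) l (𝓝 ((∑ y ∈ F, φ y) / ((cov K * NS x' : ℝ) : ℂ))) := by
  have hd : (x' * dl K)⁻¹ ≠ 0 := inv_ne_zero (mul_ne_zero hx' dl_ne_zero)
  have hρ' : ∀ᶠ ε in l, ∀ v, 0 < 1 / (4 * ρ ε v) := by
    filter_upwards [hρ] with ε hε v
    have := hε v
    positivity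
  have hl : ∀ y : R K, Tendsto (fun ε => ∑' n : Lat (x' * dl K)⁻¹,
      eC (emb ((n : R K) : K) * emb (y : K)) *
        (gau (fun v => 1 / (4 * ρ ε v)) (emb ((n : R K) : K)) : ℂ)) l (𝓝 1) := by
    intro y
    have := he_lim hd hρ' h0 (fun n => eC (emb ((n : R K) : K) * emb (y : K))) (B := 1)
      (fun n => (norm_eC _).le)
    simpa [he_emb_zero, he_eC_zero] using this
  have h3 : Tendsto (fun ε => ∑ y ∈ F, φ y / ((cov K * NS x' : ℝ) : ℂ) *
      ∑' n : Lat (x' * dl K)⁻¹, eC (emb ((n : R K) : K) * emb (y : K)) *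
        (gau (fun v => 1 / (4 * ρ ε v)) (emb ((n : R K) : K)) : ℂ)) l
      (𝓝 (∑ y ∈ F, φ y / ((cov K * NS x' : ℝ) : ℂ) * 1)) :=
    tendsto_finset_sum _ fun y _ => (hl y).const_mul _
  simp only [mul_one, ← Finset.sum_div] at h3
  refine h3.congr' ?_
  filter_upwards [hρ] with ε hε
  have hp : ((∏ v, ρ ε v : ℝ) : ℂ) ≠ 0 := by
    exact_mod_cast (Finset.prod_pos fun v _ => hε v).ne'
  have hs : Summable (fun n : Lat x => (gau (ρ ε) (emb ((n : R K) : K)) : ℂ) * φ n) := by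
    refine Summable.of_norm_bounded (he_summable0 hx hε) fun n => ?_
    rw [norm_mul, he_norm_gau]
    exact mul_le_of_le_one_right (he_gau_pos _ _).le (hφ _)
  rw [he_coset hsub h1 h2 (fun n => (gau (ρ ε) (emb ((n : R K) : K)) : ℂ) * φ n) hs,
    Finset.sum_div]
  refine Finset.sum_congr rfl fun y hy => ?_
  have h4 := poisson_gau hx' hε (emb (y : K)) 0
  simp only [mul_zero, he_eC_zero, mul_one, sub_zero] at h4
  have h5 : ∀ n : Lat x', (gau (ρ ε) (emb ((((n : R K) + y : R K)) : K)) : ℂ) * φ (n + y) =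
      φ y * (gau (ρ ε) (emb ((n : R K) : K) + emb (y : K)) : ℂ) := by
    intro n
    rw [hper y (h1 y hy) n n.2, mul_comm, ← emb_add]
    rfl
  rw [tsum_congr h5, tsum_mul_left, h4]
  simp_rw [mul_comm (eC _)]
  push_cast at hp ⊢
  field_simp

theorem he_eC_sub_one (z : Pl K → ℂ) : ‖eC z - 1‖ ≤ 4 * Real.pi * ∑ v, ‖z v‖ := by
  have h1 : eC z = cexp (I * (2 * Real.pi * ∑ v, 2 * (z v).re : ℝ)) := by
    rw [eC]; congr 1; push_cast; ring
  rw [h1]
  refine Real.norm_exp_I_mul_ofReal_sub_one_le.trans ?_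
  rw [Real.norm_eq_abs, abs_mul, abs_of_pos (by positivity : 0 < 2 * Real.pi)]
  have h2 : |∑ v, 2 * (z v).re| ≤ 2 * ∑ v, ‖z v‖ := by
    rw [Finset.mul_sum]
    refine (Finset.abs_sum_le_sum_abs _ _).trans (Finset.sum_le_sum fun v _ => ?_)
    rw [abs_mul, abs_two]
    exact mul_le_mul_of_nonneg_left (Complex.abs_re_le_norm _) (by norm_num)
  nlinarith [Real.pi_pos]

/-- replacing `16 / (ε² + 16)` by `1` in the phase -/
theorem he_err {s : Pl K → ℂ} (hs : ∀ v, s v ≠ 0) {ε : ℝ} (hε : 0 < ε) (w : Pl K → ℂ) :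
    ‖(gau (fun v => (ε ^ 2 + 16) / (4 * ε * ‖s v‖)) w : ℂ) *
        eC (fun v => -(4 / (ε ^ 2 + 16) : ℝ) * (s v * w v ^ 2)) -
      (gau (fun v => (ε ^ 2 + 16) / (4 * ε * ‖s v‖)) w : ℂ) *
        eC (fun v => -(s v * w v ^ 2) / 4)‖ ≤
      ε / 2 * gau (fun v => 2 * ((ε ^ 2 + 16) / (4 * ε * ‖s v‖))) w := by
  have hD : (0 : ℝ) < ε ^ 2 + 16 := by positivity
  have hDC : ((ε : ℂ) ^ 2 + 16) ≠ 0 := by exact_mod_cast hD.ne'
  have h1 : (fun v => -(4 / (ε ^ 2 + 16) : ℝ) * (s v * w v ^ 2) : Pl K → ℂ) =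
      (fun v => -(s v * w v ^ 2) / 4) +
        fun v => ((ε ^ 2 / (4 * (ε ^ 2 + 16)) : ℝ) : ℂ) * (s v * w v ^ 2) := by
    ext v
    simp only [Pi.add_apply]
    push_cast
    field_simp
    ring
  rw [h1, eC_add, ← mul_sub, ← mul_sub_one, norm_mul, norm_mul, norm_eC, one_mul, he_norm_gau]
  set t : ℝ := Real.pi * ∑ v, ‖w v‖ ^ 2 / ((ε ^ 2 + 16) / (4 * ε * ‖s v‖)) with ht
  have h2 : 4 * Real.pi * ∑ v, ‖((ε ^ 2 / (4 * (ε ^ 2 + 16)) : ℝ) : ℂ) * (s v * w v ^ 2)‖ =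
      ε / 4 * t := by
    rw [ht, Finset.mul_sum, Finset.mul_sum, Finset.mul_sum]
    refine Finset.sum_congr rfl fun v _ => ?_
    have := norm_pos_iff.2 (hs v)
    rw [norm_mul, norm_mul, norm_pow, Complex.norm_real, Real.norm_of_nonneg (by positivity)]
    field_simp
  have h3 : gau (fun v => (ε ^ 2 + 16) / (4 * ε * ‖s v‖)) w = Real.exp (-t) := by
    rw [gau, ht, neg_mul]
  have h4 : gau (fun v => 2 * ((ε ^ 2 + 16) / (4 * ε * ‖s v‖))) w = Real.exp (-(t / 2)) := by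
    rw [gau, ht, neg_mul, mul_div_assoc, Finset.sum_div]
    congr 3
    refine Finset.sum_congr rfl fun v _ => ?_
    rw [div_div, mul_comm]
  have h5 := he_eC_sub_one
    (fun v => ((ε ^ 2 / (4 * (ε ^ 2 + 16)) : ℝ) : ℂ) * (s v * w v ^ 2) : Pl K → ℂ)
  rw [h2] at h5
  rw [h3, h4]
  have h6 : t / 2 ≤ Real.exp (t / 2) := by linarith [Real.add_one_le_exp (t / 2)]
  have h7 : Real.exp (-t) * Real.exp (t / 2) = Real.exp (-(t / 2)) := by
    rw [← Real.exp_add]; congr 1; ring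
  calc _ ≤ Real.exp (-t) * (ε / 4 * t) := mul_le_mul_of_nonneg_left h5 (Real.exp_pos _).le
    _ = ε / 2 * (Real.exp (-t) * (t / 2)) := by ring
    _ ≤ ε / 2 * (Real.exp (-t) * Real.exp (t / 2)) := by gcongr
    _ = _ := by rw [h7]

end Crest.Agent.GQ
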