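import Mathlib

/-!
# Project GQ: interface of the uniform zero-free strip for ray class L-functions

`K` is any number field containing a primitive cube root of unity.
-/

set_option autoImplicit false

noncomputable section

open NumberField

namespace Crest.Agent.GQ

/-- A ray class character modulo `m` (no condition at infinity), as a function on ideals. -/
structure RayChar (K : Type) [Field K] [NumberField K] (m : Ideal (𝓞 K)) where
  toFun : Ideal (𝓞 K) → ℂ
  map_mul : ∀ I J : Ideal (𝓞 K), toFun (I * J) = toFun I * toFun J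
  eq_zero_of_not_coprime : ∀ I : Ideal (𝓞 K), I ⊔ m ≠ ⊤ → toFun I = 0
  ne_zero_of_coprime : ∀ I : Ideal (𝓞 K), I ⊔ m = ⊤ → toFun I ≠ 0
  map_span_of_sub_one_mem : ∀ z : 𝓞 K, z ≠ 0 → z - 1 ∈ m → toFun (Ideal.span {z}) = 1

open Classical in
/-- Möbius function on ideals (zero on `⊥`). -/
def muI {K : Type} [Field K] [NumberField K] (I : Ideal (𝓞 K)) : ℂ :=
  if Squarefree I then (-1) ^ (Multiset.card (UniqueFactorizationMonoid.normalizedFactors I)) else 0

/-- The absolute constant of the strip. -/
def theta0 : ℝ := 1 - 1 / 1000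

/-- Statement of the strip theorem: `∑ μ(I) ξ(I) N(I)^{-s}` (absolutely convergent for `Re s > 1`,
where it is `1 / L(s, ξ)`) continues holomorphically to `Re s > theta0`. -/
def Strip (K : Type) [Field K] [NumberField K] : Prop :=
  ∀ (m : Ideal (𝓞 K)), m ≠ ⊥ → ∀ ξ : RayChar K m,
    ∃ G : ℂ → ℂ, DifferentiableOn ℂ G {s : ℂ | theta0 < s.re} ∧
      ∀ s : ℂ, 1 < s.re →
        G s = ∑' I : Ideal (𝓞 K), muI I * ξ.toFun I * ((Ideal.absNorm I : ℂ)) ^ (-s)

end Crest.Agent.GQ
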