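import Crest.Agent.GQ.Key2
import Crest.Agent.GQ.Flip

/-! # GQ Key: mu * g6 = beta * ang * Gsf -/

set_option autoImplicit false

noncomputable section

open NumberField Complex
open scoped ComplexConjugate

namespace Crest.Agent.GQ

variable {K : Type} [Field K] [NumberField K] [P : Pre K]

theorem ky_step {a b : R K} (ha : a ≠ 0) (hb : b ≠ 0) (hc : IsCoprime a b)
    (h1 : mu a * g6 1 a =
      conj (kap a 2) * g6 3 a * (vpi a / (Real.sqrt (Nr a) : ℂ)) * conj (g3 a))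
    (h2 : mu b * g6 1 b =
      conj (kap b 2) * g6 3 b * (vpi b / (Real.sqrt (Nr b) : ℂ)) * conj (g3 b)) :
    mu (a * b) * g6 1 (a * b) = conj (kap (a * b) 2) * g6 3 (a * b) *
      (vpi (a * b) / (Real.sqrt (Nr (a * b)) : ℂ)) * conj (g3 (a * b)) := by
  have e : ∀ x y : R K, chi x y ^ 3 * conj (chi x y ^ 2) = chi x y ^ 1 := by
    intro x y
    rw [map_pow, conj_chi, ← pow_mul, ← pow_add]
    exact (chi_pow_add_six x y (k := 7) (by norm_num)).trans
      (chi_pow_add_six x y (k := 1) (by norm_num))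
  rw [mu_mul hc, g6_mul ha hb hc, g6_mul ha hb hc, kap_mul_left ha hb, vpi_mul ha hb, Nr_mul,
    Real.sqrt_mul (Nr_nonneg a), ← g6_two (a * b), g6_mul ha hb hc, g6_two, g6_two, ← e a b,
    ← e b a]
  simp only [map_mul, Complex.ofReal_mul]
  calc _ = (chi a b ^ 3 * conj (chi a b ^ 2)) * (chi b a ^ 3 * conj (chi b a ^ 2)) *
        (mu a * g6 1 a) * (mu b * g6 1 b) := by ring
    _ = _ := by rw [h1, h2]; ring

theorem ky_norm_nF (x : K) : ‖nF x‖ = Real.sqrt (Nm x) := by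
  have h : Nm x = ‖nF x‖ ^ 2 := by
    rw [Nm, nF, norm_prod, Finset.prod_pow]
  rw [h, Real.sqrt_sq (norm_nonneg _)]

theorem ky_ang (x : K) : ang x = nF x / (Real.sqrt (Nm x) : ℂ) := by
  rw [← ky_norm_nF, ang, Finset.prod_div_distrib, nF, norm_prod, Complex.ofReal_prod]

theorem mu_mul_g6 {n : R K} (hn : Squarefree n) : mu n * g6 1 n =
    conj (kap n 2) * g6 3 n * (vpi n / (Real.sqrt (Nr n) : ℂ)) * conj (g3 n) := by
  induction n using UniqueFactorizationMonoid.induction_on_prime with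
  | h₁ => exact absurd hn not_squarefree_zero
  | h₂ u hu =>
    rw [mu_unit hu, g6_unit hu, g6_unit hu, kap_unit_left hu, vpi_unit hu, Nr_eq_one.2 hu,
      ← g6_two, g6_unit hu]
    simp
  | h₃ a p ha hp ih =>
    obtain ⟨hc, -, hs⟩ := squarefree_mul_iff.1 hn
    refine ky_step hp.ne_zero ha hc.isCoprime ?_ (ih hs)
    rw [mu_prime hp, g6_prime hp, vpi_prime hp]
    ring

theorem key_identity [Q : Rec K] {j : ℕ} (hj : Q.k ≤ j) {c : K} (hc : c ≠ 0) :
    ∃ β : ℂ, ‖β‖ = 1 ∧ ∀ n ∈ cls j c, mu n * g6 1 n = β * ang (n : K) * Gsf n := by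
  have hj1 : 1 ≤ j := Q.hk.trans hj
  obtain ⟨n₀, hn₀⟩ := cls_nonempty j hc
  obtain ⟨β, hβ, Hβ⟩ := g6_three_cls hj hc
  have h2 : ((2 : R K) : K) ≠ 0 := by
    have := (isUnit_two (K := K)).ne_zero
    exact_mod_cast this
  have hn₀0 : n₀ ≠ 0 := ne_zero_of_mem_cls hj1 hc hn₀
  have hn₀K : (n₀ : K) ≠ 0 := by exact_mod_cast hn₀0
  have hsq : ∀ n ∈ cls j c, Real.sqrt (Nm (n : K)) = Real.sqrt (Nr n) * Real.sqrt (NS c) := by
    intro n hn
    rw [Nm_coe, NS_cls hj1 hc hn, Real.sqrt_mul (Nr_nonneg n)]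
  have hS : 0 < Real.sqrt (NS c) := Real.sqrt_pos.2 (NS_pos hc)
  have hF : nF (n₀ : K) ≠ 0 := by
    rw [← norm_pos_iff, ky_norm_nF]
    exact Real.sqrt_pos.2 (Nm_pos hn₀K)
  refine ⟨conj (Q.B ((2 : R K) : K) c) * β * (vpi n₀ * (Real.sqrt (NS c) : ℂ) / nF (n₀ : K)),
    ?_, fun n hn => ?_⟩
  · have hr : 0 < Real.sqrt (Nr n₀) := Real.sqrt_pos.2 (Nr_pos hn₀0)
    rw [norm_mul, norm_mul, norm_div, norm_mul, RCLike.norm_conj, norm_B h2 hc, hβ,
      norm_vpi hn₀0, ky_norm_nF, hsq n₀ hn₀, Complex.norm_real, Real.norm_eq_abs, abs_of_pos hS]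
    field_simp
  · by_cases hs : Squarefree n
    · have hn0 : n ≠ 0 := hs.ne_zero
      have hr : 0 < Real.sqrt (Nr n) := Real.sqrt_pos.2 (Nr_pos hn0)
      have hv := vpi_cls hc (cls_mono hj1 c hn) (cls_mono hj1 c hn₀)
      have hG : Gsf n = conj (g3 n) := by rw [Gsf, if_pos hs]
      have hv' : vpi n = vpi n₀ * nF (n : K) / nF (n₀ : K) := by
        rw [eq_div_iff hF, hv]
      have hr' : (Real.sqrt (Nr n) : ℂ) ≠ 0 := by exact_mod_cast hr.ne'
      have hS' : (Real.sqrt (NS c) : ℂ) ≠ 0 := by exact_mod_cast hS.ne'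
      rw [mu_mul_g6 hs, hG, B_unit isUnit_two hn0, B_cls_right hj hc h2 hn, Hβ n hn hs, ky_ang,
        hsq n hn, hv', Complex.ofReal_mul]
      field_simp
    · rw [mu_eq_zero.2 hs, Gsf_eq_zero hs, zero_mul, mul_zero]

end Crest.Agent.GQ
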