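import Crest.Agent.GQ.Gauss

/-! # GQ Key1: Hasse-Davenport duplication and the cubic Jacobi sum -/

set_option autoImplicit false

noncomputable section

open NumberField Complex
open scoped ComplexConjugate

namespace Crest.Agent.GQ

variable {K : Type} [Field K] [NumberField K] [P : Pre K]

/-- The cubic Jacobi sum at a prime `p` of `R`. -/
def Jac (p : R K) : ℂ := ∑ x ∈ reps p, kap p x * kap p (1 - x)

theorem k1_field {p : R K} (hp : Prime p) :
    ∃ (F : Type) (_ : Field F) (_ : Fintype F) (π : R K →+* F), Function.Surjective π ∧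
      (∀ x, π x = 0 ↔ p ∣ x) ∧ Fintype.card F = nm p := by
  have : (Ideal.span {p}).IsMaximal := PrincipalIdealRing.isMaximal_of_irreducible hp.irreducible
  have : Finite (R K ⧸ Ideal.span {p}) :=
    finite_quot fun h => hp.ne_zero (Ideal.span_singleton_eq_bot.1 h)
  let _ : Field (R K ⧸ Ideal.span {p}) := Ideal.Quotient.field _
  let _ : Fintype (R K ⧸ Ideal.span {p}) := Fintype.ofFinite _
  refine ⟨R K ⧸ Ideal.span {p}, inferInstance, inferInstance, Ideal.Quotient.mk _,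
    Ideal.Quotient.mk_surjective, fun x => ?_, ?_⟩
  · exact Ideal.Quotient.eq_zero_iff_dvd p x
  · rw [nm, nmI, Nat.card_eq_fintype_card]

section
variable {F : Type} [Field F] {π : R K →+* F} {p : R K}

theorem k1_eq_iff (hk : ∀ x, π x = 0 ↔ p ∣ x) (x y : R K) : π x = π y ↔ p ∣ x - y := by
  rw [← hk, map_sub, sub_eq_zero]

theorem k1_sum [Fintype F] {A : Type} [AddCommMonoid A] (hp : p ≠ 0) (hs : Function.Surjective π)
    (hk : ∀ x, π x = 0 ↔ p ∣ x) (G : F → A) : ∑ x ∈ reps p, G (π x) = ∑ y, G y := by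
  refine Finset.sum_bij (fun x _ => π x) (fun _ _ => Finset.mem_univ _) ?_ ?_ (fun _ _ => rfl)
  · intro x hx y hy hxy
    exact (reps_existsUnique hp y).unique ⟨hx, (k1_eq_iff hk x y).1 hxy⟩ ⟨hy, by simp⟩
  · intro y _
    obtain ⟨z, rfl⟩ := hs y
    obtain ⟨x, hx, -⟩ := reps_existsUnique hp z
    exact ⟨x, hx.1, (k1_eq_iff hk x z).2 hx.2⟩

theorem k1_desc (hs : Function.Surjective π) (hk : ∀ x, π x = 0 ↔ p ∣ x) (f : R K → ℂ)
    (hper : ∀ x y, p ∣ x - y → f x = f y) : ∃ g : F → ℂ, ∀ x, g (π x) = f x :=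
  ⟨fun y => f (Function.surjInv hs y), fun x =>
    hper _ _ ((k1_eq_iff hk _ _).1 (Function.surjInv_eq hs _))⟩

theorem k1_mulChar (hs : Function.Surjective π)
    (hk : ∀ x, π x = 0 ↔ p ∣ x) (f : R K → ℂ) (hper : ∀ x y, p ∣ x - y → f x = f y)
    (h1 : f 1 = 1) (hmul : ∀ x y, f (x * y) = f x * f y) (h0 : f 0 = 0) :
    ∃ χ : MulChar F ℂ, ∀ x, χ (π x) = f x := by
  obtain ⟨g, hg⟩ := k1_desc hs hk f hper
  refine ⟨⟨⟨⟨g, ?_⟩, ?_⟩, ?_⟩, hg⟩
  · rw [← map_one π, hg, h1]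
  · intro a b
    obtain ⟨x, rfl⟩ := hs a
    obtain ⟨y, rfl⟩ := hs b
    show g (π x * π y) = g (π x) * g (π y)
    rw [← map_mul, hg, hg, hg, hmul]
  · intro a ha
    have : a = 0 := by simpa using ha
    show g a = 0
    rw [this, ← map_zero π, hg, h0]

theorem k1_addChar (hs : Function.Surjective π) (hk : ∀ x, π x = 0 ↔ p ∣ x) :
    ∃ ψ : AddChar F ℂ, ∀ x : R K, ψ (π x) = eS ((x : K) / p) := by
  obtain ⟨g, hg⟩ := k1_desc hs hk (fun x => eS ((x : K) / p)) fun x y h => eS_div_congr h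
  refine ⟨⟨g, ?_, ?_⟩, hg⟩
  · rw [← map_zero π, hg]
    exact eS_R (by simp)
  · intro a b
    obtain ⟨x, rfl⟩ := hs a
    obtain ⟨y, rfl⟩ := hs b
    rw [← map_add, hg, hg, hg, ← eS_add, Subring.coe_add, add_div]

theorem k1_gauss [Fintype F] (hp : p ≠ 0) (hs : Function.Surjective π) (hk : ∀ x, π x = 0 ↔ p ∣ x)
    {ψ : AddChar F ℂ} (hψ : ∀ x : R K, ψ (π x) = eS ((x : K) / p)) {χ : MulChar F ℂ} {f : R K → ℂ}
    (hχ : ∀ x, χ (π x) = f x) : gs f p 1 = gaussSum χ ψ := by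
  rw [gs, gaussSum, ← k1_sum hp hs hk]
  exact Finset.sum_congr rfl fun x _ => by rw [hχ, hψ, Subring.coe_one, one_mul]

theorem k1_conj [Fintype F] (hs : Function.Surjective π)
    {ψ : AddChar F ℂ} (hψ : ∀ x : R K, ψ (π x) = eS ((x : K) / p)) {χ : MulChar F ℂ}
    (hK : ∀ x, χ (π x) = kap p x) : gaussSum (χ * χ) ψ = conj (gaussSum χ ψ) := by
  rw [gaussSum, gaussSum, map_sum, ← Equiv.sum_comp (Equiv.neg F)]
  refine Finset.sum_congr rfl fun a _ => ?_
  obtain ⟨x, rfl⟩ := hs a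
  rw [Equiv.neg_apply, ← map_neg, MulChar.mul_apply, hK, hK, hψ, hψ, kap_neg_right,
    Subring.coe_neg, neg_div, eS_neg, map_mul, conj_kap, sq]

theorem k1_ne_one {χ : MulChar F ℂ} {a : F} {z : ℂ} (h : χ a = z) (h0 : z ≠ 0) (h1 : z ≠ 1) :
    χ ≠ 1 := by
  rintro rfl
  by_cases ha : a = 0
  · rw [ha, MulChar.map_zero] at h
    exact h0 h.symm
  · rw [MulChar.one_apply (IsUnit.mk0 a ha)] at h
    exact h1 h.symm

theorem k1_jac [Fintype F] (hp : p ≠ 0) (hs : Function.Surjective π) (hk : ∀ x, π x = 0 ↔ p ∣ x)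
    {χ : MulChar F ℂ} (hK : ∀ x, χ (π x) = kap p x) : Jac p = jacobiSum χ χ := by
  rw [Jac, jacobiSum, ← k1_sum hp hs hk]
  exact Finset.sum_congr rfl fun x _ => by rw [← map_one π, ← map_sub, hK, hK]

end

theorem k1_omC_sq : omC ^ 2 + omC + 1 = 0 := by
  have h := omC_prim.geom_sum_eq_zero (by norm_num)
  simp only [Finset.sum_range_succ, Finset.sum_range_zero] at h
  linear_combination h

theorem k1_wR_sq : wR K ^ 2 + wR K + 1 = 0 := by
  have h := P.hw.geom_sum_eq_zero (by norm_num)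
  simp only [Finset.sum_range_succ, Finset.sum_range_zero] at h
  apply Subtype.ext
  change P.w ^ 2 + P.w + 1 = 0
  linear_combination h

theorem k1_omC_ne : omC ≠ 0 ∧ omC ≠ 1 ∧ omC * omC ≠ 1 := by
  have h := k1_omC_sq
  refine ⟨fun h0 => ?_, fun h0 => ?_, fun h0 => ?_⟩
  · rw [h0] at h; norm_num at h
  · rw [h0] at h; norm_num at h
  · have h1 : omC = -2 := by linear_combination h - h0
    rw [h1] at h0; norm_num at h0

theorem k1_omC_indep {a b : ℤ} (h : (a : ℂ) + b * omC = 0) : a = 0 ∧ b = 0 := by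
  have h1 := congrArg Complex.im h
  have h3 : Real.sqrt 3 ≠ 0 := by positivity
  have hb : b = 0 := by simpa [omC, h3] using h1
  rw [hb] at h
  exact ⟨by simpa using h, hb⟩

theorem k1_adjoin {z : ℂ} (hz : z ∈ Algebra.adjoin ℤ {omC}) : ∃ c d : ℤ, z = c + d * omC := by
  induction hz using Algebra.adjoin_induction with
  | mem x hx => exact ⟨0, 1, by rw [Set.mem_singleton_iff.1 hx]; simp⟩
  | algebraMap r => exact ⟨r, 0, by simp⟩
  | add x y _ _ hx hy =>
    obtain ⟨a, b, rfl⟩ := hx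
    obtain ⟨c, d, rfl⟩ := hy
    exact ⟨a + c, b + d, by push_cast; ring⟩
  | mul x y _ _ hx hy =>
    obtain ⟨a, b, rfl⟩ := hx
    obtain ⟨c, d, rfl⟩ := hy
    exact ⟨a * c - b * d, a * d + b * c - b * d, by
      push_cast; linear_combination ((b : ℂ) * d) * k1_omC_sq⟩

theorem k1_not_coprime {p : R K} (hp : Prime p) : ¬ IsCoprime p 0 :=
  fun h => hp.not_isUnit (isCoprime_zero_right.1 h)

theorem k1_kap_char {F : Type} [Field F] {π : R K →+* F} {p : R K} (hp : Prime p)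
    (hs : Function.Surjective π) (hk : ∀ x, π x = 0 ↔ p ∣ x) :
    ∃ χ : MulChar F ℂ, (∀ x, χ (π x) = kap p x) ∧ χ ≠ 1 ∧ χ * χ ≠ 1 := by
  obtain ⟨χ, hχ⟩ := k1_mulChar hs hk (kap p) (fun x y => kap_congr') (kap_one_right p)
    (kap_mul_right p) ((kap_eq_zero hp.ne_zero).2 (k1_not_coprime hp))
  obtain ⟨x₀, hx₀⟩ := kap_nontrivial hp
  exact ⟨χ, hχ, k1_ne_one (a := π x₀) (by rw [hχ, hx₀]) k1_omC_ne.1 k1_omC_ne.2.1,
    k1_ne_one (a := π x₀) (z := omC * omC) (by rw [MulChar.mul_apply, hχ, hx₀])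
      (mul_ne_zero k1_omC_ne.1 k1_omC_ne.1) k1_omC_ne.2.2⟩

theorem k1_norm {p : R K} (hp : Prime p) : ‖gs (kap p) p 1‖ = Real.sqrt (Nr p) := by
  have := norm_gs_chi_pow hp.irreducible.squarefree (k := 2) (by norm_num)
  simpa only [chi_sq] using this

theorem k1_conj_mul_Jac {p : R K} (hp : Prime p) :
    conj (gs (kap p) p 1) * Jac p = gs (kap p) p 1 * gs (kap p) p 1 := by
  obtain ⟨F, _, _, π, hs, hk, -⟩ := k1_field hp
  obtain ⟨χ, hχ, -, hχ2⟩ := k1_kap_char hp hs hk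
  obtain ⟨ψ, hψ⟩ := k1_addChar hs hk
  have e := jacobiSum_mul_nontrivial hχ2 ψ
  rwa [k1_conj hs hψ hχ, ← k1_gauss hp.ne_zero hs hk hψ hχ, ← k1_jac hp.ne_zero hs hk hχ] at e

theorem k1_dup {F : Type} [Field F] [Fintype F] [DecidableEq F] {X Y : MulChar F ℂ} (hX : X ≠ 1)
    (h2 : (2 : F) ≠ 0) (hR : ∀ t : F, ∑ x : F, (if x ^ 2 = t then (1 : ℂ) else 0) = 1 + Y t) :
    X 4 * jacobiSum X X = jacobiSum Y X := by
  have h1 : X 4 * jacobiSum X X = ∑ y : F, X (1 - y ^ 2) := by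
    rw [jacobiSum, Finset.mul_sum]
    refine Fintype.sum_equiv ((Equiv.mulLeft₀ 2 h2).trans (Equiv.subRight 1)) _ _ fun x => ?_
    rw [← map_mul, ← map_mul]
    congr 1
    simp only [Equiv.trans_apply, Equiv.mulLeft₀_apply, Equiv.subRight_apply]
    ring
  have h3 : ∑ y : F, X (1 - y ^ 2) = ∑ t : F, (1 + Y t) * X (1 - t) := by
    simp only [← hR, Finset.sum_mul]
    rw [Finset.sum_comm]
    refine Finset.sum_congr rfl fun y _ => ?_
    simp
  have h4 : ∑ t : F, X (1 - t) = 0 := by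
    rw [← MulChar.sum_eq_zero_of_ne_one hX]
    exact (Equiv.subLeft (1 : F)).sum_comp fun t => X t
  rw [h1, h3, jacobiSum]
  simp only [add_mul, one_mul, Finset.sum_add_distrib, h4, zero_add]

theorem k1_hd {p : R K} (hp : Prime p) : gs (chi p) p 1 * conj (gs (kap p) p 1)
    = conj (kap p 2) * gs (rho p) p 1 * gs (kap p) p 1 := by
  classical
  obtain ⟨F, _, _, π, hs, hk, -⟩ := k1_field hp
  have hp0 := hp.ne_zero
  obtain ⟨χ, hK, hK1, hKK⟩ := k1_kap_char hp hs hk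
  obtain ⟨Y, hR⟩ := k1_mulChar hs hk (rho p) (fun x y => rho_congr') (rho_one_right p)
    (rho_mul_right p) ((rho_eq_zero hp0).2 (k1_not_coprime hp))
  obtain ⟨X, hX⟩ := k1_mulChar hs hk (chi p) (fun x y => chi_congr') (chi_one_right p)
    (chi_mul_right p) ((chi_eq_zero hp0).2 (k1_not_coprime hp))
  obtain ⟨ψ, hψ⟩ := k1_addChar hs hk
  have hXX : X * X = χ := by
    refine DFunLike.ext _ _ fun a => ?_
    obtain ⟨x, rfl⟩ := hs a
    rw [MulChar.mul_apply, hX, hK, ← sq, chi_sq]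
  have hRX : Y * X = χ * χ := by
    refine DFunLike.ext _ _ fun a => ?_
    obtain ⟨x, rfl⟩ := hs a
    rw [MulChar.mul_apply, MulChar.mul_apply, hX, hK, hR, ← chi_sq, ← chi_cube]
    ring
  have hX1 : X ≠ 1 := fun h => hK1 (by rw [← hXX, h, mul_one])
  have hF2 : (2 : F) ≠ 0 := by
    have := (isUnit_two (K := K)).map π
    rw [map_ofNat] at this
    exact this.ne_zero
  have hdup := k1_dup (Y := Y) hX1 hF2 fun t => by
    obtain ⟨y, rfl⟩ := hs t
    rw [hR, ← card_sqrt_prime hp y, ← k1_sum hp0 hs hk, Finset.card_filter]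
    push_cast
    refine Finset.sum_congr rfl fun x _ => ?_
    rw [← map_pow]
    exact if_congr (k1_eq_iff hk _ _) rfl rfl
  have hX4 : X 4 = kap p 2 := by
    have : (4 : F) = π 2 * π 2 := by rw [map_ofNat]; norm_num
    rw [this, map_mul, ← MulChar.mul_apply, hXX, hK]
  have e1 := jacobiSum_mul_nontrivial (χ := X) (φ := X) (by rwa [hXX]) ψ
  have e2 := jacobiSum_mul_nontrivial (χ := Y) (φ := X) (by rwa [hRX]) ψ
  rw [hXX] at e1
  rw [hRX, k1_conj hs hψ hK, ← hdup, hX4] at e2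
  rw [← k1_gauss hp0 hs hk hψ hK, ← k1_gauss hp0 hs hk hψ hX] at e1 e2
  rw [← k1_gauss hp0 hs hk hψ hR] at e2
  have hsq : 0 < Real.sqrt (Nr p) := Real.sqrt_pos.2 (Nr_pos hp0)
  have hG6 : gs (chi p) p 1 ≠ 0 := by
    have := norm_gs_chi_pow hp.irreducible.squarefree (k := 1) (by norm_num)
    simp only [pow_one] at this
    intro h0
    rw [show (fun x => chi p x) = chi p from rfl, h0, norm_zero] at this
    exact hsq.ne this
  have hk2 : kap p 2 ≠ 0 := by
    rw [← hK, map_ofNat]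
    exact ((IsUnit.mk0 _ hF2).map χ).ne_zero
  have hkk : kap p 2 * conj (kap p 2) = 1 := by
    rw [Complex.mul_conj, Complex.normSq_eq_norm_sq, norm_kap hk2]; norm_num
  apply mul_left_cancel₀ hG6
  linear_combination (-(conj (kap p 2) * kap p 2 * conj (gs (kap p) p 1))) * e1
    + (conj (kap p 2) * gs (kap p) p 1) * e2
    - (gs (chi p) p 1 * gs (chi p) p 1 * conj (gs (kap p) p 1)) * hkk

theorem k1_expand {F : Type} [Field F] [Fintype F] (e : ℕ) : ∑ x : F, (x * (1 - x)) ^ e =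
    ∑ i ∈ Finset.range (e + 1), ((-1) ^ i * (e.choose i : F)) * ∑ x : F, x ^ (e + i) := by
  have h1 : ∀ x : F, (x * (1 - x)) ^ e =
      ∑ i ∈ Finset.range (e + 1), ((-1) ^ i * (e.choose i : F)) * x ^ (e + i) := by
    intro x
    rw [mul_pow, sub_eq_neg_add, add_pow, Finset.mul_sum]
    refine Finset.sum_congr rfl fun i _ => ?_
    rw [neg_pow]
    ring
  simp only [h1, Finset.mul_sum]
  rw [Finset.sum_comm]

theorem k1_sum_one {F : Type} [Field F] [Fintype F] {m : ℕ} (hm : Fintype.card F = 3 * m + 1)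
    (h0 : 0 < m) : ∑ x : F, (x * (1 - x)) ^ m = 0 := by
  rw [k1_expand]
  refine Finset.sum_eq_zero fun i hi => ?_
  have := Finset.mem_range.1 hi
  rw [FiniteField.sum_pow_lt_card_sub_one F (m + i) (by omega), mul_zero]

theorem k1_sum_two {F : Type} [Field F] [Fintype F] {m : ℕ} (hm : Fintype.card F = 3 * m + 1)
    (h0 : 0 < m) : ∑ x : F, (x * (1 - x)) ^ (2 * m) = -((-1) ^ m * ((2 * m).choose m : F)) := by
  classical
  rw [k1_expand, Finset.sum_eq_single m]
  · have h1 : ∀ x : F, x ^ (2 * m + m) = 1 - if x = 0 then 1 else 0 := fun x => by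
      by_cases hx : x = 0
      · rw [if_pos hx, hx, zero_pow (by omega), sub_self]
      · rw [if_neg hx, sub_zero, show 2 * m + m = Fintype.card F - 1 by omega]
        exact FiniteField.pow_card_sub_one_eq_one x hx
    simp only [h1, Finset.sum_sub_distrib]
    simp
  · intro i hi hne
    have := Finset.mem_range.1 hi
    rcases lt_or_gt_of_ne hne with h | h
    · rw [FiniteField.sum_pow_lt_card_sub_one F (2 * m + i) (by omega), mul_zero]
    · have h1 : ∀ x : F, x ^ (2 * m + i) = x ^ (i - m) := fun x => by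
        rw [show 2 * m + i = Fintype.card F + (i - m - 1) by omega, pow_add, FiniteField.pow_card,
          ← pow_succ', show i - m - 1 + 1 = i - m by omega]
      simp only [h1]
      rw [FiniteField.sum_pow_lt_card_sub_one F (i - m) (by omega), mul_zero]
  · intro h
    exact absurd (Finset.mem_range.2 (by omega)) h

theorem k1_lucas {l : ℕ} (hl : l.Prime) (h3 : l % 3 = 1) (f : ℕ) :
    ∀ m : ℕ, l ^ f = 3 * m + 1 → l.Coprime ((2 * m).choose m) := by
  have : Fact l.Prime := ⟨hl⟩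
  obtain ⟨d, hd⟩ : ∃ d, l = 3 * d + 1 := ⟨l / 3, by omega⟩
  induction f with
  | zero =>
    intro m hm
    have : m = 0 := by rw [pow_zero] at hm; omega
    simp [this]
  | succ f ih =>
    intro m hm
    obtain ⟨n, hn⟩ : ∃ n, l ^ f = 3 * n + 1 := ⟨l ^ f / 3, by
      have : l ^ f % 3 = 1 := by rw [Nat.pow_mod, h3]; simp
      omega⟩
    have hmn : m = d + l * n := by
      rw [pow_succ, hn] at hm
      have : (3 * n + 1) * l = 3 * (l * n) + l := by ring
      omega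
    have e1 : 2 * m = 2 * d + l * (2 * n) := by rw [hmn]; ring
    have h1 := Choose.choose_modEq_choose_mod_mul_choose_div_nat (n := 2 * m) (k := m) (p := l)
    have k1 : 2 * m % l = 2 * d := by
      rw [e1, Nat.add_mul_mod_self_left, Nat.mod_eq_of_lt (by omega)]
    have k2 : m % l = d := by rw [hmn, Nat.add_mul_mod_self_left, Nat.mod_eq_of_lt (by omega)]
    have k3 : 2 * m / l = 2 * n := by
      rw [e1, Nat.add_mul_div_left _ _ hl.pos, Nat.div_eq_of_lt (by omega), zero_add]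
    have k4 : m / l = n := by
      rw [hmn, Nat.add_mul_div_left _ _ hl.pos, Nat.div_eq_of_lt (by omega), zero_add]
    rw [k1, k2, k3, k4] at h1
    rw [Nat.Coprime, Nat.gcd_comm, h1.gcd_eq, Nat.gcd_comm]
    exact Nat.Coprime.mul_right (hl.coprime_choose_of_lt (by omega) (by omega)) (ih n hn)

theorem k1_lift {F : Type} [Field F] {π : R K →+* F} {p : R K} (hp : Prime p)
    (hk : ∀ x, π x = 0 ↔ p ∣ x) (y : R K) : ∃ a b : ℤ, kap p y = a + b * omC ∧
      π y ^ ((nm p - 1) / 3) = a + b * π (wR K) ∧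
      π y ^ (2 * ((nm p - 1) / 3)) = a + b * π (wR K) ^ 2 := by
  have h7 := seven_le_nm hp
  by_cases hy : p ∣ y
  · refine ⟨0, 0, ?_, ?_, ?_⟩
    · rw [kap_congr' (y := 0) (by simpa using hy), (kap_eq_zero hp.ne_zero).2 (k1_not_coprime hp)]
      simp
    · rw [(hk y).2 hy, zero_pow (by omega)]; simp
    · rw [(hk y).2 hy, zero_pow (by omega)]; simp
  · obtain ⟨j, hj, h1, h2⟩ := kap_prime_spec hp hy
    have h3 := (k1_eq_iff hk _ _).2 h1
    have h4 := congrArg π (k1_wR_sq (K := K))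
    simp only [map_pow, map_add, map_one, map_zero] at h3 h4
    rw [mul_comm 2, pow_mul, h2, h3]
    interval_cases j
    · exact ⟨1, 0, by simp, by simp, by simp⟩
    · exact ⟨0, 1, by simp, by simp, by simp⟩
    · refine ⟨-1, -1, ?_, ?_, ?_⟩ <;> push_cast
      · linear_combination k1_omC_sq
      · linear_combination h4
      · linear_combination (π (wR K) ^ 2 - π (wR K) + 1) * h4

theorem g6_prime {p : R K} (hp : Prime p) :
    g6 1 p = conj (kap p 2) * g6 3 p * (Jac p / (Real.sqrt (Nr p) : ℂ)) * conj (g3 p) := by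
  have h1 := k1_hd hp
  have h2 := k1_conj_mul_Jac hp
  have hN := Nr_pos hp.ne_zero
  have hss : ((Real.sqrt (Nr p) : ℝ) : ℂ) * (Real.sqrt (Nr p) : ℝ) = (Nr p : ℂ) := by
    rw [← Complex.ofReal_mul, Real.mul_self_sqrt hN.le]
  have hs0 : ((Real.sqrt (Nr p) : ℝ) : ℂ) ≠ 0 := Complex.ofReal_ne_zero.2 (Real.sqrt_pos.2 hN).ne'
  have hGG : gs (kap p) p 1 * conj (gs (kap p) p 1) =
      ((Real.sqrt (Nr p) : ℝ) : ℂ) * (Real.sqrt (Nr p) : ℝ) := by
    rw [hss, Complex.mul_conj, Complex.normSq_eq_norm_sq, k1_norm hp, Real.sq_sqrt hN.le]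
  rw [g6, g6, g3, map_div₀, Complex.conj_ofReal]
  simp only [pow_one, chi_cube]
  rw [show (fun x => chi p x) = chi p from rfl, show (fun x => rho p x) = rho p from rfl]
  field_simp
  linear_combination gs (kap p) p 1 * h1 - gs (chi p) p 1 * hGG -
    conj (kap p 2) * gs (rho p) p 1 * h2
theorem norm_Jac {p : R K} (hp : Prime p) : ‖Jac p‖ = Real.sqrt (Nr p) := by
  have h1 := congrArg (fun z : ℂ => ‖z‖) (k1_conj_mul_Jac hp)
  simp only [norm_mul, RCLike.norm_conj, k1_norm hp] at h1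
  exact mul_left_cancel₀ (Real.sqrt_pos.2 (Nr_pos hp.ne_zero)).ne' h1
theorem Jac_associated {p q : R K} (h : Associated p q) : Jac p = Jac q := by
  rw [Jac, Jac, sum_reps_associated h]
  simp only [kap_associated h]
/-- `J ≡ -1 mod 3`, `p ∣ J`, and `p ∤ conj J` when the residue characteristic is `1 mod 3` -/
theorem Jac_spec {p : R K} (hp : Prime p) : ∃ a b : ℤ, Jac p = a + b * omC ∧ (3 : ℤ) ∣ a + 1 ∧
    (3 : ℤ) ∣ b ∧ p ∣ (a : R K) + b * wR K ∧
    ∀ l : ℕ, l.Prime → p ∣ (l : R K) → l % 3 = 1 → ¬ p ∣ (a : R K) + b * wR K ^ 2 := by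
  obtain ⟨F, _, _, π, hs, hk, hcard⟩ := k1_field hp
  obtain ⟨χ, hχ, -, -⟩ := k1_kap_char hp hs hk
  have h6 := nm_prime_mod hp
  have h7 := seven_le_nm hp
  have hm : Fintype.card F = 3 * ((nm p - 1) / 3) + 1 := by omega
  have hm0 : 0 < (nm p - 1) / 3 := by omega
  choose a b h1 h2 h3 using fun x => k1_lift hp hk (x * (1 - x))
  have hJ : Jac p = (∑ x ∈ reps p, a x : ℤ) + (∑ x ∈ reps p, b x : ℤ) * omC := by
    push_cast
    rw [Jac, Finset.sum_mul, ← Finset.sum_add_distrib]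
    exact Finset.sum_congr rfl fun x _ => by rw [← kap_mul_right, h1]
  have hsum : ∀ (e : ℕ) (u : R K), (∀ x, π (x * (1 - x)) ^ e = a x + b x * π u) →
      π (((∑ x ∈ reps p, a x : ℤ) : R K) + (∑ x ∈ reps p, b x : ℤ) * u) =
        ∑ x : F, (x * (1 - x)) ^ e := fun e u h => by
    rw [← k1_sum hp.ne_zero hs hk, map_add, map_mul, map_intCast, map_intCast]
    push_cast
    rw [Finset.sum_mul, ← Finset.sum_add_distrib]
    exact Finset.sum_congr rfl fun x _ => by rw [← h, map_mul, map_sub, map_one]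
  have hcube : χ ^ 3 = 1 := by
    refine MulChar.ext fun u => ?_
    rw [MulChar.pow_apply_coe, MulChar.one_apply_coe]
    obtain ⟨x, hx⟩ := hs u
    rw [← hx, hχ]
    refine kap_cube fun h0 => ?_
    rw [← hχ, hx] at h0
    exact (u.isUnit.map χ).ne_zero h0
  obtain ⟨z, hz, hz'⟩ := exists_jacobiSum_eq_neg_one_add (n := 3) (by norm_num) hcube hcube
    (by omega) omC_prim
  obtain ⟨c, d, rfl⟩ := k1_adjoin hz
  rw [← k1_jac hp.ne_zero hs hk hχ, hJ] at hz'
  obtain ⟨k1, k2⟩ := k1_omC_indep (a := ∑ x ∈ reps p, a x + 1 - 3 * d)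
    (b := ∑ x ∈ reps p, b x - 3 * (d - c)) (by
      rw [Int.cast_sub, Int.cast_sub, Int.cast_add]
      push_cast at hz' ⊢
      linear_combination hz' + ((c : ℂ) + d * omC - 3 * d) * k1_omC_sq)
  refine ⟨_, _, hJ, ⟨d, by omega⟩, ⟨d - c, by omega⟩, ?_, fun l hl hpl h3l hdvd => ?_⟩
  · rw [← hk, hsum _ _ h2, k1_sum_one hm hm0]
  · rw [← hk, hsum _ _ fun x => by rw [h3, map_pow], k1_sum_two hm hm0] at hdvd
    have hl0 : (l : F) = 0 := by rw [← map_natCast π, hk]; exact hpl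
    have : CharP F l := ringChar.of_eq (CharP.ringChar_of_prime_eq_zero hl hl0)
    obtain ⟨f, -, hf⟩ := FiniteField.card F l
    have hc := k1_lucas hl h3l f _ (hf.symm.trans hm)
    rw [neg_eq_zero, mul_eq_zero, CharP.cast_eq_zero_iff F l] at hdvd
    rcases hdvd with h | h
    · exact pow_ne_zero _ (neg_ne_zero.2 one_ne_zero) h
    · exact (hl.coprime_iff_not_dvd.1 hc) h

end Crest.Agent.GQ
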