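import Crest.Agent.GQ.Key1

/-! # GQ Key2: the Jacobi sum is the primary generator of the relative norm -/

set_option autoImplicit false

noncomputable section

open NumberField Complex
open scoped ComplexConjugate

namespace Crest.Agent.GQ

/-! ### The field `ℚ(ω) ⊆ ℂ` -/

theorem k2_om_sq : omC ^ 2 = -1 - omC := by
  have h3 : Real.sqrt 3 * Real.sqrt 3 = 3 := Real.mul_self_sqrt (by norm_num)
  apply Complex.ext
  · simp [omC, sq]; linarith
  · simp [omC, sq]; ring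

theorem k2_conj_om : conj omC = -1 - omC := by
  apply Complex.ext
  · simp [omC]; norm_num
  · simp [omC]

theorem k2_om_int : IsIntegral ℤ omC := omC_prim.isIntegral (by norm_num)

theorem k2_int_conj {z : ℂ} (h : IsIntegral ℤ z) : IsIntegral ℤ (conj z) :=
  h.map (starRingEnd ℂ).toIntAlgHom

theorem k2_int_intCast (a : ℤ) : IsIntegral ℤ (a : ℂ) := by
  simpa using isIntegral_algebraMap (R := ℤ) (A := ℂ) (x := a)

theorem k2_int_natCast (a : ℕ) : IsIntegral ℤ (a : ℂ) := by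
  simpa using k2_int_intCast a

theorem k2_int_ab (a b : ℤ) : IsIntegral ℤ ((a : ℂ) + b * omC) :=
  (k2_int_intCast a).add ((k2_int_intCast b).mul k2_om_int)

theorem k2_mul_conj (x y : ℚ) : ((x : ℂ) + y * omC) * conj ((x : ℂ) + y * omC) =
    ((x ^ 2 - x * y + y ^ 2 : ℚ) : ℂ) := by
  simp only [map_add, map_mul, map_ratCast, k2_conj_om]
  push_cast
  linear_combination (-(y : ℂ) ^ 2) * k2_om_sq

theorem k2_mul_conj_int (x y : ℤ) : ((x : ℂ) + y * omC) * conj ((x : ℂ) + y * omC) =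
    ((x ^ 2 - x * y + y ^ 2 : ℤ) : ℂ) := by
  have := k2_mul_conj x y
  push_cast at this ⊢
  exact this

/-- The field `ℚ(ω)`. -/
def k2F : Subfield ℂ where
  carrier := {z | ∃ x y : ℚ, z = x + y * omC}
  one_mem' := ⟨1, 0, by simp⟩
  zero_mem' := ⟨0, 0, by simp⟩
  mul_mem' := by
    rintro _ _ ⟨a, b, rfl⟩ ⟨c, d, rfl⟩
    exact ⟨a * c - b * d, a * d + b * c - b * d, by
      push_cast; linear_combination ((b : ℂ) * d) * k2_om_sq⟩
  add_mem' := by
    rintro _ _ ⟨a, b, rfl⟩ ⟨c, d, rfl⟩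
    exact ⟨a + c, b + d, by push_cast; ring⟩
  neg_mem' := by
    rintro _ ⟨a, b, rfl⟩
    exact ⟨-a, -b, by push_cast; ring⟩
  inv_mem' := by
    rintro _ ⟨a, b, rfl⟩
    refine ⟨(a - b) / (a ^ 2 - a * b + b ^ 2), -b / (a ^ 2 - a * b + b ^ 2), ?_⟩
    rw [Complex.inv_def, Complex.ofReal_inv, ← Complex.mul_conj, k2_mul_conj]
    simp only [map_add, map_mul, map_ratCast, k2_conj_om]
    push_cast
    ring

theorem k2_ab_mem (a b : ℤ) : (a : ℂ) + b * omC ∈ k2F := ⟨a, b, by simp⟩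

theorem k2_rat_int {t : ℚ} (h : IsIntegral ℤ (t : ℂ)) : ∃ m : ℤ, (m : ℚ) = t :=
  IsIntegrallyClosed.isIntegral_iff.1
    ((isIntegral_algebraMap_iff (algebraMap ℚ ℂ).injective).1 h)

theorem k2_small {z : ℂ} (hF : z ∈ k2F) (h : IsIntegral ℤ z) (hz : ‖z‖ < 1) : z = 0 := by
  obtain ⟨x, y, e⟩ := hF
  have e1 : z * conj z = ((x ^ 2 - x * y + y ^ 2 : ℚ) : ℂ) := by rw [e, k2_mul_conj]
  obtain ⟨m, hm⟩ := k2_rat_int (e1 ▸ h.mul (k2_int_conj h))
  rw [← hm, Complex.mul_conj, Complex.normSq_eq_norm_sq] at e1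
  have e2 : ‖z‖ ^ 2 = (m : ℝ) := by exact_mod_cast e1
  have h0 := norm_nonneg z
  have h1 : (m : ℝ) < 1 := by nlinarith
  have h2 : (0 : ℝ) ≤ m := by nlinarith
  have h3 : m = 0 := by
    have : m < 1 := by exact_mod_cast h1
    have : 0 ≤ m := by exact_mod_cast h2
    omega
  rw [h3, Int.cast_zero] at e2
  exact norm_eq_zero.1 (pow_eq_zero_iff two_ne_zero |>.1 e2)

theorem k2_F_int {z : ℂ} (hF : z ∈ k2F) (h : IsIntegral ℤ z) :
    ∃ c d : ℤ, 3 * z = c + d * omC := by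
  obtain ⟨x, y, e⟩ := hF
  have ec : conj z = x + y * (-1 - omC) := by
    simp only [e, map_add, map_mul, map_ratCast, k2_conj_om]
  have e1 : z + conj z = ((2 * x - y : ℚ) : ℂ) := by
    rw [ec, e]; push_cast; ring
  have e2 : z * omC ^ 2 + conj z * omC = ((2 * y - x : ℚ) : ℂ) := by
    rw [ec, e]; push_cast
    linear_combination ((x : ℂ) - 2 * y + y * omC) * k2_om_sq
  obtain ⟨m₁, h₁⟩ := k2_rat_int (e1 ▸ h.add (k2_int_conj h))
  obtain ⟨m₂, h₂⟩ := k2_rat_int (e2 ▸ (h.mul (k2_om_int.pow 2)).add ((k2_int_conj h).mul k2_om_int))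
  have h₁' : (m₁ : ℂ) = 2 * x - y := by exact_mod_cast h₁
  have h₂' : (m₂ : ℂ) = 2 * y - x := by exact_mod_cast h₂
  refine ⟨2 * m₁ + m₂, m₁ + 2 * m₂, ?_⟩
  push_cast
  rw [h₁', h₂', e]
  ring

theorem k2_inert0 {l : ℕ} (hl : l.Prime) (h3 : l % 3 = 2) {c d : ℤ}
    (h : (l : ℤ) ∣ c ^ 2 - c * d + d ^ 2) : (l : ℤ) ∣ c ∧ (l : ℤ) ∣ d := by
  have := Fact.mk hl
  rw [← ZMod.intCast_zmod_eq_zero_iff_dvd] at h
  rw [← ZMod.intCast_zmod_eq_zero_iff_dvd, ← ZMod.intCast_zmod_eq_zero_iff_dvd]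
  push_cast at h
  generalize (c : ZMod l) = c at h ⊢
  generalize (d : ZMod l) = d at h ⊢
  by_cases hd : d = 0
  · subst hd
    exact ⟨pow_eq_zero_iff two_ne_zero |>.1 (by simpa using h), rfl⟩
  exfalso
  obtain ⟨x, rfl⟩ : ∃ x, c = -(x * d) := ⟨-c / d, by field_simp⟩
  have h1 : x ^ 2 + x + 1 = 0 := by
    have : d ^ 2 * (x ^ 2 + x + 1) = 0 := by linear_combination h
    exact (mul_eq_zero.1 this).resolve_left (pow_ne_zero _ hd)
  have h2 : x ^ 3 = 1 := by linear_combination (x - 1) * h1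
  have hx : x ≠ 0 := by
    rintro rfl
    simp at h1
  have h4 := ZMod.pow_card_sub_one_eq_one hx
  rw [show l - 1 = 3 * (l / 3) + 1 by omega, pow_succ, pow_mul, h2, one_pow, one_mul] at h4
  subst h4
  have h5 : ((3 : ℕ) : ZMod l) = 0 := by
    push_cast
    linear_combination h1
  have := (Nat.prime_dvd_prime_iff_eq hl Nat.prime_three).1 ((ZMod.natCast_eq_zero_iff _ _).1 h5)
  omega

theorem k2_inert {l : ℕ} (hl : l.Prime) (h3 : l % 3 = 2) (g : ℕ) : ∀ {c d : ℤ},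
    (l : ℤ) ^ (2 * g + 1) ∣ c ^ 2 - c * d + d ^ 2 → (l : ℤ) ^ (g + 1) ∣ c ∧ (l : ℤ) ^ (g + 1) ∣ d := by
  induction g with
  | zero => intro c d h; simpa using k2_inert0 hl h3 (by simpa using h)
  | succ g ih =>
    intro c d h
    obtain ⟨⟨c, rfl⟩, ⟨d, rfl⟩⟩ := k2_inert0 hl h3 ((dvd_pow_self _ (by omega)).trans h)
    have hl0 : (l : ℤ) ≠ 0 := by exact_mod_cast hl.ne_zero
    rw [show (l * c) ^ 2 - l * c * (l * d) + (l * d) ^ 2 = (l : ℤ) ^ 2 * (c ^ 2 - c * d + d ^ 2) by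
      ring, show 2 * (g + 1) + 1 = 2 + (2 * g + 1) by ring, pow_add,
      mul_dvd_mul_iff_left (pow_ne_zero _ hl0)] at h
    obtain ⟨h1, h2⟩ := ih h
    rw [pow_succ' _ (g + 1)]
    exact ⟨mul_dvd_mul_left _ h1, mul_dvd_mul_left _ h2⟩

theorem k2_inert' {l : ℕ} (hl : l.Prime) (h3 : l % 3 = 2) {g : ℕ} {c d : ℤ}
    (h : (l : ℤ) ^ (2 * g) ∣ c ^ 2 - c * d + d ^ 2) : (l : ℤ) ^ g ∣ c ∧ (l : ℤ) ^ g ∣ d := by
  cases g with
  | zero => simp
  | succ g => exact k2_inert hl h3 g ((pow_dvd_pow _ (by omega)).trans h)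

/-! ### The rings `RS ℂ M` and `TS ℂ M` -/

theorem k2_R_of_int {M : ℕ} {z : ℂ} (h : IsIntegral ℤ z) : z ∈ RS ℂ M := ⟨0, by simpa using h⟩

theorem k2_T_of_int {M : ℕ} {z : ℂ} (h : IsIntegral ℤ z) : z ∈ TS ℂ M :=
  ⟨1, by simp, by simpa using h⟩

theorem k2_int_of_mem {M : ℕ} {z : ℂ} (hR : z ∈ RS ℂ M) (hT : z ∈ TS ℂ M) : IsIntegral ℤ z := by
  obtain ⟨k, hk⟩ := hR
  obtain ⟨b, hb, hb'⟩ := hT
  obtain ⟨x, y, e⟩ := Nat.isCoprime_iff_coprime.2 (hb.pow_right k)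
  have e' : (x : ℂ) * b + y * M ^ k = 1 := by exact_mod_cast e
  have := ((k2_int_intCast x).mul hb').add ((k2_int_intCast y).mul hk)
  rwa [show (x : ℂ) * (b * z) + y * (M ^ k * z) = z by linear_combination z * e'] at this

theorem k2_R_conj {M : ℕ} {z : ℂ} (h : z ∈ RS ℂ M) : conj z ∈ RS ℂ M := by
  obtain ⟨k, hk⟩ := h
  exact ⟨k, by simpa using k2_int_conj hk⟩

theorem k2_inv_M {M : ℕ} (hM : M ≠ 0) : (M : ℂ)⁻¹ ∈ RS ℂ M :=
  ⟨1, by
    rw [pow_one, mul_inv_cancel₀ (by exact_mod_cast hM)]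
    exact isIntegral_one⟩

theorem k2_inv_three {M : ℕ} (hM : M ≠ 0) (h : 6 ∣ M) : (3 : ℂ)⁻¹ ∈ RS ℂ M := by
  obtain ⟨m, rfl⟩ := h
  refine ⟨1, ?_⟩
  rw [show ((6 * m : ℕ) : ℂ) ^ 1 * 3⁻¹ = ((2 * m : ℕ) : ℂ) by push_cast; ring]
  exact k2_int_natCast _

/-- The core divisibility. -/
theorem k2_core {M l f : ℕ} (hM : M ≠ 0) (h6 : 6 ∣ M) (hl : l.Prime) {a b : ℤ} {N u s : ℂ} {r : ℕ}
    (hJ : a ^ 2 - a * b + b ^ 2 = (l : ℤ) ^ f) (hN : N ∈ RS ℂ M) (hNF : N ∈ k2F)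
    (hu : u ∈ RS ℂ M) (hNu : N * conj N = (l : ℂ) ^ f * u) (hs : s ∈ RS ℂ M)
    (hr : ((a : ℂ) + b * omC) ^ r = N * s)
    (hc : l % 3 = 2 ∨ ¬ (l : ℤ) ∣ 2 * a - b) :
    ∃ y ∈ RS ℂ M, N = y * (a + b * omC) := by
  have hJc := k2_mul_conj_int a b
  rw [hJ] at hJc
  push_cast at hJc
  rcases hc with h3 | hc
  · -- inert case
    have hl0 : (l : ℤ) ≠ 0 := by exact_mod_cast hl.ne_zero
    have hlC : (l : ℂ) ≠ 0 := by exact_mod_cast hl.ne_zero
    have hMC : (M : ℂ) ≠ 0 := by exact_mod_cast hM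
    obtain ⟨g, rfl | rfl⟩ := Nat.even_or_odd' f
    swap
    · exfalso
      obtain ⟨⟨a, rfl⟩, ⟨b, rfl⟩⟩ := k2_inert hl h3 g hJ.symm.dvd
      have : (l : ℤ) ^ (2 * g + 1) * (l * (a ^ 2 - a * b + b ^ 2)) = (l : ℤ) ^ (2 * g + 1) * 1 := by
        linear_combination hJ
      have := Dvd.intro _ (mul_left_cancel₀ (pow_ne_zero _ hl0) this)
      exact hl.one_lt.ne' (Nat.dvd_one.1 (by exact_mod_cast this))
    obtain ⟨⟨a, rfl⟩, ⟨b, rfl⟩⟩ := k2_inert' hl h3 hJ.symm.dvd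
    have hab : a ^ 2 - a * b + b ^ 2 = 1 := by
      refine mul_left_cancel₀ (pow_ne_zero (2 * g) hl0) ?_
      linear_combination hJ
    have hε := k2_mul_conj_int a b
    rw [hab, Int.cast_one] at hε
    obtain ⟨k, hk⟩ := hN
    obtain ⟨j, hj⟩ := hu
    have hk' : IsIntegral ℤ ((M : ℂ) ^ (k + j) * N) := by
      have := ((k2_int_natCast M).pow j).mul hk
      rwa [show (M : ℂ) ^ j * (M ^ k * N) = M ^ (k + j) * N by ring] at this
    obtain ⟨c, d, e⟩ := k2_F_int (k2F.mul_mem (k2F.pow_mem (natCast_mem k2F M) _) hNF) hk'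
    have e1 := k2_mul_conj_int c d
    rw [← e] at e1
    simp only [map_mul, map_pow, map_natCast, map_ofNat] at e1
    have e2 : (((c ^ 2 - c * d + d ^ 2 : ℤ) / (l : ℚ) ^ (2 * g) : ℚ) : ℂ) =
        9 * M ^ (2 * k + j) * (M ^ j * u) := by
      rw [Rat.cast_div, Rat.cast_intCast, ← e1, div_eq_iff (by simpa using pow_ne_zero _ hlC)]
      push_cast
      linear_combination (9 * (M : ℂ) ^ (2 * k + 2 * j)) * hNu
    obtain ⟨m, hm⟩ := k2_rat_int (e2 ▸ (((by exact_mod_cast k2_int_natCast 9 :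
      IsIntegral ℤ (9 : ℂ)).mul ((k2_int_natCast M).pow _)).mul hj))
    have hm' : c ^ 2 - c * d + d ^ 2 = (l : ℤ) ^ (2 * g) * m := by
      have hlQ : (l : ℚ) ≠ 0 := by exact_mod_cast hl.ne_zero
      rw [eq_div_iff (pow_ne_zero _ hlQ)] at hm
      rw [mul_comm _ m]
      exact_mod_cast hm.symm
    obtain ⟨⟨c, rfl⟩, ⟨d, rfl⟩⟩ := k2_inert' hl h3 (Dvd.intro _ hm'.symm)
    refine ⟨3⁻¹ * (M : ℂ)⁻¹ ^ (k + j) * ((c + d * omC) * conj ((a : ℂ) + b * omC)), ?_, ?_⟩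
    · exact mul_mem (mul_mem (k2_inv_three hM h6) (pow_mem (k2_inv_M hM) _))
        (k2_R_of_int ((k2_int_ab c d).mul (k2_int_conj (k2_int_ab a b))))
    · push_cast at e ⊢
      rw [inv_pow]
      generalize conj ((a : ℂ) + b * omC) = w at hε ⊢
      field_simp
      linear_combination e - ((l : ℂ) ^ g * (c + d * omC)) * hε
  · -- split case
    have hJR : (a : ℂ) + b * omC ∈ RS ℂ M := k2_R_of_int (k2_int_ab a b)
    set J : RS ℂ M := ⟨_, hJR⟩ with hJd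
    set J' : RS ℂ M := ⟨_, k2_R_conj hJR⟩ with hJd'
    have hcop : IsCoprime J J' := by
      have hp : Prime (l : ℤ) := Nat.prime_iff_prime_int.1 hl
      obtain ⟨x, y, e⟩ := (hp.coprime_iff_not_dvd.2 hc).pow_left (m := f)
      have e' : (x : ℂ) * l ^ f + y * (2 * a - b) = 1 := by exact_mod_cast e
      refine ⟨x * J' + y, y, Subtype.ext ?_⟩
      simp only [hJd, hJd', Subring.coe_add, Subring.coe_mul, Subring.coe_intCast, Subring.coe_one]
      have ec : conj ((a : ℂ) + b * omC) = a + b * (-1 - omC) := by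
        simp only [map_add, map_mul, map_intCast, k2_conj_om]
      linear_combination e' + x * hJc + y * ec
    have h1 : (⟨_, k2_R_conj hN⟩ : RS ℂ M) ∣ J' ^ r := by
      refine ⟨⟨_, k2_R_conj hs⟩, Subtype.ext ?_⟩
      simp only [hJd', SubmonoidClass.coe_pow, Subring.coe_mul]
      rw [← map_pow, hr, map_mul]
    have h2 : J ∣ (⟨N, hN⟩ : RS ℂ M) * ⟨_, k2_R_conj hN⟩ := by
      refine ⟨J' * ⟨u, hu⟩, Subtype.ext ?_⟩
      simp only [hJd, hJd', Subring.coe_mul]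
      linear_combination hNu - u * hJc
    obtain ⟨y, hy⟩ := (hcop.pow_right.of_isCoprime_of_dvd_right h1).dvd_of_dvd_mul_right h2
    exact ⟨y, y.2, by simpa [hJd, mul_comm] using congrArg Subtype.val hy⟩

variable {K : Type} [Field K] [NumberField K] [P : Pre K]

/-- The relative norm to `ℚ(ω)`, as a complex number. -/
def nF (x : K) : ℂ := ∏ v : Pl K, emb x v

/-- multiplicative extension of `-J` -/
def vpi (n : R K) : ℂ := ((UniqueFactorizationMonoid.factors n).map (fun p => -Jac p)).prod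

theorem k2_nF_mul (x y : K) : nF (x * y) = nF x * nF y := by
  simp only [nF, emb, map_mul, Finset.prod_mul_distrib]

theorem k2_nF_one : nF (1 : K) = 1 := by simp [nF, emb]

theorem k2_nF_conj (x : K) : nF x * conj (nF x) = (Nm x : ℂ) := by
  rw [Complex.mul_conj, Complex.normSq_eq_norm_sq, nF, norm_prod, Nm, Finset.prod_pow]

theorem k2_emb_int {x : K} (h : IsIntegral ℤ x) (v : Pl K) : IsIntegral ℤ (emb x v) :=
  h.map v.1.toIntAlgHom

theorem k2_emb_R {x : K} (h : x ∈ R K) (v : Pl K) : emb x v ∈ RS ℂ P.M := by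
  obtain ⟨k, hk⟩ := h
  exact ⟨k, by simpa [emb] using k2_emb_int hk v⟩

theorem k2_emb_T {x : K} (h : x ∈ T K) (v : Pl K) : emb x v ∈ TS ℂ P.M := by
  obtain ⟨b, hb, hk⟩ := h
  exact ⟨b, hb, by simpa [emb] using k2_emb_int hk v⟩

theorem k2_nF_R (x : R K) : nF (x : K) ∈ RS ℂ P.M := prod_mem fun v _ => k2_emb_R x.2 v

theorem k2_nF_F (x : K) : nF x ∈ k2F := by
  obtain ⟨v₀⟩ : Nonempty (Pl K) := inferInstance
  let F : Subfield K := k2F.comap v₀.1
  have hF : ∀ (a : F) (v : Pl K), v.1 a = v₀.1 a := by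
    rintro ⟨a, x, y, e⟩ v
    have : a = x + y * P.w := v₀.1.injective (by rw [e]; simp [v₀.2])
    simp [this, v.2, v₀.2]
  let _ : Algebra F ℂ := (v₀.1.comp F.subtype).toAlgebra
  have : FiniteDimensional F K := Module.Finite.of_restrictScalars_finite ℚ F K
  have hw : P.w ∈ F := ⟨0, 1, by simp [v₀.2]⟩
  have e : nF x = ∏ σ : K →ₐ[F] ℂ, σ x := by
    refine Fintype.prod_equiv
      { toFun := fun v => { v.1 with commutes' := fun a => hF a v }
        invFun := fun σ => ⟨σ.toRingHom, (σ.commutes ⟨_, hw⟩).trans v₀.2⟩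
        left_inv := fun v => rfl
        right_inv := fun σ => rfl } _ _ fun v => rfl
  rw [e, ← Algebra.norm_eq_prod_embeddings]
  exact (Algebra.norm F x).2

theorem k2_nF_U {u : K} (hu : u ∈ U 1) : ∃ β ∈ TS ℂ P.M, nF u = 1 + 3 * β := by
  obtain ⟨t, ht, e⟩ := hu
  obtain ⟨m, hm⟩ := P.six
  refine Finset.prod_induction _ (fun z => ∃ β ∈ TS ℂ P.M, z = 1 + 3 * β) ?_ ⟨0, zero_mem _, by simp⟩
    fun v _ => ⟨(2 * m : ℕ) * emb t v, mul_mem (natCast_mem _ _) (k2_emb_T ht v), ?_⟩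
  · rintro _ _ ⟨β, hβ, rfl⟩ ⟨γ, hγ, rfl⟩
    exact ⟨β + γ + (3 : ℕ) * β * γ,
      add_mem (add_mem hβ hγ) (mul_mem (mul_mem (natCast_mem _ _) hβ) hγ), by push_cast; ring⟩
  · rw [sub_eq_iff_eq_add', pow_one, MK, hm] at e
    simp only [e, emb, map_add, map_one, map_mul, map_natCast]
    push_cast
    ring

theorem k2_NS_unit {u : R K} (hu : IsUnit u) :
    (NS (u : K) : ℂ) ∈ RS ℂ P.M ∧ (NS (u : K) : ℂ)⁻¹ ∈ RS ℂ P.M := by
  have key : ∀ u : R K, IsUnit u → (NS (u : K) : ℂ) ∈ RS ℂ P.M := fun u hu => by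
    rw [NS_unit hu, ← k2_nF_conj]
    exact mul_mem (k2_nF_R u) (k2_R_conj (k2_nF_R u))
  refine ⟨key u hu, ?_⟩
  obtain ⟨u', e⟩ := hu.exists_right_inv
  have e' : (u' : K) = (u : K)⁻¹ :=
    (eq_inv_of_mul_eq_one_right (by exact_mod_cast congrArg Subtype.val e))
  have := key u' (IsUnit.of_mul_eq_one_right _ e)
  rwa [e', NS_inv, Complex.ofReal_inv] at this

theorem k2_M_unit (k : ℕ) : IsUnit (⟨MK K ^ k, pow_mem MK_mem_R k⟩ : R K) :=
  IsUnit.of_mul_eq_one ⟨(MK K)⁻¹ ^ k, pow_mem MK_inv_mem_R k⟩ (Subtype.ext (by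
    simpa using mul_inv_cancel₀ (pow_ne_zero k (MK_ne_zero (K := K)))))

theorem k2_NS {x : K} (hx : x ≠ 0) : (NS x : ℂ) ∈ RS ℂ P.M ∧ (NS x : ℂ)⁻¹ ∈ RS ℂ P.M := by
  have key : ∀ x : K, x ≠ 0 → x ∈ T K → (NS x : ℂ) ∈ RS ℂ P.M ∧ (NS x : ℂ)⁻¹ ∈ RS ℂ P.M := by
    intro x hx hT
    obtain ⟨F, -, -, hF⟩ := lat_reps hx (InT_one_iff.2 hT)
    obtain ⟨k, hk⟩ := exists_pow_InT hx
    obtain ⟨F', -, -, hF'⟩ := lat_reps (pow_ne_zero k MK_ne_zero) hk
    rw [NS_one, div_one] at hF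
    constructor
    · rw [← hF]
      exact_mod_cast natCast_mem (RS ℂ P.M) F.card
    · have h0 : NS (MK K ^ k) ≠ 0 := (NS_pos (pow_ne_zero k MK_ne_zero)).ne'
      have e : (NS x)⁻¹ = F'.card * (NS (MK K ^ k))⁻¹ := by
        rw [hF']
        field_simp
      rw [← Complex.ofReal_inv, e]
      push_cast
      exact mul_mem (natCast_mem _ _) (k2_NS_unit (k2_M_unit k)).2
  obtain ⟨k, hk⟩ := exists_pow_mul_mem_T x
  obtain ⟨h1, h2⟩ := key _ (mul_ne_zero (pow_ne_zero k MK_ne_zero) hx) hk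
  obtain ⟨h3, h4⟩ := k2_NS_unit (K := K) (k2_M_unit k)
  have h0 : (NS (MK K ^ k) : ℂ) ≠ 0 :=
    Complex.ofReal_ne_zero.2 (NS_pos (pow_ne_zero k MK_ne_zero)).ne'
  rw [NS_mul, Complex.ofReal_mul] at h1 h2
  constructor
  · have := mul_mem h4 h1
    rwa [inv_mul_cancel_left₀ h0] at this
  · have := mul_mem h3 h2
    rwa [mul_inv, mul_inv_cancel_left₀ h0] at this

theorem k2_char {p : R K} (hp : Prime p) : ∃ l f : ℕ, l.Prime ∧ p ∣ (l : R K) ∧ nm p = l ^ f ∧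
    Nat.Coprime l P.M := by
  have : (Ideal.span {p}).IsMaximal := PrincipalIdealRing.isMaximal_of_irreducible hp.irreducible
  have : Finite (R K ⧸ Ideal.span {p}) := finite_quot (by simpa using hp.ne_zero)
  let _ := Fintype.ofFinite (R K ⧸ Ideal.span {p})
  let _ := Ideal.Quotient.field (Ideal.span {p})
  obtain ⟨l, hc, f, hl, e⟩ := FiniteField.card' (R K ⧸ Ideal.span {p})
  have hd : p ∣ (l : R K) := by
    rw [← Ideal.mem_span_singleton, ← Ideal.Quotient.eq_zero_iff_mem, map_natCast]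
    exact CharP.cast_eq_zero _ l
  refine ⟨l, f, hl, hd, by rw [← e, nm, nmI, Nat.card_eq_fintype_card], ?_⟩
  rw [Nat.Prime.coprime_iff_not_dvd hl]
  intro h
  refine hp.not_isUnit (isUnit_of_dvd_unit (hd.trans ?_) (k2_M_unit 1))
  convert Nat.cast_dvd_cast (α := R K) h using 1
  ext
  simp

theorem k2_prime {p : R K} (hp : Prime p) :
    (∃ y ∈ RS ℂ P.M, ∃ y' ∈ RS ℂ P.M, y * y' = 1 ∧ nF (p : K) = y * -Jac p) ∧
    (∃ a b : ℤ, -Jac p = 1 + 3 * (a + b * omC)) ∧ (-Jac p)⁻¹ ∈ TS ℂ P.M := by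
  obtain ⟨a, b, hJ, ⟨a', ha⟩, ⟨b', hb⟩, ⟨s, hs⟩, hsp⟩ := Jac_spec hp
  obtain ⟨l, f, hl, hd, hq, hcop⟩ := k2_char hp
  have hp0 : (p : K) ≠ 0 := by simpa using hp.ne_zero
  have hlC : (l : ℂ) ^ f ≠ 0 := pow_ne_zero _ (by exact_mod_cast hl.ne_zero)
  have hJJ : Jac p * conj (Jac p) = (l : ℂ) ^ f := by
    rw [Complex.mul_conj, Complex.normSq_eq_norm_sq, norm_Jac hp, Real.sq_sqrt (Nr_nonneg p), Nr, hq]
    push_cast
    rfl
  have hab : a ^ 2 - a * b + b ^ 2 = (l : ℤ) ^ f := by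
    have := k2_mul_conj_int a b
    rw [← hJ, hJJ] at this
    exact_mod_cast this.symm
  have hNN : nF (p : K) * conj (nF (p : K)) = (l : ℂ) ^ f * NS (p : K) := by
    rw [k2_nF_conj, Nm_coe, Nr, hq]
    push_cast
    rfl
  have hr : ((a : ℂ) + b * omC) ^ rr K = nF (p : K) * nF (s : K) := by
    have e : ((p : K) * s) = a + b * P.w := by
      have := congrArg Subtype.val hs
      simpa [wR] using this.symm
    rw [← k2_nF_mul, e, nF, Finset.prod_congr rfl (g := fun _ => (a : ℂ) + b * omC)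
      fun v _ => by simp [emb, v.2], Finset.prod_const, Finset.card_univ]
  have hc : l % 3 = 2 ∨ ¬ (l : ℤ) ∣ 2 * a - b := by
    have h0 : l % 3 ≠ 0 := by
      intro h
      have h3 : 3 ∣ P.M := (show 3 ∣ 6 by norm_num).trans P.six
      have := Nat.eq_one_of_dvd_coprimes hcop (Nat.dvd_of_mod_eq_zero h) h3
      omega
    by_cases h1 : l % 3 = 1
    · refine .inr fun h => hsp l hl hd h1 ?_
      have h2 : p ∣ ((2 * a - b : ℤ) : R K) :=
        hd.trans (by exact_mod_cast Int.cast_dvd_cast (α := R K) _ _ h)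
      have hw : wR K ^ 2 + wR K + 1 = 0 := Subtype.ext (by
        have := P.hw.geom_sum_eq_zero (by norm_num)
        simp only [Finset.sum_range_succ, Finset.range_zero, Finset.sum_empty] at this
        simp only [wR, Subring.coe_add, SubmonoidClass.coe_pow, Subring.coe_one, Subring.coe_zero]
        linear_combination this)
      have := dvd_sub h2 (Dvd.intro _ hs.symm)
      convert this using 1
      push_cast
      linear_combination (b : R K) * hw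
    · left
      omega
  obtain ⟨h1, h2⟩ := k2_NS hp0
  obtain ⟨y, hy, e⟩ := k2_core P.M0 P.six hl hab (k2_nF_R p) (k2_nF_F _) h1 hNN (k2_nF_R s) hr hc
  rw [← hJ] at e
  have hN0 : (NS (p : K) : ℂ) ≠ 0 := by exact_mod_cast (NS_pos hp0).ne'
  refine ⟨⟨-y, neg_mem hy, -(conj y * (NS (p : K) : ℂ)⁻¹), neg_mem (mul_mem (k2_R_conj hy) h2), ?_,
    by rw [e]; ring⟩, ⟨-a', -b', ?_⟩, l ^ f, hcop.pow_left f, ?_⟩
  · rw [e, map_mul] at hNN
    have : y * conj y = NS (p : K) := by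
      refine mul_left_cancel₀ hlC ?_
      linear_combination hNN - y * conj y * hJJ
    rw [neg_mul_neg, ← mul_assoc, this, mul_inv_cancel₀ hN0]
  · have ha' : (a : ℂ) + 1 = 3 * a' := by exact_mod_cast ha
    have hb' : (b : ℂ) = 3 * b' := by exact_mod_cast hb
    rw [hJ]
    push_cast
    linear_combination -ha' - omC * hb'
  · have hJ0 : Jac p ≠ 0 := left_ne_zero_of_mul (hJJ ▸ hlC)
    have : ((l ^ f : ℕ) : ℂ) * (-Jac p)⁻¹ = -conj (Jac p) := by
      push_cast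
      rw [← hJJ]
      field_simp
    rw [this, hJ]
    exact (k2_int_conj (k2_int_ab a b)).neg

theorem k2_vpi_mul {a b : R K} (ha : a ≠ 0) (hb : b ≠ 0) : vpi (a * b) = vpi a * vpi b := by
  rw [vpi, vpi, vpi, ← Multiset.prod_add, ← Multiset.map_add]
  congr 1
  exact Multiset.rel_eq.1 (Multiset.rel_map.2 ((UniqueFactorizationMonoid.factors_mul ha hb).mono
    fun _ _ _ _ h => by rw [Jac_associated h]))

theorem k2_vpi_prime {p : R K} (hp : Prime p) : vpi p = -Jac p := by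
  obtain ⟨q, hq, e⟩ := UniqueFactorizationMonoid.factors_eq_singleton_of_irreducible hp.irreducible
  rw [vpi, e, Multiset.map_singleton, Multiset.prod_singleton, Jac_associated hq]

theorem k2_vpi_unit {u : R K} (hu : IsUnit u) : vpi u = 1 := by
  rw [vpi, UniqueFactorizationMonoid.factors_of_isUnit hu, Multiset.map_zero, Multiset.prod_zero]

theorem k2_all (n : R K) : n ≠ 0 →
    (∃ y ∈ RS ℂ P.M, ∃ y' ∈ RS ℂ P.M, y * y' = 1 ∧ nF (n : K) = y * vpi n) ∧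
    (∃ a b : ℤ, vpi n = 1 + 3 * (a + b * omC)) ∧ (vpi n)⁻¹ ∈ TS ℂ P.M ∧
    ‖vpi n‖ = Real.sqrt (Nr n) := by
  induction n using UniqueFactorizationMonoid.induction_on_prime with
  | h₁ => exact fun h => (h rfl).elim
  | h₂ u hu =>
    intro _
    rw [k2_vpi_unit hu, Nr_eq_one.2 hu]
    obtain ⟨u', e⟩ := hu.exists_right_inv
    refine ⟨⟨_, k2_nF_R u, _, k2_nF_R u', ?_, (mul_one _).symm⟩, ⟨0, 0, by simp⟩,
      by rw [inv_one]; exact one_mem _, by simp⟩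
    rw [← k2_nF_mul, ← Subring.coe_mul, e, Subring.coe_one, k2_nF_one]
  | h₃ n p hn hp ih =>
    intro _
    obtain ⟨⟨y, hy, y', hy', e1, e2⟩, ⟨a, b, e3⟩, h4, h5⟩ := ih hn
    obtain ⟨⟨z, hz, z', hz', f1, f2⟩, ⟨c, d, f3⟩, g4⟩ := k2_prime hp
    rw [k2_vpi_mul hp.ne_zero hn, k2_vpi_prime hp]
    refine ⟨⟨z * y, mul_mem hz hy, z' * y', mul_mem hz' hy', by linear_combination y * y' * f1 + e1,
      ?_⟩, ⟨a + c + 3 * (a * c - b * d), b + d + 3 * (a * d + b * c - b * d), ?_⟩, ?_, ?_⟩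
    · rw [Subring.coe_mul, k2_nF_mul, e2, f2]
      ring
    · rw [e3, f3]
      push_cast
      linear_combination (9 * (b : ℂ) * d) * k2_om_sq
    · rw [mul_inv]
      exact mul_mem g4 h4
    · rw [norm_mul, norm_neg, norm_Jac hp, h5, Nr_mul, Real.sqrt_mul (Nr_nonneg p)]

theorem norm_vpi {n : R K} (hn : n ≠ 0) : ‖vpi n‖ = Real.sqrt (Nr n) := (k2_all n hn).2.2.2
theorem vpi_mul {a b : R K} (ha : a ≠ 0) (hb : b ≠ 0) : vpi (a * b) = vpi a * vpi b := k2_vpi_mul ha hb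
theorem vpi_prime {p : R K} (hp : Prime p) : vpi p = -Jac p := k2_vpi_prime hp
theorem vpi_unit {u : R K} (hu : IsUnit u) : vpi u = 1 := k2_vpi_unit hu
/-- `vpi n` is the primary generator of the relative norm of `n`, hence `vpi n / nF n` is a class
function -/
theorem vpi_cls {c : K} (hc : c ≠ 0) {n n' : R K} (hn : n ∈ cls 1 c) (hn' : n' ∈ cls 1 c) :
    vpi n * nF (n' : K) = vpi n' * nF (n : K) := by
  have hn0 := ne_zero_of_mem_cls le_rfl hc hn
  have hn0' := ne_zero_of_mem_cls le_rfl hc hn'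
  have hK : (n : K) ≠ 0 := by simpa using hn0
  have hu : (n' : K) / n ∈ U 1 := by
    have := U_mul ((mem_cls_iff hc).1 hn') (U_inv le_rfl ((mem_cls_iff hc).1 hn))
    rwa [show (n' : K) / c * ((n : K) / c)⁻¹ = n' / n by field_simp] at this
  obtain ⟨β, hβ, eβ⟩ := k2_nF_U hu
  have eu : nF (n' : K) = nF ((n' : K) / n) * nF (n : K) := by
    rw [← k2_nF_mul, div_mul_cancel₀ _ hK]
  obtain ⟨⟨y, hy, y', hy', e1, e2⟩, ⟨a, b, e3⟩, -, h5⟩ := k2_all n hn0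
  obtain ⟨⟨z, hz, z', hz', f1, f2⟩, ⟨a', b', f3⟩, g4, g5⟩ := k2_all n' hn0'
  have hv : vpi n ≠ 0 := by
    rw [← norm_ne_zero_iff, h5]
    exact (Real.sqrt_pos.2 (Nr_pos hn0)).ne'
  have hv' : vpi n' ≠ 0 := by
    rw [← norm_ne_zero_iff, g5]
    exact (Real.sqrt_pos.2 (Nr_pos hn0')).ne'
  set η : ℂ := vpi n * nF ((n' : K) / n) / vpi n' with hη
  have hηF : η ∈ k2F := by
    refine div_mem (mul_mem ?_ (k2_nF_F _)) ?_
    · rw [e3]
      exact add_mem (one_mem _) (mul_mem (ofNat_mem _ 3) (k2_ab_mem a b))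
    · rw [f3]
      exact add_mem (one_mem _) (mul_mem (ofNat_mem _ 3) (k2_ab_mem a' b'))
  have hηR : η ∈ RS ℂ P.M := by
    have : η = z * y' := by
      rw [hη, div_eq_iff hv']
      linear_combination -(y' * eu) + y' * f2 - y' * nF ((n' : K) / n) * e2 -
        vpi n * nF ((n' : K) / n) * e1
    rw [this]
    exact mul_mem hz hy'
  have hη1 : ‖η‖ = 1 := by
    have h1 : ‖nF ((n' : K) / n)‖ ^ 2 = Nm ((n' : K) / n) := by
      have := k2_nF_conj ((n' : K) / n)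
      rw [Complex.mul_conj, Complex.normSq_eq_norm_sq] at this
      exact_mod_cast this
    have h2 : Nm (n' : K) = Nm ((n' : K) / n) * Nm (n : K) := by
      rw [← Nm_mul, div_mul_cancel₀ _ hK]
    rw [Nm_coe, Nm_coe, NS_cls le_rfl hc hn, NS_cls le_rfl hc hn', ← mul_assoc] at h2
    have h3 := mul_right_cancel₀ (NS_pos hc).ne' h2
    rw [← sq_eq_sq₀ (norm_nonneg _) zero_le_one, hη, norm_div, norm_mul, div_pow, mul_pow, h1, h5,
      g5, Real.sq_sqrt (Nr_nonneg _), Real.sq_sqrt (Nr_nonneg _), h3, one_pow, mul_comm,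
      div_self (h3 ▸ (Nr_pos hn0').ne')]
  have hzT : (η - 1) * 3⁻¹ ∈ TS ℂ P.M := by
    have : (η - 1) * 3⁻¹ = ((a + b * omC) + β + (3 : ℕ) * (a + b * omC) * β - (a' + b' * omC)) *
        (vpi n')⁻¹ := by
      rw [hη, eβ, e3]
      field_simp
      push_cast
      linear_combination -f3
    rw [this]
    have h1 : (a : ℂ) + b * omC ∈ TS ℂ P.M := k2_T_of_int (k2_int_ab a b)
    exact mul_mem (sub_mem (add_mem (add_mem h1 hβ) (mul_mem (mul_mem (natCast_mem _ _) h1) hβ))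
      (k2_T_of_int (k2_int_ab a' b'))) g4
  have h0 := k2_small (mul_mem (sub_mem hηF (one_mem _)) (inv_mem (ofNat_mem _ 3)))
    (k2_int_of_mem (mul_mem (sub_mem hηR (one_mem _)) (k2_inv_three P.M0 P.six)) hzT) (by
      have := norm_sub_le η 1
      rw [hη1, norm_one] at this
      rw [norm_mul, norm_inv, Complex.norm_ofNat]
      linarith)
  have h1 : η = 1 := sub_eq_zero.1 ((mul_eq_zero.1 h0).resolve_right (by norm_num))
  rw [hη, div_eq_one_iff_eq hv'] at h1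
  rw [eu, ← mul_assoc, h1]

end Crest.Agent.GQ
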