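import Crest.Agent.GQ.Base4

/-! # GQ Sym: residue symbols on R -/

set_option autoImplicit false

noncomputable section

open NumberField Complex
open scoped ComplexConjugate

namespace Crest.Agent.GQ

variable {K : Type} [Field K] [NumberField K] [P : Pre K]

theorem sy_omC_sq : omC * omC = -1 - omC := by
  have h : Real.sqrt 3 * Real.sqrt 3 = 3 := Real.mul_self_sqrt (by norm_num)
  apply Complex.ext
  · simp [omC]; nlinarith [h]
  · simp [omC]; ring

theorem omC_cube : omC ^ 3 = 1 := by linear_combination (omC - 1) * sy_omC_sq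
theorem sy_omC_ne_one : omC ≠ 1 := fun h => by
  have := sy_omC_sq
  rw [h] at this
  norm_num at this

theorem sy_omC_ne : omC ≠ 0 := fun h => by simpa [h] using omC_cube

theorem omC_prim : IsPrimitiveRoot omC 3 := by
  refine ⟨omC_cube, fun l hl => ?_⟩
  by_contra h
  have h4 : Nat.gcd l 3 = 1 := ((Nat.Prime.coprime_iff_not_dvd Nat.prime_three).2 h).symm
  have h5 := pow_gcd_eq_one.2 ⟨hl, omC_cube⟩
  rw [h4, pow_one] at h5
  exact sy_omC_ne_one h5
theorem sy_finite {n : R K} (hn : n ≠ 0) : Finite (R K ⧸ Ideal.span {n}) :=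
  finite_quot (by rwa [Ne, Ideal.span_singleton_eq_bot])

theorem sy_max {p : R K} (hp : Prime p) : (Ideal.span {p}).IsMaximal :=
  PrincipalIdealRing.isMaximal_of_irreducible hp.irreducible

theorem sy_card (n : R K) : Nat.card (R K ⧸ Ideal.span {n}) = nm n := rfl

theorem fermat {p x : R K} (hp : Prime p) (hx : ¬ p ∣ x) : p ∣ x ^ (nm p - 1) - 1 := by
  have := sy_finite hp.ne_zero
  have := sy_max hp
  let := Ideal.Quotient.field (Ideal.span {p})
  let := Fintype.ofFinite (R K ⧸ Ideal.span {p})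
  have h := FiniteField.pow_card_sub_one_eq_one (Ideal.Quotient.mk (Ideal.span {p}) x)
    (fun h => hx (Ideal.mem_span_singleton.1 (Ideal.Quotient.eq_zero_iff_mem.1 h)))
  rw [← Nat.card_eq_fintype_card, sy_card] at h
  rw [← Ideal.mem_span_singleton, ← Ideal.Quotient.eq, map_pow, map_one]
  exact h

theorem sy_nm_assoc {m n : R K} (h : Associated m n) : nm m = nm n := by
  unfold nm
  rw [Ideal.span_singleton_eq_span_singleton.2 h]

theorem sy_kapP_assoc {p q : R K} (h : Associated p q) (x : R K) : kapP p x = kapP q x := by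
  classical
  unfold kapP
  rw [sy_nm_assoc h]
  exact Finset.sum_congr rfl fun j _ => if_congr h.dvd_iff_dvd_left rfl rfl

theorem sy_prod_rel {s t : Multiset (R K)} (h : Multiset.Rel Associated s t) (x : R K) :
    (s.map fun p => kapP p x).prod = (t.map fun p => kapP p x).prod := by
  induction h with
  | zero => rfl
  | cons h _ ih => simp only [Multiset.map_cons, Multiset.prod_cons, sy_kapP_assoc h, ih]

theorem sy_w_cube : wR K ^ 3 = 1 := Subtype.ext P.hw.pow_eq_one

theorem sy_w_sq : wR K ^ 2 + wR K + 1 = 0 := by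
  have h1 : wR K - 1 ≠ 0 := fun h =>
    P.hw.ne_one (by norm_num) (congrArg Subtype.val (sub_eq_zero.1 h))
  refine mul_left_cancel₀ h1 ?_
  linear_combination sy_w_cube (K := K)

theorem sy_not_two {p : R K} (hp : Prime p) : ¬ p ∣ 2 := fun h =>
  hp.not_isUnit (isUnit_of_dvd_unit h isUnit_two)

theorem sy_not_three {p : R K} (hp : Prime p) : ¬ p ∣ 3 := fun h =>
  hp.not_isUnit (isUnit_of_dvd_unit h isUnit_three)

theorem sy_distinct {p : R K} (hp : Prime p) {i j : ℕ} (hi : i < 3) (hj : j < 3)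
    (h : p ∣ wR K ^ i - wR K ^ j) : i = j := by
  by_contra hne
  refine sy_not_three hp (h.trans ?_)
  have h3 := sy_w_cube (K := K)
  have h2 := sy_w_sq (K := K)
  have key : ∀ a b : ℕ, wR K ^ a * wR K ^ (2 * a) = 1 := fun a _ => by
    rw [← pow_add, show a + 2 * a = 3 * a by ring, pow_mul, h3, one_pow]
  interval_cases i <;> interval_cases j
  · exact absurd rfl hne
  · exact ⟨wR K + 2, by linear_combination h2⟩
  · exact ⟨1 - wR K, by linear_combination h2 - h3⟩
  · exact ⟨-(wR K + 2), by linear_combination h2⟩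
  · exact absurd rfl hne
  · exact ⟨wR K ^ 2 * (wR K + 2), by linear_combination h2 + (wR K ^ 2 + wR K - 2) * h3⟩
  · exact ⟨-(1 - wR K), by linear_combination h2 - h3⟩
  · exact ⟨-(wR K ^ 2 * (wR K + 2)), by linear_combination h2 + (wR K ^ 2 + wR K - 2) * h3⟩
  · exact absurd rfl hne

theorem sy_kapP_eq {p x : R K} (hp : Prime p) {j : ℕ}
    (h : p ∣ x ^ ((nm p - 1) / 3) - wR K ^ j) : kapP p x = omC ^ j := by
  have hj : j % 3 < 3 := Nat.mod_lt _ (by norm_num)
  rw [pow_eq_pow_mod j sy_w_cube] at h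
  rw [pow_eq_pow_mod j omC_cube, kapP, Finset.sum_eq_single (j % 3), if_pos h]
  · intro i hi hne
    refine if_neg fun h' => hne (sy_distinct hp (Finset.mem_range.1 hi) hj ?_)
    simpa using dvd_sub h h'
  · exact fun h => absurd (Finset.mem_range.2 hj) h

theorem sy_kapP_spec {p x : R K} (hp : Prime p) (hx : ¬ p ∣ x) :
    ∃ j : ℕ, j < 3 ∧ p ∣ x ^ ((nm p - 1) / 3) - wR K ^ j ∧ kapP p x = omC ^ j := by
  have h := fermat hp hx
  have h1 := nm_prime_mod hp
  have h2 : nm p - 1 = (nm p - 1) / 3 * 3 := by omega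
  rw [h2, pow_mul] at h
  set y := x ^ ((nm p - 1) / 3)
  have h4 : y ^ 3 - 1 = (y - wR K ^ 0) * ((y - wR K ^ 1) * (y - wR K ^ 2)) := by
    linear_combination (y ^ 2 - y) * sy_w_sq (K := K) + (1 - y) * sy_w_cube (K := K)
  rw [h4] at h
  rcases hp.dvd_or_dvd h with h | h
  · exact ⟨0, by norm_num, h, sy_kapP_eq hp h⟩
  · rcases hp.dvd_or_dvd h with h | h
    · exact ⟨1, by norm_num, h, sy_kapP_eq hp h⟩
    · exact ⟨2, by norm_num, h, sy_kapP_eq hp h⟩

theorem sy_kapP_dvd {p x : R K} (hp : Prime p) (hx : p ∣ x) : kapP p x = 0 := by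
  refine Finset.sum_eq_zero fun j _ => if_neg fun h => ?_
  have h4 := seven_le_nm hp
  have h5 : p ∣ wR K ^ j := by
    simpa using dvd_sub (dvd_pow hx (show (nm p - 1) / 3 ≠ 0 by omega)) h
  exact hp.not_isUnit (isUnit_of_dvd_unit h5 ((IsUnit.of_pow_eq_one sy_w_cube (by norm_num)).pow j))

theorem sy_kapP_zero {p x : R K} (hp : Prime p) : kapP p x = 0 ↔ p ∣ x := by
  refine ⟨fun h => ?_, sy_kapP_dvd hp⟩
  by_contra h'
  obtain ⟨j, -, -, hj⟩ := sy_kapP_spec hp h'
  exact pow_ne_zero j sy_omC_ne (hj.symm.trans h)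

theorem sy_kapP_mul {p : R K} (hp : Prime p) (x y : R K) : kapP p (x * y) = kapP p x * kapP p y := by
  by_cases hx : p ∣ x
  · rw [sy_kapP_dvd hp hx, sy_kapP_dvd hp (hx.mul_right y), zero_mul]
  by_cases hy : p ∣ y
  · rw [sy_kapP_dvd hp hy, sy_kapP_dvd hp (hy.mul_left x), mul_zero]
  obtain ⟨i, -, hi, ei⟩ := sy_kapP_spec hp hx
  obtain ⟨j, -, hj, ej⟩ := sy_kapP_spec hp hy
  rw [ei, ej, ← pow_add]
  refine sy_kapP_eq hp ?_
  convert dvd_add (hi.mul_right (y ^ ((nm p - 1) / 3))) (hj.mul_left (wR K ^ i)) using 1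
  rw [mul_pow, pow_add]
  ring

theorem sy_kapP_cube {p x : R K} (hp : Prime p) (h : kapP p x ≠ 0) : kapP p x ^ 3 = 1 := by
  rw [Ne, sy_kapP_zero hp] at h
  obtain ⟨j, -, -, hj⟩ := sy_kapP_spec hp h
  rw [hj, ← pow_mul, mul_comm, pow_mul, omC_cube, one_pow]

theorem sy_kapP_congr {p x y : R K} (h : p ∣ x - y) : kapP p x = kapP p y := by
  classical
  unfold kapP
  refine Finset.sum_congr rfl fun j _ => if_congr ?_ rfl rfl
  refine dvd_iff_dvd_of_dvd_sub ?_
  simpa using h.trans (sub_dvd_pow_sub_pow x y _)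

theorem sy_kap_congr {n x y : R K}
    (h : ∀ p, Prime p → p ∣ n → kapP p x = kapP p y) : kap n x = kap n y :=
  congrArg Multiset.prod (Multiset.map_congr rfl fun p hp =>
    h p (UniqueFactorizationMonoid.prime_of_factor p hp)
      (UniqueFactorizationMonoid.dvd_of_mem_factors hp))

theorem kap_prime {p : R K} (hp : Prime p) (x : R K) : kap p x = kapP p x := by
  obtain ⟨b, hb, h⟩ := UniqueFactorizationMonoid.factors_eq_singleton_of_irreducible hp.irreducible
  unfold kap
  rw [h, Multiset.map_singleton, Multiset.prod_singleton, sy_kapP_assoc hb]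
theorem kap_prime_spec {p x : R K} (hp : Prime p) (hx : ¬ p ∣ x) :
    ∃ j : ℕ, j < 3 ∧ p ∣ x ^ ((nm p - 1) / 3) - wR K ^ j ∧ kap p x = omC ^ j := by
  rw [kap_prime hp]
  exact sy_kapP_spec hp hx
theorem kap_prime_eq {p x : R K} (hp : Prime p) {j : ℕ}
    (h : p ∣ x ^ ((nm p - 1) / 3) - wR K ^ j) : kap p x = omC ^ j := by
  rw [kap_prime hp]
  exact sy_kapP_eq hp h
theorem kap_zero_left (x : R K) : kap 0 x = 1 := by simp [kap]
theorem kap_mul_left {m n : R K} (hm : m ≠ 0) (hn : n ≠ 0) (x : R K) :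
    kap (m * n) x = kap m x * kap n x := by
  rw [kap, sy_prod_rel (UniqueFactorizationMonoid.factors_mul hm hn), Multiset.map_add,
    Multiset.prod_add]
  rfl
theorem kap_pow_left {n : R K} (hn : n ≠ 0) (k : ℕ) (x : R K) : kap (n ^ k) x = kap n x ^ k := by
  induction k with
  | zero => simp [kap]
  | succ k ih => rw [pow_succ, kap_mul_left (pow_ne_zero _ hn) hn, ih, pow_succ]
theorem kap_unit_left {u : R K} (hu : IsUnit u) (x : R K) : kap u x = 1 := by
  simp [kap, UniqueFactorizationMonoid.factors_of_isUnit hu]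
theorem kap_associated {m n : R K} (h : Associated m n) (x : R K) : kap m x = kap n x :=
  sy_prod_rel (UniqueFactorizationMonoid.factors_rel_of_associated h) x
theorem kap_mul_right (n x y : R K) : kap n (x * y) = kap n x * kap n y := by
  unfold kap
  rw [← Multiset.prod_map_mul]
  exact congrArg Multiset.prod (Multiset.map_congr rfl fun p hp =>
    sy_kapP_mul (UniqueFactorizationMonoid.prime_of_factor p hp) x y)
theorem kap_one_right (n : R K) : kap n 1 = 1 := by
  refine Multiset.prod_eq_one fun z hz => ?_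
  obtain ⟨p, hp, rfl⟩ := Multiset.mem_map.1 hz
  exact (sy_kapP_eq (j := 0) (UniqueFactorizationMonoid.prime_of_factor p hp) (by simp)).trans
    (pow_zero _)
theorem kap_pow_right (n x : R K) (k : ℕ) : kap n (x ^ k) = kap n x ^ k := by
  induction k with
  | zero => rw [pow_zero, pow_zero, kap_one_right]
  | succ k ih => rw [pow_succ, kap_mul_right, ih, pow_succ]
theorem kap_neg_right (n x : R K) : kap n (-x) = kap n x := by
  refine sy_kap_congr fun p hp _ => ?_
  have h1 : kapP p (-1) ≠ 0 := by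
    rw [Ne, sy_kapP_zero hp, dvd_neg]
    exact hp.not_dvd_one
  have h2 : kapP p (-1) = 1 := by
    have h := sy_kapP_cube hp h1
    rw [pow_three, ← sy_kapP_mul hp, ← sy_kapP_mul hp] at h
    simpa using h
  rw [← neg_one_mul x, sy_kapP_mul hp, h2, one_mul]
theorem kap_congr {n x y : R K} (hn : n ≠ 0) (h : ∀ p, Prime p → p ∣ n → p ∣ x - y) :
    kap n x = kap n y := sy_kap_congr fun p hp hd => sy_kapP_congr (h p hp hd)
theorem kap_congr' {n x y : R K} (h : n ∣ x - y) : kap n x = kap n y :=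
  sy_kap_congr fun _ _ hd => sy_kapP_congr (hd.trans h)
theorem kap_eq_zero {n x : R K} (hn : n ≠ 0) : kap n x = 0 ↔ ¬ IsCoprime n x := by
  rw [kap, Multiset.prod_eq_zero_iff, Multiset.mem_map]
  constructor
  · rintro ⟨p, hp, h⟩
    have hp' := UniqueFactorizationMonoid.prime_of_factor p hp
    have hd := UniqueFactorizationMonoid.dvd_of_mem_factors hp
    exact fun hc => hp'.not_isUnit (hc.isUnit_of_dvd' hd ((sy_kapP_zero hp').1 h))
  · intro h
    by_contra h'
    refine h (isCoprime_of_prime_dvd (fun h0 => hn h0.1) fun q hq hd hx => h' ?_)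
    obtain ⟨p, hp, ha⟩ := UniqueFactorizationMonoid.exists_mem_factors_of_dvd hn hq.irreducible hd
    exact ⟨p, hp, by rw [← sy_kapP_assoc ha, sy_kapP_zero hq]; exact hx⟩
theorem kap_cube {n x : R K} (h : kap n x ≠ 0) : kap n x ^ 3 = 1 := by
  unfold kap at h ⊢
  rw [← Multiset.prod_map_pow]
  refine Multiset.prod_eq_one fun z hz => ?_
  obtain ⟨p, hp, rfl⟩ := Multiset.mem_map.1 hz
  exact sy_kapP_cube (UniqueFactorizationMonoid.prime_of_factor p hp) fun h0 =>
    h (Multiset.prod_eq_zero (Multiset.mem_map.2 ⟨p, hp, h0⟩))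
theorem norm_kap_le (n x : R K) : ‖kap n x‖ ≤ 1 := by
  by_cases h : kap n x = 0
  · simp [h]
  · exact (norm_eq_one_of_pow_eq_one (kap_cube h) (by norm_num)).le
theorem norm_kap {n x : R K} (h : kap n x ≠ 0) : ‖kap n x‖ = 1 :=
  norm_eq_one_of_pow_eq_one (kap_cube h) (by norm_num)
theorem conj_kap (n x : R K) : conj (kap n x) = kap n x ^ 2 := by
  by_cases h : kap n x = 0
  · simp [h]
  have h1 := Complex.mul_conj' (kap n x)
  rw [norm_kap h] at h1
  refine mul_left_cancel₀ h ?_
  rw [h1, ← pow_succ', kap_cube h]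
  simp
theorem kap_nontrivial {p : R K} (hp : Prime p) : ∃ x, kap p x = omC := by
  obtain ⟨x, hx, h1⟩ : ∃ x, ¬ p ∣ x ∧ ¬ p ∣ x ^ ((nm p - 1) / 3) - wR K ^ 0 := by
    have := sy_finite hp.ne_zero
    have := sy_max hp
    let := Ideal.Quotient.field (Ideal.span {p})
    let := Fintype.ofFinite (R K ⧸ Ideal.span {p})
    by_contra h
    push Not at h
    have h2 : Fintype.card (R K ⧸ Ideal.span {p}) - 1 ∣ (nm p - 1) / 3 := by
      refine (FiniteField.forall_pow_eq_one_iff _ _).1 fun u => Units.ext ?_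
      obtain ⟨y, hy⟩ := Ideal.Quotient.mk_surjective (u : R K ⧸ Ideal.span {p})
      have := h y fun hd => u.ne_zero
        (hy.symm.trans (Ideal.Quotient.eq_zero_iff_mem.2 (Ideal.mem_span_singleton.2 hd)))
      rw [← Ideal.mem_span_singleton, ← Ideal.Quotient.eq, map_pow, hy, pow_zero, map_one] at this
      exact this
    rw [← Nat.card_eq_fintype_card, sy_card] at h2
    have h4 := seven_le_nm hp
    have := Nat.le_of_dvd (by omega) h2
    omega
  obtain ⟨j, hj, h2, e⟩ := kap_prime_spec hp hx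
  interval_cases j
  · exact absurd h2 h1
  · exact ⟨x, by simpa using e⟩
  · exact ⟨x * x, by rw [kap_mul_right, e]; linear_combination omC * omC_cube⟩

theorem sy_zero {p x : R K} (h : p ∣ x) : rhoP p x = 0 := if_pos h

theorem sy_one {p x : R K} (h : ¬ p ∣ x) (h1 : p ∣ x ^ ((nm p - 1) / 2) - 1) : rhoP p x = 1 := by
  unfold rhoP
  rw [if_neg h, if_pos h1]

theorem sy_neg' {p x : R K} (h : ¬ p ∣ x) (h1 : ¬ p ∣ x ^ ((nm p - 1) / 2) - 1) :
    rhoP p x = -1 := by
  unfold rhoP
  rw [if_neg h, if_neg h1]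

theorem sy_neg {p x : R K} (hp : Prime p) (h : ¬ p ∣ x) (h1 : p ∣ x ^ ((nm p - 1) / 2) + 1) :
    rhoP p x = -1 := by
  refine sy_neg' h fun h2 => sy_not_two hp ?_
  have := dvd_sub h1 h2
  rwa [show x ^ ((nm p - 1) / 2) + 1 - (x ^ ((nm p - 1) / 2) - 1) = 2 by ring] at this

theorem sy_spec {p x : R K} (hp : Prime p) (h : ¬ p ∣ x) :
    p ∣ x ^ ((nm p - 1) / 2) - 1 ∨ p ∣ x ^ ((nm p - 1) / 2) + 1 := by
  have h3 := fermat hp h
  have h4 := nm_prime_mod hp
  rw [show nm p - 1 = (nm p - 1) / 2 * 2 by omega, pow_mul] at h3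
  refine hp.dvd_or_dvd ?_
  rwa [show ∀ w : R K, (w - 1) * (w + 1) = w ^ 2 - 1 from fun w => by ring]

theorem sy_mul {p : R K} (hp : Prime p) (x y : R K) : rhoP p (x * y) = rhoP p x * rhoP p y := by
  by_cases hx : p ∣ x
  · rw [sy_zero hx, zero_mul, sy_zero (hx.mul_right y)]
  by_cases hy : p ∣ y
  · rw [sy_zero hy, mul_zero, sy_zero (hy.mul_left x)]
  have hxy : ¬ p ∣ x * y := fun h => (hp.dvd_or_dvd h).elim hx hy
  set e := (nm p - 1) / 2 with he
  rcases sy_spec hp hx with h1 | h1 <;> rcases sy_spec hp hy with h2 | h2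
  · rw [sy_one hx h1, sy_one hy h2, sy_one hxy, mul_one]
    have := dvd_add (h1.mul_right (y ^ e)) h2
    rwa [show (x ^ e - 1) * y ^ e + (y ^ e - 1) = (x * y) ^ e - 1 by ring] at this
  · rw [sy_one hx h1, sy_neg hp hy h2, sy_neg hp hxy, one_mul]
    have := dvd_add (h1.mul_right (y ^ e)) h2
    rwa [show (x ^ e - 1) * y ^ e + (y ^ e + 1) = (x * y) ^ e + 1 by ring] at this
  · rw [sy_neg hp hx h1, sy_one hy h2, sy_neg hp hxy, mul_one]
    have := dvd_sub (h1.mul_right (y ^ e)) h2
    rwa [show (x ^ e + 1) * y ^ e - (y ^ e - 1) = (x * y) ^ e + 1 by ring] at this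
  · rw [sy_neg hp hx h1, sy_neg hp hy h2, sy_one hxy, neg_mul_neg, mul_one]
    have := dvd_sub (h1.mul_right (y ^ e)) h2
    rwa [show (x ^ e + 1) * y ^ e - (y ^ e + 1) = (x * y) ^ e - 1 by ring] at this

theorem sy_assoc {p q : R K} (h : Associated p q) (x : R K) : rhoP p x = rhoP q x := by
  classical
  unfold rhoP
  rw [sy_nm_assoc h]
  exact if_congr h.dvd_iff_dvd_left rfl (if_congr h.dvd_iff_dvd_left rfl rfl)

theorem sy_congr {p x y : R K} (h : p ∣ x - y) : rhoP p x = rhoP p y := by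
  have h1 : p ∣ x ↔ p ∣ y := dvd_iff_dvd_of_dvd_sub h
  have h2 : p ∣ x ^ ((nm p - 1) / 2) - 1 ↔ p ∣ y ^ ((nm p - 1) / 2) - 1 :=
    dvd_iff_dvd_of_dvd_sub (by rw [sub_sub_sub_cancel_right]; exact h.trans (sub_dvd_pow_sub_pow _ _ _))
  classical
  unfold rhoP
  exact if_congr h1 rfl (if_congr h2 rfl rfl)

theorem sy_cases (p x : R K) : rhoP p x = 0 ∨ rhoP p x = 1 ∨ rhoP p x = -1 := by
  unfold rhoP
  split_ifs <;> simp

theorem sy_eq_zero {p x : R K} : rhoP p x = 0 ↔ p ∣ x := by
  unfold rhoP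
  split_ifs with h1 h2 <;> simp [h1]

theorem sy_rel {s t : Multiset (R K)} (h : Multiset.Rel Associated s t) (x : R K) :
    (s.map fun p => rhoP p x).prod = (t.map fun p => rhoP p x).prod := by
  induction h with
  | zero => rfl
  | cons h _ ih => rw [Multiset.map_cons, Multiset.map_cons, Multiset.prod_cons, Multiset.prod_cons,
      ih, sy_assoc h]

/-- Euler's criterion -/
theorem sy_euler {p : R K} (hp : Prime p) :
    (∀ y, ¬ p ∣ y → (∀ z, ¬ p ∣ z ^ 2 - y) → rhoP p y = -1) ∧
      ∃ y, ¬ p ∣ y ∧ ∀ z, ¬ p ∣ z ^ 2 - y := by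
  classical
  have hmax := sy_max hp
  let : Field (R K ⧸ Ideal.span {p}) := Ideal.Quotient.field _
  have hc := sy_card p
  have hodd := nm_prime_mod hp
  have := sy_finite hp.ne_zero
  let : Fintype (R K ⧸ Ideal.span {p}) := Fintype.ofFinite _
  rw [Nat.card_eq_fintype_card] at hc
  have hch : ringChar (R K ⧸ Ideal.span {p}) ≠ 2 := fun h => by
    have := FiniteField.even_card_iff_char_two.1 h
    omega
  have hz : ∀ y : R K, Ideal.Quotient.mk (Ideal.span {p}) y = 0 ↔ p ∣ y := fun y => by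
    rw [Ideal.Quotient.eq_zero_iff_mem, Ideal.mem_span_singleton]
  have hsq : ∀ y : R K, IsSquare (Ideal.Quotient.mk (Ideal.span {p}) y) ↔ ∃ z, p ∣ z ^ 2 - y :=
    fun y => by
      constructor
      · rintro ⟨w, hw⟩
        obtain ⟨z, rfl⟩ := Ideal.Quotient.mk_surjective w
        exact ⟨z, (hz _).1 (by rw [map_sub, map_pow, hw, sq, sub_self])⟩
      · rintro ⟨z, h⟩
        have := (hz _).2 h
        rw [map_sub, map_pow, sub_eq_zero, sq] at this
        exact ⟨_, this.symm⟩
  refine ⟨fun y hy hn => sy_neg' hy fun h => ?_, ?_⟩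
  · refine not_exists.2 hn ((hsq y).1 ((FiniteField.isSquare_iff hch (mt (hz y).1 hy)).2 ?_))
    have := (hz _).2 h
    rwa [map_sub, map_pow, map_one, sub_eq_zero, show (nm p - 1) / 2 = nm p / 2 by omega, ← hc] at this
  · obtain ⟨a, ha⟩ := FiniteField.exists_nonsquare hch
    obtain ⟨y, rfl⟩ := Ideal.Quotient.mk_surjective a
    refine ⟨y, fun h => ha ?_, fun z h => ha ((hsq y).2 ⟨z, h⟩)⟩
    rw [(hz y).2 h]
    exact IsSquare.zero

theorem rho_prime {p : R K} (hp : Prime p) (x : R K) : rho p x = rhoP p x := by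
  obtain ⟨b, hb, h⟩ := UniqueFactorizationMonoid.factors_eq_singleton_of_irreducible hp.irreducible
  unfold rho
  rw [h, Multiset.map_singleton, Multiset.prod_singleton, sy_assoc hb]
theorem rho_mul_left {m n : R K} (hm : m ≠ 0) (hn : n ≠ 0) (x : R K) :
    rho (m * n) x = rho m x * rho n x := by
  unfold rho
  rw [sy_rel (UniqueFactorizationMonoid.factors_mul hm hn), Multiset.map_add, Multiset.prod_add]
theorem rho_pow_left {n : R K} (hn : n ≠ 0) (k : ℕ) (x : R K) : rho (n ^ k) x = rho n x ^ k := by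
  induction k with
  | zero => simp [rho]
  | succ k ih => rw [pow_succ, pow_succ, rho_mul_left (pow_ne_zero _ hn) hn, ih]
theorem rho_unit_left {u : R K} (hu : IsUnit u) (x : R K) : rho u x = 1 := by
  unfold rho
  rw [UniqueFactorizationMonoid.factors_of_isUnit hu, Multiset.map_zero, Multiset.prod_zero]
theorem rho_associated {m n : R K} (h : Associated m n) (x : R K) : rho m x = rho n x :=
  sy_rel (UniqueFactorizationMonoid.factors_rel_of_associated h) x
theorem rho_mul_right (n x y : R K) : rho n (x * y) = rho n x * rho n y := by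
  unfold rho
  rw [← Multiset.prod_map_mul]
  exact congrArg _ (Multiset.map_congr rfl fun p hp =>
    sy_mul (UniqueFactorizationMonoid.prime_of_factor p hp) x y)
theorem rho_one_right (n : R K) : rho n 1 = 1 := by
  refine Multiset.prod_eq_one fun z hz => ?_
  obtain ⟨p, hp, rfl⟩ := Multiset.mem_map.1 hz
  exact sy_one (UniqueFactorizationMonoid.prime_of_factor p hp).not_dvd_one (by simp)
theorem rho_pow_right (n x : R K) (k : ℕ) : rho n (x ^ k) = rho n x ^ k := by
  induction k with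
  | zero => rw [pow_zero, pow_zero, rho_one_right]
  | succ k ih => rw [pow_succ, rho_mul_right, ih, ← pow_succ]
theorem rho_cases (n x : R K) : rho n x = 0 ∨ rho n x = 1 ∨ rho n x = -1 := by
  unfold rho
  induction UniqueFactorizationMonoid.factors n using Multiset.induction_on with
  | empty => simp
  | cons p s ih =>
    rw [Multiset.map_cons, Multiset.prod_cons]
    rcases sy_cases p x with h | h | h <;> rcases ih with h' | h' | h' <;> simp [h, h']
theorem rho_sq {n x : R K} (h : rho n x ≠ 0) : rho n x ^ 2 = 1 := by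
  rcases rho_cases n x with h' | h' | h'
  · exact absurd h' h
  · rw [h', one_pow]
  · rw [h', neg_one_sq]
theorem rho_congr {n x y : R K} (hn : n ≠ 0) (h : ∀ p, Prime p → p ∣ n → p ∣ x - y) :
    rho n x = rho n y := congrArg Multiset.prod (Multiset.map_congr rfl fun p hp => sy_congr
    (h p (UniqueFactorizationMonoid.prime_of_factor p hp)
      (UniqueFactorizationMonoid.dvd_of_mem_factors hp)))
theorem rho_congr' {n x y : R K} (h : n ∣ x - y) : rho n x = rho n y :=
  congrArg Multiset.prod (Multiset.map_congr rfl fun _ hp => sy_congr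
    ((UniqueFactorizationMonoid.dvd_of_mem_factors hp).trans h))
theorem rho_eq_zero {n x : R K} (hn : n ≠ 0) : rho n x = 0 ↔ ¬ IsCoprime n x := by
  unfold rho
  simp only [Multiset.prod_eq_zero_iff, Multiset.mem_map, sy_eq_zero]
  constructor
  · rintro ⟨p, hp, h⟩ hc
    exact (UniqueFactorizationMonoid.prime_of_factor p hp).not_isUnit
      (hc.isUnit_of_dvd' (UniqueFactorizationMonoid.dvd_of_mem_factors hp) h)
  · intro h
    by_contra hc
    refine h (isCoprime_of_prime_dvd (fun h' => hn h'.1) fun z hz hzn hzx => hc ?_)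
    obtain ⟨q, hq, ha⟩ := UniqueFactorizationMonoid.exists_mem_factors_of_dvd hn hz.irreducible hzn
    exact ⟨q, hq, ha.symm.dvd.trans hzx⟩
theorem norm_rho_le (n x : R K) : ‖rho n x‖ ≤ 1 := by
  rcases rho_cases n x with h | h | h <;> simp [h]
theorem conj_rho (n x : R K) : conj (rho n x) = rho n x := by
  rcases rho_cases n x with h | h | h <;> simp [h]
open Classical in
theorem card_sqrt_prime {p : R K} (hp : Prime p) (y : R K) :
    ((((reps p).filter (fun x => p ∣ x ^ 2 - y)).card : ℕ) : ℂ) = 1 + rho p y := by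
  by_cases hy : p ∣ y
  · obtain ⟨x, ⟨hx, hx0⟩, hu⟩ := reps_existsUnique hp.ne_zero 0
    have h1 : (reps p).filter (fun x => p ∣ x ^ 2 - y) = {x} := by
      ext w
      rw [Finset.mem_filter, Finset.mem_singleton, dvd_sub_left hy, hp.dvd_pow_iff_dvd two_ne_zero]
      exact ⟨fun h => hu w ⟨h.1, by rw [sub_zero]; exact h.2⟩,
        fun h => h ▸ ⟨hx, by rwa [sub_zero] at hx0⟩⟩
    rw [h1, rho_prime hp, sy_zero hy]
    simp
  by_cases hs : ∃ z, p ∣ z ^ 2 - y
  · obtain ⟨z, hz⟩ := hs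
    have hz0 : ¬ p ∣ z := fun h => hy ((dvd_sub_right (dvd_pow h two_ne_zero)).1 hz)
    have h2z : ¬ p ∣ 2 * z := fun h => (hp.dvd_or_dvd h).elim (sy_not_two hp) hz0
    obtain ⟨a, ⟨ha, ha0⟩, hua⟩ := reps_existsUnique hp.ne_zero z
    obtain ⟨b, ⟨hb, hb0⟩, hub⟩ := reps_existsUnique hp.ne_zero (-z)
    have hab : a ≠ b := fun h => h2z (by
      have := dvd_sub hb0 (h ▸ ha0)
      rwa [show b - -z - (b - z) = 2 * z by ring] at this)
    have key : ∀ w, p ∣ w ^ 2 - y ↔ p ∣ w - z ∨ p ∣ w - -z := fun w => by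
      rw [← hp.dvd_mul]
      exact dvd_iff_dvd_of_dvd_sub (by
        rwa [show w ^ 2 - y - (w - z) * (w - -z) = z ^ 2 - y by ring])
    have h1 : (reps p).filter (fun x => p ∣ x ^ 2 - y) = {a, b} := by
      ext w
      rw [Finset.mem_filter, Finset.mem_insert, Finset.mem_singleton, key]
      constructor
      · rintro ⟨hw, h | h⟩
        · exact Or.inl (hua w ⟨hw, h⟩)
        · exact Or.inr (hub w ⟨hw, h⟩)
      · rintro (rfl | rfl)
        · exact ⟨ha, Or.inl ha0⟩
        · exact ⟨hb, Or.inr hb0⟩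
    rw [h1, Finset.card_pair hab, ← rho_congr' hz, rho_pow_right,
      rho_sq (by rw [rho_prime hp]; exact mt sy_eq_zero.1 hz0)]
    norm_num
  · rw [Finset.filter_eq_empty_iff.2 fun w _ h => hs ⟨w, h⟩, rho_prime hp,
      (sy_euler hp).1 y hy (not_exists.1 hs)]
    simp

theorem chi_mul_left {m n : R K} (hm : m ≠ 0) (hn : n ≠ 0) (x : R K) :
    chi (m * n) x = chi m x * chi n x := by
  unfold chi
  rw [rho_mul_left hm hn, kap_mul_left hm hn]
  ring
theorem chi_pow_left {n : R K} (hn : n ≠ 0) (k : ℕ) (x : R K) : chi (n ^ k) x = chi n x ^ k := by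
  unfold chi
  rw [rho_pow_left hn, kap_pow_left hn]
  ring
theorem chi_unit_left {u : R K} (hu : IsUnit u) (x : R K) : chi u x = 1 := by
  unfold chi
  rw [rho_unit_left hu, kap_unit_left hu]
  ring
theorem chi_associated {m n : R K} (h : Associated m n) (x : R K) : chi m x = chi n x := by
  unfold chi
  rw [rho_associated h, kap_associated h]
theorem chi_mul_right (n x y : R K) : chi n (x * y) = chi n x * chi n y := by
  unfold chi
  rw [rho_mul_right, kap_mul_right]
  ring
theorem chi_one_right (n : R K) : chi n 1 = 1 := by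
  unfold chi
  rw [rho_one_right, kap_one_right]
  ring
theorem chi_pow_right (n x : R K) (k : ℕ) : chi n (x ^ k) = chi n x ^ k := by
  unfold chi
  rw [rho_pow_right, kap_pow_right]
  ring
theorem chi_congr {n x y : R K} (hn : n ≠ 0) (h : ∀ p, Prime p → p ∣ n → p ∣ x - y) :
    chi n x = chi n y := by
  unfold chi
  rw [rho_congr hn h, kap_congr hn h]
theorem chi_congr' {n x y : R K} (h : n ∣ x - y) : chi n x = chi n y := by
  unfold chi
  rw [rho_congr' h, kap_congr' h]
theorem chi_eq_zero {n x : R K} (hn : n ≠ 0) : chi n x = 0 ↔ ¬ IsCoprime n x := by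
  unfold chi
  rw [mul_eq_zero, pow_eq_zero_iff two_ne_zero, rho_eq_zero hn, kap_eq_zero hn, or_self]
theorem sy_chi_six {n x : R K} (h : chi n x ≠ 0) : chi n x ^ 6 = 1 := by
  have h1 := rho_sq (left_ne_zero_of_mul h)
  have h2 := kap_cube (pow_ne_zero_iff two_ne_zero |>.1 (right_ne_zero_of_mul h))
  calc chi n x ^ 6 = (rho n x ^ 2) ^ 3 * (kap n x ^ 3) ^ 4 := by unfold chi; ring
    _ = 1 := by rw [h1, h2]; ring
theorem sy_kap_rho (n x : R K) : kap n x = 0 ↔ rho n x = 0 := by
  by_cases hn : n = 0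
  · subst hn
    simp [kap, rho]
  · rw [kap_eq_zero hn, rho_eq_zero hn]
open Classical in
theorem chi_pow_six {n : R K} (hn : n ≠ 0) (x : R K) :
    chi n x ^ 6 = if IsCoprime n x then 1 else 0 := by
  split_ifs with h
  · exact sy_chi_six fun h' => (chi_eq_zero hn).1 h' h
  · rw [(chi_eq_zero hn).2 h]
    ring
theorem chi_pow_add_six (n x : R K) {k : ℕ} (hk : k ≠ 0) : chi n x ^ (k + 6) = chi n x ^ k := by
  by_cases h : chi n x = 0
  · rw [h, zero_pow hk, zero_pow (by omega)]
  · rw [pow_add, sy_chi_six h, mul_one]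
theorem norm_chi_le (n x : R K) : ‖chi n x‖ ≤ 1 := by
  unfold chi
  rw [norm_mul, norm_pow]
  exact mul_le_one₀ (norm_rho_le n x) (by positivity) (pow_le_one₀ (norm_nonneg _) (norm_kap_le n x))
theorem norm_chi {n x : R K} (h : chi n x ≠ 0) : ‖chi n x‖ = 1 :=
  norm_eq_one_of_pow_eq_one (sy_chi_six h) (by norm_num)
theorem conj_chi (n x : R K) : conj (chi n x) = chi n x ^ 5 := by
  by_cases h : chi n x = 0
  · rw [h]; simp
  have h1 := rho_sq (left_ne_zero_of_mul h)
  have h2 := kap_cube (pow_ne_zero_iff two_ne_zero |>.1 (right_ne_zero_of_mul h))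
  calc conj (chi n x) = rho n x * (kap n x ^ 2) ^ 2 := by
        unfold chi
        rw [map_mul, map_pow, conj_rho, conj_kap]
    _ = (rho n x ^ 2) ^ 2 * (kap n x ^ 3) ^ 2 * (rho n x * (kap n x ^ 2) ^ 2) := by rw [h1, h2]; ring
    _ = _ := by unfold chi; ring
theorem chi_sq (n x : R K) : chi n x ^ 2 = kap n x := by
  by_cases h : kap n x = 0
  · unfold chi; rw [h]; ring
  have h4 : rho n x ≠ 0 := fun h' => h ((sy_kap_rho n x).2 h')
  calc chi n x ^ 2 = rho n x ^ 2 * kap n x ^ 3 * kap n x := by unfold chi; ring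
    _ = _ := by rw [rho_sq h4, kap_cube h]; ring
theorem chi_cube (n x : R K) : chi n x ^ 3 = rho n x := by
  by_cases h : rho n x = 0
  · unfold chi; rw [h]; ring
  have h4 : kap n x ≠ 0 := fun h' => h ((sy_kap_rho n x).1 h')
  calc chi n x ^ 3 = rho n x ^ 2 * (kap n x ^ 3) ^ 2 * rho n x := by unfold chi; ring
    _ = _ := by rw [rho_sq h, kap_cube h4]; ring
theorem chi_order {p : R K} (hp : Prime p) {k : ℕ} (hk : ¬ 6 ∣ k) :
    ∃ x, chi p x ^ k ≠ 0 ∧ chi p x ^ k ≠ 1 := by
  by_cases hk3 : 3 ∣ k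
  · obtain ⟨y, hy, hn⟩ := (sy_euler hp).2
    have h1 := chi_cube p y
    rw [rho_prime hp, (sy_euler hp).1 y hy hn] at h1
    obtain ⟨j, rfl⟩ := hk3
    refine ⟨y, ?_⟩
    rw [pow_mul, h1, Odd.neg_one_pow (Nat.odd_iff.2 (by omega))]
    norm_num
  · obtain ⟨a, ha⟩ := kap_nontrivial hp
    have h1 : chi p (a ^ 2) = omC := by rw [chi_pow_right, chi_sq, ha]
    refine ⟨a ^ 2, ?_⟩
    rw [h1]
    exact ⟨pow_ne_zero _ sy_omC_ne, fun h => hk3 (omC_prim.dvd_of_pow_eq_one k h)⟩
theorem chiI_span (n x : R K) : chiI (Ideal.span {n}) x = chi n x :=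
  chi_associated (associated_gen_span n) x
theorem chiI_mul {I J : Ideal (R K)} (hI : I ≠ ⊥) (hJ : J ≠ ⊥) (x : R K) :
    chiI (I * J) x = chiI I x * chiI J x := by
  unfold chiI
  rw [chi_associated (associated_gen_mul I J), chi_mul_left (gen_ne_zero hI) (gen_ne_zero hJ)]
theorem sy_chiI_top (x : R K) : chiI ⊤ x = 1 := by
  rw [← Ideal.span_singleton_one, chiI_span, chi_unit_left isUnit_one]
theorem chiI_pow {I : Ideal (R K)} (hI : I ≠ ⊥) (k : ℕ) (x : R K) : chiI (I ^ k) x = chiI I x ^ k := by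
  induction k with
  | zero => rw [pow_zero, pow_zero, Ideal.one_eq_top, sy_chiI_top]
  | succ k ih => rw [pow_succ, chiI_mul (pow_ne_zero k hI) hI, ih, pow_succ]
theorem chiI_top (x : R K) : chiI ⊤ x = 1 := sy_chiI_top x
theorem chiI_mul_right (I : Ideal (R K)) (x y : R K) : chiI I (x * y) = chiI I x * chiI I y :=
  chi_mul_right _ x y
theorem norm_chiI_le (I : Ideal (R K)) (x : R K) : ‖chiI I x‖ ≤ 1 := norm_chi_le _ x

theorem mu_unit {u : R K} (hu : IsUnit u) : mu u = 1 := by
  unfold mu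
  rw [if_pos hu.squarefree, UniqueFactorizationMonoid.factors_of_isUnit hu]
  simp
theorem mu_prime {p : R K} (hp : Prime p) : mu p = -1 := by
  unfold mu
  rw [if_pos hp.squarefree, UniqueFactorizationMonoid.card_factors_of_irreducible hp.irreducible,
    pow_one]
theorem mu_associated {x y : R K} (h : Associated x y) : mu x = mu y := by
  classical
  unfold mu
  rw [Multiset.card_eq_card_of_rel (UniqueFactorizationMonoid.factors_rel_of_associated h)]
  exact if_congr h.squarefree_iff rfl rfl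
theorem mu_mul {x y : R K} (h : IsCoprime x y) : mu (x * y) = mu x * mu y := by
  unfold mu
  by_cases hx : Squarefree x
  · by_cases hy : Squarefree y
    · rw [if_pos hx, if_pos hy, if_pos (squarefree_mul_iff.2 ⟨h.isRelPrime, hx, hy⟩),
        Multiset.card_eq_card_of_rel (UniqueFactorizationMonoid.factors_mul hx.ne_zero hy.ne_zero),
        Multiset.card_add, pow_add]
    · rw [if_neg hy, if_neg (fun h' => hy h'.of_mul_right), mul_zero]
  · rw [if_neg hx, if_neg (fun h' => hx h'.of_mul_left), zero_mul]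
open Classical in
theorem mu_mul' (x y : R K) : mu (x * y) = if IsCoprime x y then mu x * mu y else 0 := by
  split_ifs with h
  · exact mu_mul h
  · exact if_neg fun h' => h (squarefree_mul_iff.1 h').1.isCoprime
theorem mu_eq_zero {x : R K} : mu x = 0 ↔ ¬ Squarefree x := by
  unfold mu
  by_cases hx : Squarefree x
  · rw [if_pos hx]
    simp [hx]
  · rw [if_neg hx]
    simp [hx]
theorem mu_sq {x : R K} (h : Squarefree x) : mu x * mu x = 1 := by
  unfold mu
  rw [if_pos h, ← mul_pow]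
  simp
theorem norm_mu_le (x : R K) : ‖mu x‖ ≤ 1 := by
  unfold mu
  split_ifs <;> simp
theorem conj_mu (x : R K) : conj (mu x) = mu x := by
  unfold mu
  split_ifs <;> simp

end Crest.Agent.GQ
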