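import Crest.Agent.GQ.RecTame
import Crest.Agent.GQ.Sym

/-! # GQ RecBridge: tame symbols versus the residue symbol of R -/

set_option autoImplicit false

noncomputable section

open NumberField IsDedekindDomain Polynomial
open scoped ComplexConjugate

namespace Crest.Agent.GQ

variable {K : Type} [Field K] [NumberField K] [P : Pre K]

/-- The inclusion `𝓞 → R`. -/
def rb_f (K : Type) [Field K] [NumberField K] [P : Pre K] : 𝓞 K →+* R K :=
  (algebraMap (𝓞 K) K).codRestrict (R K) fun x => ⟨0, by simpa using x.isIntegral_coe⟩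

theorem rb_f_coe (x : 𝓞 K) : ((rb_f K x : R K) : K) = algebraMap (𝓞 K) K x := rfl

theorem rb_exists (x : R K) : ∃ (k : ℕ) (y : 𝓞 K), rb_f K y = (P.M : R K) ^ k * x := by
  obtain ⟨k, hk⟩ := x.2
  exact ⟨k, ⟨_, hk⟩, Subtype.ext (by simp [rb_f_coe])⟩

theorem rb_M_unit : IsUnit (P.M : R K) := by
  have h0 : (P.M : K) ≠ 0 := Nat.cast_ne_zero.2 P.M0
  refine IsUnit.of_mul_eq_one ⟨(P.M : K)⁻¹, 1, ?_⟩ (Subtype.ext ?_)
  · rw [pow_one, mul_inv_cancel₀ h0]; exact isIntegral_one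
  · simp [h0]

theorem rb_three_dvd : 3 ∣ P.M := (by norm_num : 3 ∣ 6).trans P.six

section place

variable {v : HeightOneSpectrum (𝓞 K)} (hv : (P.M : 𝓞 K) ∉ v.asIdeal)
include hv

theorem rb_three : (3 : 𝓞 K) ∉ v.asIdeal := by
  intro h
  obtain ⟨c, hc⟩ := rb_three_dvd (K := K)
  apply hv
  rw [hc]; push_cast
  exact v.asIdeal.mul_mem_right _ h

theorem rb_val_M : v.valuation K (P.M : K) = 1 := by
  have := (HeightOneSpectrum.valuation_eq_one_iff_notMem (K := K) v).2 hv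
  simpa using this

theorem rb_val_eq {x : R K} {k : ℕ} {y : 𝓞 K} (h : rb_f K y = (P.M : R K) ^ k * x) :
    v.valuation K (x : K) = v.valuation K (algebraMap (𝓞 K) K y) := by
  rw [← rb_f_coe, h]
  push_cast
  rw [map_mul, map_pow, rb_val_M hv, one_pow, one_mul]

theorem rb_val_le (x : R K) : v.valuation K (x : K) ≤ 1 := by
  obtain ⟨k, y, h⟩ := rb_exists x
  rw [rb_val_eq hv h]
  exact v.valuation_le_one y

theorem rb_val_dvd {x y : R K} (h : x ∣ y) : v.valuation K (y : K) ≤ v.valuation K (x : K) := by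
  obtain ⟨c, rfl⟩ := h
  push_cast
  rw [map_mul]
  exact mul_le_of_le_one_right' (rb_val_le hv c)

theorem rb_val_unit {u : R K} (hu : IsUnit u) : v.valuation K (u : K) = 1 :=
  le_antisymm (rb_val_le hv u) (by simpa using rb_val_dvd hv (isUnit_iff_dvd_one.1 hu))

end place

/-- The place of `𝓞` below a prime of `R`. -/
theorem rb_place {p : R K} (hp : Prime p) : ∃ v : HeightOneSpectrum (𝓞 K),
    (P.M : 𝓞 K) ∉ v.asIdeal ∧ (∀ x : R K, v.valuation K (x : K) < 1 ↔ p ∣ x) ∧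
    Ideal.absNorm v.asIdeal = nm p ∧ ordv v (p : K) = 1 ∧
    ∀ v' : HeightOneSpectrum (𝓞 K), (P.M : 𝓞 K) ∉ v'.asIdeal → v' ≠ v →
      v'.valuation K (p : K) = 1 := by
  have hI : (Ideal.span {p}).IsPrime := (Ideal.span_singleton_prime hp.ne_zero).2 hp
  have hMk : ∀ k : ℕ, IsUnit ((P.M : R K) ^ k) := fun k => rb_M_unit.pow k
  let v : HeightOneSpectrum (𝓞 K) :=
    { asIdeal := (Ideal.span {p}).comap (rb_f K)
      isPrime := Ideal.comap_isPrime _ _
      ne_bot := by
        obtain ⟨k, y, h⟩ := rb_exists p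
        intro hb
        have hy : y ∈ (Ideal.span {p}).comap (rb_f K) := by
          rw [Ideal.mem_comap, h, Ideal.mem_span_singleton]; exact dvd_mul_left _ _
        rw [hb, Ideal.mem_bot] at hy
        rw [hy, map_zero] at h
        exact mul_ne_zero (hMk k).ne_zero hp.ne_zero h.symm }
  have hmem : ∀ y : 𝓞 K, y ∈ v.asIdeal ↔ p ∣ rb_f K y := fun y => by
    change y ∈ (Ideal.span {p}).comap (rb_f K) ↔ _
    rw [Ideal.mem_comap, Ideal.mem_span_singleton]
  have hM : (P.M : 𝓞 K) ∉ v.asIdeal := by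
    rw [hmem, map_natCast]
    exact fun h => hp.not_isUnit (isUnit_of_dvd_unit h rb_M_unit)
  have hlt : ∀ x : R K, v.valuation K (x : K) < 1 ↔ p ∣ x := fun x => by
    obtain ⟨k, y, h⟩ := rb_exists x
    rw [rb_val_eq hM h]
    refine (v.valuation_lt_one_iff_mem (K := K) y).trans ?_
    rw [hmem, h]
    exact (hMk k).dvd_mul_left
  refine ⟨v, hM, hlt, ?_, ?_, fun v' hv' hne => ?_⟩
  · rw [Ideal.absNorm_apply, Submodule.cardQuot_apply]
    refine Nat.card_eq_of_bijective (Ideal.quotientMap (Ideal.span {p}) (rb_f K) le_rfl)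
      ⟨Ideal.quotientMap_injective, fun z => ?_⟩
    obtain ⟨x, rfl⟩ := Ideal.Quotient.mk_surjective z
    obtain ⟨k, y, h⟩ := rb_exists x
    have hmax := v.isMaximal
    obtain ⟨m, i, hi, hmi⟩ := hmax.exists_inv (fun hh => hM (v.isPrime.mem_of_pow_mem k hh))
    refine ⟨Ideal.Quotient.mk _ (m * y), ?_⟩
    rw [Ideal.quotientMap_mk, Ideal.Quotient.eq, Ideal.mem_span_singleton]
    have h1 := congrArg (rb_f K) hmi
    rw [map_add, map_mul, map_pow, map_natCast, map_one] at h1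
    have : rb_f K (m * y) - x = rb_f K i * (-x) := by
      rw [map_mul, h]; linear_combination x * h1
    rw [this]
    exact ((hmem i).1 hi).mul_right _
  · obtain ⟨π, hπ⟩ := v.valuation_exists_uniformizer' K
    have hπ' : v.valuation K ((rb_f K π : R K) : K) = WithZero.exp (-1) := hπ
    have h1 : p ∣ rb_f K π := by
      rw [← hlt, hπ', ← WithZero.exp_zero, WithZero.exp_lt_exp]; norm_num
    have h2 := rb_val_dvd hM h1
    have h3 := (hlt p).2 dvd_rfl
    have h0 : v.valuation K (p : K) ≠ 0 := by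
      rw [Valuation.ne_zero_iff]; exact fun h => hp.ne_zero (Subtype.ext h)
    rw [hπ'] at h2
    rw [← WithZero.exp_log h0, ← WithZero.exp_zero, WithZero.exp_lt_exp] at h3
    rw [← WithZero.exp_log h0, WithZero.exp_le_exp] at h2
    unfold ordv
    omega
  · have hnle : ¬ v.asIdeal ≤ v'.asIdeal := fun hle =>
      hne (HeightOneSpectrum.ext (v.isMaximal.eq_of_le v'.isPrime.ne_top hle).symm)
    obtain ⟨y, hy, hy'⟩ := Set.not_subset.1 hnle
    have h1 := rb_val_dvd hv' ((hmem y).1 hy)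
    rw [rb_f_coe, (HeightOneSpectrum.valuation_eq_one_iff_notMem (K := K) v').2 hy'] at h1
    exact le_antisymm (rb_val_le hv' p) h1

theorem rb_kv {p x : R K} (hp : Prime p) (hx : ¬ p ∣ x) {v : HeightOneSpectrum (𝓞 K)}
    (hv : (P.M : 𝓞 K) ∉ v.asIdeal) (hlt : ∀ x : R K, v.valuation K (x : K) < 1 ↔ p ∣ x)
    (hn : Ideal.absNorm v.asIdeal = nm p) : kv P.w v (x : K) = kap p x := by
  obtain ⟨j, -, hj, hk⟩ := kap_prime_spec hp hx
  rw [hk]
  refine kv_eq P.hw (rb_three hv) ?_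
  rw [hn]
  exact (hlt _).2 hj

theorem rb_BB_eq_prod {x y : K} (hy : y ≠ 0) (S : Finset (HeightOneSpectrum (𝓞 K)))
    (hS : ∀ v ∈ S, (P.M : 𝓞 K) ∉ v.asIdeal)
    (h : ∀ v : HeightOneSpectrum (𝓞 K), (P.M : 𝓞 K) ∉ v.asIdeal → v ∉ S →
      v.valuation K x = 1 ∧ v.valuation K y = 1) :
    BB P.w P.M x y = ∏ v ∈ S, tame P.w v x y := by
  classical
  unfold BB
  rw [finprod_eq_prod_of_mulSupport_subset (s := S)]
  · exact Finset.prod_congr rfl fun v hv => if_neg (hS v hv)
  · intro v hv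
    by_contra hvS
    apply hv
    by_cases hM : (P.M : 𝓞 K) ∈ v.asIdeal
    · exact if_pos hM
    · obtain ⟨h1, h2⟩ := h v hM hvS
      beta_reduce
      rw [if_neg hM, tame_of_unit P.hw (rb_three hM) h1 hy, (ordv_eq_zero_iff v hy).2 h2, zpow_zero]

theorem rb_coe_ne {a : R K} (ha : a ≠ 0) : (a : K) ≠ 0 := fun h => ha (Subtype.ext h)

theorem rb_inv_kap {n x : R K} (hn : n ≠ 0) (h : IsCoprime n x) : (kap n x)⁻¹ = conj (kap n x) := by
  have h0 : kap n x ≠ 0 := fun h0 => (kap_eq_zero hn).1 h0 h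
  rw [conj_kap]
  refine inv_eq_of_mul_eq_one_right ?_
  rw [← kap_cube h0]; ring

theorem rb_unit_left {u : R K} (hu : IsUnit u) (b : R K) (hb : b ≠ 0) :
    BB P.w P.M (u : K) (b : K) = kap b u := by
  induction b using UniqueFactorizationMonoid.induction_on_prime with
  | h₁ => exact absurd rfl hb
  | h₂ b hb' =>
    rw [kap_unit_left hb', rb_BB_eq_prod (rb_coe_ne hb) ∅ (by simp)
      fun v hv _ => ⟨rb_val_unit hv hu, rb_val_unit hv hb'⟩, Finset.prod_empty]
  | h₃ b p hb' hp ih =>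
    push_cast
    rw [BB_mul_right P.hw rb_three_dvd (rb_coe_ne hu.ne_zero) (rb_coe_ne hp.ne_zero)
      (rb_coe_ne hb'), ih hb', kap_mul_left hp.ne_zero hb']
    congr 1
    obtain ⟨v, hv, hlt, hn, ho, hv'⟩ := rb_place hp
    rw [rb_BB_eq_prod (rb_coe_ne hp.ne_zero) {v} (by simpa using hv)
      fun v' h1 h2 => ⟨rb_val_unit h1 hu, hv' v' h1 (by simpa using h2)⟩, Finset.prod_singleton,
      tame_of_unit P.hw (rb_three hv) (rb_val_unit hv hu) (rb_coe_ne hp.ne_zero), ho, zpow_one]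
    exact rb_kv hp (fun h => hp.not_isUnit (isUnit_of_dvd_unit h hu)) hv hlt hn

theorem rb_prime_prime {p q : R K} (hp : Prime p) (hq : Prime q) (h : IsCoprime p q) :
    BB P.w P.M (p : K) (q : K) = kap q p * conj (kap p q) := by
  classical
  obtain ⟨v, hv, hlt, hn, ho, hv'⟩ := rb_place hp
  obtain ⟨w, hw, hlt', hn', ho', hw'⟩ := rb_place hq
  have hpq : ¬ p ∣ q := fun hd => hp.not_isUnit (h.isUnit_of_dvd' dvd_rfl hd)
  have hqp : ¬ q ∣ p := fun hd => hq.not_isUnit (h.isUnit_of_dvd' hd dvd_rfl)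
  have hne : w ≠ v := by
    rintro rfl
    exact hpq ((hlt q).1 ((hlt' q).2 dvd_rfl))
  rw [rb_BB_eq_prod (rb_coe_ne hq.ne_zero) {w, v} (by simp [hv, hw])
      fun v' h1 h2 => ⟨hv' v' h1 (by rintro rfl; simp at h2), hw' v' h1 (by rintro rfl; simp at h2)⟩,
    Finset.prod_pair hne, tame_of_unit P.hw (rb_three hw) (hv' w hw hne) (rb_coe_ne hq.ne_zero),
    tame_of_unit_right P.hw (rb_three hv) (rb_coe_ne hp.ne_zero) (hw' v hv hne.symm), ho, ho',
    zpow_one, zpow_neg_one, rb_kv hq hqp hw hlt' hn', rb_kv hp hpq hv hlt hn,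
    rb_inv_kap hp.ne_zero h]

theorem rb_prime_left {p : R K} (hp : Prime p) (b : R K) (hb : b ≠ 0) (h : IsCoprime p b) :
    BB P.w P.M (p : K) (b : K) = kap b p * conj (kap p b) := by
  induction b using UniqueFactorizationMonoid.induction_on_prime with
  | h₁ => exact absurd rfl hb
  | h₂ b hb' =>
    rw [BB_symm P.hw rb_three_dvd (rb_coe_ne hb) (rb_coe_ne hp.ne_zero),
      rb_unit_left hb' p hp.ne_zero, kap_unit_left hb', one_mul, rb_inv_kap hp.ne_zero h]
  | h₃ b q hb' hq ih =>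
    push_cast
    rw [BB_mul_right P.hw rb_three_dvd (rb_coe_ne hp.ne_zero) (rb_coe_ne hq.ne_zero)
      (rb_coe_ne hb'), ih hb' h.of_mul_right_right, rb_prime_prime hp hq h.of_mul_right_left,
      kap_mul_left hq.ne_zero hb', kap_mul_right, map_mul]
    ring

theorem BB_coprime {a b : R K} (ha : a ≠ 0) (hb : b ≠ 0) (h : IsCoprime a b) :
    BB P.w P.M (a : K) (b : K) = kap b a * conj (kap a b) := by
  induction a using UniqueFactorizationMonoid.induction_on_prime with
  | h₁ => exact absurd rfl ha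
  | h₂ a ha' => rw [rb_unit_left ha' b hb, kap_unit_left ha', map_one, mul_one]
  | h₃ a p ha' hp ih =>
    push_cast
    rw [BB_mul_left P.hw rb_three_dvd (rb_coe_ne hp.ne_zero) (rb_coe_ne ha') (rb_coe_ne hb),
      ih ha' h.of_mul_left_right, rb_prime_left hp b hb h.of_mul_left_left,
      kap_mul_left hp.ne_zero ha', kap_mul_right, map_mul]
    ring

end Crest.Agent.GQ
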