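import Crest.Agent.GQ.RecK
import Crest.Agent.GQ.RecBridge
import Crest.Agent.GQ.Hecke

/-! # GQ RecEx: existence of the reciprocity data -/

set_option autoImplicit false

noncomputable section

open NumberField IsDedekindDomain Polynomial
open scoped ComplexConjugate

namespace Crest.Agent.GQ

theorem exists_rec (K : Type) [Field K] [NumberField K] [P : Pre K] : Nonempty (Rec K) := by
  obtain ⟨k, hk, hg⟩ := exists_gam_level (K := K)
  have h3 : 3 ∣ P.M := Dvd.dvd.trans (by norm_num) P.six
  exact ⟨{ k := max k 2
           hk := le_trans hk (le_max_left _ _)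
           B := BB P.w P.M
           B_mul_left := fun x x' y hx hx' hy => BB_mul_left P.hw h3 hx hx' hy
           B_mul_right := fun x y y' hx hy hy' => BB_mul_right P.hw h3 hx hy hy'
           B_cube := fun x y hx hy => BB_cube P.hw h3 hx hy
           B_stein := fun x hx hx1 => BB_stein P.hw h3 hx hx1
           B_coprime := fun a b ha hb h => BB_coprime ha hb h
           B_U := fun u y hu hy => BB_U (U_mono (le_max_right _ _) hu) hy
           gam_cls := fun s s' hs h => hg s s' hs (cls_mono (le_max_left _ _) _ h) }⟩

end Crest.Agent.GQ
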