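import Crest.Agent.GQ.Base3b

/-! # GQ Pack: log-Gaussian packets and trivial bounds for smooth sums -/

set_option autoImplicit false

noncomputable section

open NumberField Complex
open scoped ComplexConjugate

namespace Crest.Agent.GQ

variable {K : Type} [Field K] [NumberField K] [P : Pre K]

theorem norm_pk (lam : ℝ) (t ξ : Pl K → ℝ) (x : K) :
    ‖pk lam t ξ x‖ = Real.exp (-(lam * ∑ v, (lg x v - t v) ^ 2)) := by
  rw [pk, norm_prod, Finset.mul_sum, ← Finset.sum_neg_distrib, Real.exp_sum]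
  refine Finset.prod_congr rfl fun v _ => ?_
  rw [Complex.norm_exp]
  simp only [add_re, neg_re, ofReal_re, mul_re, I_re, I_im, ofReal_im, zero_mul, mul_zero, sub_zero,
    add_zero]
theorem pk_mul (lam : ℝ) (t ξ : Pl K → ℝ) {d x : K} (hd : d ≠ 0) (hx : x ≠ 0) :
    pk lam t ξ (d * x) = Complex.exp (I * (∑ v, ξ v * lg d v : ℝ)) * pk lam (t - lg d) ξ x := by
  simp only [pk, ← Complex.exp_sum, ← Complex.exp_add, lg_mul hd hx, Pi.add_apply, Pi.sub_apply]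
  congr 1
  push_cast
  rw [Finset.mul_sum, ← Finset.sum_add_distrib]
  exact Finset.sum_congr rfl fun v _ => by ring
/-- multiplying a packet by `∏ |x_v|^{w_v}` -/
theorem pk_mul_exp {lam : ℝ} (hlam : 0 < lam) (t ξ σ τ : Pl K → ℝ) (x : K) :
    pk lam t ξ x * Complex.exp (∑ v, ((σ v : ℂ) + τ v * I) * (lg x v : ℂ)) =
      (Real.exp (∑ v, (σ v * t v + σ v ^ 2 / (4 * lam))) : ℂ) *
        pk lam (fun v => t v + σ v / (2 * lam)) (ξ + τ) x := by
  have h : (lam : ℂ) ≠ 0 := by exact_mod_cast hlam.ne'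
  simp only [pk, ← Complex.exp_sum, Complex.ofReal_exp, ← Complex.exp_add, Pi.add_apply]
  congr 1
  push_cast
  rw [← Finset.sum_add_distrib, ← Finset.sum_add_distrib]
  exact Finset.sum_congr rfl fun v _ => by field_simp; ring

theorem pk_summable_int {lam : ℝ} (hlam : 0 < lam) {E : ℝ} (hE : 0 ≤ E) :
    Summable fun m : ℤ => Real.exp (2 * E * (m + 1) - lam * ((m : ℝ) ^ 2 / 2 - 1)) := by
  have h1 : Summable fun m : ℤ => Real.exp (-|(m : ℝ)|) := by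
    refine Summable.of_nat_of_neg ?_ ?_ <;> simpa using Real.summable_exp_neg_nat
  refine Summable.of_nonneg_of_le (fun m => (Real.exp_pos _).le) (fun m => ?_)
    (h1.mul_left (Real.exp (2 * E + lam + (2 * E + 1) ^ 2 / (2 * lam))))
  rw [← Real.exp_add, Real.exp_le_exp]
  have h2 : (2 * E + 1) * |(m : ℝ)| ≤ lam * ((m : ℝ) ^ 2 / 2) + (2 * E + 1) ^ 2 / (2 * lam) := by
    have e : lam * ((m : ℝ) ^ 2 / 2) + (2 * E + 1) ^ 2 / (2 * lam) - (2 * E + 1) * |(m : ℝ)| =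
        (lam * |(m : ℝ)| - (2 * E + 1)) ^ 2 / (2 * lam) := by
      rw [← sq_abs (m : ℝ)]; field_simp; ring
    have : 0 ≤ (lam * |(m : ℝ)| - (2 * E + 1)) ^ 2 / (2 * lam) := by positivity
    linarith
  have h3 : E * m ≤ E * |(m : ℝ)| := mul_le_mul_of_nonneg_left (le_abs_self _) hE
  linarith

open Classical in
theorem pk_fin {lam : ℝ} (hlam : 0 < lam) {A E : ℝ} (hA : 0 ≤ A) (hE : 1 + A ≤ E) :
    ∃ C : ℝ, 0 < C ∧ ∀ x : K, x ≠ 0 → ∀ (t ξ : Pl K → ℝ) (s : Finset (R K)),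
    ∑ n ∈ s, (if n ∈ Lat x ∧ n ≠ 0 then Nr n ^ A * ‖pk lam t ξ (n : K)‖ else 0) ≤
      C * sz x t ^ E := by
  obtain ⟨C, hC, hbox⟩ := box_count (K := K)
  set φ : ℤ → ℝ := fun m => Real.exp (2 * E * (m + 1) - lam * ((m : ℝ) ^ 2 / 2 - 1)) with hφ
  have hφs : Summable φ := pk_summable_int hlam (by linarith)
  have hφ0 : ∀ m, 0 < φ m := fun m => Real.exp_pos _
  have hT : 0 < ∑' m, φ m := hφs.tsum_pos (fun m => (hφ0 m).le) 0 (hφ0 0)
  refine ⟨2 * C * ∏ _v : Pl K, ∑' m, φ m, by positivity, fun x hx t ξ s => ?_⟩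
  have hS := sz_pos hx t
  have hNS := NS_pos hx
  set κ : R K → Pl K → ℤ := fun n v => ⌊lg (n : K) v - t v⌋ with hκ
  set s' := s.filter (fun n => n ∈ Lat x ∧ n ≠ 0) with hs'
  rw [← Finset.sum_filter, ← hs', ← Finset.sum_fiberwise_of_maps_to
    (t := Fintype.piFinset fun v => s'.image fun n => κ n v) (g := κ)
    (fun n hn => Fintype.mem_piFinset.2 fun v => Finset.mem_image_of_mem _ hn)]
  have key : ∀ k : Pl K → ℤ, ∑ n ∈ s'.filter (fun n => κ n = k), Nr n ^ A * ‖pk lam t ξ (n : K)‖ ≤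
      2 * C * sz x t ^ E * ∏ v, φ (k v) := by
    intro k
    rcases (s'.filter (fun n => κ n = k)).eq_empty_or_nonempty with h0 | ⟨n₀, hn₀⟩
    · rw [h0, Finset.sum_empty]
      have : 0 < ∏ v, φ (k v) := Finset.prod_pos fun v _ => hφ0 _
      positivity
    set Z : ℝ := sz x t * Real.exp (2 * ∑ v, ((k v : ℝ) + 1)) with hZ
    have hZ0 : 0 < Z := by positivity
    have hZ1 : Z = Real.exp (2 * ∑ v, (t v + (k v + 1))) / NS x := by
      rw [hZ, ← sz_add]; rfl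
    have hmem : ∀ n ∈ s'.filter (fun n => κ n = k), n ∈ Lat x ∧ n ≠ 0 ∧
        ∀ v, (k v : ℝ) ≤ lg (n : K) v - t v ∧ lg (n : K) v - t v < k v + 1 := by
      intro n hn
      obtain ⟨h1, rfl⟩ := Finset.mem_filter.1 hn
      obtain ⟨-, h2, h3⟩ := Finset.mem_filter.1 h1
      exact ⟨h2, h3, fun v => ⟨Int.floor_le _, Int.lt_floor_add_one _⟩⟩
    have hNm : ∀ n ∈ s'.filter (fun n => κ n = k), Nm (n : K) / NS x ≤ Z := by
      intro n hn
      obtain ⟨-, h2, h3⟩ := hmem n hn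
      rw [hZ1, Nm_eq_exp (by exact_mod_cast h2)]
      gcongr with v
      linarith [(h3 v).2]
    have hZ2 : 1 ≤ Z := le_trans ((one_le_div hNS).2 (NS_le_Nm (hmem n₀ hn₀).2.1 (hmem n₀ hn₀).1))
      (hNm n₀ hn₀)
    have hcard : ((s'.filter (fun n => κ n = k)).card : ℝ) ≤ 2 * C * Z := by
      obtain ⟨b1, b2⟩ := hbox x hx 0 (fun v => Real.exp (t v + (k v + 1))) (fun v => Real.exp_pos _)
      have e : (∏ v, Real.exp (t v + (k v + 1)) ^ 2) / NS x = Z := by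
        rw [hZ1, Finset.mul_sum, Real.exp_sum]
        congr 1
        exact Finset.prod_congr rfl fun v _ => by rw [← Real.exp_nat_mul]; norm_num
      rw [e] at b2
      refine le_trans ?_ (b2.trans (by nlinarith))
      rw [← Set.ncard_coe_finset]
      refine Nat.cast_le.2 (Set.ncard_le_ncard (fun n hn => ?_) b1)
      obtain ⟨h1, h2, h3⟩ := hmem n hn
      refine ⟨h1, fun v => ?_⟩
      rw [Pi.zero_apply, sub_zero,
        ← Real.exp_log (norm_pos_iff.2 (emb_ne_zero (x := (n : K)) (by exact_mod_cast h2) v))]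
      exact Real.exp_le_exp.2 (by have := (h3 v).2; unfold lg at this; linarith)
    have hterm : ∀ n ∈ s'.filter (fun n => κ n = k), Nr n ^ A * ‖pk lam t ξ (n : K)‖ ≤
        Z ^ A * Real.exp (-(lam * ∑ v, ((k v : ℝ) ^ 2 / 2 - 1))) := by
      intro n hn
      obtain ⟨h1, h2, h3⟩ := hmem n hn
      have h2' : (n : K) ≠ 0 := by exact_mod_cast h2
      have e1 : Nr n ≤ Z := by
        refine le_trans ?_ (hNm n hn)
        rw [le_div_iff₀ hNS, Nm_coe]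
        exact mul_le_mul_of_nonneg_left (NS_le_of_InT h2' h1) (Nr_nonneg n)
      rw [norm_pk]
      refine mul_le_mul (Real.rpow_le_rpow (Nr_nonneg n) e1 hA) (Real.exp_le_exp.2 (neg_le_neg
        (mul_le_mul_of_nonneg_left (Finset.sum_le_sum fun v _ => ?_) hlam.le))) (Real.exp_pos _).le
        (by positivity)
      obtain ⟨f1, f2⟩ := h3 v
      nlinarith [sq_nonneg (2 * (lg (n : K) v - t v) - k v)]
    refine (Finset.sum_le_card_nsmul _ _ _ hterm).trans ?_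
    rw [nsmul_eq_mul]
    have e2 : Z * Z ^ A ≤ Z ^ E := by
      rw [mul_comm, ← Real.rpow_add_one hZ0.ne']
      exact Real.rpow_le_rpow_of_exponent_le hZ2 (by linarith)
    have e3 : Z ^ E * Real.exp (-(lam * ∑ v, ((k v : ℝ) ^ 2 / 2 - 1))) = sz x t ^ E * ∏ v, φ (k v) := by
      rw [hZ, Real.mul_rpow hS.le (Real.exp_pos _).le, ← Real.exp_mul, mul_assoc, ← Real.exp_add]
      simp only [hφ, ← Real.exp_sum, Finset.sum_sub_distrib, ← Finset.mul_sum]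
      congr 2
      ring
    calc _ ≤ 2 * C * Z * (Z ^ A * Real.exp (-(lam * ∑ v, ((k v : ℝ) ^ 2 / 2 - 1)))) :=
          mul_le_mul_of_nonneg_right hcard (by positivity)
      _ = 2 * C * (Z * Z ^ A * Real.exp (-(lam * ∑ v, ((k v : ℝ) ^ 2 / 2 - 1)))) := by ring
      _ ≤ 2 * C * (Z ^ E * Real.exp (-(lam * ∑ v, ((k v : ℝ) ^ 2 / 2 - 1)))) := by gcongr
      _ = _ := by rw [e3]; ring
  refine (Finset.sum_le_sum fun k _ => key k).trans ?_
  rw [← Finset.mul_sum, ← Finset.prod_univ_sum (fun v => s'.image fun n => κ n v) (fun _ m => φ m),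
    mul_right_comm]
  refine mul_le_mul_of_nonneg_right (mul_le_mul_of_nonneg_left ?_ (by positivity)) (by positivity)
  exact Finset.prod_le_prod (fun v _ => Finset.sum_nonneg fun m _ => (hφ0 m).le)
    fun v _ => hφs.sum_le_tsum _ fun m _ => (hφ0 m).le

open Classical in
theorem pk_nonneg (lam A : ℝ) (x : K) (t ξ : Pl K → ℝ) (n : R K) :
    0 ≤ (if n ∈ Lat x ∧ n ≠ 0 then Nr n ^ A * ‖pk lam t ξ (n : K)‖ else 0) := by
  have := Nr_nonneg n
  split_ifs <;> positivity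
open Classical in
theorem summable_pk {lam : ℝ} (hlam : 0 < lam) (A : ℝ) {x : K} (hx : x ≠ 0) (t ξ : Pl K → ℝ) :
    Summable (fun n : R K =>
      if n ∈ Lat x ∧ n ≠ 0 then Nr n ^ A * ‖pk lam t ξ (n : K)‖ else 0) := by
  obtain ⟨C, -, h⟩ := pk_fin (K := K) hlam (abs_nonneg A) le_rfl
  refine Summable.of_nonneg_of_le (pk_nonneg lam A x t ξ) (fun n => ?_)
    (summable_of_sum_le (pk_nonneg lam |A| x t ξ) (h x hx t ξ))
  split_ifs with hn
  · exact mul_le_mul_of_nonneg_right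
      (Real.rpow_le_rpow_of_exponent_le (one_le_Nr hn.2) (le_abs_self A)) (norm_nonneg _)
  · rfl
open Classical in
/-- trivial bound; for `B = 1 + A` it is sharp when `sz ≥ 1`, any `B ≥ 1 + A` may be used when
`sz ≤ 1` -/
theorem tsum_pk_le {lam : ℝ} (hlam : 0 < lam) {A B : ℝ} (hA : 0 ≤ A) (hB : 1 + A ≤ B) :
    ∃ C : ℝ, 0 < C ∧ ∀ x : K, x ≠ 0 → ∀ t ξ : Pl K → ℝ,
    ∑' n : R K, (if n ∈ Lat x ∧ n ≠ 0 then Nr n ^ A * ‖pk lam t ξ (n : K)‖ else 0) ≤
      C * min (sz x t ^ (1 + A)) (sz x t ^ B) := by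
  obtain ⟨C₁, hC₁, h₁⟩ := pk_fin (K := K) hlam hA le_rfl
  obtain ⟨C₂, hC₂, h₂⟩ := pk_fin (K := K) hlam hA hB
  refine ⟨C₁ + C₂, by positivity, fun x hx t ξ => ?_⟩
  have hS := sz_pos hx t
  rw [mul_min_of_nonneg _ _ (by positivity)]
  refine le_min ((Real.tsum_le_of_sum_le (pk_nonneg lam A x t ξ) (h₁ x hx t ξ)).trans ?_)
    ((Real.tsum_le_of_sum_le (pk_nonneg lam A x t ξ) (h₂ x hx t ξ)).trans ?_)
  · gcongr; linarith
  · gcongr; linarith
open Classical in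
theorem tsum_pk_assoc_le {lam : ℝ} (hlam : 0 < lam) : ∃ C : ℝ, ∀ j : ℕ, 1 ≤ j → ∀ c : K, c ≠ 0 →
    ∀ (n₀ : R K) (t ξ : Pl K → ℝ),
    ∑' n : R K, (if n ∈ cls j c ∧ Associated n n₀ then ‖pk lam t ξ (n : K)‖ else 0) ≤ C := by
  obtain ⟨C, hC⟩ := unit_sum_le (K := K) hlam
  refine ⟨Real.exp (lam / 4) * |C|, fun j hj c hc n₀ t ξ => ?_⟩
  by_cases hex : ∃ n₁ : R K, n₁ ∈ cls j c ∧ Associated n₁ n₀
  swap
  · rw [tsum_congr fun n => if_neg fun h => hex ⟨n, h⟩, tsum_zero]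
    positivity
  obtain ⟨n₁, h1, h2⟩ := hex
  have h3 : (n₁ : K) ≠ 0 := by exact_mod_cast ne_zero_of_mem_cls hj hc h1
  obtain ⟨s1, s2⟩ := hC (t - lg (n₁ : K))
  set g : K → ℝ := Set.indicator {u : K | u ≠ 0 ∧ IsIntegral ℤ u ∧ IsIntegral ℤ u⁻¹}
    fun u => Real.exp (-lam * ‖lg u - (t - lg (n₁ : K))‖) with hg
  have g0 : ∀ u, 0 ≤ g u := fun u => Set.indicator_nonneg (fun _ _ => (Real.exp_pos _).le) u
  have g1 : Summable g := summable_subtype_iff_indicator.1 s1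
  have g2 : ∑' u, g u ≤ C := (tsum_subtype _ _).symm.trans_le s2
  have hi : Function.Injective fun n : R K => (n : K) / n₁ := fun a b h =>
    Subtype.ext ((div_left_inj' h3).1 h)
  have g3 := tsum_comp_le_tsum_of_inj g1 g0 hi
  have hle : ∀ n : R K, (if n ∈ cls j c ∧ Associated n n₀ then ‖pk lam t ξ (n : K)‖ else 0) ≤
      Real.exp (lam / 4) * (g ∘ fun n : R K => (n : K) / n₁) n := by
    intro n
    split_ifs with hn
    swap
    · exact mul_nonneg (Real.exp_pos _).le (g0 _)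
    have hU : (n : K) / n₁ ∈ U j := (mem_cls_iff h3).1 (by rw [cls_eq_of_mem hj hc h1]; exact hn.1)
    have hU0 := U_ne_zero hj hU
    obtain ⟨e, he⟩ := h2.trans hn.2.symm
    have he1 : (n : K) / n₁ = ((e : R K) : K) := by
      rw [← he]; push_cast; exact mul_div_cancel_left₀ _ h3
    have he2 : ((n : K) / n₁)⁻¹ = (((e⁻¹ : (R K)ˣ) : R K) : K) := by
      rw [he1]
      exact inv_eq_of_mul_eq_one_right (by exact_mod_cast congrArg Subtype.val e.mul_inv)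
    have hmem : (n : K) / n₁ ∈ {u : K | u ≠ 0 ∧ IsIntegral ℤ u ∧ IsIntegral ℤ u⁻¹} :=
      ⟨hU0, int_of_mem (he1 ▸ (e : R K).2) (U_mem_T hU),
        int_of_mem (he2 ▸ ((e⁻¹ : (R K)ˣ) : R K).2) (U_mem_T (U_inv hj hU))⟩
    have hl : lg (n : K) = lg ((n : K) / n₁) + lg (n₁ : K) := by
      rw [← lg_mul hU0 h3, div_mul_cancel₀ _ h3]
    simp only [Function.comp_apply, hg]
    rw [Set.indicator_of_mem hmem, norm_pk, ← Real.exp_add, Real.exp_le_exp]
    have hy : ‖lg ((n : K) / n₁) - (t - lg (n₁ : K))‖ ≤ ∑ v, (lg (n : K) v - t v) ^ 2 + 1 / 4 := by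
      refine (pi_norm_le_iff_of_nonneg (by positivity)).2 fun v => ?_
      have e1 : (lg ((n : K) / n₁) - (t - lg (n₁ : K))) v = lg (n : K) v - t v := by
        rw [hl]; simp only [Pi.sub_apply, Pi.add_apply]; ring
      have e2 := Finset.single_le_sum (f := fun v => (lg (n : K) v - t v) ^ 2)
        (fun v _ => sq_nonneg _) (Finset.mem_univ v)
      rw [e1, Real.norm_eq_abs]
      nlinarith [sq_abs (lg (n : K) v - t v), sq_nonneg (|lg (n : K) v - t v| - 1 / 2)]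
    nlinarith
  have hs := (g1.comp_injective hi).mul_left (Real.exp (lam / 4))
  refine ((Summable.of_nonneg_of_le (fun n => by split_ifs <;> positivity) hle hs).tsum_le_tsum hle
    hs).trans ?_
  rw [tsum_mul_left]
  exact mul_le_mul_of_nonneg_left (g3.trans (g2.trans (le_abs_self C))) (Real.exp_pos _).le

open Classical in
theorem pk_term_le {a : R K → ℂ} {A C : ℝ} (ha : ∀ n, n ≠ 0 → ‖a n‖ ≤ C * Nr n ^ A) {j : ℕ}
    (hj : 1 ≤ j) {c : K} (hc : c ≠ 0) (lam : ℝ) (t ξ : Pl K → ℝ) (n : R K) :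
    ‖if n ∈ cls j c then a n * pk lam t ξ (n : K) else 0‖ ≤
      |C| * if n ∈ Lat c ∧ n ≠ 0 then Nr n ^ A * ‖pk lam t ξ (n : K)‖ else 0 := by
  by_cases hn : n ∈ cls j c
  · have h0 := ne_zero_of_mem_cls hj hc hn
    rw [if_pos hn, if_pos ⟨mem_Lat_of_mem_cls hn, h0⟩, norm_mul, ← mul_assoc]
    exact mul_le_mul_of_nonneg_right ((ha n h0).trans (mul_le_mul_of_nonneg_right (le_abs_self C)
      (Real.rpow_nonneg (Nr_nonneg n) A))) (norm_nonneg _)
  · rw [if_neg hn, norm_zero]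
    exact mul_nonneg (abs_nonneg C) (pk_nonneg lam A c t ξ n)
open Classical in
theorem summable_Sm {a : R K → ℂ} {A C : ℝ} (ha : ∀ n, n ≠ 0 → ‖a n‖ ≤ C * Nr n ^ A) {j : ℕ}
    (hj : 1 ≤ j) {c : K} (hc : c ≠ 0) {lam : ℝ} (hlam : 0 < lam) (t ξ : Pl K → ℝ) :
    Summable (fun n : R K => if n ∈ cls j c then a n * pk lam t ξ (n : K) else 0) :=
  ((summable_pk hlam A hc t ξ).mul_left |C|).of_norm_bounded (pk_term_le ha hj hc lam t ξ)
theorem norm_Sm_le {lam : ℝ} (hlam : 0 < lam) {B : ℝ} (hB : 1 ≤ B) : ∃ C : ℝ, 0 < C ∧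
    ∀ (a : R K → ℂ), (∀ n, ‖a n‖ ≤ 1) → ∀ j : ℕ, 1 ≤ j → ∀ c : K, c ≠ 0 → ∀ t ξ : Pl K → ℝ,
    ‖Sm a j c lam t ξ‖ ≤ C * min (sz c t) (sz c t ^ B) := by
  obtain ⟨C, hC, h⟩ := tsum_pk_le (K := K) hlam (A := 0) (B := B) le_rfl (by linarith)
  refine ⟨C, hC, fun a ha j hj c hc t ξ => ?_⟩
  have h1 := h c hc t ξ
  rw [add_zero, Real.rpow_one] at h1
  refine le_trans (tsum_of_norm_bounded (summable_pk hlam 0 hc t ξ).hasSum fun n => ?_) h1
  simpa only [abs_one, one_mul] using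
    pk_term_le (C := 1) (A := 0) (fun n _ => by simpa using ha n) hj hc lam t ξ n
theorem Sm_congr {a b : R K → ℂ} {j : ℕ} {c : K} (h : ∀ n ∈ cls j c, a n = b n) (lam : ℝ)
    (t ξ : Pl K → ℝ) : Sm a j c lam t ξ = Sm b j c lam t ξ := by
  unfold Sm
  refine tsum_congr fun n => ?_
  split_ifs with hn
  · rw [h n hn]
  · rfl
theorem Sm_const_mul (z : ℂ) (a : R K → ℂ) (j : ℕ) (c : K) (lam : ℝ) (t ξ : Pl K → ℝ) :
    Sm (fun n => z * a n) j c lam t ξ = z * Sm a j c lam t ξ := by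
  unfold Sm
  rw [← tsum_mul_left]
  refine tsum_congr fun n => ?_
  split_ifs <;> ring
open Classical in
/-- pulling out a divisor -/
theorem Sm_dvd (a : R K → ℂ) {j : ℕ} (hj : 1 ≤ j) {c : K} (hc : c ≠ 0) {d : R K} (hd : d ≠ 0)
    (lam : ℝ) (t ξ : Pl K → ℝ) :
    Sm (fun n => if d ∣ n then a n else 0) j c lam t ξ =
      Complex.exp (I * (∑ v, ξ v * lg (d : K) v : ℝ)) *
        Sm (fun n => a (d * n)) j (c / d) lam (t - lg (d : K)) ξ := by
  have hd' : (d : K) ≠ 0 := by exact_mod_cast hd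
  unfold Sm
  beta_reduce
  rw [← tsum_mul_left, ← (mul_right_injective₀ hd).tsum_eq]
  · refine tsum_congr fun n => ?_
    by_cases hn : n ∈ cls j (c / d)
    · have h0 : (n : K) ≠ 0 := by exact_mod_cast ne_zero_of_mem_cls hj (div_ne_zero hc hd') hn
      rw [if_pos ((mul_mem_cls_iff hd).2 hn), if_pos hn, if_pos (dvd_mul_right d n), Subring.coe_mul,
        pk_mul lam t ξ hd' h0]
      ring
    · rw [if_neg hn, if_neg fun h => hn ((mul_mem_cls_iff hd).1 h), mul_zero]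
  · intro n hn
    by_contra hcon
    have : ¬ d ∣ n := fun ⟨m, hm⟩ => hcon ⟨m, hm.symm⟩
    simp [this] at hn
theorem Sm_refine {a : R K → ℂ} {A C : ℝ} (ha : ∀ n, n ≠ 0 → ‖a n‖ ≤ C * Nr n ^ A) {j j' : ℕ}
    (hj : 1 ≤ j) (hjj : j ≤ j') {c : K} (hc : c ≠ 0) {𝒮 : Finset K}
    (h1 : ∀ σ ∈ 𝒮, σ ≠ 0 ∧ σ / c ∈ U j) (h2 : ∀ n : R K, n ∈ cls j c → ∃! σ, σ ∈ 𝒮 ∧ n ∈ cls j' σ)
    {lam : ℝ} (hlam : 0 < lam) (t ξ : Pl K → ℝ) :
    Sm a j c lam t ξ = ∑ σ ∈ 𝒮, Sm a j' σ lam t ξ := by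
  classical
  unfold Sm
  rw [← Summable.tsum_finsetSum fun σ hσ => summable_Sm ha (hj.trans hjj) (h1 σ hσ).1 hlam t ξ]
  refine tsum_congr fun n => ?_
  by_cases hn : n ∈ cls j c
  · obtain ⟨σ, ⟨h3, h4⟩, h5⟩ := h2 n hn
    rw [if_pos hn, Finset.sum_eq_single_of_mem σ h3 fun σ' h6 hne =>
      if_neg fun h7 => hne (h5 σ' ⟨h6, h7⟩), if_pos h4]
  · rw [if_neg hn, Finset.sum_eq_zero fun σ hσ => if_neg fun h => hn ?_]
    rw [← cls_eq_of_div hj hc (h1 σ hσ).2]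
    exact cls_mono hjj σ h

end Crest.Agent.GQ
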