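import Crest.Agent.GQ.Gam
import Crest.Agent.GQ.Pack
import Crest.Agent.GQ.Fd

/-! # GQ ThMellin: from the Bessel kernel to packets -/

set_option autoImplicit false

noncomputable section

open NumberField Complex
open scoped ComplexConjugate

namespace Crest.Agent.GQ

variable {K : Type} [Field K] [NumberField K] [P : Pre K]

open MeasureTheory

theorem tm_kk_nonneg {x : ℝ} (hx : 0 < x) : 0 ≤ kk x := mul_nonneg (sq_nonneg _) (Kf_pos hx).le

theorem tm_kk_cont {f : ℝ → ℝ} (hf : Continuous f) (h : ∀ y, 0 < f y) :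
    Continuous fun y => kk (f y) :=
  (hf.pow 2).mul (continuousOn_Kf.comp_continuous hf h)

theorem tm_gauss {b : ℝ} (hb : 0 < b) (C ξ : ℝ) :
    Integrable (fun τ : ℝ => Real.exp (C * |τ| - b * (τ + ξ) ^ 2)) ∧
      Filter.Tendsto (fun τ : ℝ => Real.exp (C * |τ| - b * (τ + ξ) ^ 2)) (Filter.cocompact ℝ)
        (nhds 0) := by
  have key : ∀ τ : ℝ, Real.exp (C * |τ| - b * (τ + ξ) ^ 2) ≤
      Real.exp (C ^ 2 / b + b * ξ ^ 2) * Real.exp (-(b / 4) * τ ^ 2) := fun τ => by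
    rw [← Real.exp_add, Real.exp_le_exp]
    have h1 : C * |τ| ≤ C ^ 2 / b + b / 4 * τ ^ 2 := by
      have : 0 ≤ (C - b / 2 * |τ|) ^ 2 / b := by positivity
      have e : (C - b / 2 * |τ|) ^ 2 / b = C ^ 2 / b - C * |τ| + b / 4 * |τ| ^ 2 := by
        field_simp
        ring
      rw [sq_abs] at e
      linarith
    nlinarith [mul_nonneg hb.le (sq_nonneg (τ + 2 * ξ))]
  constructor
  · refine ((integrable_exp_neg_mul_sq (by positivity : 0 < b / 4)).const_mul
      (Real.exp (C ^ 2 / b + b * ξ ^ 2))).mono' (by fun_prop) (.of_forall fun τ => ?_)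
    rw [Real.norm_of_nonneg (Real.exp_pos _).le]
    exact key τ
  · refine squeeze_zero (fun τ => (Real.exp_pos _).le) key ?_
    rw [← mul_zero (Real.exp (C ^ 2 / b + b * ξ ^ 2))]
    refine Filter.Tendsto.const_mul _ (Real.tendsto_exp_atBot.comp ?_)
    refine Filter.Tendsto.const_mul_atTop_of_neg (by linarith) ?_
    simpa [Function.comp_def] using (Filter.tendsto_pow_atTop two_ne_zero).comp
      (tendsto_norm_cocompact_atTop (E := ℝ))

/-- the Mellin transform of `β` -/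
def tm_g (lam t ξ : ℝ) (s : ℂ) : ℂ := phat lam t ξ (1 + s) * (khat s)⁻¹

theorem tm_g_diff (lam t ξ : ℝ) : Differentiable ℂ (tm_g lam t ξ) :=
  ((differentiable_phat lam t ξ).comp (by fun_prop)).mul differentiable_inv_khat

theorem tm_g_bd {lam : ℝ} (hlam : 0 < lam) (t ξ σ₁ : ℝ) : ∃ g : ℝ → ℝ, Integrable g ∧
    Filter.Tendsto g (Filter.cocompact ℝ) (nhds 0) ∧
    ∀ σ τ : ℝ, |σ| ≤ σ₁ → ‖tm_g lam t ξ (σ + τ * I)‖ ≤ g τ := by
  obtain ⟨C, hC⟩ := norm_inv_khat_le σ₁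
  obtain ⟨h1, h2⟩ := tm_gauss (b := 1 / (4 * lam)) (by positivity) C ξ
  refine ⟨fun τ => Real.sqrt (Real.pi / lam) * |C| *
    Real.exp ((1 + σ₁) * |t| + (1 + σ₁) ^ 2 / (4 * lam)) *
    Real.exp (C * |τ| - 1 / (4 * lam) * (τ + ξ) ^ 2), h1.const_mul _, ?_, fun σ τ hσ => ?_⟩
  · simpa using h2.const_mul _
  · have e : (1 : ℂ) + (σ + τ * I) = ((1 + σ : ℝ) : ℂ) + τ * I := by push_cast; ring
    have h3 : |1 + σ| ≤ 1 + σ₁ := (abs_add_le _ _).trans (by rw [abs_one]; linarith)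
    have h4 : (1 + σ) * t ≤ (1 + σ₁) * |t| :=
      (le_abs_self _).trans (by rw [abs_mul]; gcongr)
    have h5 : (1 + σ) ^ 2 ≤ (1 + σ₁) ^ 2 := by
      rw [← sq_abs]
      gcongr
    rw [tm_g, norm_mul, e, norm_phat hlam]
    calc _ ≤ Real.sqrt (Real.pi / lam) *
          Real.exp ((1 + σ₁) * |t| + ((1 + σ₁) ^ 2 - (τ + ξ) ^ 2) / (4 * lam)) *
          (|C| * Real.exp (C * |τ|)) := by
          gcongr
          exact (hC σ τ hσ).trans (by gcongr; exact le_abs_self C)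
      _ = _ := by
          beta_reduce
          rw [mul_mul_mul_comm, mul_assoc (_ * _), ← Real.exp_add, ← Real.exp_add]
          congr 2
          ring

/-- the deconvolution kernel -/
def tm_beta (lam t ξ y : ℝ) : ℂ :=
  (1 / (2 * Real.pi) : ℂ) * ∫ τ : ℝ, tm_g lam t ξ (τ * I) * cexp (-(τ * I) * y)

theorem tm_norm_exp (σ τ y : ℝ) : ‖cexp (-(σ + τ * I) * y)‖ = Real.exp (-σ * y) := by
  rw [Complex.norm_exp]
  simp

theorem tm_norm_exp0 (τ y : ℝ) : ‖cexp (-(τ * I) * y)‖ = 1 := by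
  simpa using tm_norm_exp 0 τ y

theorem tm_g_cont (lam t ξ : ℝ) : Continuous fun τ : ℝ => tm_g lam t ξ (τ * I) :=
  (tm_g_diff lam t ξ).continuous.comp (by fun_prop)

theorem tm_g_int {lam : ℝ} (hlam : 0 < lam) (t ξ : ℝ) :
    Integrable fun τ : ℝ => tm_g lam t ξ (τ * I) := by
  obtain ⟨g, h1, -, h3⟩ := tm_g_bd hlam t ξ 0
  refine h1.mono' (tm_g_cont lam t ξ).aestronglyMeasurable (.of_forall fun τ => ?_)
  simpa using h3 0 τ (by simp)

theorem tm_beta_cont {lam : ℝ} (hlam : 0 < lam) (t ξ : ℝ) : Continuous (tm_beta lam t ξ) := by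
  have := tm_g_cont lam t ξ
  refine continuous_const.mul (continuous_of_dominated (bound := fun τ => ‖tm_g lam t ξ (τ * I)‖)
    (fun y => Continuous.aestronglyMeasurable (by fun_prop)) (fun y => .of_forall fun τ => ?_)
    (tm_g_int hlam t ξ).norm (.of_forall fun τ => by fun_prop))
  rw [norm_mul, tm_norm_exp0, mul_one]

theorem tm_beta_bd {lam : ℝ} (hlam : 0 < lam) (t ξ σ : ℝ) :
    ∃ C : ℝ, ∀ y : ℝ, ‖tm_beta lam t ξ y‖ ≤ C * Real.exp (-σ * y) := by
  obtain ⟨g, h1, h2, h3⟩ := tm_g_bd hlam t ξ |σ|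
  refine ⟨‖(1 / (2 * Real.pi) : ℂ)‖ * ∫ τ, g τ, fun y => ?_⟩
  have hd : Differentiable ℂ fun s => tm_g lam t ξ s * cexp (-s * y) :=
    (tm_g_diff lam t ξ).mul (by fun_prop)
  have key : ∀ a b : ℝ, a ≤ b → |a| ≤ |σ| → |b| ≤ |σ| →
      ∫ τ : ℝ, tm_g lam t ξ (a + τ * I) * cexp (-(a + τ * I) * y) =
      ∫ τ : ℝ, tm_g lam t ξ (b + τ * I) * cexp (-(b + τ * I) * y) := fun a b hab ha hb => by
    refine integral_vertical_shift hab hd.differentiableOn
      (g := fun τ => g τ * Real.exp (|σ| * |y|)) (h1.mul_const _)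
      (by simpa using h2.mul_const _) fun s τ h4 h5 => ?_
    have h6 : |s| ≤ |σ| := abs_le.2 ⟨by linarith [(abs_le.1 ha).1], by linarith [(abs_le.1 hb).2]⟩
    rw [norm_mul, tm_norm_exp]
    refine mul_le_mul (h3 s τ h6) (Real.exp_le_exp.2 ((le_abs_self _).trans ?_)) (Real.exp_pos _).le
      ((norm_nonneg _).trans (h3 s τ h6))
    rw [abs_mul, abs_neg]
    gcongr
  have e : ∫ τ : ℝ, tm_g lam t ξ (τ * I) * cexp (-(τ * I) * y) =
      ∫ τ : ℝ, tm_g lam t ξ (σ + τ * I) * cexp (-(σ + τ * I) * y) := by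
    rcases le_total 0 σ with h | h
    · simpa using key 0 σ h (by simp) le_rfl
    · simpa using (key σ 0 h le_rfl (by simp)).symm
  rw [tm_beta, norm_mul, e, mul_assoc, ← integral_mul_const]
  gcongr
  refine norm_integral_le_of_norm_le (h1.mul_const _) (.of_forall fun τ => ?_)
  rw [norm_mul, tm_norm_exp]
  exact mul_le_mul_of_nonneg_right (h3 σ τ le_rfl) (Real.exp_pos _).le

theorem tm_beta_int {lam : ℝ} (hlam : 0 < lam) (t ξ σ : ℝ) :
    Integrable fun y => ‖tm_beta lam t ξ y‖ * Real.exp (σ * y) := by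
  have hc := tm_beta_cont hlam t ξ
  have key : ∀ (a : ℝ) (s : Set ℝ), IntegrableOn (fun y => Real.exp (a * y)) s →
      IntegrableOn (fun y => ‖tm_beta lam t ξ y‖ * Real.exp (σ * y)) s := fun a s h => by
    obtain ⟨C, hC⟩ := tm_beta_bd hlam t ξ (σ - a)
    refine (h.const_mul C).mono' (Continuous.aestronglyMeasurable (by fun_prop))
      (.of_forall fun y => ?_)
    rw [Real.norm_of_nonneg (by positivity)]
    refine (mul_le_mul_of_nonneg_right (hC y) (Real.exp_pos _).le).trans (le_of_eq ?_)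
    rw [mul_assoc, ← Real.exp_add]
    congr 2
    ring
  rw [← integrableOn_univ, ← Set.Iic_union_Ioi (a := 0)]
  exact (key 1 _ (integrableOn_exp_mul_Iic one_pos 0)).union
    (key (-1) _ (integrableOn_exp_mul_Ioi (by norm_num) 0))

theorem tm_conv {lam : ℝ} (hlam : 0 < lam) (t ξ L : ℝ) :
    (∫ y : ℝ, (kk (Real.exp (L + y)) : ℂ) * tm_beta lam t ξ y = (1 / (2 * Real.pi) : ℂ) *
      ∫ τ : ℝ, tm_g lam t ξ (τ * I) * (khat (-(τ * I)) * cexp (τ * I * L))) ∧
    ∫ y : ℝ, (kk (Real.exp (L - y)) : ℂ) * tm_beta lam t ξ y = (1 / (2 * Real.pi) : ℂ) *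
      ∫ τ : ℝ, tm_g lam t ξ (τ * I) * (khat (τ * I) * cexp (-(τ * I) * L)) := by
  have h0 : Integrable fun u : ℝ => (kk (Real.exp u) : ℂ) := by
    simpa using (integrable_kk (σ := 0) (by norm_num)).ofReal (𝕜 := ℂ)
  have key : ∀ k : ℝ → ℂ, Integrable k → ∫ y : ℝ, k y * tm_beta lam t ξ y =
      (1 / (2 * Real.pi) : ℂ) * ∫ τ : ℝ, tm_g lam t ξ (τ * I) *
        ∫ y : ℝ, k y * cexp (-(τ * I) * y) := fun k hk => by
    have h1 : Integrable (fun p : ℝ × ℝ => k p.1 * tm_g lam t ξ (p.2 * I) *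
        cexp (-(p.2 * I) * p.1)) (volume.prod volume) :=
      (hk.mul_prod (tm_g_int hlam t ξ)).mul_bdd (c := 1)
        (Continuous.aestronglyMeasurable (by fun_prop))
        (.of_forall fun p => (tm_norm_exp0 _ _).le)
    have h2 := integral_integral_swap
      (f := fun y τ : ℝ => k y * tm_g lam t ξ (τ * I) * cexp (-(τ * I) * y)) h1
    have h3 : ∀ y : ℝ, k y * tm_beta lam t ξ y = (1 / (2 * Real.pi) : ℂ) *
        ∫ τ : ℝ, k y * tm_g lam t ξ (τ * I) * cexp (-(τ * I) * y) := fun y => by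
      rw [tm_beta, mul_left_comm, ← integral_const_mul (k y)]
      simp only [mul_assoc]
    simp only [h3]
    rw [integral_const_mul, h2]
    congr 2
    funext τ
    rw [← integral_const_mul]
    simp only [mul_assoc, mul_left_comm (k _)]
  constructor
  · rw [key _ (h0.comp_add_left L)]
    congr 2
    funext τ
    rw [← mellin_kk (by norm_num), ← integral_mul_const, ← integral_add_left_eq_self _ (-L)]
    congr 2
    funext y
    rw [mul_assoc, ← Complex.exp_add, add_neg_cancel_left]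
    push_cast
    congr 2
    ring
  · rw [key _ (h0.comp_sub_left L)]
    congr 2
    funext τ
    rw [← mellin_kk (by norm_num), ← integral_mul_const, ← integral_sub_left_eq_self _ _ L]
    congr 2
    funext y
    rw [mul_assoc, ← Complex.exp_add, sub_sub_cancel]
    push_cast
    congr 2
    ring

theorem tm_inv {lam : ℝ} (hlam : 0 < lam) (t ξ L : ℝ) :
    (1 / (2 * Real.pi) : ℂ) * ∫ τ : ℝ, phat lam t ξ (1 + τ * I) * cexp (-(τ * I) * L) =
      cexp L * cexp (-(lam * (L - t) ^ 2 : ℝ) + I * (ξ * L : ℝ)) := by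
  have hl : (lam : ℂ) ≠ 0 := by exact_mod_cast hlam.ne'
  have e : ∀ τ : ℝ, phat lam t ξ (1 + τ * I) * cexp (-(τ * I) * L) =
      (Real.sqrt (Real.pi / lam) : ℂ) * cexp (((-(1 / (4 * lam)) : ℝ) : ℂ) * τ ^ 2 +
        (I * (t - L + (1 + I * ξ) / (2 * lam))) * τ +
        ((1 + I * ξ) * t + (1 + I * ξ) ^ 2 / (4 * lam))) := fun τ => by
    rw [phat, mul_assoc, ← Complex.exp_add]
    congr 2
    push_cast
    field_simp
    linear_combination 2 * (τ : ℂ) ^ 2 * I_sq
  simp only [e]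
  rw [integral_const_mul, integral_cexp_quadratic (by
    rw [ofReal_re, neg_lt_zero]; positivity), ← Complex.exp_add, ← mul_assoc, ← mul_assoc]
  have e2 : (1 / (2 * Real.pi) : ℂ) * (Real.sqrt (Real.pi / lam) : ℂ) *
      (Real.pi / -((-(1 / (4 * lam)) : ℝ) : ℂ)) ^ (1 / 2 : ℂ) = 1 := by
    have e3 : (Real.pi / -((-(1 / (4 * lam)) : ℝ) : ℂ)) ^ (1 / 2 : ℂ) =
        (Real.sqrt (Real.pi * (4 * lam)) : ℂ) := by
      rw [Real.sqrt_eq_rpow, ofReal_cpow (by positivity)]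
      push_cast
      congr 1
      field_simp
    rw [e3, mul_assoc, ← ofReal_mul, ← Real.sqrt_mul (by positivity),
      show Real.pi / lam * (Real.pi * (4 * lam)) = (2 * Real.pi) ^ 2 by field_simp; ring,
      Real.sqrt_sq (by positivity)]
    have : (Real.pi : ℂ) ≠ 0 := by exact_mod_cast Real.pi_ne_zero
    push_cast
    field_simp
  rw [e2, one_mul]
  congr 1
  push_cast
  field_simp
  linear_combination 4 * (2 * lam * (t - L) + (1 + I * ξ)) ^ 2 * I_sq

/-- the one-variable deconvolution: `β` with `kk * β = x P(x)` and dual transform `WdS` -/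
theorem exists_beta {lam : ℝ} (hlam : 0 < lam) (t ξ : ℝ) : ∃ β : ℝ → ℂ, Continuous β ∧
    (∀ σ : ℝ, Integrable (fun y => ‖β y‖ * Real.exp (σ * y))) ∧
    (∀ x : ℝ, 0 < x → ∫ y : ℝ, (kk (x * Real.exp (-y)) : ℂ) * β y =
      x * Complex.exp (-(lam * (Real.log x - t) ^ 2 : ℝ) + I * (ξ * Real.log x : ℝ))) ∧
    (∀ x : ℝ, 0 < x → ∫ y : ℝ, (kk (x * Real.exp y) : ℂ) * β y = WdS 0 lam t ξ x) := by
  refine ⟨tm_beta lam t ξ, tm_beta_cont hlam t ξ, tm_beta_int hlam t ξ, fun x hx => ?_,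
    fun x hx => ?_⟩
  · have e : ∀ y, x * Real.exp (-y) = Real.exp (Real.log x - y) := fun y => by
      rw [sub_eq_add_neg, Real.exp_add, Real.exp_log hx]
    have e' : (x : ℂ) = cexp (Real.log x) := by rw [← ofReal_exp, Real.exp_log hx]
    simp only [e]
    rw [(tm_conv hlam t ξ _).2, e', ← tm_inv hlam]
    congr 2
    funext τ
    rw [tm_g, mul_assoc, inv_mul_cancel_left₀ (khat_ne_zero (by norm_num))]
  · have e : ∀ y, x * Real.exp y = Real.exp (Real.log x + y) := fun y => by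
      rw [Real.exp_add, Real.exp_log hx]
    simp only [e]
    rw [(tm_conv hlam t ξ _).1, WdS, ← integral_neg_eq_self]
    congr 2
    funext τ
    rw [tm_g, cpow_def_of_ne_zero (by exact_mod_cast hx.ne'), ← ofReal_log hx.le]
    simp only [ofReal_neg, ofReal_zero, zero_add, neg_mul, neg_neg, ← sub_eq_add_neg,
      mul_comm (Real.log x : ℂ)]
    ring

theorem tm_lat {x : K} (hx : x ≠ 0) : ∃ N : ℕ, Summable
    ((Lat x : Set (R K)).indicator fun r : R K => ‖emb (r : K)‖⁻¹ ^ N) := by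
  let L : Submodule ℤ (Pl K → ℂ) := AddSubgroup.toIntSubmodule (LatE x)
  have hd : DiscreteTopology L := by
    obtain ⟨C, -, hC⟩ := box_count (K := K)
    have h1 : {z : L | ‖z‖ < 1}.Finite := by
      refine (((hC x hx 0 (fun _ => 1) fun _ => one_pos).1.image embR).preimage
        (Subtype.val_injective (p := fun z => z ∈ L)).injOn).subset ?_
      rintro ⟨_, n, hn, rfl⟩ hz
      refine ⟨n, ⟨hn, fun v => ?_⟩, rfl⟩
      rw [Pi.zero_apply, sub_zero]
      exact (norm_le_pi_norm (emb (n : K)) v).trans (le_of_lt hz)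
    refine discreteTopology_of_isOpen_singleton_zero ?_
    have h2 : ({0} : Set L) = {z : L | ‖z‖ < 1} \ ({z : L | ‖z‖ < 1} \ {0}) := by
      rw [Set.sdiff_sdiff_cancel_left]
      simp
    rw [h2]
    exact (isOpen_lt continuous_norm continuous_const).sdiff h1.sdiff.isClosed
  refine ⟨Module.finrank ℤ L + 1, summable_subtype_iff_indicator.1 ?_⟩
  exact (ZLattice.summable_norm_pow_inv L _ (Nat.lt_succ_self _)).comp_injective
    (i := fun n : Lat x => (⟨embR n.1, n.1, n.2, rfl⟩ : L)) fun a b hab =>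
      Subtype.ext (Subtype.ext (emb_injective (congrArg Subtype.val hab)))

theorem tm_J {β : ℝ → ℂ} (hc : Continuous β)
    (hβ : ∀ σ : ℝ, Integrable (fun y => ‖β y‖ * Real.exp (σ * y))) (ε : ℝ) {c : ℝ} (hc0 : 0 < c)
    (k : ℕ) : ∃ D : ℝ, ∀ ρ : ℝ, 0 < ρ →
      Integrable (fun y => (kk (ρ / c * Real.exp (ε * y)) : ℂ) * β y) ∧
      ρ ^ k * ∫ y, ‖(kk (ρ / c * Real.exp (ε * y)) : ℂ) * β y‖ ≤ D := by
  obtain ⟨C, hC⟩ := kk_le (σ := k) (le_trans (by norm_num) (Nat.cast_nonneg k))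
  refine ⟨C * c ^ k * ∫ y, ‖β y‖ * Real.exp (-(ε * k) * y), fun ρ hρ => ?_⟩
  have key : ∀ y, ‖(kk (ρ / c * Real.exp (ε * y)) : ℂ) * β y‖ ≤
      C * c ^ k / ρ ^ k * (‖β y‖ * Real.exp (-(ε * k) * y)) := fun y => by
    have h0 : 0 < ρ / c * Real.exp (ε * y) := by positivity
    rw [norm_mul, Complex.norm_real, Real.norm_of_nonneg (tm_kk_nonneg h0)]
    refine (mul_le_mul_of_nonneg_right (hC _ h0) (norm_nonneg _)).trans (le_of_eq ?_)
    rw [Real.rpow_neg h0.le, Real.rpow_natCast, mul_pow, div_pow, ← Real.exp_nat_mul,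
      show -(ε * k) * y = -(k * (ε * y)) by ring, Real.exp_neg]
    field_simp
  have hi := (hβ (-(ε * k))).const_mul (C * c ^ k / ρ ^ k)
  have h1 : Integrable (fun y => (kk (ρ / c * Real.exp (ε * y)) : ℂ) * β y) :=
    hi.mono' ((continuous_ofReal.comp (tm_kk_cont (by fun_prop) fun y => by positivity)).mul
      hc).aestronglyMeasurable (.of_forall key)
  refine ⟨h1, (mul_le_mul_of_nonneg_left (integral_mono h1.norm hi key) (by positivity)).trans
    (le_of_eq ?_)⟩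
  rw [integral_const_mul]
  field_simp

theorem tm_side {τ : R K → ℂ} {x : K} (hx : x ≠ 0) {C A : ℝ}
    (h1 : ∀ r, τ r ≠ 0 → r ≠ 0 ∧ r ∈ Lat x) (h2 : ∀ r, ‖τ r‖ ≤ C * Nm (r : K) ^ A)
    {β : Pl K → ℝ → ℂ} (hc : ∀ v, Continuous (β v))
    (hβ : ∀ v, ∀ σ : ℝ, Integrable (fun y => ‖β v y‖ * Real.exp (σ * y))) (ε : ℝ) {c : Pl K → ℝ}
    (hc0 : ∀ v, 0 < c v) :
    ∫ y : Pl K → ℝ, (∑' r : R K, τ r * ∏ v, ((‖emb (r : K) v‖⁻¹ *
        kk (‖emb (r : K) v‖ / c v * Real.exp (ε * y v)) : ℝ) : ℂ)) * ∏ v, β v (y v) =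
      ∑' r : R K, τ r * ∏ v, ((‖emb (r : K) v‖ : ℂ)⁻¹ *
        ∫ y, (kk (‖emb (r : K) v‖ / c v * Real.exp (ε * y)) : ℂ) * β v y) := by
  obtain ⟨N, hN⟩ := tm_lat hx
  obtain ⟨n, hn⟩ := exists_nat_ge A
  choose D hD using fun v k => tm_J (hc v) (hβ v) ε (hc0 v) k
  obtain ⟨f, hf⟩ : ∃ f : R K → Pl K → ℝ → ℂ, ∀ r v y, f r v y = (‖emb (r : K) v‖ : ℂ)⁻¹ *
    ((kk (‖emb (r : K) v‖ / c v * Real.exp (ε * y)) : ℂ) * β v y) := ⟨_, fun _ _ _ => rfl⟩
  have hpos : ∀ r : R K, τ r ≠ 0 → ∀ v, 0 < ‖emb (r : K) v‖ := fun r hr v =>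
    norm_pos_iff.2 (emb_ne_zero (by exact_mod_cast (h1 r hr).1) v)
  have hint : ∀ r : R K, Integrable fun y : Pl K → ℝ => τ r * ∏ v, f r v (y v) := fun r => by
    by_cases hr : τ r = 0
    · simp [hr]
    · refine (Integrable.fintype_prod (μ := fun _ => volume) fun v => ?_).const_mul _
      rw [funext (hf r v)]
      exact (hD v 0 _ (hpos r hr v)).1.const_mul _
  have hsum : Summable fun r : R K => ∫ y : Pl K → ℝ, ‖τ r * ∏ v, f r v (y v)‖ := by
    refine Summable.of_nonneg_of_le (fun r => integral_nonneg fun y => norm_nonneg _) (fun r => ?_)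
      (hN.mul_left (|C| * NS x ^ (A - (n + 1 : ℕ)) *
        ∏ v, (|D v (2 * n + 1)| + |D v (2 * n + 1 + N)|)))
    have hS := NS_pos hx
    by_cases hr : τ r = 0
    · simp only [hr, zero_mul, norm_zero, integral_zero]
      exact mul_nonneg (by positivity) (Set.indicator_nonneg (fun _ _ => by positivity) _)
    obtain ⟨hr0, hrL⟩ := h1 r hr
    have hp := hpos r hr
    have hN0 : 0 < Nm (r : K) := Nm_pos (by exact_mod_cast hr0)
    have h3 : ‖τ r‖ ≤ |C| * NS x ^ (A - (n + 1 : ℕ)) * ∏ v, ‖emb (r : K) v‖ ^ (2 * n + 2) := by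
      have e : ∏ v, ‖emb (r : K) v‖ ^ (2 * n + 2) = Nm (r : K) ^ ((n + 1 : ℕ) : ℝ) := by
        rw [Real.rpow_natCast, Nm, ← Finset.prod_pow]
        exact Finset.prod_congr rfl fun v _ => by ring
      calc ‖τ r‖ ≤ |C| * Nm (r : K) ^ A := (h2 r).trans (by gcongr; exact le_abs_self C)
        _ = |C| * Nm (r : K) ^ (A - (n + 1 : ℕ)) * Nm (r : K) ^ ((n + 1 : ℕ) : ℝ) := by
          rw [mul_assoc, ← Real.rpow_add hN0, sub_add_cancel]
        _ ≤ _ := by
          rw [e]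
          refine mul_le_mul_of_nonneg_right (mul_le_mul_of_nonneg_left
            (Real.rpow_le_rpow_of_nonpos hS (NS_le_Nm hr0 hrL) ?_) (abs_nonneg _)) (by positivity)
          push_cast
          linarith
    obtain ⟨w, hw⟩ := Finite.exists_max fun v => ‖emb (r : K) v‖
    have h4 : ‖emb (r : K)‖ = ‖emb (r : K) w‖ :=
      le_antisymm ((pi_norm_le_iff_of_nonneg (norm_nonneg _)).2 hw) (norm_le_pi_norm _ w)
    have h5 : ∀ v, ‖emb (r : K) v‖ ^ (2 * n + 2) * ∫ y, ‖f r v y‖ ≤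
        (|D v (2 * n + 1)| + |D v (2 * n + 1 + N)|) *
          if v = w then ‖emb (r : K) w‖⁻¹ ^ N else 1 := fun v => by
      have := hp v
      have e : ‖emb (r : K) v‖ ^ (2 * n + 2) * ∫ y, ‖f r v y‖ = ‖emb (r : K) v‖ ^ (2 * n + 1) *
          ∫ y, ‖(kk (‖emb (r : K) v‖ / c v * Real.exp (ε * y)) : ℂ) * β v y‖ := by
        simp only [hf, norm_mul (_⁻¹ : ℂ), integral_const_mul, norm_inv, Complex.norm_real,
          norm_norm]
        field_simp
        ring
      rw [e]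
      split_ifs with hv
      · subst hv
        rw [inv_pow, ← div_eq_mul_inv, le_div_iff₀ (by positivity), mul_right_comm, ← pow_add]
        exact (hD v _ _ this).2.trans ((le_abs_self _).trans (le_add_of_nonneg_left (abs_nonneg _)))
      · rw [mul_one]
        exact (hD v _ _ this).2.trans ((le_abs_self _).trans (le_add_of_nonneg_right (abs_nonneg _)))
    have h6 : ∀ v, 0 ≤ ∫ y, ‖f r v y‖ := fun v => integral_nonneg fun y => norm_nonneg _
    simp only [norm_mul, norm_prod]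
    rw [integral_const_mul, integral_fintype_prod_volume_eq_prod (fun v y => ‖f r v y‖),
      Set.indicator_of_mem (by exact hrL), h4]
    refine (mul_le_mul_of_nonneg_right h3 (Finset.prod_nonneg fun v _ => h6 v)).trans ?_
    rw [mul_assoc, ← Finset.prod_mul_distrib, mul_assoc (_ * _)]
    refine mul_le_mul_of_nonneg_left ((Finset.prod_le_prod
      (fun v _ => mul_nonneg (by positivity) (h6 v)) fun v _ => h5 v).trans (le_of_eq ?_))
      (by positivity)
    rw [Finset.prod_mul_distrib, Finset.prod_ite_eq', if_pos (Finset.mem_univ _)]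
  calc _ = ∫ y : Pl K → ℝ, ∑' r : R K, τ r * ∏ v, f r v (y v) := by
        congr 1
        funext y
        rw [← tsum_mul_right]
        congr 1
        funext r
        rw [mul_assoc, ← Finset.prod_mul_distrib]
        simp only [hf, ofReal_mul, ofReal_inv, mul_assoc]
    _ = _ := by
        rw [← integral_tsum_of_summable_integral_norm hint hsum]
        congr 1
        funext r
        rw [integral_const_mul, integral_fintype_prod_volume_eq_prod (f r)]
        simp only [hf, integral_const_mul]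

theorem mellin_step {τ τ' : R K → ℂ} {x x' : K} (hx : x ≠ 0) (hx' : x' ≠ 0) {C A : ℝ}
    (h1 : ∀ r, τ r ≠ 0 → r ≠ 0 ∧ r ∈ Lat x) (h1' : ∀ r, τ' r ≠ 0 → r ≠ 0 ∧ r ∈ Lat x')
    (h2 : ∀ r, ‖τ r‖ ≤ C * Nm (r : K) ^ A) (h2' : ∀ r, ‖τ' r‖ ≤ C * Nm (r : K) ^ A)
    {h : K} (hh : h ≠ 0)
    (H : ∀ y : Pl K → ℝ,
      ∑' r : R K, τ r * ∏ v, ((‖emb (r : K) v‖⁻¹ * kk (‖emb (r : K) v‖ * Real.exp (-y v)) : ℝ) : ℂ) =
      ∑' r : R K, τ' r * ∏ v, ((‖emb (r : K) v‖⁻¹ *
        kk (‖emb (r : K) v‖ / ‖emb h v‖ ^ 2 * Real.exp (y v)) : ℝ) : ℂ))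
    {lam : ℝ} (hlam : 0 < lam) (t ξ : Pl K → ℝ) :
    ∑' r : R K, τ r * pk lam t ξ (r : K) = ∑' r : R K, τ' r * Wd lam t ξ h (r : K) := by
  choose β hc hβ e1 e2 using fun v => exists_beta hlam (t v) (ξ v)
  have hh' : ∀ v, 0 < ‖emb h v‖ ^ 2 := fun v => pow_pos (norm_pos_iff.2 (emb_ne_zero hh v)) 2
  have a1 := tm_side hx h1 h2 hc hβ (-1) (c := fun _ => 1) fun _ => one_pos
  have a2 := tm_side hx' h1' h2' hc hβ 1 hh'
  simp only [div_one, neg_one_mul, H] at a1
  simp only [one_mul] at a2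
  rw [a2] at a1
  refine Eq.trans (tsum_congr fun r => ?_) (a1.symm.trans (tsum_congr fun r => ?_))
  · by_cases hr : τ r = 0
    · rw [hr, zero_mul, zero_mul]
    · refine congrArg _ (Finset.prod_congr rfl fun v _ => ?_)
      have := norm_pos_iff.2 (emb_ne_zero (x := (r : K)) (by exact_mod_cast (h1 r hr).1) v)
      rw [e1 v _ this, inv_mul_cancel_left₀ (by exact_mod_cast this.ne')]
      rfl
  · by_cases hr : τ' r = 0
    · rw [hr, zero_mul, zero_mul]
    · refine congrArg _ (Finset.prod_congr rfl fun v _ => ?_)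
      have := norm_pos_iff.2 (emb_ne_zero (x := (r : K)) (by exact_mod_cast (h1' r hr).1) v)
      rw [e2 v _ (div_pos this (hh' v))]

end Crest.Agent.GQ
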