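import Crest.Agent.GQ.ThLim
import Crest.Agent.GQ.ThMellin

/-! # GQ ThVor: the Voronoi identity for the Bessel kernel -/

set_option autoImplicit false

noncomputable section

open NumberField Complex
open scoped ComplexConjugate

namespace Crest.Agent.GQ

variable {K : Type} [Field K] [NumberField K] [P : Pre K]

open MeasureTheory

/-- convergence to zero in `L²_loc` -/
def vo_L (F : (Pl K → ℝ) → HH K → ℂ) : Prop := (∀ t, Continuous (F t)) ∧
  ∀ C : Set (HH K), IsCompact C → Filter.Tendsto (fun t => ∫ p in C, ‖F t p‖ ^ 2) (tF K) (nhds 0)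

theorem vo_L.comp {F : (Pl K → ℝ) → HH K → ℂ} (h : vo_L F) (G : SLC K) :
    vo_L fun t p => F t (act G p) := by
  refine ⟨fun t => (h.1 t).comp (continuous_act G), fun C hC => ?_⟩
  let e : HH K ≃ₜ HH K := ⟨⟨act G, act G⁻¹, fun p => by rw [← act_mul, inv_mul_cancel, act_one],
    fun p => by rw [← act_mul, mul_inv_cancel, act_one]⟩, continuous_act _, continuous_act _⟩
  refine (h.2 _ (hC.image (continuous_act G))).congr fun t => ?_
  exact (measurePreserving_act G).setIntegral_image_emb e.measurableEmbedding _ _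

theorem vo_L.sub {F F' : (Pl K → ℝ) → HH K → ℂ} (h : vo_L F) (h' : vo_L F') :
    vo_L fun t p => F t p - F' t p := by
  refine ⟨fun t => (h.1 t).sub (h'.1 t), fun C hC => ?_⟩
  have h1 := ((h.2 C hC).const_mul 2).add ((h'.2 C hC).const_mul 2)
  rw [mul_zero, add_zero] at h1
  refine squeeze_zero (fun t => integral_nonneg fun p => by positivity) (fun t => ?_) h1
  have i1 : IntegrableOn (fun p => 2 * ‖F t p‖ ^ 2) C :=
    (continuous_const.mul ((h.1 t).norm.pow 2)).continuousOn.integrableOn_compact hC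
  have i2 : IntegrableOn (fun p => 2 * ‖F' t p‖ ^ 2) C :=
    (continuous_const.mul ((h'.1 t).norm.pow 2)).continuousOn.integrableOn_compact hC
  rw [← integral_const_mul, ← integral_const_mul, ← integral_add i1 i2]
  refine integral_mono (((h.1 t).sub (h'.1 t)).norm.pow 2 |>.continuousOn.integrableOn_compact hC)
    (i1.add i2) fun p => ?_
  have := pow_le_pow_left₀ (norm_nonneg _) (norm_sub_le (F t p) (F' t p)) 2
  dsimp only
  nlinarith [sq_nonneg (‖F t p‖ - ‖F' t p‖)]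

theorem vo_L.zero {f : HH K → ℂ} (h : vo_L fun _ => f) (p : HH K) : f p = 0 :=
  eq_zero_of_L2 (h.1 0) (fun C hC => tendsto_nhds_unique tendsto_const_nhds (h.2 C hC)) p

theorem vo_rot (z₀ : Pl K → ℂ) {u : Pl K → ℂ} (hu : ∀ v, ‖u v‖ = 1) :
    ∃ G : SLC K, ∀ ζ y, act G (pt (z₀ + ζ) y) = pt (z₀ + u * ζ) y := by
  choose s hs using fun v => IsAlgClosed.exists_eq_mul_self (u v)
  have h1 : ∀ v, s v * conj (s v) = 1 := fun v => by
    have := hu v
    rw [hs, norm_mul] at this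
    rw [Complex.mul_conj, Complex.normSq_eq_norm_sq, sq, this, ofReal_one]
  have h2 : ∀ v, ‖s v‖ ^ 2 = 1 := fun v => by rw [sq, ← norm_mul, ← hs, hu]
  refine ⟨mk2 s (fun v => z₀ v * (conj (s v) - s v)) 0 (fun v => conj (s v))
    (funext fun v => by simp [h1]), fun ζ y => Prod.ext (funext fun v => ?_) (funext fun v => ?_)⟩
  · simp only [act, mk2, hf, zc_pt, pt_snd, Matrix.of_apply, Matrix.cons_val', Matrix.cons_val_zero,
      Matrix.cons_val_one, Matrix.cons_val_fin_one, Pi.zero_apply, zero_mul, zero_add, map_zero,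
      mul_zero, add_zero, conj_conj]
    simp only [pt, Pi.add_apply, Pi.mul_apply, hs v]
    linear_combination (Real.exp (y v) : ℂ) * z₀ v * h1 v
  · simp [act, mk2, Qh, pt_snd, h2]

/-- the averaged character divided by `8 π i ρ` -/
def vo_T (θ η : ℂ) (ρ : ℝ) (w : ℂ) : ℂ :=
  (w.re * Real.sinc (4 * Real.pi * ρ * w.re) : ℝ) +
    θ * ((η * w).re * Real.sinc (4 * Real.pi * ρ * (η * w).re) : ℝ)

theorem vo_T_cont (θ η : ℂ) {w : ℝ → ℂ} (hw : Continuous w) :
    Continuous fun ρ => vo_T θ η ρ (w ρ) := by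
  have := Real.continuous_sinc
  unfold vo_T
  fun_prop

theorem vo_T_le {θ η : ℂ} (hθ : ‖θ‖ = 1) (hη : ‖η‖ = 1) (ρ : ℝ) (w : ℂ) :
    ‖vo_T θ η ρ w‖ ≤ 2 * ‖w‖ := by
  have h : ∀ (z : ℂ) (t : ℝ), ‖((z.re * Real.sinc t : ℝ) : ℂ)‖ ≤ ‖z‖ := fun z t => by
    rw [Complex.norm_real, Real.norm_eq_abs, abs_mul]
    exact (mul_le_of_le_one_right (abs_nonneg _) (Real.abs_sinc_le_one t)).trans (abs_re_le_norm z)
  refine (norm_add_le _ _).trans ?_
  have h1 := h w (4 * Real.pi * ρ * w.re)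
  have h2 := h (η * w) (4 * Real.pi * ρ * (η * w).re)
  rw [norm_mul η, hη, one_mul] at h2
  rw [norm_mul, hθ, one_mul]
  linarith

theorem vo_exp (ρ x : ℝ) : cexp (2 * Real.pi * I * (2 * (ρ * x) : ℝ)) -
    cexp (2 * Real.pi * I * (2 * (ρ * -x) : ℝ)) =
      8 * Real.pi * I * ρ * (x * Real.sinc (4 * Real.pi * ρ * x) : ℝ) := by
  have h1 : Real.sin (4 * Real.pi * ρ * x) =
      4 * Real.pi * ρ * x * Real.sinc (4 * Real.pi * ρ * x) := by
    by_cases h : 4 * Real.pi * ρ * x = 0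
    · rw [h]
      simp
    · rw [Real.sinc_of_ne_zero h, mul_div_cancel₀ _ h]
  have h2 := congrArg (fun t : ℝ => (t : ℂ)) h1
  simp only [ofReal_sin, Complex.sin] at h2
  rw [show 2 * Real.pi * I * (2 * (ρ * x) : ℝ) = (4 * Real.pi * ρ * x : ℝ) * I by push_cast; ring,
    show 2 * Real.pi * I * (2 * (ρ * -x) : ℝ) = -(4 * Real.pi * ρ * x : ℝ) * I by push_cast; ring]
  generalize cexp ((4 * Real.pi * ρ * x : ℝ) * I) = a at *
  generalize cexp (-(4 * Real.pi * ρ * x : ℝ) * I) = b at *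
  push_cast at h2 ⊢
  linear_combination (2 * I) * h2 + (a - b) * I_mul_I

theorem vo_avg1 {θ η : ℂ} (hθ : θ ^ 2 = -1) (hη : η ^ 2 = -1) (ρ : ℝ) (w : ℂ) :
    ∑ j ∈ Finset.range 4, θ ^ j * cexp (2 * Real.pi * I * (2 * (η ^ j * ρ * w).re : ℝ)) =
      8 * Real.pi * I * ρ * vo_T θ η ρ w := by
  have h1 := vo_exp ρ w.re
  have h2 := vo_exp ρ (η * w).re
  have e : ∀ a : ℂ, (a * ρ * w).re = ρ * (a * w).re := fun a => by
    rw [mul_right_comm, re_mul_ofReal, mul_comm]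
  simp only [Finset.sum_range_succ, Finset.sum_range_zero, pow_zero, pow_one, pow_succ' _ 2, hθ, hη,
    e, one_mul, neg_mul, mul_neg, mul_one, neg_re, vo_T] at h1 h2 ⊢
  linear_combination h1 + θ * h2

theorem vo_sum {τ : R K → ℂ} (hτ : Adm τ) (n : ℕ) {δ : Pl K → ℝ} (hδ : ∀ v, 0 < δ v) :
    Summable fun r : R K =>
      ‖τ r‖ * ∏ v, (‖emb (r : K) v‖ ^ n * Kf (‖emb (r : K) v‖ * δ v)) := by
  obtain ⟨x, C, A, hx, h1, h2⟩ := hτ
  obtain ⟨N, hN⟩ := tm_lat hx
  obtain ⟨m, hm⟩ := exists_nat_ge A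
  have hD : ∀ (v : Pl K) (k : ℕ), ∃ D : ℝ, 0 ≤ D ∧ ∀ ρ : ℝ, 0 < ρ →
      ρ ^ (k + 2) * Kf (ρ * δ v) ≤ D := fun v k => by
    obtain ⟨B, hB⟩ := kk_le (σ := k) (le_trans (by norm_num) (Nat.cast_nonneg k))
    have := hδ v
    refine ⟨|B| / δ v ^ (k + 2), by positivity, fun ρ hρ => ?_⟩
    have h3 := hB _ (mul_pos hρ this)
    rw [Real.rpow_neg (by positivity), Real.rpow_natCast, ← div_eq_mul_inv,
      le_div_iff₀ (by positivity), kk] at h3
    rw [le_div_iff₀ (by positivity)]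
    exact (le_of_eq (by ring)).trans (h3.trans (le_abs_self B))
  choose D hD0 hD using hD
  have hS := NS_pos hx
  have hpos : ∀ r : R K, r ≠ 0 → ∀ v, 0 < ‖emb (r : K) v‖ := fun r hr v =>
    norm_pos_iff.2 (emb_ne_zero (by exact_mod_cast hr) v)
  have hnn : ∀ r : R K, r ≠ 0 → ∀ v, 0 ≤ ‖emb (r : K) v‖ ^ n * Kf (‖emb (r : K) v‖ * δ v) :=
    fun r hr v => mul_nonneg (by positivity) (Kf_pos (mul_pos (hpos r hr v) (hδ v))).le
  refine Summable.of_nonneg_of_le (fun r => ?_) (fun r => ?_)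
    (hN.mul_left (|C| * NS x ^ (A - (m + 1 : ℕ)) * ∏ v, (D v (2 * m + n) + D v (2 * m + n + N))))
  · by_cases hr : τ r = 0
    · simp [hr]
    · exact mul_nonneg (norm_nonneg _) (Finset.prod_nonneg fun v _ => hnn r (h1 r hr).1 v)
  by_cases hr : τ r = 0
  · rw [hr, norm_zero, zero_mul]
    exact mul_nonneg (mul_nonneg (by positivity) (Finset.prod_nonneg fun v _ =>
      add_nonneg (hD0 _ _) (hD0 _ _))) (Set.indicator_nonneg (fun _ _ => by positivity) _)
  obtain ⟨hr0, hrL⟩ := h1 r hr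
  have hp := hpos r hr0
  have hN0 : 0 < Nm (r : K) := Nm_pos (by exact_mod_cast hr0)
  have h3 : ‖τ r‖ ≤ |C| * NS x ^ (A - (m + 1 : ℕ)) * ∏ v, ‖emb (r : K) v‖ ^ (2 * m + 2) := by
    have e : ∏ v, ‖emb (r : K) v‖ ^ (2 * m + 2) = Nm (r : K) ^ ((m + 1 : ℕ) : ℝ) := by
      rw [Real.rpow_natCast, Nm, ← Finset.prod_pow]
      exact Finset.prod_congr rfl fun v _ => by ring
    calc ‖τ r‖ ≤ |C| * Nm (r : K) ^ A := (h2 r).trans (by gcongr; exact le_abs_self C)
      _ = |C| * Nm (r : K) ^ (A - (m + 1 : ℕ)) * Nm (r : K) ^ ((m + 1 : ℕ) : ℝ) := by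
        rw [mul_assoc, ← Real.rpow_add hN0, sub_add_cancel]
      _ ≤ _ := by
        rw [e]
        refine mul_le_mul_of_nonneg_right (mul_le_mul_of_nonneg_left
          (Real.rpow_le_rpow_of_nonpos hS (NS_le_Nm hr0 hrL) ?_) (abs_nonneg _)) (by positivity)
        push_cast
        linarith
  obtain ⟨w, hw⟩ := Finite.exists_max fun v => ‖emb (r : K) v‖
  have h4 : ‖emb (r : K)‖ = ‖emb (r : K) w‖ :=
    le_antisymm ((pi_norm_le_iff_of_nonneg (norm_nonneg _)).2 hw) (norm_le_pi_norm _ w)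
  have h5 : ∀ v, ‖emb (r : K) v‖ ^ (2 * m + 2) *
      (‖emb (r : K) v‖ ^ n * Kf (‖emb (r : K) v‖ * δ v)) ≤
      (D v (2 * m + n) + D v (2 * m + n + N)) *
        if v = w then ‖emb (r : K) w‖⁻¹ ^ N else 1 := fun v => by
    have := hp v
    split_ifs with hv
    · subst hv
      rw [inv_pow, ← div_eq_mul_inv, le_div_iff₀ (by positivity)]
      exact (le_of_eq (by ring)).trans
        ((hD v (2 * m + n + N) _ this).trans (le_add_of_nonneg_left (hD0 _ _)))
    · rw [mul_one]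
      exact (le_of_eq (by ring)).trans
        ((hD v (2 * m + n) _ this).trans (le_add_of_nonneg_right (hD0 _ _)))
  rw [Set.indicator_of_mem (by exact hrL), h4]
  refine (mul_le_mul_of_nonneg_right h3 (Finset.prod_nonneg fun v _ => hnn r hr0 v)).trans ?_
  rw [mul_assoc, ← Finset.prod_mul_distrib, mul_assoc (_ * _)]
  refine mul_le_mul_of_nonneg_left ((Finset.prod_le_prod
    (fun v _ => mul_nonneg (by positivity) (hnn r hr0 v)) fun v _ => h5 v).trans (le_of_eq ?_))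
    (by positivity)
  rw [Finset.prod_mul_distrib, Finset.prod_ite_eq', if_pos (Finset.mem_univ _)]

theorem vo_Wh {r : R K} (hr : r ≠ 0) (y : Pl K → ℝ) (v : Pl K) :
    0 < Kf (‖emb (r : K) v‖ * Real.exp (-y v)) :=
  Kf_pos (mul_pos (norm_pos_iff.2 (emb_ne_zero (by exact_mod_cast hr) v)) (Real.exp_pos _))

theorem vo_avg {τ : R K → ℂ} (hτ : Adm τ) {θ η : ℂ} (hθ : θ ^ 2 = -1) (hη : η ^ 2 = -1)
    (z₀ m : Pl K → ℂ) (y : Pl K → ℝ) (ρ : ℝ) :
    ∑ k ∈ Fintype.piFinset (fun _ : Pl K => Finset.range 4), (∏ v, θ ^ k v) *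
      thS τ (pt (fun v => z₀ v + η ^ k v * ρ * m v) y) =
    (8 * Real.pi * I * ρ) ^ rr K * ∑' r : R K, τ r * (Wh (r : K) y : ℂ) * eC (emb (r : K) * z₀) *
      ∏ v, vo_T θ η ρ (emb (r : K) v * m v) := by
  have hs : ∀ z : Pl K → ℂ, Summable fun r : R K =>
      τ r * (Wh (r : K) y : ℂ) * eC (emb (r : K) * z) := fun z => by
    refine Summable.of_norm (((vo_sum hτ 0 (δ := fun v => Real.exp (-y v))
      fun v => Real.exp_pos _).mul_left (∏ v, Real.exp (-y v))).congr fun r => ?_)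
    by_cases hr : τ r = 0
    · simp [hr]
    obtain ⟨x, C, A, -, h1, -⟩ := hτ
    have h2 := vo_Wh (h1 r hr).1 y
    rw [norm_mul, norm_mul, norm_eC, mul_one, Complex.norm_real, Wh, Real.norm_of_nonneg
      (Finset.prod_nonneg fun v _ => mul_nonneg (Real.exp_pos _).le (h2 v).le),
      mul_left_comm, ← Finset.prod_mul_distrib]
    simp only [pow_zero, one_mul]
  simp only [thS, zc_pt, pt_snd, ← tsum_mul_left]
  rw [← Summable.tsum_finsetSum fun k _ => (hs _).mul_left _]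
  refine tsum_congr fun r => ?_
  have e : ∀ k : Pl K → ℕ, (∏ v, θ ^ k v) * (τ r * (Wh (r : K) y : ℂ) *
      eC (emb (r : K) * fun v => z₀ v + η ^ k v * ρ * m v)) =
      τ r * (Wh (r : K) y : ℂ) * eC (emb (r : K) * z₀) * ∏ v, (θ ^ k v *
        cexp (2 * Real.pi * I * (2 * (η ^ k v * ρ * (emb (r : K) v * m v)).re : ℝ))) := fun k => by
    rw [show (emb (r : K) * fun v => z₀ v + η ^ k v * ρ * m v) = emb (r : K) * z₀ +
      fun v => η ^ k v * ρ * (emb (r : K) v * m v) from funext fun v => by simp; ring, eC_add,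
      Finset.prod_mul_distrib, ← Complex.exp_sum, ← Finset.mul_sum, ← ofReal_sum]
    unfold eC
    ring
  simp only [e]
  rw [← Finset.mul_sum, ← Finset.prod_univ_sum (fun _ : Pl K => Finset.range 4) fun v j => θ ^ j *
    cexp (2 * Real.pi * I * (2 * (η ^ j * ρ * (emb (r : K) v * m v)).re : ℝ))]
  simp only [vo_avg1 hθ hη]
  rw [Finset.prod_mul_distrib, Finset.prod_const, Finset.card_univ]
  ring

theorem vo_lim {τ : R K → ℂ} (hτ : Adm τ) {θ η : ℂ} (hθ : ‖θ‖ = 1) (hη : ‖η‖ = 1) (z₀ : Pl K → ℂ)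
    {m : ℝ → Pl K → ℂ} (hm : Continuous m) {y : ℝ → Pl K → ℝ} (hy : Continuous y) :
    ContinuousAt (fun ρ => ∑' r : R K, τ r * (Wh (r : K) (y ρ) : ℂ) * eC (emb (r : K) * z₀) *
      ∏ v, vo_T θ η ρ (emb (r : K) v * m ρ v)) 0 := by
  have h0 := (vo_sum hτ 1 (δ := fun _ => Real.exp (-(‖y 0‖ + 1))) fun v => Real.exp_pos _).mul_left
    (∏ _v : Pl K, (Real.exp (‖y 0‖ + 1) * (2 * (‖m 0‖ + 1))))
  obtain ⟨x, C, A, -, h1, -⟩ := hτ
  refine tendsto_tsum_of_dominated_convergence h0 (fun r => ?_) ?_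
  · by_cases hr : τ r = 0
    · simp [hr]
    have hp : ∀ v, 0 < ‖emb (r : K) v‖ := fun v =>
      norm_pos_iff.2 (emb_ne_zero (by exact_mod_cast (h1 r hr).1) v)
    have h2 : Continuous fun ρ => Wh (r : K) (y ρ) := continuous_finsetProd _ fun v _ =>
      Continuous.mul (by fun_prop) (continuousOn_Kf.comp_continuous (by fun_prop)
        fun ρ => mul_pos (hp v) (Real.exp_pos _))
    exact (((continuous_const.mul (continuous_ofReal.comp h2)).mul continuous_const).mul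
      (continuous_finsetProd _ fun v _ => vo_T_cont θ η (by fun_prop))).tendsto 0
  filter_upwards [(hy.norm.tendsto 0).eventually (eventually_le_nhds (lt_add_one _)),
    (hm.norm.tendsto 0).eventually (eventually_le_nhds (lt_add_one _))] with ρ a1 a2 r
  by_cases hr : τ r = 0
  · simp [hr]
  have h2 := vo_Wh (h1 r hr).1 (y ρ)
  have hp : ∀ v, 0 < ‖emb (r : K) v‖ := fun v =>
    norm_pos_iff.2 (emb_ne_zero (by exact_mod_cast (h1 r hr).1) v)
  rw [norm_mul, norm_mul, norm_mul, norm_eC, mul_one, Complex.norm_real, Wh, Real.norm_of_nonneg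
    (Finset.prod_nonneg fun v _ => mul_nonneg (Real.exp_pos _).le (h2 v).le), norm_prod,
    mul_left_comm, mul_assoc, ← Finset.prod_mul_distrib, ← Finset.prod_mul_distrib]
  refine mul_le_mul_of_nonneg_left (Finset.prod_le_prod (fun v _ => mul_nonneg
    (mul_nonneg (Real.exp_pos _).le (h2 v).le) (norm_nonneg _)) fun v _ => ?_) (norm_nonneg _)
  have b1 := abs_le.1 ((norm_le_pi_norm (y ρ) v).trans a1)
  have b2 : ‖vo_T θ η ρ (emb (r : K) v * m ρ v)‖ ≤ 2 * (‖m 0‖ + 1) * ‖emb (r : K) v‖ := by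
    refine (vo_T_le hθ hη _ _).trans ?_
    rw [norm_mul, mul_assoc, mul_comm (_ + 1)]
    have := (norm_le_pi_norm (m ρ) v).trans a2
    gcongr
  have b3 : Kf (‖emb (r : K) v‖ * Real.exp (-y ρ v)) ≤
      Kf (‖emb (r : K) v‖ * Real.exp (-(‖y 0‖ + 1))) :=
    Kf_anti (mul_pos (hp v) (Real.exp_pos _))
      (mul_le_mul_of_nonneg_left (Real.exp_le_exp.2 (by linarith [b1.2])) (hp v).le)
  have b4 : Real.exp (-y ρ v) ≤ Real.exp (‖y 0‖ + 1) := Real.exp_le_exp.2 (by linarith [b1.1])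
  have b5 := (h2 v).le
  refine (mul_le_mul (mul_le_mul b4 b3 b5 (Real.exp_pos _).le) b2 (norm_nonneg _)
    (mul_nonneg (Real.exp_pos _).le (b5.trans b3))).trans (le_of_eq ?_)
  ring

theorem vo_T0 {e : ℤ} (he : e = 1 ∨ e = -1) {w : ℂ} (hw : w ≠ 0) :
    vo_T (-(e * I)) I 0 w = ‖w‖ * (w / ‖w‖) ^ e ∧
      vo_T (-(e * I)) (-I) 0 w = ‖w‖ * (w / ‖w‖) ^ (-e) := by
  have h0 : (‖w‖ : ℂ) ≠ 0 := by simpa using hw
  have h1 : (‖w‖ : ℂ) * (w / ‖w‖) ^ (1 : ℤ) = w.re + w.im * I := by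
    rw [zpow_one, mul_div_cancel₀ _ h0, re_add_im]
  have h2 : (‖w‖ : ℂ) * (w / ‖w‖) ^ (-1 : ℤ) = w.re - w.im * I := by
    rw [zpow_neg_one, inv_div, ← mul_div_assoc, div_eq_iff hw, ← sq, ← Complex.mul_conj',
      mul_comm]
    congr 1
    apply Complex.ext <;> simp
  rcases he with rfl | rfl
  · rw [h1, h2]
    constructor <;> apply Complex.ext <;> simp [vo_T]
  · rw [neg_neg, h1, h2]
    constructor <;> apply Complex.ext <;> simp [vo_T]

variable [Q : Rec K]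

theorem vo_inv {g γ : SLR K} (hh : γ.1 1 0 ≠ 0) {τ τ' : R K → ℂ} (hτ : Adm τ)
    (hτ' : Adm τ') (H : HasTheta g τ) (H' : HasTheta (g * γ) τ') {u : Pl K → ℂ}
    (hu : ∀ v, ‖u v‖ = 1) (ζ : Pl K → ℂ) (y : Pl K → ℝ) :
    thS τ (pt (emb ((γ.1 0 0 : K) / γ.1 1 0) + u * ζ) y) -
      thS τ' (actR γ⁻¹ (pt (emb ((γ.1 0 0 : K) / γ.1 1 0) + u * ζ) y)) =
    thS τ (pt (emb ((γ.1 0 0 : K) / γ.1 1 0) + ζ) y) -
      thS τ' (actR γ⁻¹ (pt (emb ((γ.1 0 0 : K) / γ.1 1 0) + ζ) y)) := by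
  obtain ⟨c, hc, hA⟩ := H
  obtain ⟨c', hc', hB⟩ := H'
  have hA' : vo_L fun t p => Th g t p - c t p.2 - thS τ p := ⟨fun t =>
    ((continuous_ThQ 1 g t).sub ((hc t).comp continuous_snd)).sub (continuous_thS hτ), hA⟩
  have hB' : vo_L fun t p => Th (g * γ) t p - c' t p.2 - thS τ' p := ⟨fun t =>
    ((continuous_ThQ 1 _ t).sub ((hc' t).comp continuous_snd)).sub (continuous_thS hτ'), hB⟩
  have h1 : vo_L fun t p => Th (g * γ) t (actR γ⁻¹ p) - c' t (actR γ⁻¹ p).2 -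
    thS τ' (actR γ⁻¹ p) - (Th g t p - c t p.2 - thS τ p) := (hB'.comp _).sub hA'
  obtain ⟨G, hG⟩ := vo_rot (emb ((γ.1 0 0 : K) / γ.1 1 0)) hu
  have h2 := (h1.comp G).sub h1
  have h3 : ∀ p, (act G p).2 = p.2 ∧ (actR γ⁻¹ (act G p)).2 = (actR γ⁻¹ p).2 := fun p => by
    rw [← pt_zc p, ← add_sub_cancel (emb ((γ.1 0 0 : K) / γ.1 1 0)) (zc p), hG,
      actR_inv_cusp γ hh, actR_inv_cusp γ hh]
    simp only [pt_snd, Pi.mul_apply, norm_mul, hu, one_mul, and_self]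
  have h4 : vo_L fun _ p => thS τ (act G p) - thS τ' (actR γ⁻¹ (act G p)) -
      (thS τ p - thS τ' (actR γ⁻¹ p)) := by
    convert h2 using 3 with t p
    simp only [← Th_actR g γ, ← actR_mul, mul_inv_cancel, actR_one, (h3 p).1, (h3 p).2]
    ring
  rw [← hG]
  exact sub_eq_zero.1 (h4.zero _)

theorem voronoi_bessel {g γ : SLR K} (hh : γ.1 1 0 ≠ 0) {τ τ' : R K → ℂ} (hτ : Adm τ)
    (hτ' : Adm τ') (H : HasTheta g τ) (H' : HasTheta (g * γ) τ') {e : ℤ} (he : e = 1 ∨ e = -1)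
    (y : Pl K → ℝ) :
    ∑' r : R K, (τ r * eT ((r : K) * γ.1 0 0 / γ.1 1 0) * ang (r : K) ^ e) *
      ∏ v, ((‖emb (r : K) v‖⁻¹ * kk (‖emb (r : K) v‖ * Real.exp (-y v)) : ℝ) : ℂ) =
    ∑' r : R K, ((-1) ^ rr K * ang (γ.1 1 0 : K) ^ (2 * e) * τ' r *
        eT (-((r : K) * γ.1 1 1 / γ.1 1 0)) * ang (r : K) ^ (-e)) *
      ∏ v, ((‖emb (r : K) v‖⁻¹ *
        kk (‖emb (r : K) v‖ / ‖emb (γ.1 1 0 : K) v‖ ^ 2 * Real.exp (y v)) : ℝ) : ℂ) := by
  have hc : ∀ v, emb (γ.1 1 0 : K) v ≠ 0 := emb_ne_zero (by simpa using hh)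
  have hθ : (-(e * I)) ^ 2 = -1 := by rcases he with rfl | rfl <;> simp
  have hθ' : ‖-(e * I)‖ = 1 := by rcases he with rfl | rfl <;> simp
  set z₀ := emb ((γ.1 0 0 : K) / γ.1 1 0) with hz₀
  set m : ℝ → Pl K → ℂ := fun ρ v =>
    -(emb (γ.1 1 0 : K) v ^ 2 * ((ρ ^ 2 + Real.exp (-2 * y v) : ℝ) : ℂ))⁻¹ with hm
  set Y : ℝ → Pl K → ℝ := fun ρ v => Real.log (‖emb (γ.1 1 0 : K) v‖ ^ 2 *
    (ρ ^ 2 + Real.exp (-2 * y v)) * Real.exp (y v)) with hY
  have hmc : Continuous m := continuous_pi fun v => (Continuous.inv₀ (by fun_prop) fun ρ =>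
    mul_ne_zero (pow_ne_zero _ (hc v)) (ofReal_ne_zero.2 (by positivity))).neg
  have hYc : Continuous Y := continuous_pi fun v => Continuous.log (by fun_prop) fun ρ => by
    have := norm_pos_iff.2 (hc v)
    positivity
  have l1 := vo_lim hτ hθ' norm_I z₀ (m := fun _ _ => 1) continuous_const (y := fun _ => y)
    continuous_const
  have l2 := vo_lim hτ' hθ' ((norm_neg I).trans norm_I) (-emb ((γ.1 1 1 : K) / γ.1 1 0)) hmc hYc
  have key := tendsto_nhds_unique_of_eventuallyEq (l1.mono_left (nhdsWithin_le_nhds (s := {0}ᶜ)))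
    (l2.mono_left nhdsWithin_le_nhds) (eventually_nhdsWithin_of_forall fun ρ hρ => by
      have hρ' : (8 * Real.pi * I * ρ : ℂ) ^ rr K ≠ 0 := by
        have : ρ ≠ 0 := hρ
        simp [this]
      refine mul_left_cancel₀ hρ' ?_
      rw [← vo_avg hτ hθ I_sq, ← vo_avg hτ' hθ (by simp), ← sub_eq_zero, ← Finset.sum_sub_distrib]
      have e1 : ∀ k : Pl K → ℕ, thS τ (pt (fun v => z₀ v + I ^ k v * ρ * 1) y) -
          thS τ' (pt (fun v => (-emb ((γ.1 1 1 : K) / γ.1 1 0)) v + (-I) ^ k v * ρ * m ρ v) (Y ρ)) =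
          thS τ (pt (z₀ + fun _ : Pl K => (ρ : ℂ)) y) -
            thS τ' (actR γ⁻¹ (pt (z₀ + fun _ : Pl K => (ρ : ℂ)) y)) := fun k => by
        rw [← vo_inv hh hτ hτ' H H' (u := fun v => I ^ k v) (fun v => by simp), actR_inv_cusp γ hh]
        congr 3
        · funext v
          simp [hz₀]
        · funext v
          simp [hm, div_eq_mul_inv, sub_eq_add_neg]
        · funext v
          simp [hY]
      simp only [← mul_sub, e1]
      rw [← Finset.sum_mul, ← Finset.prod_univ_sum (fun _ : Pl K => Finset.range 4)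
        fun v j => (-(e * I)) ^ j, Finset.prod_const, Finset.card_univ]
      simp only [Finset.sum_range_succ, Finset.sum_range_zero, pow_succ _ 2, hθ]
      rw [show 0 + (-(e * I)) ^ 0 + (-(e * I)) ^ 1 + -1 + -1 * -(e * I) = 0 by ring,
        zero_pow rr_pos.ne', zero_mul])
  refine mul_left_cancel₀ (a := ∏ v, (Real.exp (y v) : ℂ))
    (Finset.prod_ne_zero_iff.2 fun v _ => by simp) ?_
  rw [← tsum_mul_left, ← tsum_mul_left]
  obtain ⟨x, C, A, -, h1, -⟩ := hτ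
  obtain ⟨x', C', A', -, h1', -⟩ := hτ'
  refine (tsum_congr fun r => ?_).trans (key.trans (tsum_congr fun r => ?_))
  · by_cases hr : τ r = 0
    · simp [hr]
    have hp : ∀ v, emb (r : K) v ≠ 0 := emb_ne_zero (by exact_mod_cast (h1 r hr).1)
    rw [hz₀, ← emb_mul, eC_emb, mul_div_assoc, Wh, ang, ← Finset.prod_zpow, ofReal_prod]
    simp only [mul_one, fun v => (vo_T0 he (hp v)).1]
    have e1 : ∀ v, (Real.exp (y v) : ℂ) * ((emb (r : K) v / ‖emb (r : K) v‖) ^ e *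
        ((‖emb (r : K) v‖⁻¹ * kk (‖emb (r : K) v‖ * Real.exp (-y v)) : ℝ) : ℂ)) =
        ((Real.exp (-y v) * Kf (‖emb (r : K) v‖ * Real.exp (-y v)) : ℝ) : ℂ) *
          (‖emb (r : K) v‖ * (emb (r : K) v / ‖emb (r : K) v‖) ^ e) := fun v => by
      have := norm_pos_iff.2 (hp v)
      rw [mul_left_comm, ← mul_assoc, ← mul_assoc, mul_comm _ (_ ^ e), mul_assoc, ← ofReal_mul,
        ← ofReal_mul, kk]
      congr 2
      rw [Real.exp_neg]
      field_simp
    have e2 := Finset.prod_congr (rfl (a := Finset.univ)) fun v _ => e1 v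
    simp only [Finset.prod_mul_distrib] at e2 ⊢
    linear_combination τ r * eT ((r : K) * (γ.1 0 0 / γ.1 1 0)) * e2
  · by_cases hr : τ' r = 0
    · simp [hr]
    have hp : ∀ v, emb (r : K) v ≠ 0 := emb_ne_zero (by exact_mod_cast (h1' r hr).1)
    have hm0 : ∀ v, m 0 v ≠ 0 := fun v => by simp [hm, hc v]
    rw [mul_neg, ← emb_mul, eC_neg, eC_emb, ← eT_neg, mul_div_assoc, Wh, ang, ang,
      ← Finset.prod_zpow, ← Finset.prod_zpow, ofReal_prod]
    simp only [fun v => (vo_T0 he (mul_ne_zero (hp v) (hm0 v))).2]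
    have e1 : ∀ v, ((Real.exp (-Y 0 v) * Kf (‖emb (r : K) v‖ * Real.exp (-Y 0 v)) : ℝ) : ℂ) *
        (‖emb (r : K) v * m 0 v‖ * (emb (r : K) v * m 0 v / ‖emb (r : K) v * m 0 v‖) ^ (-e)) =
        (Real.exp (y v) : ℂ) * (-1 * (emb (γ.1 1 0 : K) v / ‖emb (γ.1 1 0 : K) v‖) ^ (2 * e) *
        (emb (r : K) v / ‖emb (r : K) v‖) ^ (-e) * ((‖emb (r : K) v‖⁻¹ *
          kk (‖emb (r : K) v‖ / ‖emb (γ.1 1 0 : K) v‖ ^ 2 * Real.exp (y v)) : ℝ) : ℂ)) := fun v => by
      have b1 := norm_pos_iff.2 (hp v)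
      have b2 := norm_pos_iff.2 (hc v)
      have b3 : Real.exp (-2 * y v) = (Real.exp (y v))⁻¹ ^ 2 := by
        rw [← Real.exp_neg, ← Real.exp_nat_mul]
        congr 1
        push_cast
        ring
      have b4 : Real.exp (-Y 0 v) = Real.exp (y v) / ‖emb (γ.1 1 0 : K) v‖ ^ 2 := by
        rw [Real.exp_neg, hY]
        dsimp only
        rw [Real.exp_log (by positivity), b3]
        field_simp
        ring
      have b5 : m 0 v = -(Real.exp (y v) : ℂ) ^ 2 / emb (γ.1 1 0 : K) v ^ 2 := by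
        rw [hm]
        dsimp only
        rw [b3]
        push_cast
        field_simp
        ring
      rw [b4, b5, kk, ← mul_div_assoc, ← div_mul_eq_mul_div, norm_mul, norm_div, norm_neg, norm_pow,
        norm_pow, Complex.norm_real, Real.norm_of_nonneg (Real.exp_pos _).le]
      have c1 := ofReal_ne_zero.2 b1.ne'
      have c2 := ofReal_ne_zero.2 b2.ne'
      have c3 := ofReal_ne_zero.2 (Real.exp_pos (y v)).ne'
      have c4 := hp v
      have c5 := hc v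
      simp only [ofReal_mul, ofReal_div, ofReal_pow, ofReal_inv]
      generalize (Real.exp (y v) : ℂ) = E at *
      rcases he with rfl | rfl
      · simp only [zpow_neg, mul_one, zpow_ofNat]
        field_simp
      · simp only [neg_neg, mul_neg, zpow_neg, mul_one, zpow_ofNat]
        field_simp
    have e2 := Finset.prod_congr (rfl (a := Finset.univ)) fun v _ => e1 v
    simp only [Finset.prod_mul_distrib, Finset.prod_const, Finset.card_univ] at e2 ⊢
    linear_combination τ' r * eT (-((r : K) * (γ.1 1 1 / γ.1 1 0))) * e2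

end Crest.Agent.GQ
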