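import Crest.Agent.GQ.ThTheta
import Crest.Agent.GQ.ThVor
import Crest.Agent.GQ.ThMellin
import Crest.Agent.GQ.Pack

/-! # GQ ThCVAux: helper lemmas for the core Voronoi formula -/

set_option autoImplicit false

noncomputable section

open NumberField Complex
open scoped ComplexConjugate

namespace Crest.Agent.GQ

/-- uniform constants over a finite set -/
theorem cc_unif {ι : Type*} (S : Finset ι) (Pr : ι → ℕ → ℝ → Prop)
    (hmono : ∀ i ∈ S, ∀ J J' C C', J ≤ J' → C ≤ C' → Pr i J C → Pr i J' C')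
    (h : ∀ i ∈ S, ∃ J C, Pr i J C) (j₀ : ℕ) :
    ∃ (J : ℕ) (C : ℝ), j₀ ≤ J ∧ 0 ≤ C ∧ ∀ i ∈ S, Pr i J C := by
  classical
  choose! J C hJ using h
  refine ⟨max j₀ (S.sup J), ∑ i ∈ S, |C i|, le_max_left _ _,
    Finset.sum_nonneg fun i _ => abs_nonneg _, fun i hi => ?_⟩
  exact hmono i hi _ _ _ _ ((Finset.le_sup hi).trans (le_max_right _ _))
    ((le_abs_self _).trans (Finset.single_le_sum (f := fun i => |C i|)
      (fun i _ => abs_nonneg _) hi)) (hJ i hi)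

variable {K : Type} [Field K] [NumberField K] [P : Pre K]

theorem cc_coef_mono {j j' : ℕ} {C C' : ℝ} {κ : R K → ℂ} (hj : j ≤ j') (hC : C ≤ C')
    (h : IsThCoef j C κ) : IsThCoef j' C' κ := by
  refine ⟨fun r r' hr => h.1 r r' (cls_mono hj _ hr), fun r hr => ⟨(h.2.1 r hr).1, ?_⟩,
    fun r => (h.2.2 r).trans ?_⟩
  · refine InT.trans ?_ (h.2.1 r hr).2
    rw [InT_inv (pow_ne_zero _ MK_ne_zero) (pow_ne_zero _ MK_ne_zero)]
    simpa using InT_pow_mono (1 : K) hj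
  · refine mul_le_mul_of_nonneg_right hC (Real.rpow_nonneg ?_ _)
    by_cases hr : r = 0
    · simp [hr, NS, Nm, emb]
    · exact (NS_pos (by exact_mod_cast hr)).le

theorem cc_coef_mul {j : ℕ} {C : ℝ} {κ : R K → ℂ} (h : IsThCoef j C κ) {η : ℂ} (hη : ‖η‖ ≤ 1) :
    IsThCoef j C fun r => η * κ r := by
  refine ⟨fun r r' hr => by simp only [h.1 r r' hr], fun r hr => h.2.1 r (right_ne_zero_of_mul hr),
    fun r => le_trans ?_ (h.2.2 r)⟩
  rw [norm_mul]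
  exact mul_le_of_le_one_left (norm_nonneg _) hη

/-- the exponent in `Adm` can be increased -/
theorem cc_adm_up {β : R K → ℂ} {x : K} (hx : x ≠ 0) {C A A' : ℝ}
    (h1 : ∀ c, β c ≠ 0 → c ≠ 0 ∧ c ∈ Lat x) (h2 : ∀ c, ‖β c‖ ≤ C * Nm (c : K) ^ A) (hA : A ≤ A') :
    ∃ C' : ℝ, 0 ≤ C' ∧ ∀ c, ‖β c‖ ≤ C' * Nm (c : K) ^ A' := by
  have hS := NS_pos hx
  refine ⟨|C| * NS x ^ (A - A'), by positivity, fun c => ?_⟩
  by_cases hc : β c = 0
  · rw [hc, norm_zero]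
    have : 0 ≤ Nm (c : K) := Finset.prod_nonneg fun v _ => by positivity
    positivity
  obtain ⟨hc0, hcL⟩ := h1 c hc
  have hN0 : 0 < Nm (c : K) := Nm_pos (by exact_mod_cast hc0)
  calc ‖β c‖ ≤ |C| * Nm (c : K) ^ A := (h2 c).trans (by gcongr; exact le_abs_self C)
    _ = |C| * Nm (c : K) ^ (A - A') * Nm (c : K) ^ A' := by
      rw [mul_assoc, ← Real.rpow_add hN0, sub_add_cancel]
    _ ≤ _ := mul_le_mul_of_nonneg_right (mul_le_mul_of_nonneg_left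
        (Real.rpow_le_rpow_of_nonpos hS (NS_le_Nm hc0 hcL) (by linarith)) (abs_nonneg _))
        (by positivity)

/-- `mellin_step` for admissible coefficients -/
theorem cc_mellin {τ τ' : R K → ℂ} (hτ : Adm τ) (hτ' : Adm τ') {h : K} (hh : h ≠ 0)
    (H : ∀ y : Pl K → ℝ,
      ∑' r : R K, τ r * ∏ v, ((‖emb (r : K) v‖⁻¹ * kk (‖emb (r : K) v‖ * Real.exp (-y v)) : ℝ) : ℂ) =
      ∑' r : R K, τ' r * ∏ v, ((‖emb (r : K) v‖⁻¹ *
        kk (‖emb (r : K) v‖ / ‖emb h v‖ ^ 2 * Real.exp (y v)) : ℝ) : ℂ))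
    {lam : ℝ} (hlam : 0 < lam) (t ξ : Pl K → ℝ) :
    ∑' r : R K, τ r * pk lam t ξ (r : K) = ∑' r : R K, τ' r * Wd lam t ξ h (r : K) := by
  obtain ⟨x, C, A, hx, h1, h2⟩ := hτ
  obtain ⟨x', C', A', hx', h1', h2'⟩ := hτ'
  obtain ⟨D, hD0, hD⟩ := cc_adm_up hx h1 h2 (le_max_left A A')
  obtain ⟨D', hD0', hD'⟩ := cc_adm_up hx' h1' h2' (le_max_right A A')
  have hN : ∀ c : R K, 0 ≤ Nm (c : K) ^ max A A' := fun c =>
    Real.rpow_nonneg (Finset.prod_nonneg fun v _ => by positivity) _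
  exact mellin_step hx hx' (C := D + D') (A := max A A') h1 h1'
    (fun r => (hD r).trans (mul_le_mul_of_nonneg_right (by linarith) (hN r)))
    (fun r => (hD' r).trans (mul_le_mul_of_nonneg_right (by linarith) (hN r))) hh H hlam t ξ

/-- admissible coefficients are summable against rapidly decreasing product weights -/
theorem cc_summable {τ : R K → ℂ} (hτ : Adm τ) (w : Pl K → ℝ → ℂ)
    (hw : ∀ v (k : ℕ), ∃ D : ℝ, ∀ ρ : ℝ, 0 < ρ → ρ ^ k * ‖w v ρ‖ ≤ D) :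
    Summable fun r : R K => τ r * ∏ v, w v ‖emb (r : K) v‖ := by
  obtain ⟨x, C, A, hx, h1, h2⟩ := hτ
  obtain ⟨N, hN⟩ := tm_lat hx
  obtain ⟨n, hn⟩ := exists_nat_ge A
  obtain ⟨C', hC0, hC⟩ := cc_adm_up hx h1 h2 hn
  choose D hD using hw
  refine Summable.of_norm (Summable.of_nonneg_of_le (fun r => norm_nonneg _) (fun r => ?_)
    (hN.mul_left (C' * ∏ v, (|D v (2 * n)| + |D v (2 * n + N)|))))
  by_cases hr : τ r = 0
  · simp only [hr, zero_mul, norm_zero]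
    exact mul_nonneg (by positivity) (Set.indicator_nonneg (fun _ _ => by positivity) _)
  obtain ⟨hr0, hrL⟩ := h1 r hr
  have hp : ∀ v, 0 < ‖emb (r : K) v‖ := fun v =>
    norm_pos_iff.2 (emb_ne_zero (by exact_mod_cast hr0) v)
  have h3 : ‖τ r‖ ≤ C' * ∏ v, ‖emb (r : K) v‖ ^ (2 * n) := by
    refine (hC r).trans (le_of_eq ?_)
    rw [Real.rpow_natCast, Nm, ← Finset.prod_pow]
    congr 1
    exact Finset.prod_congr rfl fun v _ => by ring
  obtain ⟨v₀, hv₀⟩ := Finite.exists_max fun v => ‖emb (r : K) v‖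
  have h4 : ‖emb (r : K)‖ = ‖emb (r : K) v₀‖ :=
    le_antisymm ((pi_norm_le_iff_of_nonneg (norm_nonneg _)).2 hv₀) (norm_le_pi_norm _ v₀)
  have h5 : ∀ v, ‖emb (r : K) v‖ ^ (2 * n) * ‖w v ‖emb (r : K) v‖‖ ≤
      (|D v (2 * n)| + |D v (2 * n + N)|) * if v = v₀ then ‖emb (r : K) v₀‖⁻¹ ^ N else 1 := by
    intro v
    have := hp v
    split_ifs with hv
    · subst hv
      rw [inv_pow, ← div_eq_mul_inv, le_div_iff₀ (by positivity), mul_right_comm, ← pow_add]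
      exact (hD v _ _ this).trans ((le_abs_self _).trans (le_add_of_nonneg_left (abs_nonneg _)))
    · rw [mul_one]
      exact (hD v _ _ this).trans ((le_abs_self _).trans (le_add_of_nonneg_right (abs_nonneg _)))
  rw [norm_mul, norm_prod, Set.indicator_of_mem (by exact hrL), h4]
  refine (mul_le_mul_of_nonneg_right h3 (Finset.prod_nonneg fun v _ => norm_nonneg _)).trans ?_
  rw [mul_assoc, ← Finset.prod_mul_distrib, mul_assoc C']
  refine mul_le_mul_of_nonneg_left ((Finset.prod_le_prod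
    (fun v _ => mul_nonneg (by positivity) (norm_nonneg _)) fun v _ => h5 v).trans (le_of_eq ?_)) hC0
  rw [Finset.prod_mul_distrib, Finset.prod_ite_eq', if_pos (Finset.mem_univ _)]

theorem cc_summable_pk {τ : R K → ℂ} (hτ : Adm τ) {lam : ℝ} (hlam : 0 < lam) (t ξ : Pl K → ℝ) :
    Summable fun r : R K => τ r * pk lam t ξ (r : K) := by
  refine cc_summable hτ (fun v ρ => Complex.exp (-(lam * (Real.log ρ - t v) ^ 2 : ℝ) +
    I * (ξ v * Real.log ρ : ℝ))) fun v k => ⟨Real.exp (k * t v + k ^ 2 / (4 * lam)), fun ρ hρ => ?_⟩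
  rw [Complex.norm_exp]
  have e1 : (-(lam * (Real.log ρ - t v) ^ 2 : ℝ) + I * (ξ v * Real.log ρ : ℝ) : ℂ).re =
      -(lam * (Real.log ρ - t v) ^ 2) := by
    simp only [add_re, neg_re, ofReal_re, mul_re, I_re, I_im, ofReal_im]
    ring
  have e2 : ρ ^ k = Real.exp (k * Real.log ρ) := by
    rw [Real.exp_nat_mul, Real.exp_log hρ]
  rw [e1, e2, ← Real.exp_add, Real.exp_le_exp]
  have h1 : 0 ≤ lam * (Real.log ρ - t v - k / (2 * lam)) ^ 2 := by positivity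
  have h2 : lam * (Real.log ρ - t v - k / (2 * lam)) ^ 2 = lam * (Real.log ρ - t v) ^ 2 -
      k * (Real.log ρ - t v) + k ^ 2 / (4 * lam) := by
    field_simp
    ring
  linarith

theorem cc_summable_Wd {τ : R K → ℂ} (hτ : Adm τ) {lam : ℝ} (hlam : 0 < lam) (t ξ : Pl K → ℝ)
    {h : K} (hh : h ≠ 0) : Summable fun r : R K => τ r * Wd lam t ξ h (r : K) := by
  refine cc_summable hτ (fun v ρ => (ρ : ℂ)⁻¹ * WdS 0 lam (t v) (ξ v) (ρ / ‖emb h v‖ ^ 2))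
    fun v k => ?_
  obtain ⟨C, hC⟩ := norm_WdS_le (σ := (k : ℝ) - 1) (lam := lam)
    (by have : (0 : ℝ) ≤ k := Nat.cast_nonneg k; linarith) hlam
  have hc : 0 < ‖emb h v‖ ^ 2 := pow_pos (norm_pos_iff.2 (emb_ne_zero hh v)) 2
  refine ⟨C * (1 + |ξ v|) ^ C * Real.exp ((1 - (k - 1)) * t v) * (‖emb h v‖ ^ 2) ^ ((k : ℝ) - 1),
    fun ρ hρ => ?_⟩
  have h1 := hC (t v) (ξ v) _ (div_pos hρ hc)
  rw [norm_mul, norm_inv, Complex.norm_real, Real.norm_of_nonneg hρ.le, ← mul_assoc]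
  refine (mul_le_mul_of_nonneg_left h1 (by positivity)).trans (le_of_eq ?_)
  have e : ρ ^ k * ρ⁻¹ = ρ ^ ((k : ℝ) - 1) := by
    rw [Real.rpow_sub_one hρ.ne', Real.rpow_natCast, div_eq_mul_inv]
  rw [e, Real.rpow_neg (div_pos hρ hc).le, Real.div_rpow hρ.le hc.le]
  have h2 : 0 < ρ ^ ((k : ℝ) - 1) := Real.rpow_pos_of_pos hρ _
  have h3 : 0 < (‖emb h v‖ ^ 2) ^ ((k : ℝ) - 1) := Real.rpow_pos_of_pos hc _
  field_simp

/-- scaling of the dual weight -/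
theorem cc_WdS_scale (lam t ξ : ℝ) {δ x : ℝ} (hδ : 0 < δ) (hx : 0 < x) :
    WdS 0 lam (t - Real.log δ) ξ (δ * x) =
      (δ : ℂ)⁻¹ * Complex.exp (-(I * (ξ * Real.log δ : ℝ))) * WdS 0 lam t ξ x := by
  unfold WdS
  rw [mul_left_comm _ (1 / (2 * Real.pi) : ℂ),
    ← MeasureTheory.integral_const_mul ((δ : ℂ)⁻¹ * Complex.exp (-(I * (ξ * Real.log δ : ℝ))))]
  refine congrArg _ (MeasureTheory.integral_congr_ae (.of_forall fun τ => ?_))
  have hδ' : (δ : ℂ) ≠ 0 := by exact_mod_cast hδ.ne'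
  simp only []
  generalize ((0 : ℝ) : ℂ) + τ * I = s
  have e1 : ((δ * x : ℝ) : ℂ) ^ (-s) = Complex.exp (-s * (Real.log δ : ℝ)) * (x : ℂ) ^ (-s) := by
    rw [ofReal_mul, mul_cpow_ofReal_nonneg hδ.le hx.le, cpow_def_of_ne_zero hδ',
      ← ofReal_log hδ.le, mul_comm (Real.log δ : ℂ)]
  have e2 : (δ : ℂ)⁻¹ = Complex.exp (-(Real.log δ : ℝ)) := by
    rw [Complex.exp_neg, ← ofReal_exp, Real.exp_log hδ]
  have e3 : phat lam (t - Real.log δ) ξ (1 - s) * Complex.exp (-s * (Real.log δ : ℝ)) =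
      (δ : ℂ)⁻¹ * Complex.exp (-(I * (ξ * Real.log δ : ℝ))) * phat lam t ξ (1 - s) := by
    unfold phat
    rw [e2, mul_assoc, ← Complex.exp_add, ← Complex.exp_add, mul_left_comm, ← Complex.exp_add]
    congr 2
    push_cast
    ring
  rw [e1]
  linear_combination (khat s / khat (-s) * (x : ℂ) ^ (-s)) * e3

theorem cc_emb_inv (x : K) (v : Pl K) : emb x⁻¹ v = (emb x v)⁻¹ := map_inv₀ v.1 x

/-- the dual weight after the substitution `h = w h'`, `r' = d r / w²` -/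
theorem cc_Wd_scale (lam : ℝ) (t ξ : Pl K → ℝ) {d w h r : K} (hd : d ≠ 0) (hw : w ≠ 0)
    (hh : h ≠ 0) (hr : r ≠ 0) :
    Wd lam (t - lg d) ξ (w⁻¹ * h) (d * w⁻¹ ^ 2 * r) =
      ((Nm w / Nm d : ℝ) : ℂ) * Complex.exp (-(I * (∑ v, ξ v * lg d v : ℝ))) * Wd lam t ξ h r := by
  unfold Wd
  have e : ((Nm w / Nm d : ℝ) : ℂ) * Complex.exp (-(I * (∑ v, ξ v * lg d v : ℝ))) =
      ∏ v, ((‖emb w v‖ : ℂ) ^ 2 / (‖emb d v‖ : ℂ) ^ 2 *
        Complex.exp (-(I * (ξ v * lg d v : ℝ)))) := by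
    rw [Finset.prod_mul_distrib, Finset.prod_div_distrib, ← Complex.exp_sum]
    unfold Nm
    push_cast
    rw [Finset.mul_sum, Finset.sum_neg_distrib]
  rw [e, ← Finset.prod_mul_distrib]
  refine Finset.prod_congr rfl fun v _ => ?_
  have h1 : 0 < ‖emb d v‖ := norm_pos_iff.2 (emb_ne_zero hd v)
  have h2 : 0 < ‖emb w v‖ := norm_pos_iff.2 (emb_ne_zero hw v)
  have h3 : 0 < ‖emb h v‖ := norm_pos_iff.2 (emb_ne_zero hh v)
  have h4 : 0 < ‖emb r v‖ := norm_pos_iff.2 (emb_ne_zero hr v)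
  have e1 : ‖emb (d * w⁻¹ ^ 2 * r) v‖ = ‖emb d v‖ * ‖emb w v‖⁻¹ ^ 2 * ‖emb r v‖ := by
    simp [emb]
  have e2 : ‖emb (w⁻¹ * h) v‖ = ‖emb w v‖⁻¹ * ‖emb h v‖ := by simp [emb]
  have e3 : ‖emb d v‖ * ‖emb w v‖⁻¹ ^ 2 * ‖emb r v‖ / (‖emb w v‖⁻¹ * ‖emb h v‖) ^ 2 =
      ‖emb d v‖ * (‖emb r v‖ / ‖emb h v‖ ^ 2) := by field_simp
  rw [e1, e2, e3, Pi.sub_apply]
  have e4 := cc_WdS_scale lam (t v) (ξ v) h1 (div_pos h4 (pow_pos h3 2))
  have e5 : lg d v = Real.log ‖emb d v‖ := rfl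
  rw [e5, e4]
  have h1' : (‖emb d v‖ : ℂ) ≠ 0 := by exact_mod_cast h1.ne'
  have h2' : (‖emb w v‖ : ℂ) ≠ 0 := by exact_mod_cast h2.ne'
  have h4' : (‖emb r v‖ : ℂ) ≠ 0 := by exact_mod_cast h4.ne'
  push_cast
  field_simp

variable [Q : Rec K]

omit Q in
theorem cc_Gsf_unit {u : R K} (hu : IsUnit u) : Gsf u = 1 := by
  have hs : Squarefree u := hu.squarefree
  unfold Gsf
  rw [if_pos hs, ← g6_two, g6_unit hu, map_one]

/-- twisting the theta coefficient by a unit -/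
theorem cc_Gf_unit {w r : R K} (hw : IsUnit w) (hr : r ≠ 0) :
    Gf (w * r) = conj (Q.B (w : K) (r : K)) * Gf r := by
  have hw0 : (w : K) ≠ 0 := by exact_mod_cast hw.ne_zero
  by_cases h : ∃ n m : R K, Squarefree n ∧ m ≠ 0 ∧ r = n * m ^ 3
  · obtain ⟨n, m, hn, hm, rfl⟩ := h
    have hn0 : n ≠ 0 := hn.ne_zero
    have hn0' : (n : K) ≠ 0 := by exact_mod_cast hn0
    have hm0' : (m : K) ≠ 0 := by exact_mod_cast hm
    have hs : Squarefree (w * n) := by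
      obtain ⟨w, rfl⟩ := hw
      exact (associated_unit_mul_left n w w.isUnit).symm.squarefree_iff.1 hn
    rw [← mul_assoc, Gf_eq hs hm, Gf_eq hn hm, Gsf_mul hw.ne_zero hn0, cc_Gsf_unit hw,
      kap_unit_left hw, B_unit hw hn0]
    push_cast
    rw [Q.B_mul_right _ _ _ hw0 hn0' (pow_ne_zero _ hm0'), B_pow_right hw0 hm0',
      Q.B_cube _ _ hw0 hm0']
    simp only [one_mul, mul_one]
    ring
  · have h' : ¬ ∃ n m : R K, Squarefree n ∧ m ≠ 0 ∧ w * r = n * m ^ 3 := by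
      rintro ⟨n, m, hn, hm, e⟩
      obtain ⟨w, rfl⟩ := hw
      refine h ⟨(w⁻¹ : (R K)ˣ) * n, m, ?_, hm, ?_⟩
      · exact (associated_unit_mul_left n _ (w⁻¹).isUnit).symm.squarefree_iff.1 hn
      · rw [mul_assoc, ← e, Units.inv_mul_cancel_left]
    rw [Gf_eq_zero h, Gf_eq_zero h', mul_zero]

end Crest.Agent.GQ
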