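import Crest.Agent.GQ.ThTheta
import Crest.Agent.GQ.ThVor
import Crest.Agent.GQ.ThMellin
import Crest.Agent.GQ.ThCVAux

/-! # GQ ThCV: the core Voronoi formula -/

set_option autoImplicit false

noncomputable section

open NumberField Complex
open scoped ComplexConjugate

namespace Crest.Agent.GQ

variable {K : Type} [Field K] [NumberField K] [P : Pre K]

variable [Q : Rec K]

/-- The formula for a fixed theta series and denominators in a fixed class. -/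
theorem cv_theta {g : SLR K} {τ : R K → ℂ} (hτ : Adm τ) (H : HasTheta g τ) {h₀ : K} (hh : h₀ ≠ 0) :
    ∃ (j : ℕ) (C : ℝ), Q.k ≤ j ∧ ∀ (e : ℤ), (e = 1 ∨ e = -1) → ∀ h ∈ cls 1 h₀, ∃ κ : R K → ℂ,
      IsThCoef j C κ ∧ ∀ a b : R K, h ∣ a * b - 1 → ∀ lam : ℝ, 0 < lam → ∀ t ξ : Pl K → ℝ,
        ∑' r : R K, (τ r * eS ((r : K) * a / h) * ang (r : K) ^ e) * pk lam t ξ (r : K) =
          kap h a * ∑' r : R K, κ r * Gf r * eS (-((r : K) * b / h)) * ang (r : K) ^ (-e) *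
            Wd lam t ξ (h : K) (r : K) := by
  classical
  obtain ⟨L, hL, hphi⟩ := phi_cusp g hh
  obtain ⟨_, hN⟩ := cls_refine (K := K) (j := 1) (j' := L) le_rfl hL
  obtain ⟨𝒮, -, h𝒮, h𝒮'⟩ := hN h₀ hh
  have key : ∀ σ ∈ 𝒮, ∃ (j : ℕ) (C : ℝ), ∃ (γ₀ : SLR K) (κ : R K → ℂ), γ₀.1 1 0 ∈ cls L σ ∧
      γ₀.1 0 0 ∈ Lat (MK K ^ L) ∧ γ₀.1 1 1 ∈ Lat (MK K ^ L) ∧ IsThCoef j C κ ∧
      HasTheta (g * γ₀) fun r => κ r * Gf r := by
    intro σ hσ
    obtain ⟨h₁, hh₁⟩ := cls_nonempty L (h𝒮 σ hσ).1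
    obtain ⟨γ₀, e1, -, -, e2, e3⟩ := exists_cusp (h := h₁) (a := 1) (b := 1)
      (ne_zero_of_mem_cls hL (h𝒮 σ hσ).1 hh₁) (by simp) L
    obtain ⟨j, C, κ, -, hκ, Hκ⟩ := exists_hasTheta (g * γ₀)
    exact ⟨j, C, γ₀, κ, e1 ▸ hh₁, e2, e3, hκ, Hκ⟩
  obtain ⟨j, C, hj, -, hJ⟩ := cc_unif 𝒮 (fun σ j C => ∃ (γ₀ : SLR K) (κ : R K → ℂ),
      γ₀.1 1 0 ∈ cls L σ ∧ γ₀.1 0 0 ∈ Lat (MK K ^ L) ∧ γ₀.1 1 1 ∈ Lat (MK K ^ L) ∧
      IsThCoef j C κ ∧ HasTheta (g * γ₀) fun r => κ r * Gf r)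
    (fun σ _ J J' C C' h1 h2 ⟨γ₀, κ, e1, e2, e3, e4, e5⟩ =>
      ⟨γ₀, κ, e1, e2, e3, cc_coef_mono h1 h2 e4, e5⟩) key Q.k
  refine ⟨j, C, hj, fun e he h hh1 => ?_⟩
  obtain ⟨σ, ⟨hσ, hhσ⟩, -⟩ := h𝒮' h hh1
  obtain ⟨γ₀, κ, e1, e2, e3, hκ, Hκ⟩ := hJ σ hσ
  obtain ⟨hσ0, hσU⟩ := h𝒮 σ hσ
  have h0 : h ≠ 0 := ne_zero_of_mem_cls le_rfl hh hh1
  have h0' : (h : K) ≠ 0 := by exact_mod_cast h0
  have hη : ‖(-1 : ℂ) ^ rr K * ang (h : K) ^ (2 * e) * sg γ₀‖ ≤ 1 := by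
    rw [norm_mul, norm_mul, norm_pow, norm_neg, norm_one, one_pow, norm_sg, one_mul, mul_one]
    exact norm_ang_zpow_le _ _
  refine ⟨fun r => ((-1 : ℂ) ^ rr K * ang (h : K) ^ (2 * e) * sg γ₀) * κ r, cc_coef_mul hκ hη,
    fun a b hab lam hlam t ξ => ?_⟩
  obtain ⟨x, C₁, A₁, hx, hx1, hx2⟩ := id hτ
  obtain ⟨i₁, hi₁⟩ := exists_pow_mul_mem_T (x / h)
  obtain ⟨i₂, hi₂⟩ := exists_pow_mul_mem_T ((MK K ^ j)⁻¹ / h)
  obtain ⟨γ, f1, f2, f3, f4, f5⟩ := exists_cusp h0 hab (L + i₁ + i₂)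
  have hlat : ∀ {i : ℕ} {n : R K}, i ≤ L + i₁ + i₂ → n ∈ Lat (MK K ^ (L + i₁ + i₂)) →
      n ∈ Lat (MK K ^ i) := fun hi hn =>
    InT.trans (by simpa using InT_pow_mono (1 : K) hi) hn
  have hphi' := hphi γ γ₀ (cls_eq_of_div le_rfl hh hσU ▸ cls_mono hL σ e1)
    (by rw [f1, cls_eq_of_mem hL hσ0 e1]; exact hhσ) (hlat (by omega) f4) (hlat (by omega) f5) e2 e3
  rw [f1, kap_congr' f2] at hphi'
  have H' := HasTheta.of_phi hphi' Hκ
  have hτ' : Adm fun r => kap h a * sg γ₀ * (κ r * Gf r) :=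
    hκ.adm.of_le (a := 1) fun r => by
      rw [norm_mul, norm_mul (kap h a), norm_sg, mul_one]
      exact mul_le_mul_of_nonneg_right (norm_kap_le _ _) (norm_nonneg _)
  have hV := voronoi_bessel (f1 ▸ h0) hτ hτ' H H' he
  rw [f1] at hV
  have hM := cc_mellin (h := (h : K)) (hτ.of_le (a := 1) fun r => by
      rw [norm_mul, norm_mul, norm_eT, mul_one, one_mul]
      exact mul_le_of_le_one_right (norm_nonneg _) (norm_ang_zpow_le _ _))
    (hτ'.of_le (a := 1) fun r => by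
      rw [norm_mul, norm_mul, norm_eT, mul_one, one_mul, norm_mul, norm_mul, norm_pow, norm_neg,
        norm_one, one_pow, one_mul]
      exact (mul_le_of_le_one_right (by positivity) (norm_ang_zpow_le _ _)).trans
        (mul_le_of_le_one_left (norm_nonneg _) (norm_ang_zpow_le _ _))) h0' hV hlam t ξ
  -- on the supports `eT = eS`
  have hT : ∀ {y : K} {i : ℕ} {r n m : R K}, MK K ^ i * (y / h) ∈ T K → InT y r →
      n ∈ Lat (MK K ^ i) → h ∣ n - m → ((r : K) * n / h ∈ T K ∧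
        eS ((r : K) * n / h) = eS ((r : K) * m / h)) := by
    intro y i r n m h1 h2 h3 h4
    obtain ⟨s, hs, es⟩ := h2
    obtain ⟨s', hs', es'⟩ := h3
    refine ⟨?_, ?_⟩
    · rw [es, es', show y * s * (MK K ^ i * s') / h = MK K ^ i * (y / h) * s * s' by ring]
      exact mul_mem (mul_mem h1 hs) hs'
    · have := eS_div_congr (n := h) (x := r * n) (y := r * m) (by
        rw [← mul_sub]; exact h4.mul_left r)
      push_cast at this
      exact this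
  refine Eq.trans (tsum_congr fun r => ?_) (hM.trans ?_)
  · by_cases hr : τ r = 0
    · simp [hr]
    · obtain ⟨g1, g2⟩ := hT hi₁ (hx1 r hr).2 (hlat (by omega) f4) f2
      rw [← eS_eq_eT (b4_InT_dl g1), g2]
  · rw [← tsum_mul_left]
    refine tsum_congr fun r => ?_
    by_cases hr : κ r = 0
    · simp [hr]
    · obtain ⟨g1, g2⟩ := hT hi₂ (hκ.2.1 r hr).2 (hlat (by omega) f5) f3
      rw [← eS_eq_eT (b4_InT_dl (neg_mem g1)), eS_neg, g2, ← eS_neg]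
      ring

/-- The formula for a fixed class `c₀ M^{3N}` and denominators in a fixed class. -/
theorem cv_class {j : ℕ} (hj : Q.k ≤ j) {c₀ h₀ : K} (hc : c₀ ≠ 0) (hh : h₀ ≠ 0) :
    ∃ (N j' : ℕ) (C : ℝ), j ≤ j' ∧ ∀ (e : ℤ), (e = 1 ∨ e = -1) → ∀ h ∈ cls 1 h₀, ∃ κ : R K → ℂ,
      IsThCoef j' C κ ∧ ∀ a b : R K, h ∣ a * b - 1 → ∀ lam : ℝ, 0 < lam → ∀ t ξ : Pl K → ℝ,
        Sm (fun n => Gf n * eS ((n : K) * a / h) * ang (n : K) ^ e) j (c₀ * (MK K ^ N) ^ 3)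
            lam t ξ =
          kap h a * ∑' r : R K, κ r * Gf r * eS (-((r : K) * b / h)) * ang (r : K) ^ (-e) *
            Wd lam t ξ (h : K) (r : K) := by
  classical
  have hk1 : 1 ≤ Q.k := Q.hk
  have hj1 : 1 ≤ j := hk1.trans hj
  obtain ⟨cs, hcs0, hcs⟩ := exists_tt_ne_zero (K := K)
  obtain ⟨c₁, hc₁⟩ := cls_nonempty Q.k (div_ne_zero hcs0 hc)
  have hc₁0 : c₁ ≠ 0 := ne_zero_of_mem_cls hk1 (div_ne_zero hcs0 hc) hc₁
  have hc₁0' : (c₁ : K) ≠ 0 := by exact_mod_cast hc₁0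
  obtain ⟨g, κ₀, hκ₀, H⟩ := hasTheta_std hc₁0
  set x : K := (c₁ : K) ^ 2 / (MM K * dl K) with hx
  have hx0 : x ≠ 0 :=
    div_ne_zero (pow_ne_zero _ hc₁0') (mul_ne_zero (pow_ne_zero _ MK_ne_zero) dl_ne_zero)
  set τ : R K → ℂ := fun r => if r ≠ 0 ∧ r ∈ Lat x then
    κ₀ * ((NS (r : K) ^ (1 / 6 : ℝ) : ℝ) : ℂ) * Q.B (r : K) (c₁ : K) * tt ((c₁ : K) * (r : K)) *
      Gf r else 0 with hτdef
  have hτsupp : ∀ r, τ r ≠ 0 → r ≠ 0 ∧ r ∈ Lat x := fun r hr => by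
    by_contra hn
    exact hr (if_neg hn)
  have hτ : Adm τ := by
    obtain ⟨Ct, hCt⟩ := tt_bdd (K := K)
    refine ⟨x, ‖κ₀‖ * |Ct|, 1 / 6, hx0, hτsupp, fun r => ?_⟩
    by_cases hr : r ≠ 0 ∧ r ∈ Lat x
    · have hr0 : (r : K) ≠ 0 := by exact_mod_cast hr.1
      have hS := NS_pos hr0
      have e : τ r = κ₀ * ((NS (r : K) ^ (1 / 6 : ℝ) : ℝ) : ℂ) * Q.B (r : K) (c₁ : K) *
        tt ((c₁ : K) * (r : K)) * Gf r := if_pos hr
      rw [e, norm_mul, norm_mul, norm_mul, norm_mul, norm_B hr0 hc₁0', mul_one, Complex.norm_real,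
        Real.norm_of_nonneg (by positivity), Nm_coe, Real.mul_rpow (Nr_nonneg r) hS.le]
      have h1 := (hCt _ (mul_ne_zero hc₁0' hr0)).trans (le_abs_self Ct)
      have h2 := norm_Gf_le r
      calc _ ≤ ‖κ₀‖ * NS (r : K) ^ (1 / 6 : ℝ) * |Ct| * Nr r ^ (1 / 6 : ℝ) := by gcongr
        _ = _ := by ring
    · have e : τ r = 0 := if_neg hr
      have : 0 ≤ Nm (r : K) := Finset.prod_nonneg fun v _ => by positivity
      rw [e, norm_zero]
      positivity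
  obtain ⟨N, hN⟩ := exists_pow_mul_mem_T (c₀ / x)
  set c' : K := c₀ * (MK K ^ N) ^ 3 with hc'
  have hMN : MK K ^ N ≠ 0 := pow_ne_zero _ MK_ne_zero
  have hc'0 : c' ≠ 0 := mul_ne_zero hc (pow_ne_zero _ hMN)
  have hxc' : InT x c' := by
    rw [InT_iff_div hx0, show c' / x = MK K ^ N * (c₀ / x) * (MK K ^ N) ^ 2 by rw [hc']; ring]
    exact mul_mem hN (pow_mem (pow_mem MK_mem_T _) _)
  set lam₀ : ℂ := κ₀ * ((NS c' ^ (1 / 6 : ℝ) : ℝ) : ℂ) * Q.B c' (c₁ : K) * tt cs with hlam₀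
  have hlam₀0 : lam₀ ≠ 0 := by
    refine mul_ne_zero (mul_ne_zero (mul_ne_zero hκ₀ ?_) (B_ne_zero hc'0 hc₁0')) hcs
    exact_mod_cast (Real.rpow_pos_of_pos (NS_pos hc'0) _).ne'
  have hcls : ∀ r ∈ cls j c', τ r = lam₀ * Gf r := by
    intro r hr
    have hr0 : r ≠ 0 := ne_zero_of_mem_cls hj1 hc'0 hr
    have e : τ r = κ₀ * ((NS (r : K) ^ (1 / 6 : ℝ) : ℝ) : ℂ) * Q.B (r : K) (c₁ : K) *
      tt ((c₁ : K) * (r : K)) * Gf r := if_pos ⟨hr0, hxc'.trans (mem_Lat_of_mem_cls hr)⟩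
    have u1 : (r : K) / c' ∈ U Q.k := U_mono hj ((mem_cls_iff hc'0).1 hr)
    have u2 : (c₁ : K) / (cs / c₀) ∈ U Q.k := (mem_cls_iff (div_ne_zero hcs0 hc)).1 hc₁
    have e2 : (c₁ : K) * (r : K) = cs * (MK K ^ N) ^ 3 * ((c₁ : K) / (cs / c₀) * (r / c')) := by
      rw [hc']
      field_simp
    rw [e, NS_cls hj1 hc'0 hr, B_cls_left hj hc'0 hc₁0' hr, e2, tt_U (U_mul u2 u1),
      tt_cube hcs0 hMN]
  -- detecting the class by additive characters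
  obtain ⟨n₀, hn₀⟩ := cls_nonempty j hc'0
  set x' : K := c' * MK K ^ j with hx'
  have hx'0 : x' ≠ 0 := mul_ne_zero hc'0 (pow_ne_zero _ MK_ne_zero)
  have hxx' : InT x x' := hxc'.mul_T (pow_mem MK_mem_T _)
  have hX0 : (x' * dl K)⁻¹ ≠ 0 := inv_ne_zero (mul_ne_zero hx'0 dl_ne_zero)
  have hX0' : (x * dl K)⁻¹ ≠ 0 := inv_ne_zero (mul_ne_zero hx0 dl_ne_zero)
  have hXX : InT (x' * dl K)⁻¹ (x * dl K)⁻¹ := by
    rw [InT_inv (mul_ne_zero hx'0 dl_ne_zero) (mul_ne_zero hx0 dl_ne_zero)]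
    exact hxx'.mul (InT.refl _)
  obtain ⟨F, hF1, hF2, hF3⟩ := lat_reps hX0' hXX
  have hF0 : (F.card : ℂ) ≠ 0 := by
    have : (0 : ℝ) < F.card := by rw [hF3]; exact div_pos (NS_pos hX0') (NS_pos hX0)
    exact_mod_cast this.ne'
  have hinv : ∀ z : K, z ≠ 0 → ((z * dl K)⁻¹ * dl K)⁻¹ = z := fun z hz => by
    have := dl_ne_zero (K := K)
    field_simp
  set α : R K → ℂ := fun y => lam₀⁻¹ * (F.card : ℂ)⁻¹ * eM (-((n₀ : K) * y)) with hα
  have hdet : ∀ r : R K, ∑ y ∈ F, α y * (τ r * eT ((r : K) * y)) =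
      if r ∈ cls j c' then Gf r else 0 := by
    intro r
    by_cases hr : τ r = 0
    · simp only [hr, zero_mul, mul_zero, Finset.sum_const_zero]
      split_ifs with h1
      · have h2 := hcls r h1
        rw [hr] at h2
        exact ((mul_eq_zero.1 h2.symm).resolve_left hlam₀0).symm
      · rfl
    have h1 := sum_lat_reps_eM hX0' hXX hF1 hF2 (y := (r : K) - n₀) (by
      rw [hinv x hx0]
      exact InT.sub (hτsupp r hr).2 (hxc'.trans (mem_Lat_of_mem_cls hn₀)))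
    rw [hinv x' hx'0] at h1
    have h2 : ∑ y ∈ F, α y * (τ r * eT ((r : K) * y)) =
        lam₀⁻¹ * (F.card : ℂ)⁻¹ * τ r * ∑ y ∈ F, eM (((r : K) - n₀) * y) := by
      rw [Finset.mul_sum]
      refine Finset.sum_congr rfl fun y _ => ?_
      rw [← eM_R (mul_mem r.2 y.2), show ((r : K) - n₀) * y = (r : K) * y + -((n₀ : K) * y) by ring,
        eM_add]
      simp only [hα]
      ring
    have h3 : r ∈ cls j c' ↔ InT x' ((r : K) - n₀) := by
      rw [mem_cls_iff_sub hn₀, mem_Lat]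
      push_cast
      rfl
    rw [h2, h1]
    by_cases h4 : r ∈ cls j c'
    · rw [if_pos h4, if_pos (h3.1 h4), hcls r h4]
      field_simp
    · rw [if_neg h4, if_neg (fun h => h4 (h3.2 h)), mul_zero]
  have hτy : ∀ y : R K, Adm fun r => τ r * eT ((r : K) * y) := fun y =>
    hτ.of_le (a := 1) fun r => by rw [norm_mul, norm_eT, mul_one, one_mul]
  obtain ⟨J, C, hJ, hC0, hall⟩ := cc_unif F (fun y J C => ∀ (e : ℤ), (e = 1 ∨ e = -1) →
      ∀ h ∈ cls 1 h₀, ∃ κ : R K → ℂ, IsThCoef J C κ ∧ ∀ a b : R K, h ∣ a * b - 1 → ∀ lam : ℝ,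
        0 < lam → ∀ t ξ : Pl K → ℝ, ∑' r : R K, (τ r * eT ((r : K) * y) * eS ((r : K) * a / h) *
          ang (r : K) ^ e) * pk lam t ξ (r : K) =
          kap h a * ∑' r : R K, κ r * Gf r * eS (-((r : K) * b / h)) * ang (r : K) ^ (-e) *
            Wd lam t ξ (h : K) (r : K))
    (fun y _ J J' C C' h1 h2 h3 e he h hh1 => by
      obtain ⟨κ, hκ, h4⟩ := h3 e he h hh1
      exact ⟨κ, cc_coef_mono h1 h2 hκ, h4⟩)
    (fun y _ => by
      obtain ⟨J, C, -, h1⟩ := cv_theta (hτy y) (H.unip y) hh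
      exact ⟨J, C, h1⟩) j
  refine ⟨N, J, (∑ y ∈ F, ‖α y‖) * C, hJ, fun e he h hh1 => ?_⟩
  choose! κ hκ hform using fun y hy => hall y hy e he h hh1
  have h0 : (h : K) ≠ 0 := by exact_mod_cast ne_zero_of_mem_cls le_rfl hh hh1
  refine ⟨fun r => ∑ y ∈ F, α y * κ y r, ⟨fun r r' hr => Finset.sum_congr rfl fun y hy => by
    rw [(hκ y hy).1 r r' hr], fun r hr => ?_, fun r => ?_⟩, fun a b hab lam hlam t ξ => ?_⟩
  · obtain ⟨y, hy, h1⟩ := Finset.exists_ne_zero_of_sum_ne_zero hr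
    exact (hκ y hy).2.1 r (right_ne_zero_of_mul h1)
  · refine (norm_sum_le _ _).trans ?_
    rw [mul_assoc, Finset.sum_mul]
    refine Finset.sum_le_sum fun y hy => ?_
    rw [norm_mul]
    exact mul_le_mul_of_nonneg_left ((hκ y hy).2.2 r) (norm_nonneg _)
  have s1 : ∀ y ∈ F, Summable fun r : R K => α y * ((τ r * eT ((r : K) * y) *
      eS ((r : K) * a / h) * ang (r : K) ^ e) * pk lam t ξ (r : K)) := fun y _ =>
    (cc_summable_pk ((hτy y).of_le (a := 1) fun r => by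
      rw [norm_mul, norm_mul _ (eS _), norm_eS, mul_one, one_mul]
      exact mul_le_of_le_one_right (norm_nonneg _) (norm_ang_zpow_le _ _)) hlam t ξ).mul_left _
  have s2 : ∀ y ∈ F, Summable fun r : R K => α y * (κ y r * Gf r * eS (-((r : K) * b / h)) *
      ang (r : K) ^ (-e) * Wd lam t ξ (h : K) (r : K)) := fun y hy =>
    (cc_summable_Wd ((hκ y hy).adm.of_le (a := 1) fun r => by
      rw [norm_mul, norm_mul _ (eS _), norm_eS, mul_one, one_mul]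
      exact mul_le_of_le_one_right (norm_nonneg _) (norm_ang_zpow_le _ _)) hlam t ξ h0).mul_left _
  calc Sm (fun n => Gf n * eS ((n : K) * a / h) * ang (n : K) ^ e) j c' lam t ξ
      = ∑' r : R K, ∑ y ∈ F, α y * ((τ r * eT ((r : K) * y) * eS ((r : K) * a / h) *
          ang (r : K) ^ e) * pk lam t ξ (r : K)) := by
        unfold Sm
        refine tsum_congr fun r => ?_
        have h1 : ∑ y ∈ F, α y * ((τ r * eT ((r : K) * y) * eS ((r : K) * a / h) *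
            ang (r : K) ^ e) * pk lam t ξ (r : K)) = (∑ y ∈ F, α y * (τ r * eT ((r : K) * y))) *
            (eS ((r : K) * a / h) * ang (r : K) ^ e * pk lam t ξ (r : K)) := by
          rw [Finset.sum_mul]
          exact Finset.sum_congr rfl fun y _ => by ring
        rw [h1, hdet r]
        split_ifs
        · ring
        · rw [zero_mul]
    _ = ∑ y ∈ F, α y * (kap h a * ∑' r : R K, κ y r * Gf r * eS (-((r : K) * b / h)) *
          ang (r : K) ^ (-e) * Wd lam t ξ (h : K) (r : K)) := by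
        rw [Summable.tsum_finsetSum s1]
        refine Finset.sum_congr rfl fun y hy => ?_
        rw [tsum_mul_left, hform y hy a b hab lam hlam t ξ]
    _ = kap h a * ∑' r : R K, ∑ y ∈ F, α y * (κ y r * Gf r * eS (-((r : K) * b / h)) *
          ang (r : K) ^ (-e) * Wd lam t ξ (h : K) (r : K)) := by
        rw [Summable.tsum_finsetSum s2, Finset.mul_sum]
        refine Finset.sum_congr rfl fun y _ => ?_
        rw [tsum_mul_left]
        ring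
    _ = _ := by
        congr 1
        refine tsum_congr fun r => ?_
        simp only [Finset.sum_mul]
        exact Finset.sum_congr rfl fun y _ => by ring

/-- the conclusion of `CV` for given `e, c, h` -/
def cc_P (j j' : ℕ) (C : ℝ) (e : ℤ) (c : K) (h : R K) : Prop :=
  ∃ κ : R K → ℂ, (∀ r r' : R K, r' ∈ cls j' (r : K) → κ r' = κ r) ∧
    (∀ r : R K, κ r ≠ 0 → r ≠ 0 ∧ InT ((h : K) ^ 2 / (c * MK K ^ j')) r) ∧
    (∀ r : R K, ‖κ r‖ ≤ C * (NS (r : K) * NS c / NS (h : K) ^ 2) ^ (1 / 6 : ℝ)) ∧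
    ∀ a b : R K, h ∣ a * b - 1 → ∀ lam : ℝ, 0 < lam → ∀ t ξ : Pl K → ℝ,
      Sm (fun n => Gf n * eS ((n : K) * a / h) * ang (n : K) ^ e) j c lam t ξ =
        kap h a * ((NS (h : K) / NS c : ℝ) : ℂ) *
          ∑' r : R K, κ r * Gf r * eS (-((r : K) * b / h)) * ang (r : K) ^ (-e) *
            Wd lam t ξ (h : K) (r : K)

omit Q in
theorem cc_NS_nonneg (x : K) : 0 ≤ NS x := by
  by_cases hx : x = 0
  · simp [hx, NS, Nm, emb]
  · exact (NS_pos hx).le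

omit Q in
theorem cc_P_mono {j j' j'' : ℕ} {C C' : ℝ} {e : ℤ} {c : K} {h : R K} (hc : c ≠ 0)
    (hj : j' ≤ j'') (hC : C ≤ C') (H : cc_P j j' C e c h) : cc_P j j'' C' e c h := by
  obtain ⟨κ, h1, h2, h3, h4⟩ := H
  refine ⟨κ, fun r r' hr => h1 r r' (cls_mono hj _ hr), fun r hr => ⟨(h2 r hr).1, ?_⟩,
    fun r => (h3 r).trans (mul_le_mul_of_nonneg_right hC (Real.rpow_nonneg ?_ _)), h4⟩
  · refine InT.trans ⟨MK K ^ (j'' - j'), pow_mem MK_mem_T _, ?_⟩ (h2 r hr).2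
    obtain ⟨i, rfl⟩ := Nat.exists_eq_add_of_le hj
    have := MK_ne_zero (K := K)
    rw [Nat.add_sub_cancel_left]
    field_simp
    ring
  · exact div_nonneg (mul_nonneg (cc_NS_nonneg _) (cc_NS_nonneg _)) (sq_nonneg _)

/-- `CV` for `c` and `h` in fixed classes modulo units -/
theorem cc_pair {j : ℕ} (hj : Q.k ≤ j) {σ h₀ : K} (hσ : σ ≠ 0) (hh₀ : h₀ ≠ 0) :
    ∃ (J : ℕ) (C : ℝ), ∀ (e : ℤ), (e = 1 ∨ e = -1) → ∀ (c : K) (u : (R K)ˣ),
      c / (((u : R K) : K) ^ 3 * σ) ∈ U j → ∀ (h : R K) (w : (R K)ˣ),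
        (h : K) / (((w : R K) : K) ^ 1 * h₀) ∈ U 1 → cc_P j J C e c h := by
  classical
  have hj1 : 1 ≤ j := Q.hk.trans hj
  obtain ⟨N, j', C, hj', hcv⟩ := cv_class hj hσ hh₀
  set c₁ : K := σ * (MK K ^ N) ^ 3 with hc₁
  have hM0 := MK_ne_zero (K := K)
  have hc₁0 : c₁ ≠ 0 := mul_ne_zero hσ (by positivity)
  obtain ⟨i, hi⟩ := exists_pow_mul_mem_T (c₁ / h₀ ^ 2)
  have hS₁ := NS_pos hc₁0
  have hS₀ := NS_pos hh₀
  refine ⟨j' + i, NS c₁ / NS h₀ * |C| * (NS h₀ ^ 2 / NS c₁) ^ (1 / 6 : ℝ),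
    fun e he c u hcu h w hhw => ?_⟩
  have hu0 : ((u : R K) : K) ≠ 0 := by exact_mod_cast u.ne_zero
  have hw0 : ((w : R K) : K) ≠ 0 := by exact_mod_cast w.ne_zero
  have hwinv : (((w⁻¹ : (R K)ˣ) : R K) : K) = ((w : R K) : K)⁻¹ := by
    refine eq_inv_of_mul_eq_one_left ?_
    exact_mod_cast congrArg (fun z : R K => (z : K)) w.inv_mul
  have hc0 : c ≠ 0 := fun h0 => U_ne_zero hj1 hcu (by rw [h0, zero_div])
  have hh0' : (h : K) ≠ 0 := fun h0 => U_ne_zero le_rfl hhw (by rw [h0, zero_div])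
  have hh0 : h ≠ 0 := by exact_mod_cast hh0'
  -- the unit `u₁ = u / M^N` and `d = u₁³`
  have hMR : (MK K ^ N)⁻¹ ∈ R K := by rw [← inv_pow]; exact pow_mem MK_inv_mem_R _
  have hMu : IsUnit (⟨(MK K ^ N)⁻¹, hMR⟩ : R K) :=
    IsUnit.of_mul_eq_one (⟨MK K ^ N, pow_mem MK_mem_R _⟩ : R K)
      (Subtype.ext (inv_mul_cancel₀ (pow_ne_zero _ hM0)))
  obtain ⟨u₁, hu₁, hu₁e⟩ : ∃ u₁ : R K, IsUnit u₁ ∧ (u₁ : K) = ((u : R K) : K) * (MK K ^ N)⁻¹ :=
    ⟨u * ⟨(MK K ^ N)⁻¹, hMR⟩, u.isUnit.mul hMu, rfl⟩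
  obtain ⟨d, hd⟩ : ∃ d : (R K)ˣ, (d : R K) = u₁ ^ 3 := hu₁.pow 3
  have hd0 : ((d : R K) : K) ≠ 0 := by exact_mod_cast d.ne_zero
  have hdinv : (((d⁻¹ : (R K)ˣ) : R K) : K) = ((d : R K) : K)⁻¹ := by
    refine eq_inv_of_mul_eq_one_left ?_
    exact_mod_cast congrArg (fun z : R K => (z : K)) d.inv_mul
  have hcd : c / ((d : R K) : K) / c₁ = c / (((u : R K) : K) ^ 3 * σ) := by
    rw [hd, hc₁]
    push_cast
    rw [hu₁e]
    field_simp
  have hυ : c / ((d : R K) : K) / c₁ ∈ U j := hcd ▸ hcu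
  -- the reduced denominator
  obtain ⟨h', hh'⟩ : ∃ h' : R K, h' = (w⁻¹ : (R K)ˣ) * h := ⟨_, rfl⟩
  have hh'K : (h' : K) = ((w : R K) : K)⁻¹ * h := by rw [hh']; push_cast; rw [hwinv]
  have hυ' : (h' : K) / h₀ ∈ U 1 := by
    have : (h' : K) / h₀ = (h : K) / (((w : R K) : K) ^ 1 * h₀) := by rw [hh'K]; field_simp
    exact this ▸ hhw
  have hh'c : h' ∈ cls 1 h₀ := (mem_cls_iff hh₀).2 hυ'
  obtain ⟨κ, hκ, hform⟩ := hcv e he h' hh'c
  obtain ⟨z, hz⟩ : ∃ z : (R K)ˣ, z = d * w⁻¹ ^ 2 := ⟨_, rfl⟩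
  have hzR : (z : R K) = (d : R K) * ((w⁻¹ : (R K)ˣ) : R K) ^ 2 := by rw [hz]; simp
  have hzK : ((z : R K) : K) = ((d : R K) : K) * ((w : R K) : K)⁻¹ ^ 2 := by
    rw [hzR]; push_cast; rw [hwinv]
  have hz0 : ((z : R K) : K) ≠ 0 := by exact_mod_cast z.ne_zero
  have hNSc : NS c = NS ((d : R K) : K) * NS c₁ := by
    have h1 := NS_U hj1 hυ
    rw [NS_div, NS_div] at h1
    have := NS_pos hd0
    field_simp at h1
    exact h1
  have hNSh : NS (h : K) = NS ((w : R K) : K) * NS h₀ := by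
    have h1 := NS_U le_rfl hυ'
    rw [NS_div, hh'K, NS_mul, NS_inv] at h1
    have := NS_pos hw0
    field_simp at h1
    exact h1
  have hSd := NS_pos hd0
  have hSw := NS_pos hw0
  obtain ⟨η, hη⟩ : ∃ η : ℂ, η = ang ((d : R K) : K) ^ e * kap h ((w⁻¹ : (R K)ˣ) : R K) *
    ang ((z : R K) : K) ^ (-e) := ⟨_, rfl⟩
  have hη1 : ‖η‖ ≤ 1 := by
    rw [hη, norm_mul, norm_mul]
    exact mul_le_one₀ (mul_le_one₀ (norm_ang_zpow_le _ _) (norm_nonneg _) (norm_kap_le _ _))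
      (norm_nonneg _) (norm_ang_zpow_le _ _)
  have hκ0 : κ 0 = 0 := by
    by_contra h0
    exact (hκ.2.1 0 h0).1 rfl
  refine ⟨fun r => η * ((NS c₁ / NS h₀ : ℝ) : ℂ) * κ (z * r) * conj (Q.B ((w : R K) : K) (r : K)),
    fun r r' hr => ?_, fun r hr => ?_, fun r => ?_, fun a b hab lam hlam t ξ => ?_⟩
  · by_cases hr0 : r = 0
    · obtain ⟨s, -, hs⟩ := hr
      have : r' = r := by
        rw [hr0] at hs ⊢
        exact_mod_cast (by simpa using hs : (r' : K) = 0)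
      rw [this]
    · have hr0' : (r : K) ≠ 0 := by exact_mod_cast hr0
      have h1 : z * r' ∈ cls j' (((z : R K) * r : R K) : K) := by
        push_cast
        exact mul_mem_cls (self_mem_cls _ _) (cls_mono (Nat.le_add_right _ _) _ hr)
      simp only []
      rw [hκ.1 _ _ h1, B_cls_right (hj.trans (hj'.trans (Nat.le_add_right _ i))) hr0' hw0 hr]
  · have h1 : κ (z * r) ≠ 0 := fun h0 => hr (by simp only [h0, mul_zero, zero_mul])
    obtain ⟨h2, s, hs, h3⟩ := hκ.2.1 _ h1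
    refine ⟨right_ne_zero_of_mul h2, MK K ^ i * (c₁ / h₀ ^ 2) * (c / ((d : R K) : K) / c₁) *
      ((h' : K) / h₀)⁻¹ ^ 2 * s, mul_mem (mul_mem (mul_mem hi (U_mem_T hυ))
        (pow_mem (U_mem_T (U_inv le_rfl hυ')) _)) hs, ?_⟩
    push_cast at h3
    have h4 : (r : K) = ((z : R K) : K)⁻¹ * ((MK K ^ j')⁻¹ * s) := by
      rw [← h3, inv_mul_cancel_left₀ hz0]
    rw [h4, hzK, hh'K]
    field_simp
    ring
  · by_cases hr0 : r = 0
    · simp only [hr0, mul_zero, hκ0, zero_mul, norm_zero]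
      refine mul_nonneg (by positivity) (Real.rpow_nonneg ?_ _)
      exact div_nonneg (mul_nonneg (cc_NS_nonneg _) (cc_NS_nonneg _)) (sq_nonneg _)
    have hr0' : (r : K) ≠ 0 := by exact_mod_cast hr0
    have hSr := NS_pos hr0'
    have h1 := hκ.2.2 (z * r)
    have h2 : NS (((z : R K) * r : R K) : K) =
        NS h₀ ^ 2 / NS c₁ * (NS (r : K) * NS c / NS (h : K) ^ 2) := by
      push_cast
      rw [NS_mul, hzK, NS_mul, NS_pow, NS_inv, hNSc, hNSh]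
      field_simp
    have h3 : 0 ≤ NS (r : K) * NS c / NS (h : K) ^ 2 :=
      div_nonneg (mul_nonneg (cc_NS_nonneg _) (cc_NS_nonneg _)) (sq_nonneg _)
    rw [h2, Real.mul_rpow (by positivity) h3] at h1
    simp only []
    rw [norm_mul, norm_mul, norm_mul, RCLike.norm_conj, norm_B hw0 hr0', mul_one, Complex.norm_real,
      Real.norm_of_nonneg (by positivity)]
    calc _ ≤ 1 * (NS c₁ / NS h₀) * (|C| * ((NS h₀ ^ 2 / NS c₁) ^ (1 / 6 : ℝ) *
          (NS (r : K) * NS c / NS (h : K) ^ 2) ^ (1 / 6 : ℝ))) := by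
          gcongr
          exact h1.trans (mul_le_mul_of_nonneg_right (le_abs_self C) (by positivity))
      _ = _ := by ring
  -- the formula
  have hab' : h' ∣ (d * (w⁻¹ : (R K)ˣ) * a) * ((d⁻¹ : (R K)ˣ) * w * b) - 1 := by
    have e1 : ((d : R K) * (w⁻¹ : (R K)ˣ) * a) * ((d⁻¹ : (R K)ˣ) * w * b) =
        ((d : R K) * (d⁻¹ : (R K)ˣ)) * (((w⁻¹ : (R K)ˣ) : R K) * w) * (a * b) := by ring
    rw [e1, Units.mul_inv, Units.inv_mul, one_mul, one_mul, hh']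
    exact (Units.isUnit _).mul_left_dvd.2 hab
  have h1 := hform _ _ hab' lam hlam (t - lg ((d : R K) : K)) ξ
  have h2 := Sm_dvd (fun n => Gf n * eS ((n : K) * a / h) * ang (n : K) ^ e) hj1 hc0 d.ne_zero
    lam t ξ
  have hNu : Nr u₁ = 1 := Nr_eq_one.2 hu₁
  have h3 : Sm (fun n : R K => Gf ((d : R K) * n) * eS ((((d : R K) * n : R K) : K) * a / h) *
      ang (((d : R K) * n : R K) : K) ^ e) j (c / ((d : R K) : K)) lam (t - lg ((d : R K) : K)) ξ =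
      ang ((d : R K) : K) ^ e * Sm (fun n : R K => Gf n *
        eS ((n : K) * ((d : R K) * (w⁻¹ : (R K)ˣ) * a : R K) / h') * ang (n : K) ^ e) j c₁ lam
        (t - lg ((d : R K) : K)) ξ := by
    rw [← Sm_const_mul]
    unfold Sm
    rw [cls_eq_of_div hj1 hc₁0 hυ]
    refine tsum_congr fun n => ?_
    split_ifs
    · have e1 : Gf ((d : R K) * n) = Gf n := by
        rw [hd, mul_comm, Gf_cube n hu₁.ne_zero, hNu]
        simp
      have e2 : (((d : R K) * n : R K) : K) * a / h =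
          (n : K) * ((d : R K) * (w⁻¹ : (R K)ˣ) * a : R K) / h' := by
        push_cast
        rw [hh'K, hwinv]
        field_simp
      simp only []
      rw [e1, e2]
      push_cast
      rw [ang_mul, mul_zpow]
      ring
    · rfl
  have h4 : kap h' (d * (w⁻¹ : (R K)ˣ) * a) = kap h ((w⁻¹ : (R K)ˣ) : R K) * kap h a := by
    have e1 : Associated h' h := by
      rw [hh']
      exact associated_unit_mul_left h _ (Units.isUnit _)
    rw [kap_associated e1, kap_mul_right, kap_mul_right, hd, kap_pow_right,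
      kap_cube (ga_kap_ne (ga_unit_coprime hu₁ h)), one_mul]
  have h5 : ∑' r : R K, κ r * Gf r * eS (-((r : K) * ((d⁻¹ : (R K)ˣ) * w * b : R K) / h')) *
        ang (r : K) ^ (-e) * Wd lam (t - lg ((d : R K) : K)) ξ (h' : K) (r : K) =
      ∑' r : R K, (ang ((z : R K) : K) ^ (-e) *
        ((Nm ((w : R K) : K) / Nm ((d : R K) : K) : ℝ) : ℂ) *
        Complex.exp (-(I * (∑ v, ξ v * lg ((d : R K) : K) v : ℝ)))) *
        (κ (z * r) * conj (Q.B ((w : R K) : K) (r : K)) * Gf r * eS (-((r : K) * b / h)) *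
          ang (r : K) ^ (-e) * Wd lam t ξ (h : K) (r : K)) := by
    rw [← (Units.mulLeft z).tsum_eq]
    refine tsum_congr fun r => ?_
    rw [Units.mulLeft_apply]
    by_cases hr0 : r = 0
    · simp only [hr0, mul_zero, hκ0, zero_mul]
    have hr0' : (r : K) ≠ 0 := by exact_mod_cast hr0
    have e1 : Gf ((z : R K) * r) = conj (Q.B ((w : R K) : K) (r : K)) * Gf r := by
      have e : (z : R K) * r = (w * r) * (u₁ * (w⁻¹ : (R K)ˣ)) ^ 3 := by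
        have : ((w : R K) * (w⁻¹ : (R K)ˣ)) = 1 := Units.mul_inv w
        rw [hzR, hd]
        linear_combination (-(u₁ ^ 3 * ((w⁻¹ : (R K)ˣ) : R K) ^ 2 * r)) * this
      have hu2 : IsUnit (u₁ * (w⁻¹ : (R K)ˣ)) := hu₁.mul (Units.isUnit _)
      rw [e, Gf_cube _ hu2.ne_zero, Nr_eq_one.2 hu2, cc_Gf_unit w.isUnit hr0]
      simp
    have e2 : (((z : R K) * r : R K) : K) * ((d⁻¹ : (R K)ˣ) * w * b : R K) / h' = (r : K) * b / h := by
      push_cast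
      rw [hh'K, hzK, hdinv]
      field_simp
    rw [e1, e2]
    push_cast
    rw [ang_mul, mul_zpow, hzK, hh'K, cc_Wd_scale lam t ξ hd0 hw0 hh0' hr0']
    push_cast
    ring
  have h6 : Complex.exp (I * (∑ v, ξ v * lg ((d : R K) : K) v : ℝ)) *
      Complex.exp (-(I * (∑ v, ξ v * lg ((d : R K) : K) v : ℝ))) = 1 := by
    rw [← Complex.exp_add, add_neg_cancel, Complex.exp_zero]
  have h7 : ((Nm ((w : R K) : K) / Nm ((d : R K) : K) : ℝ) : ℂ) =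
      ((NS (h : K) / NS c : ℝ) : ℂ) * ((NS c₁ / NS h₀ : ℝ) : ℂ) := by
    rw [← ofReal_mul, ← NS_unit w.isUnit, ← NS_unit d.isUnit, hNSc, hNSh]
    congr 1
    field_simp
  have h8 : ∑' r : R K, η * ((NS c₁ / NS h₀ : ℝ) : ℂ) * κ (z * r) *
        conj (Q.B ((w : R K) : K) (r : K)) * Gf r * eS (-((r : K) * b / h)) * ang (r : K) ^ (-e) *
        Wd lam t ξ (h : K) (r : K) = η * ((NS c₁ / NS h₀ : ℝ) : ℂ) *
      ∑' r : R K, κ (z * r) * conj (Q.B ((w : R K) : K) (r : K)) * Gf r *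
        eS (-((r : K) * b / h)) * ang (r : K) ^ (-e) * Wd lam t ξ (h : K) (r : K) := by
    rw [← tsum_mul_left]
    exact tsum_congr fun r => by ring
  simp only [if_pos (Units.isUnit d).dvd] at h2
  rw [h2, h3, h1, h4, h5, tsum_mul_left, h8, h7, hη]
  generalize (∑' r : R K, κ (z * r) * conj (Q.B ((w : R K) : K) (r : K)) * Gf r *
        eS (-((r : K) * b / h)) * ang (r : K) ^ (-e) * Wd lam t ξ (h : K) (r : K)) = S
  linear_combination (ang ((d : R K) : K) ^ e * kap h ((w⁻¹ : (R K)ˣ) : R K) * kap h a *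
    ang ((z : R K) : K) ^ (-e) * ((NS (h : K) / NS c : ℝ) : ℂ) * ((NS c₁ / NS h₀ : ℝ) : ℂ) * S) * h6

theorem cv_main : CV K := by
  classical
  intro j hj
  have hj1 : 1 ≤ j := Q.hk.trans hj
  obtain ⟨𝒮, h𝒮0, h𝒮⟩ := cls_fin (K := K) j (m := 3) (by norm_num)
  obtain ⟨ℋ, hℋ0, hℋ⟩ := cls_fin (K := K) 1 (m := 1) (by norm_num)
  obtain ⟨J, C, hJ, -, hall⟩ := cc_unif (𝒮 ×ˢ ℋ) (fun p J C => ∀ (e : ℤ), (e = 1 ∨ e = -1) →
      ∀ (c : K) (u : (R K)ˣ), c / (((u : R K) : K) ^ 3 * p.1) ∈ U j → ∀ (h : R K) (w : (R K)ˣ),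
        (h : K) / (((w : R K) : K) ^ 1 * p.2) ∈ U 1 → cc_P j J C e c h)
    (fun p _ J J' C C' h1 h2 h3 e he c u hc h w hh => cc_P_mono
      (fun h0 => U_ne_zero hj1 hc (by rw [h0, zero_div])) h1 h2 (h3 e he c u hc h w hh))
    (fun p hp => cc_pair hj (h𝒮0 _ (Finset.mem_product.1 hp).1)
      (hℋ0 _ (Finset.mem_product.1 hp).2)) j
  refine ⟨J, C, hJ, fun e he c hc h hh => ?_⟩
  obtain ⟨σ, hσ, u, hu⟩ := h𝒮 c hc
  obtain ⟨h₀, hh₀, w, hw⟩ := hℋ (h : K) (by exact_mod_cast hh)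
  exact hall (σ, h₀) (Finset.mem_product.2 ⟨hσ, hh₀⟩) e he c u hu h w hw

end Crest.Agent.GQ
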