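import Crest.Agent.GQ.ZConv

/-!
# Project GQ, part B3: amplification
-/

set_option autoImplicit false

noncomputable section

open NumberField Complex UniqueFactorizationMonoid MeasureTheory
open scoped ComplexConjugate ENNReal

namespace Crest.Agent.GQ

section aux
variable {K : Type} [Field K] [NumberField K] [P : Pre K]

/-- Insertion of the condition "prime to `b`". -/
theorem zf_split {b : Ideal (R K)} (hb : b ≠ ⊥) {j : ℕ} (hj : 1 ≤ j) {c : K} (hc : c ≠ 0)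
    (t : Pl K → ℝ) :
    ‖Sm mu j c 1 t 0‖ ≤ ∑ e ∈ divs b, ‖Sm (fun n => mu n * chiI (b ^ 6) n) j (c / (gen e : R K)) 1
      (t - lg ((gen e : R K) : K)) 0‖ := by
  classical
  have e1 : (mu : R K → ℂ) = fun n => ∑ e ∈ divs b, if gen e ∣ n then
      muR e * (mu (rdiv n (gen e)) * chiI (b ^ 6) (rdiv n (gen e))) else 0 := by
    funext n
    rw [mu_eq_sum_coprime hb n]
    refine Finset.sum_congr rfl fun e _ => ?_
    rw [chiI_pow hb, chiI, chi_pow_six (gen_ne_zero hb)]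
    by_cases h1 : gen e ∣ n <;> by_cases h2 : IsCoprime (gen b) (rdiv n (gen e)) <;> simp [h1, h2]
  have e2 : Sm mu j c 1 t 0 = ∑ e ∈ divs b, Sm (fun n => if gen e ∣ n then
      muR e * (mu (rdiv n (gen e)) * chiI (b ^ 6) (rdiv n (gen e))) else 0) j c 1 t 0 := by
    rw [← Sm_sum _ _ hj hc one_pos, ← e1]
    intro e _
    refine mod_of_le_one fun n => ?_
    split_ifs
    · rw [norm_mul, norm_mul]
      exact mul_le_one₀ (norm_mu_le _) (by positivity)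
        (mul_le_one₀ (norm_mu_le _) (norm_nonneg _) (norm_chiI_le _ _))
    · simp
  rw [e2]
  refine norm_sum_le_of_le _ fun e he => ?_
  have he0 : e ≠ ⊥ := fun h => hb (by
    have := (mem_divs hb).1 he
    rw [h] at this
    exact le_bot_iff.1 (Ideal.le_of_dvd this))
  have hg := gen_ne_zero he0
  rw [Sm_dvd _ hj hc hg]
  simp only [rdiv_mul hg, Pi.zero_apply, zero_mul, Finset.sum_const_zero, Complex.ofReal_zero, mul_zero,
    Complex.exp_zero, one_mul]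
  rw [Sm_const_mul, norm_mul]
  exact mul_le_of_le_one_left (norm_nonneg _) (norm_mu_le _)

theorem zf_six {A0 H : ℝ} (hH : A0 ^ 6 = H) (f : Ideal (R K) → ℝ) (hf : ∀ J, 0 ≤ f J) :
    ∑ b ∈ rows K A0, f (b ^ 6) ≤ ∑ J ∈ rows K H, f J := by
  classical
  rw [← Finset.sum_image (s := rows K A0) (g := fun b => b ^ 6) (f := f)]
  · refine Finset.sum_le_sum_of_subset_of_nonneg (fun J hJ => ?_) fun _ _ _ => hf _
    obtain ⟨b, hb, rfl⟩ := Finset.mem_image.1 hJ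
    obtain ⟨h0, h1⟩ := mem_rows.1 hb
    refine mem_rows.2 ⟨pow_ne_zero 6 h0, ?_⟩
    rw [nmI_pow, Nat.cast_pow, ← hH]
    exact pow_le_pow_left₀ (Nat.cast_nonneg _) h1 6
  · intro x hx y hy h
    have hx0 := (mem_rows.1 hx).1
    have hy0 := (mem_rows.1 hy).1
    refine ar_ext hx0 hy0 fun p hp => ?_
    have h1 := ar_pow hp hx0 6
    have h2 := ar_pow hp hy0 6
    simp only at h
    rw [h] at h1
    omega

end aux

variable {K : Type} [Field K] [NumberField K] [P : Pre K] [Q : Rec K]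

theorem amplify (hA : Acond K (1 + 1 / 500)) (j : ℕ) (hj : Rec.k K ≤ j) : ∃ C : ℝ, 0 ≤ C ∧
    ∀ c : K, c ≠ 0 → ∀ t : Pl K → ℝ, ‖Sm mu j c 1 t 0‖ ≤ C * sz c t ^ theta0 := by
  have hj1 : 1 ≤ j := Q.hk.trans hj
  obtain ⟨C₀, hC₀, h₀⟩ := norm_Sm_le (K := K) one_pos (le_refl (1 : ℝ))
  obtain ⟨C₁, h₁⟩ := card_divs_le (K := K) (show (0 : ℝ) < 1 / 1000 by norm_num)
  obtain ⟨C₂, A, hC₂, -, h₂⟩ := hA j hj 1 one_pos
  obtain ⟨c₃, hc₃, h₃⟩ := card_rows_ge (K := K) (show (0 : ℝ) < 1 / 1000 by norm_num)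
  have hs := summable_nmI (K := K) (show (1 : ℝ) < 1 + 1 / 500 by norm_num)
  set Z : ℝ := ∑' I : Ideal (R K), (nmI I : ℝ) ^ (-(1 + 1 / 500 : ℝ)) with hZ
  have hZ0 : 0 ≤ Z := tsum_nonneg fun _ => Real.rpow_nonneg (Nat.cast_nonneg _) _
  refine ⟨C₀ + Real.sqrt (|C₁| * C₂ * Z / c₃), by positivity, fun c hc t => ?_⟩
  have hX0 := sz_pos hc t
  obtain ⟨X, hX⟩ : ∃ X, X = sz c t := ⟨_, rfl⟩
  rw [← hX] at hX0 ⊢
  have hXθ : 0 ≤ X ^ theta0 := Real.rpow_nonneg hX0.le _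
  rcases le_total X 1 with hX1 | hX1
  · have h4 := h₀ mu norm_mu_le j hj1 c hc t 0
    rw [← hX] at h4
    have h5 : X ≤ X ^ theta0 := by
      have := Real.rpow_le_rpow_of_exponent_ge hX0 hX1 (show theta0 ≤ 1 by unfold theta0; norm_num)
      rwa [Real.rpow_one] at this
    have h6 : C₀ * min X (X ^ (1 : ℝ)) ≤ C₀ * X ^ theta0 :=
      mul_le_mul_of_nonneg_left ((min_le_left _ _).trans h5) hC₀.le
    have h7 := mul_nonneg (Real.sqrt_nonneg (|C₁| * C₂ * Z / c₃)) hXθ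
    linarith
  obtain ⟨H, hH⟩ : ∃ H, H = X ^ (43 / 36 : ℝ) := ⟨_, rfl⟩
  obtain ⟨A0, hA0⟩ : ∃ A0, A0 = X ^ (43 / 216 : ℝ) := ⟨_, rfl⟩
  have hH1 : 1 ≤ H := hH ▸ Real.one_le_rpow hX1 (by norm_num)
  have hA1 : 1 ≤ A0 := hA0 ▸ Real.one_le_rpow hX1 (by norm_num)
  have hA6 : A0 ^ 6 = H := by
    rw [hA0, hH, ← Real.rpow_natCast, ← Real.rpow_mul hX0.le]; norm_num
  set T : Ideal (R K) → Ideal (R K) → ℝ := fun e J =>
    ‖Sm (fun n => mu n * chiI J n) j (c / (gen e : R K)) 1 (t - lg ((gen e : R K) : K)) 0‖ with hT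
  have h4 : ∀ b ∈ rows K A0, ‖Sm mu j c 1 t 0‖ ^ 2 ≤
      |C₁| * A0 ^ (1 / 1000 : ℝ) * ∑ e ∈ rows K A0, T e (b ^ 6) ^ 2 := by
    intro b hb
    obtain ⟨hb0, hb1⟩ := mem_rows.1 hb
    have h5 := pow_le_pow_left₀ (norm_nonneg _) (zf_split hb0 hj1 hc t) 2
    refine h5.trans (sq_sum_le_card_mul_sum_sq.trans (mul_le_mul ((h₁ b hb0).trans ?_) ?_
      (Finset.sum_nonneg fun _ _ => sq_nonneg _) (by positivity)))
    · exact mul_le_mul (le_abs_self _) (Real.rpow_le_rpow (Nat.cast_nonneg _) hb1 (by norm_num))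
        (Real.rpow_nonneg (Nat.cast_nonneg _) _) (abs_nonneg _)
    · refine Finset.sum_le_sum_of_subset_of_nonneg (fun e he => ?_) fun _ _ _ => sq_nonneg _
      have hd := (mem_divs hb0).1 he
      refine mem_rows.2 ⟨fun h => hb0 ?_, le_trans ?_ hb1⟩
      · rw [h] at hd
        exact le_bot_iff.1 (Ideal.le_of_dvd hd)
      · exact_mod_cast nmI_le_of_dvd hb0 hd
  have h5 : ∀ e ∈ rows K A0, ∑ b ∈ rows K A0, T e (b ^ 6) ^ 2 ≤
      C₂ * H * X ^ (1 + 1 / 500 : ℝ) * (nmI e : ℝ) ^ (-(1 + 1 / 500 : ℝ)) := by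
    intro e he
    have he0 := (mem_rows.1 he).1
    have hg := gen_ne_zero he0
    have hg' : ((gen e : R K) : K) ≠ 0 := fun h => hg (Subtype.ext h)
    have hN := ar_one_le_nmI he0
    have hN0 : (0 : ℝ) < nmI e := by linarith
    have esz : sz (c / (gen e : R K)) (t - lg ((gen e : R K) : K)) = X / nmI e := by
      rw [sz_div hc hg, Nr_gen, hX]
    have h6 := h₂ (c / (gen e : R K)) (div_ne_zero hc hg') (t - lg ((gen e : R K) : K)) 0 H hH1 (by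
      rw [esz, hH]
      exact Real.rpow_le_rpow (by positivity) (div_le_self hX0.le hN) (by norm_num))
    rw [esz, norm_zero, add_zero, Real.one_rpow, mul_one, Real.div_rpow hX0.le hN0.le,
      div_eq_mul_inv (X ^ (1 + 1 / 500 : ℝ)), ← Real.rpow_neg hN0.le, ← mul_assoc] at h6
    exact (zf_six hA6 (fun J => T e J ^ 2) fun _ => sq_nonneg _).trans h6
  have h6 := Finset.sum_le_sum h4
  rw [Finset.sum_const, nsmul_eq_mul, ← Finset.mul_sum, Finset.sum_comm] at h6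
  have h7 := Finset.sum_le_sum h5
  rw [← Finset.mul_sum] at h7
  have h8 : ∑ e ∈ rows K A0, (nmI e : ℝ) ^ (-(1 + 1 / 500 : ℝ)) ≤ Z :=
    hs.sum_le_tsum _ fun _ _ => Real.rpow_nonneg (Nat.cast_nonneg _) _
  have hH0 : 0 ≤ H := by linarith
  have hA00 : 0 < A0 := by linarith
  have h9 : c₃ * A0 ^ (1 - 1 / 1000 : ℝ) * ‖Sm mu j c 1 t 0‖ ^ 2 ≤
      |C₁| * A0 ^ (1 / 1000 : ℝ) * (C₂ * H * X ^ (1 + 1 / 500 : ℝ) * Z) := by
    refine (mul_le_mul_of_nonneg_right (h₃ A0 hA1) (sq_nonneg _)).trans (h6.trans ?_)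
    refine mul_le_mul_of_nonneg_left (h7.trans ?_) (by positivity)
    exact mul_le_mul_of_nonneg_left h8 (by positivity)
  have h10 : A0 ^ (1 / 1000 : ℝ) * H * X ^ (1 + 1 / 500 : ℝ) ≤
      A0 ^ (1 - 1 / 1000 : ℝ) * (X ^ theta0) ^ 2 := by
    rw [hA0, hH, ← Real.rpow_natCast, ← Real.rpow_mul hX0.le, ← Real.rpow_mul hX0.le,
      ← Real.rpow_mul hX0.le, ← Real.rpow_add hX0, ← Real.rpow_add hX0, ← Real.rpow_add hX0]
    refine Real.rpow_le_rpow_of_exponent_le hX1 ?_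
    unfold theta0
    norm_num
  have h11 : ‖Sm mu j c 1 t 0‖ ^ 2 ≤ |C₁| * C₂ * Z / c₃ * (X ^ theta0) ^ 2 := by
    have hp : 0 < c₃ * A0 ^ (1 - 1 / 1000 : ℝ) := by positivity
    refine le_of_mul_le_mul_left (h9.trans ?_) hp
    calc _ = |C₁| * C₂ * Z * (A0 ^ (1 / 1000 : ℝ) * H * X ^ (1 + 1 / 500 : ℝ)) := by ring
      _ ≤ |C₁| * C₂ * Z * (A0 ^ (1 - 1 / 1000 : ℝ) * (X ^ theta0) ^ 2) := by gcongr
      _ = _ := by field_simp
  have h12 := Real.le_sqrt_of_sq_le h11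
  rw [Real.sqrt_mul (by positivity), Real.sqrt_sq hXθ] at h12
  have h13 := mul_nonneg hC₀.le hXθ
  linarith

end Crest.Agent.GQ
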