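import Mathlib

/-!
# Project GQ, part B3: analytic lemmas for the Mellin transform over a class
-/

set_option autoImplicit false

noncomputable section

open Complex MeasureTheory Filter Topology

namespace Crest.Agent.GQ

/-- Holomorphy of Laplace transforms. -/
theorem zm1_diff {α : Type*} [MeasurableSpace α] {μ : Measure α} {g : α → ℂ}
    (hg : AEStronglyMeasurable g μ) {S : α → ℝ} (hS : Measurable S) {θ : ℝ}
    (h : ∀ σ : ℝ, θ < σ → Integrable (fun t => ‖g t‖ * Real.exp (-σ * S t)) μ) :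
    DifferentiableOn ℂ (fun s : ℂ => ∫ t, g t * Complex.exp (-s * S t) ∂μ) {s : ℂ | θ < s.re} := by
  intro s₀ hs₀
  have hs₀' : θ < s₀.re := hs₀
  set ε := (s₀.re - θ) / 3 with hε
  have hε0 : 0 < ε := by rw [hε]; linarith
  have hm : ∀ s : ℂ, AEStronglyMeasurable (fun t => g t * Complex.exp (-s * S t)) μ := fun s =>
    hg.mul (Measurable.aestronglyMeasurable (by fun_prop))
  have hn : ∀ (s : ℂ) t, ‖g t * Complex.exp (-s * S t)‖ = ‖g t‖ * Real.exp (-s.re * S t) := by
    intro s t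
    rw [norm_mul, Complex.norm_exp]
    simp
  refine (hasDerivAt_integral_of_dominated_loc_of_deriv_le (μ := μ)
    (F := fun s t => g t * Complex.exp (-s * S t))
    (F' := fun s t => g t * Complex.exp (-s * S t) * (-(S t : ℂ)))
    (bound := fun t => (‖g t‖ * Real.exp (-(s₀.re - 2 * ε) * S t) +
      ‖g t‖ * Real.exp (-(s₀.re + 2 * ε) * S t)) / ε)
    (Metric.ball_mem_nhds s₀ hε0) (.of_forall hm) ?_ ?_ ?_ ?_ ?_).2.differentiableAt
      |>.differentiableWithinAt
  · exact (h _ hs₀').mono' (hm s₀) (.of_forall fun t => (hn s₀ t).le)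
  · exact (hm s₀).mul (Measurable.aestronglyMeasurable (by fun_prop))
  · refine .of_forall fun t s hs => ?_
    rw [norm_mul, hn, norm_neg, Complex.norm_real, Real.norm_eq_abs, le_div_iff₀ hε0, ← mul_add,
      mul_assoc, mul_assoc]
    refine mul_le_mul_of_nonneg_left ?_ (norm_nonneg _)
    have h1 : |s.re - s₀.re| ≤ ε := by
      rw [← Complex.sub_re]
      exact (Complex.abs_re_le_norm _).trans (mem_ball_iff_norm.1 hs).le
    have h2 : |S t| * ε ≤ Real.exp (ε * |S t|) := by
      have := Real.add_one_le_exp (ε * |S t|)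
      linarith
    have h3 : -s.re * S t ≤ -s₀.re * S t + ε * |S t| := by
      have : |(s.re - s₀.re) * S t| ≤ ε * |S t| := by
        rw [abs_mul]; exact mul_le_mul_of_nonneg_right h1 (abs_nonneg _)
      have := (abs_le.1 this).1
      linarith
    calc Real.exp (-s.re * S t) * (|S t| * ε)
        ≤ Real.exp (-s₀.re * S t + ε * |S t|) * Real.exp (ε * |S t|) := by gcongr
      _ = Real.exp (-s₀.re * S t + 2 * ε * |S t|) := by rw [← Real.exp_add]; congr 1; ring
      _ ≤ _ := by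
        rcases abs_cases (S t) with h4 | h4
        · rw [h4.1]
          refine le_add_of_le_of_nonneg (le_of_eq ?_) (Real.exp_pos _).le
          congr 1; ring
        · rw [h4.1]
          refine le_add_of_nonneg_of_le (Real.exp_pos _).le (le_of_eq ?_)
          congr 1; ring
  · exact ((h _ (by linarith)).add (h _ (by linarith))).div_const ε
  · refine .of_forall fun t s _ => ?_
    have := (((hasDerivAt_id s).neg.mul_const (S t : ℂ)).cexp).const_mul (g t)
    refine this.congr_deriv ?_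
    simp only [Pi.neg_apply, id]
    ring

/-- Integration against a partition of unity. -/
theorem zm1_part {α E : Type*} [MeasurableSpace α] {μ : Measure α} [Countable E]
    {b : E → α → ℝ} (hb : ∀ u, Measurable (b u)) (h0 : ∀ u t, 0 ≤ b u t)
    (h1 : ∀ t, HasSum (fun u => b u t) 1) {h : α → ℂ} (hh : Integrable h μ) :
    (∀ u, Integrable (fun t => (b u t : ℂ) * h t) μ) ∧
      Summable (fun u => ∫ t, ‖(b u t : ℂ) * h t‖ ∂μ) ∧
      ∑' u, ∫ t, ‖(b u t : ℂ) * h t‖ ∂μ ≤ ∫ t, ‖h t‖ ∂μ ∧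
      HasSum (fun u => ∫ t, (b u t : ℂ) * h t ∂μ) (∫ t, h t ∂μ) := by
  have hi : ∀ u, Integrable (fun t => (b u t : ℂ) * h t) μ := fun u =>
    hh.bdd_mul (c := 1) (Complex.measurable_ofReal.comp (hb u)).aestronglyMeasurable
      (.of_forall fun t => by
        rw [Complex.norm_real, Real.norm_of_nonneg (h0 u t)]
        exact le_hasSum (h1 t) u fun v _ => h0 v t)
  have hs : ∀ s : Finset E, ∑ u ∈ s, ∫ t, ‖(b u t : ℂ) * h t‖ ∂μ ≤ ∫ t, ‖h t‖ ∂μ := by
    intro s
    rw [← integral_finsetSum _ fun u _ => (hi u).norm]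
    refine integral_mono (integrable_finsetSum _ fun u _ => (hi u).norm) hh.norm fun t => ?_
    simp only [norm_mul, Complex.norm_real, Real.norm_of_nonneg (h0 _ t), ← Finset.sum_mul]
    exact mul_le_of_le_one_left (norm_nonneg _) (sum_le_hasSum s (fun u _ => h0 u t) (h1 t))
  have hnn : ∀ u, 0 ≤ ∫ t, ‖(b u t : ℂ) * h t‖ ∂μ := fun u => integral_nonneg fun _ => norm_nonneg _
  have hsum := summable_of_sum_le hnn hs
  refine ⟨hi, hsum, hsum.tsum_le_of_sum_le hs, ?_⟩
  have := hasSum_integral_of_summable_integral_norm hi hsum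
  have e : ∀ t, ∑' u, (b u t : ℂ) * h t = h t := fun t => by
    have h2 : HasSum (fun u => (b u t : ℂ)) 1 := by
      simpa using Complex.hasSum_ofReal.2 (h1 t)
    rw [(h2.mul_right (h t)).tsum_eq, one_mul]
  simpa only [e] using this

theorem zm1_int_abs {η : ℝ} (hη : 0 < η) : Integrable fun x : ℝ => Real.exp (-η * |x|) := by
  rw [← integrableOn_univ, ← Set.Iic_union_Ioi (a := (0 : ℝ))]
  refine IntegrableOn.union ?_ ?_
  · refine (integrableOn_exp_mul_Iic hη 0).congr_fun (fun x hx => ?_) measurableSet_Iic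
    simp only [abs_of_nonpos (Set.mem_Iic.1 hx)]
    congr 1; ring
  · refine (exp_neg_integrableOn_Ioi 0 hη).congr_fun (fun x hx => ?_) measurableSet_Ioi
    simp only [abs_of_pos (Set.mem_Ioi.1 hx)]

variable {ι : Type} [Fintype ι]

theorem zm1_int_maj (hι : 0 < Fintype.card ι) {η : ℝ} (hη : 0 < η) :
    Integrable fun t : ι → ℝ => Real.exp (-(∑ v, |t v - (∑ w, t w) / Fintype.card ι|)) *
      Real.exp (-η * |∑ w, t w|) := by
  have hη' : 0 < min 1 η := lt_min one_pos hη
  have h := Integrable.fintype_prod (ι := ι) (f := fun _ (x : ℝ) => Real.exp (-min 1 η * |x|))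
    (μ := fun _ => volume) fun _ => zm1_int_abs hη'
  refine h.mono' (Continuous.aestronglyMeasurable (by fun_prop)) (.of_forall fun t => ?_)
  rw [Real.norm_of_nonneg (by positivity), ← Real.exp_add, ← Real.exp_sum]
  refine Real.exp_le_exp.2 ?_
  have hr : (0 : ℝ) < Fintype.card ι := by exact_mod_cast hι
  have h1 : ∑ v, |t v| ≤ ∑ v, |t v - (∑ w, t w) / Fintype.card ι| + |∑ w, t w| := by
    have : |∑ w, t w| = ∑ _v : ι, |(∑ w, t w) / Fintype.card ι| := by
      rw [Finset.sum_const, Finset.card_univ, nsmul_eq_mul, abs_div, abs_of_pos hr]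
      field_simp
    rw [this, ← Finset.sum_add_distrib]
    refine Finset.sum_le_sum fun v _ => ?_
    have := abs_add_le (t v - (∑ w, t w) / Fintype.card ι) ((∑ w, t w) / Fintype.card ι)
    rwa [sub_add_cancel] at this
  rw [← Finset.mul_sum]
  have h2 : 0 ≤ ∑ v, |t v - (∑ w, t w) / Fintype.card ι| :=
    Finset.sum_nonneg fun _ _ => abs_nonneg _
  have h3 := min_le_left 1 η
  have h4 := min_le_right 1 η
  have h5 := abs_nonneg (∑ w, t w)
  nlinarith

/-- The Gaussian with an exponential weight. -/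
def zm1H (s : ℂ) (y t : ι → ℝ) : ℂ :=
  ∏ v, Complex.exp (-1 * (t v : ℂ) ^ 2 + (2 * y v - 2 * s) * t v + -(y v : ℂ) ^ 2)

theorem zm1H_shift (s : ℂ) (y t : ι → ℝ) {a : ι → ℝ} (ha : ∑ v, a v = 0) :
    zm1H s y (t - a) = zm1H s (a + y) t := by
  unfold zm1H
  rw [← Complex.exp_sum, ← Complex.exp_sum]
  congr 1
  have h : ∑ v, 2 * s * (a v : ℂ) = 0 := by
    rw [← Finset.mul_sum, ← Complex.ofReal_sum, ha, Complex.ofReal_zero, mul_zero]
  rw [← sub_zero (∑ v, _), ← h, ← Finset.sum_sub_distrib]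
  refine Finset.sum_congr rfl fun v _ => ?_
  simp only [Pi.sub_apply, Pi.add_apply]
  push_cast
  ring

/-- The normalising factor. -/
def zm1k (s : ℂ) : ℂ := (Real.pi : ℂ) ^ (1 / 2 : ℂ) * Complex.exp (s ^ 2)

theorem zm1k_ne (s : ℂ) : zm1k s ≠ 0 :=
  mul_ne_zero (by simp [Real.pi_ne_zero]) (Complex.exp_ne_zero _)

theorem zm1k_diff : Differentiable ℂ zm1k := by
  unfold zm1k
  fun_prop

theorem zm1H_int (s : ℂ) (y : ι → ℝ) : Integrable (zm1H s y) :=
  Integrable.fintype_prod (ι := ι)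
    (f := fun v (x : ℝ) => Complex.exp (-1 * (x : ℂ) ^ 2 + (2 * y v - 2 * s) * x + -(y v : ℂ) ^ 2))
    (μ := fun _ => volume) fun _ => integrable_cexp_quadratic' (by simp) _ _

theorem zm1H_integral (s : ℂ) (y : ι → ℝ) :
    ∫ t, zm1H s y t = zm1k s ^ Fintype.card ι * Complex.exp (-s * (2 * ∑ v, y v : ℝ)) := by
  unfold zm1H
  rw [integral_fintype_prod_volume_eq_prod
    (fun v (x : ℝ) => Complex.exp (-1 * (x : ℂ) ^ 2 + (2 * y v - 2 * s) * x + -(y v : ℂ) ^ 2))]
  have : ∀ v, ∫ x : ℝ, Complex.exp (-1 * (x : ℂ) ^ 2 + (2 * y v - 2 * s) * x + -(y v : ℂ) ^ 2) =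
      zm1k s * Complex.exp (-s * (2 * y v)) := by
    intro v
    rw [integral_cexp_quadratic (by simp), zm1k, mul_assoc, ← Complex.exp_add]
    congr 2
    · simp
    · ring
  simp only [this]
  rw [Finset.prod_mul_distrib, Finset.prod_const, Finset.card_univ, ← Complex.exp_sum]
  congr 2
  push_cast
  rw [Finset.mul_sum, Finset.mul_sum]

theorem zm1H_norm (s : ℂ) (y t : ι → ℝ) : (‖zm1H s y t‖ : ℂ) = zm1H (s.re : ℂ) y t := by
  unfold zm1H
  rw [norm_prod, Complex.ofReal_prod]
  refine Finset.prod_congr rfl fun v _ => ?_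
  rw [Complex.norm_exp, Complex.ofReal_exp]
  congr 1
  simp only [← Complex.ofReal_pow, add_re, mul_re, neg_re, one_re, ofReal_re, neg_im, one_im,
    ofReal_im, sub_re, sub_im, mul_im, re_ofNat, im_ofNat]
  push_cast
  ring

theorem zm1H_integral_norm (s : ℂ) (y : ι → ℝ) :
    ∫ t, ‖zm1H s y t‖ = ‖zm1k s.re‖ ^ Fintype.card ι * Real.exp (-s.re * (2 * ∑ v, y v)) := by
  have h1 : ((∫ t, ‖zm1H s y t‖ : ℝ) : ℂ) = ∫ t, zm1H (s.re : ℂ) y t := by
    rw [← integral_complex_ofReal]
    exact integral_congr_ae (.of_forall fun t => zm1H_norm s y t)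
  have h2 := congrArg norm h1
  rw [Complex.norm_real, Real.norm_of_nonneg (integral_nonneg fun _ => norm_nonneg _),
    zm1H_integral, norm_mul, norm_pow, Complex.norm_exp] at h2
  rw [h2]
  congr 2
  simp only [mul_re, neg_re, ofReal_re, ofReal_im, mul_zero, sub_zero]

end Crest.Agent.GQ
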