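import Crest.Agent.GQ.ZMel0
import Crest.Agent.GQ.ZMel1Aux

/-!
# Project GQ, part B3: Mellin transform over a class
-/

set_option autoImplicit false

noncomputable section

open NumberField Complex UniqueFactorizationMonoid MeasureTheory
open scoped ComplexConjugate ENNReal

namespace Crest.Agent.GQ

variable {K : Type} [Field K] [NumberField K] [P : Pre K]

theorem zm1_pk (s : ℂ) (t : Pl K → ℝ) (x : K) :
    pk 1 t 0 x * Complex.exp (-s * (2 * ∑ v, t v : ℝ)) = zm1H s (lg x) t := by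
  unfold pk zm1H
  rw [← Complex.exp_sum, ← Complex.exp_sum, ← Complex.exp_add]
  congr 1
  push_cast
  rw [Finset.mul_sum, Finset.mul_sum, ← Finset.sum_add_distrib]
  refine Finset.sum_congr rfl fun v _ => ?_
  simp only [Pi.zero_apply, Complex.ofReal_zero]
  ring

theorem zm1_sz {c : K} (hc : c ≠ 0) (t : Pl K → ℝ) (a : ℝ) :
    sz c t ^ a = Real.exp (a * (2 * ∑ v, t v)) * NS c ^ (-a) := by
  rw [sz, Real.div_rpow (Real.exp_pos _).le (NS_pos hc).le, ← Real.exp_mul,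
    Real.rpow_neg (NS_pos hc).le, mul_comm a, div_eq_mul_inv]

theorem zm1_bound {j : ℕ} (hj : 1 ≤ j) {c : K} (hc : c ≠ 0) {θ C : ℝ}
    (h : ∀ t : Pl K → ℝ, ‖Sm mu j c 1 t 0‖ ≤ C * sz c t ^ θ) {σ : ℝ} (hσ : θ < σ) :
    ∃ C' η : ℝ, 0 < η ∧ ∀ t : Pl K → ℝ, ‖Sm mu j c 1 t 0‖ * Real.exp (-σ * (2 * ∑ v, t v)) ≤
      C' * Real.exp (-η * |∑ v, t v|) := by
  obtain ⟨CB, hCB, hB⟩ := norm_Sm_le (K := K) one_pos (le_max_left 1 (σ + 1))
  set B := max 1 (σ + 1) with hBdef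
  have hB1 : σ + 1 ≤ B := le_max_right _ _
  have hN := NS_pos hc
  have hη1 := min_le_left (σ - θ) 1
  have hη2 := min_le_right (σ - θ) 1
  have hη : 0 < min (σ - θ) 1 := lt_min (by linarith) one_pos
  set η := min (σ - θ) 1
  have p1 : 0 ≤ |C| * NS c ^ (-θ) := by positivity
  have p2 : 0 ≤ CB * NS c ^ (-B) := by positivity
  refine ⟨|C| * NS c ^ (-θ) + CB * NS c ^ (-B), η, hη, fun t => ?_⟩
  rcases abs_cases (∑ v, t v) with h1 | h1
  · calc ‖Sm mu j c 1 t 0‖ * Real.exp (-σ * (2 * ∑ v, t v))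
        ≤ |C| * sz c t ^ θ * Real.exp (-σ * (2 * ∑ v, t v)) := by
          have := Real.rpow_nonneg (sz_pos hc t).le θ
          gcongr
          exact (h t).trans (mul_le_mul_of_nonneg_right (le_abs_self C) this)
      _ = |C| * NS c ^ (-θ) * Real.exp (θ * (2 * ∑ v, t v) + -σ * (2 * ∑ v, t v)) := by
          rw [zm1_sz hc, Real.exp_add]; ring
      _ ≤ _ := by
          refine mul_le_mul (le_add_of_nonneg_right p2) (Real.exp_le_exp.2 ?_) (Real.exp_pos _).le
            (add_nonneg p1 p2)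
          rw [h1.1]
          nlinarith [h1.2]
  · calc ‖Sm mu j c 1 t 0‖ * Real.exp (-σ * (2 * ∑ v, t v))
        ≤ CB * sz c t ^ B * Real.exp (-σ * (2 * ∑ v, t v)) := by
          gcongr
          exact (hB mu norm_mu_le j hj c hc t 0).trans
            (mul_le_mul_of_nonneg_left (min_le_right _ _) hCB.le)
      _ = CB * NS c ^ (-B) * Real.exp (B * (2 * ∑ v, t v) + -σ * (2 * ∑ v, t v)) := by
          rw [zm1_sz hc, Real.exp_add]; ring
      _ ≤ _ := by
          refine mul_le_mul (le_add_of_nonneg_left p1) (Real.exp_le_exp.2 ?_) (Real.exp_pos _).le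
            (add_nonneg p1 p2)
          rw [h1.1]
          nlinarith [h1.2]

theorem zm1_log {j : ℕ} (hj : 1 ≤ j) {c : K} (hc : c ≠ 0) {n : R K} (hn : n ∈ cls j c) :
    2 * ∑ v, lg (n : K) v = Real.log (NS c) + Real.log (NI (Ideal.span {n})) := by
  have hn0 := ne_zero_of_mem_cls hj hc hn
  have hn0' : (n : K) ≠ 0 := fun e => hn0 (Subtype.ext e)
  have h1 := Nm_eq_exp hn0'
  rw [Nm_coe, NS_cls hj hc hn] at h1
  rw [← Real.log_exp (2 * ∑ v, lg (n : K) v), ← h1, Real.log_mul (Nr_pos hn0).ne' (NS_pos hc).ne',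
    add_comm]
  rfl

theorem zm1_unit {j : ℕ} (hj : 1 ≤ j) {u : R K} (hu : IsUnit u) (hU : (u : K) ∈ U j) :
    ∑ v, lg (u : K) v = 0 := by
  have h1 := Nm_eq_exp (U_ne_zero hj hU)
  rw [← NS_unit hu, NS_U hj hU, eq_comm, Real.exp_eq_one_iff] at h1
  linarith

theorem zm1_eq {j : ℕ} (hj : 1 ≤ j) {c : K} (hc : c ≠ 0) {β : (Pl K → ℝ) → ℝ} (hβm : Measurable β)
    (hβ0 : ∀ t, 0 ≤ β t)
    (hβ1 : ∀ t, HasSum (fun u : {u : R K // IsUnit u ∧ (u : K) ∈ U j} =>
      β (t + lg ((u : R K) : K))) 1) {s : ℂ} (hs : 1 < s.re) :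
    ∫ t, (β t : ℂ) * Sm mu j c 1 t 0 * Complex.exp (-s * (2 * ∑ v, t v : ℝ)) =
      zm1k s ^ rr K * Complex.exp (-s * Real.log (NS c)) * Dc j c s := by
  classical
  let 𝒥 := {J : Ideal (R K) // ∃ n ∈ cls j c, Ideal.span {n} = J}
  let E := {u : R K // IsUnit u ∧ (u : K) ∈ U j}
  have hch : ∀ J : 𝒥, ∃ n ∈ cls j c, Ideal.span {n} = J.1 := fun J => J.2
  choose n₀ hn₀ hsp using hch
  have hne : ∀ J, n₀ J ≠ 0 := fun J => ne_zero_of_mem_cls hj hc (hn₀ J)
  have hne' : ∀ J, (n₀ J : K) ≠ 0 := fun J e => hne J (Subtype.ext e)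
  let φ : 𝒥 × E → R K := fun p => p.2.1 * n₀ p.1
  have hφsp : ∀ p, Ideal.span {φ p} = p.1.1 := fun p => by
    rw [← hsp]
    exact Ideal.span_singleton_mul_left_unit p.2.2.1 _
  have hφi : Function.Injective φ := by
    rintro ⟨J, u⟩ ⟨J', u'⟩ e
    have h1 : J = J' := Subtype.ext (by rw [← hφsp (J, u), ← hφsp (J', u'), e])
    subst h1
    exact Prod.ext rfl (Subtype.ext (mul_right_cancel₀ (hne J) e))
  have hφm : ∀ p, φ p ∈ cls j c := fun p => by
    rw [mem_cls_iff hc]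
    have := U_mul p.2.2.2 ((mem_cls_iff hc).1 (hn₀ p.1))
    rwa [← mul_div_assoc] at this
  have hφs : ∀ n ∈ cls j c, n ∈ Set.range φ := by
    intro n hn
    let J : 𝒥 := ⟨Ideal.span {n}, n, hn, rfl⟩
    obtain ⟨u, hu⟩ := Ideal.span_singleton_eq_span_singleton.1 (hsp J)
    refine ⟨(J, ⟨u, u.isUnit, ?_⟩), (mul_comm _ _).trans hu⟩
    have h1 := U_mul ((mem_cls_iff hc).1 hn) (U_inv hj ((mem_cls_iff hc).1 (hn₀ J)))
    have h2 : (n : K) / c * ((n₀ J : K) / c)⁻¹ = ((u : R K) : K) := by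
      have := hne' J
      rw [← hu]
      push_cast
      field_simp
    rwa [h2] at h1
  let h : 𝒥 → (Pl K → ℝ) → ℂ := fun J t => muR J.1 * zm1H s (lg (n₀ J : K)) t
  have hh : ∀ J, Integrable (h J) := fun J => (zm1H_int s _).const_mul _
  have part := fun J => zm1_part (b := fun (u : E) t => β (t + lg ((u : R K) : K)))
    (fun u => hβm.comp (measurable_add_const _)) (fun u t => hβ0 _) hβ1 (hh J)
  let F' : 𝒥 × E → (Pl K → ℝ) → ℂ := fun p t => (β (t + lg ((p.2 : R K) : K)) : ℂ) * h p.1 t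
  let F : 𝒥 × E → (Pl K → ℝ) → ℂ := fun p t => F' p (t - lg ((p.2 : R K) : K))
  have e1 : ∀ t, (β t : ℂ) * Sm mu j c 1 t 0 * Complex.exp (-s * (2 * ∑ v, t v : ℝ)) =
      ∑' p, F p t := by
    intro t
    unfold Sm
    rw [← hφi.tsum_eq fun n hn => hφs n (by
      by_contra h'
      exact hn (if_neg h')), ← tsum_mul_left, ← tsum_mul_right]
    refine tsum_congr fun p => ?_
    rw [if_pos (hφm p), mul_assoc, mul_assoc, zm1_pk, ← muR_span, hφsp]
    simp only [F, F', h, φ, sub_add_cancel]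
    rw [zm1H_shift _ _ _ (zm1_unit hj p.2.2.1 p.2.2.2), Subring.coe_mul,
      lg_mul (U_ne_zero hj p.2.2.2) (hne' _)]
  have hFi : ∀ p, Integrable (F p) := fun p => ((part p.1).1 p.2).comp_sub_right _
  have hF1 : ∀ p, ∫ t, F p t = ∫ t, F' p t := fun p => integral_sub_right_eq_self (F' p) _
  have hF2 : ∀ p, ∫ t, ‖F p t‖ = ∫ t, ‖F' p t‖ := fun p =>
    integral_sub_right_eq_self (fun t => ‖F' p t‖) _
  have hbot : ∀ J : 𝒥, J.1 ≠ ⊥ := fun J => by
    rw [← hsp, Ne, Ideal.span_singleton_eq_bot]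
    exact hne J
  have hsum : Summable fun p => ∫ t, ‖F p t‖ := by
    simp only [hF2]
    refine (summable_prod_of_nonneg fun p => integral_nonneg fun _ => norm_nonneg _).2
      ⟨fun J => (part J).2.1, ?_⟩
    refine Summable.of_nonneg_of_le
      (fun J => tsum_nonneg fun u => integral_nonneg fun _ => norm_nonneg _)
      (fun J => (part J).2.2.1.trans ?_) (((summable_nmI (K := K) hs).subtype _).mul_left
        (‖zm1k s.re‖ ^ rr K * Real.exp (-s.re * Real.log (NS c))))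
    simp only [h, norm_mul, Function.comp]
    rw [integral_const_mul, zm1H_integral_norm, zm1_log hj hc (hn₀ J), hsp, mul_add, Real.exp_add,
      ← mul_assoc (‖zm1k s.re‖ ^ _), mul_comm (-s.re) (Real.log (NI _)),
      ← Real.rpow_def_of_pos (NI_pos (hbot J))]
    refine mul_le_of_le_one_left (mul_nonneg (by positivity) (Real.rpow_nonneg (NI_nonneg _) _)) ?_
    rw [← hsp, muR_span]
    exact norm_mu_le _
  have main := hasSum_integral_of_summable_integral_norm hFi hsum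
  simp only [hF1] at main
  have main2 := main.prod_fiberwise fun J => (part J).2.2.2
  simp only [e1]
  have hv : Function.Injective (Subtype.val : 𝒥 → Ideal (R K)) := Subtype.val_injective
  rw [← main2.tsum_eq, Dc, ← hv.tsum_eq fun J hJ => ⟨⟨J, by
      by_contra h'
      exact hJ (if_neg h')⟩, rfl⟩, ← tsum_mul_left]
  refine tsum_congr fun J => ?_
  rw [if_pos J.2]
  simp only [h]
  rw [integral_const_mul, zm1H_integral, zm1_log hj hc (hn₀ J), hsp,
    Complex.cpow_def_of_ne_zero (Complex.ofReal_ne_zero.2 (NI_pos (hbot J)).ne'),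
    ← Complex.ofReal_log (NI_nonneg _), Complex.ofReal_add, mul_add, Complex.exp_add,
    mul_comm (-s) (Real.log (NI J.1) : ℂ)]
  ring

theorem mellin_cls (j : ℕ) (hj : 1 ≤ j) (c : K) (hc : c ≠ 0) (θ C : ℝ) (hθ : θ ≤ 1)
    (h : ∀ t : Pl K → ℝ, ‖Sm mu j c 1 t 0‖ ≤ C * sz c t ^ θ) :
    ∃ G : ℂ → ℂ, DifferentiableOn ℂ G {s : ℂ | θ < s.re} ∧ ∀ s : ℂ, 1 < s.re → G s = Dc j c s := by
  obtain ⟨β, Cβ, hβm, hβb, hβ1⟩ := exists_unit_weight (K := K) j hj
  have hne : ∀ s : ℂ, zm1k s ^ rr K * Complex.exp (-s * Real.log (NS c)) ≠ 0 := fun s =>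
    mul_ne_zero (pow_ne_zero _ (zm1k_ne s)) (Complex.exp_ne_zero _)
  refine ⟨fun s => (zm1k s ^ rr K * Complex.exp (-s * Real.log (NS c)))⁻¹ *
    ∫ t, (β t : ℂ) * Sm mu j c 1 t 0 * Complex.exp (-s * (2 * ∑ v, t v : ℝ)), ?_, fun s hs => ?_⟩
  · have hcont : Continuous fun t : Pl K → ℝ => Sm mu j c 1 t 0 :=
      (continuous_Sm (mod_of_le_one norm_mu_le) hj hc one_pos).comp
        (f := fun t : Pl K → ℝ => (t, (0 : Pl K → ℝ))) (continuous_id.prodMk continuous_const)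
    have hg : Measurable fun t : Pl K → ℝ => (β t : ℂ) * Sm mu j c 1 t 0 :=
      (Complex.measurable_ofReal.comp hβm).mul hcont.measurable
    refine DifferentiableOn.mul (Differentiable.differentiableOn ?_)
      (zm1_diff hg.aestronglyMeasurable (S := fun t : Pl K → ℝ => 2 * ∑ v, t v) (by fun_prop)
        fun σ hσ => ?_)
    · exact ((zm1k_diff.pow _).mul (by fun_prop)).inv hne
    · obtain ⟨C', η, hη, hb⟩ := zm1_bound hj hc h hσ
      refine ((zm1_int_maj (ι := Pl K) rr_pos hη).const_mul (Cβ * C')).mono'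
        (hg.norm.mul (by fun_prop)).aestronglyMeasurable (.of_forall fun t => ?_)
      rw [Real.norm_of_nonneg (by positivity), norm_mul, Complex.norm_real,
        Real.norm_of_nonneg (hβb t).1, mul_assoc]
      refine (mul_le_mul (hβb t).2 (hb t) (by positivity) ((hβb t).1.trans (hβb t).2)).trans_eq ?_
      ring
  · dsimp only
    rw [zm1_eq hj hc hβm (fun t => (hβb t).1) hβ1 hs, inv_mul_cancel_left₀ (hne s)]

end Crest.Agent.GQ
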