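import Crest.Agent.GQ.ZMel2

/-!
# Project GQ, part B3: ideals of the ring of integers and ideals of R
-/

set_option autoImplicit false

noncomputable section

open NumberField Complex UniqueFactorizationMonoid MeasureTheory
open scoped ComplexConjugate ENNReal

namespace Crest.Agent.GQ

variable {K : Type} [Field K] [NumberField K] [P : Pre K]

omit P in
theorem zmel3_muI_mul {I J : Ideal (𝓞 K)} (hI : I ≠ ⊥) (hJ : J ≠ ⊥) (h : IsCoprime I J) :
    muI (I * J) = muI I * muI J := by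
  classical
  unfold muI
  rw [squarefree_mul_iff]
  by_cases h1 : Squarefree I
  · by_cases h2 : Squarefree J
    · rw [if_pos ⟨h.isRelPrime, h1, h2⟩, if_pos h1, if_pos h2, normalizedFactors_mul hI hJ,
        Multiset.card_add, pow_add]
    · rw [if_neg (fun h3 => h2 h3.2.2), if_neg h2, mul_zero]
  · rw [if_neg (fun h3 => h1 h3.2.1), if_neg h1, zero_mul]

omit P in
theorem zmel3_norm_muI (I : Ideal (𝓞 K)) : ‖muI I‖ ≤ 1 := by
  classical
  unfold muI
  split_ifs <;> simp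

omit P in
theorem zmel3_squarefree {I : Ideal (𝓞 K)} (h : muI I ≠ 0) : Squarefree I := by
  classical
  by_contra hn
  exact h (by unfold muI; rw [if_neg hn])

/-- The general term. -/
def zmel3_f {m : Ideal (𝓞 K)} (ξ : RayChar K m) (s : ℂ) (J : Ideal (𝓞 K)) : ℂ :=
  muI J * ξ.toFun J * ((Ideal.absNorm J : ℂ)) ^ (-s)

omit P in
theorem zmel3_f_mul {m : Ideal (𝓞 K)} (ξ : RayChar K m) (s : ℂ) {I J : Ideal (𝓞 K)} (hI : I ≠ ⊥)
    (hJ : J ≠ ⊥) (h : IsCoprime I J) : zmel3_f ξ s (I * J) = zmel3_f ξ s I * zmel3_f ξ s J := by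
  unfold zmel3_f
  rw [zmel3_muI_mul hI hJ h, ξ.map_mul, map_mul, Nat.cast_mul, Complex.natCast_mul_natCast_cpow]
  ring

omit P in
theorem zmel3_f_sqf {m : Ideal (𝓞 K)} (ξ : RayChar K m) (s : ℂ) {I : Ideal (𝓞 K)}
    (h : zmel3_f ξ s I ≠ 0) : Squarefree I :=
  zmel3_squarefree fun h0 => h (by unfold zmel3_f; rw [h0, zero_mul, zero_mul])

theorem zmel3_comap_ne {J : Ideal (R K)} (h : J.comap toR ≠ ⊥) : J ≠ ⊥ := by
  rintro rfl
  exact h (Ideal.comap_bot_of_injective toR toR_injective)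

/-- Removal of the Euler factors at the primes dividing `M`. -/
theorem tsum_eq_euler {m : Ideal (𝓞 K)} (hm : m ≠ ⊥) (ξ : RayChar K m) : ∃ Eu : ℂ → ℂ, Differentiable ℂ Eu ∧
    ∀ s : ℂ, 1 < s.re →
      ∑' J : Ideal (𝓞 K), muI J * ξ.toFun J * ((Ideal.absNorm J : ℂ)) ^ (-s) =
        Eu s * ∑' J : Ideal (R K), muR J * ξ.toFun (J.comap toR) * (NI J : ℂ) ^ (-s) := by
  classical
  set 𝔪 : Ideal (𝓞 K) := Ideal.span {((P.M : ℕ) : 𝓞 K)} with h𝔪
  have h𝔪0 : 𝔪 ≠ ⊥ := by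
    rw [h𝔪, Ne, Ideal.span_singleton_eq_bot]
    exact_mod_cast P.M0
  have : Fintype {D : Ideal (𝓞 K) // D ∣ 𝔪} := UniqueFactorizationMonoid.fintypeSubtypeDvd 𝔪 h𝔪0
  have hD0 : ∀ D : {D : Ideal (𝓞 K) // D ∣ 𝔪}, D.1 ≠ ⊥ := fun D => ne_zero_of_dvd_ne_zero h𝔪0 D.2
  refine ⟨fun s => ∑ D : {D : Ideal (𝓞 K) // D ∣ 𝔪}, zmel3_f ξ s D.1, ?_, fun s hs => ?_⟩
  · refine Differentiable.fun_sum fun D _ => ?_
    unfold zmel3_f
    refine Differentiable.const_mul (differentiable_id.neg.const_cpow (Or.inl ?_)) _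
    rw [Nat.cast_ne_zero, Ne, Ideal.absNorm_eq_zero_iff]
    exact hD0 D
  · have hg : ∀ J : Ideal (R K), muR J * ξ.toFun (J.comap toR) * (NI J : ℂ) ^ (-s) =
        zmel3_f ξ s (J.comap toR) := fun J => by
      unfold zmel3_f NI
      rw [muI_comap_toR, absNorm_comap_toR, Complex.ofReal_natCast]
    have hsum : Summable fun J : Ideal (R K) => ‖zmel3_f ξ s (J.comap toR)‖ := by
      refine (summable_nmI (K := K) hs).of_nonneg_of_le (fun _ => norm_nonneg _) fun J => ?_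
      unfold zmel3_f
      rw [norm_mul, norm_mul, absNorm_comap_toR,
        Complex.norm_natCast_cpow_of_re_ne_zero _ (by rw [neg_re]; linarith), neg_re]
      refine mul_le_of_le_one_left (Real.rpow_nonneg (Nat.cast_nonneg _) _) ?_
      exact mul_le_one₀ (zmel3_norm_muI _) (norm_nonneg _) (norm_rayChar_le hm ξ _)
    simp only [hg]
    rw [← tsum_fintype (L := SummationFilter.unconditional _),
      tsum_mul_tsum_of_summable_norm Summable.of_finite hsum]
    have hcop : ∀ (D : {D : Ideal (𝓞 K) // D ∣ 𝔪}) {J : Ideal (R K)}, J.comap toR ≠ ⊥ →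
        IsCoprime D.1 (J.comap toR) := fun D J hJ =>
      ((isCoprime_comap_toR (zmel3_comap_ne hJ)).of_isCoprime_of_dvd_right D.2).symm
    have hne : ∀ x : Function.support fun z : {D : Ideal (𝓞 K) // D ∣ 𝔪} × Ideal (R K) =>
        zmel3_f ξ s z.1.1 * zmel3_f ξ s (z.2.comap toR), x.1.2.comap toR ≠ ⊥ := fun x =>
      (zmel3_f_sqf ξ s (right_ne_zero_of_mul x.2)).ne_zero
    refine tsum_eq_tsum_of_ne_zero_bij (f := zmel3_f ξ s)
      (fun x => x.1.1.1 * x.1.2.comap toR) ?_ ?_ ?_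
    · intro x y hxy
      simp only at hxy
      have h1 : x.1.2.comap toR ∣ y.1.2.comap toR :=
        (hcop y.1.1 (hne x)).symm.dvd_of_dvd_mul_left (hxy ▸ dvd_mul_left _ _)
      have h2 : y.1.2.comap toR ∣ x.1.2.comap toR :=
        (hcop x.1.1 (hne y)).symm.dvd_of_dvd_mul_left (hxy ▸ dvd_mul_left _ _)
      have h3 : x.1.2.comap toR = y.1.2.comap toR :=
        le_antisymm (Ideal.le_of_dvd h2) (Ideal.le_of_dvd h1)
      have h4 : x.1.2 = y.1.2 := by rw [← map_comap_toR x.1.2, h3, map_comap_toR]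
      rw [← h3] at hxy
      exact Subtype.ext (Prod.ext (Subtype.ext (mul_right_cancel₀ (hne x) hxy)) h4)
    · intro J hJ
      have hsq := zmel3_f_sqf ξ s hJ
      obtain ⟨C, hC⟩ : J ⊔ 𝔪 ∣ J := Ideal.dvd_iff_le.2 le_sup_left
      have hC0 : C ≠ ⊥ := by
        rintro rfl
        exact hsq.ne_zero (by rw [hC]; exact mul_zero _)
      have hCm : IsCoprime C 𝔪 := by
        rw [Ideal.isCoprime_iff_sup_eq, ← Ideal.isUnit_iff]
        apply hsq
        have h1 : C ⊔ 𝔪 ∣ C := Ideal.dvd_iff_le.2 le_sup_left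
        have h2 : C ⊔ 𝔪 ∣ J ⊔ 𝔪 :=
          Ideal.dvd_iff_le.2 (sup_le_sup_right (Ideal.le_of_dvd (Dvd.intro_left _ hC.symm)) _)
        have h3 := mul_dvd_mul h2 h1
        rwa [← hC] at h3
      have hCc : (C.map toR).comap toR = C := comap_map_toR hCm
      have hDm : J ⊔ 𝔪 ∣ 𝔪 := Ideal.dvd_iff_le.2 le_sup_right
      refine ⟨⟨(⟨J ⊔ 𝔪, hDm⟩, C.map toR), ?_⟩, ?_⟩
      · simp only [Function.mem_support, hCc]
        rw [← zmel3_f_mul ξ s (hD0 ⟨_, hDm⟩) hC0 (hCm.of_isCoprime_of_dvd_right hDm).symm, ← hC]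
        exact hJ
      · simp only [hCc]
        exact hC.symm
    · intro x
      exact zmel3_f_mul ξ s (hD0 _) (hne x) (hcop _ (hne x))

end Crest.Agent.GQ
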