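import Crest.Agent.GQ.ZStep
import Crest.Agent.GQ.ZFinal
import Crest.Agent.GQ.ZMel1
import Crest.Agent.GQ.ZMel3

/-!
# Project GQ, part B3: the strip from the Voronoi formula
-/

set_option autoImplicit false

noncomputable section

open NumberField Complex UniqueFactorizationMonoid MeasureTheory
open scoped ComplexConjugate ENNReal

namespace Crest.Agent.GQ

variable {K : Type} [Field K] [NumberField K] [P : Pre K]

theorem zstrip_trans {j : ℕ} (hj : 1 ≤ j) {c c' : K} (hc : c ≠ 0) (hc' : c' ≠ 0)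
    {J J' : Ideal (R K)} (h1 : ∃ n ∈ cls j c, Ideal.span {n} = J)
    (h2 : ∃ n ∈ cls j c', Ideal.span {n} = J) (h3 : ∃ n ∈ cls j c, Ideal.span {n} = J') :
    ∃ n ∈ cls j c', Ideal.span {n} = J' := by
  obtain ⟨n, hn, rfl⟩ := h1
  obtain ⟨n', hn', e⟩ := h2
  obtain ⟨m, hm, rfl⟩ := h3
  obtain ⟨u, rfl⟩ := Ideal.span_singleton_eq_span_singleton.1 e.symm
  refine ⟨m * u, ?_, Ideal.span_singleton_mul_right_unit u.isUnit m⟩
  have hn0 : (n : K) ≠ 0 := by exact_mod_cast ne_zero_of_mem_cls hj hc hn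
  rw [mem_cls_iff hc] at hn hm
  rw [mem_cls_iff hc'] at hn' ⊢
  have := U_mul (U_mul hm (U_inv hj hn)) hn'
  convert this using 1
  push_cast
  field_simp

open Classical in
theorem zstrip_summable (j : ℕ) (c : K) {s : ℂ} (hs : 1 < s.re) :
    Summable fun J : Ideal (R K) =>
      if ∃ n ∈ cls j c, Ideal.span {n} = J then muR J * (NI J : ℂ) ^ (-s) else 0 := by
  refine Summable.of_norm_bounded (summable_nmI (K := K) hs) fun J => ?_
  have h0 : (0 : ℝ) ≤ (nmI J : ℝ) := Nat.cast_nonneg _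
  split_ifs
  · rw [norm_mul, NI, Complex.norm_cpow_eq_rpow_re_of_nonneg h0
      (by rw [neg_re]; linarith), neg_re]
    exact mul_le_of_le_one_left (Real.rpow_nonneg h0 _) (norm_mu_le _)
  · rw [norm_zero]
    exact Real.rpow_nonneg h0 _

/-- Splitting of the series over ideals of `R` into classes. -/
theorem tsum_eq_sum_Dc (j : ℕ) (hj : 1 ≤ j) (ξ : Ideal (R K) → ℂ) (hb : ∃ C, ∀ J, ‖ξ J‖ ≤ C)
    (hξ : ∀ c : K, c ≠ 0 → ∀ n ∈ cls j c, ∀ n' ∈ cls j c,
      ξ (Ideal.span {n}) = ξ (Ideal.span {n'})) :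
    ∃ (S : Finset K) (α : K → ℂ), (∀ c ∈ S, c ≠ 0) ∧ ∀ s : ℂ, 1 < s.re →
      ∑' J : Ideal (R K), muR J * ξ J * (NI J : ℂ) ^ (-s) = ∑ c ∈ S, α c * Dc j c s := by
  classical
  obtain ⟨S, hS, hgen⟩ := gen_cls (K := K) j
  have hne : ∀ c : K, ∃ n : R K, c ≠ 0 → n ∈ cls j c := fun c => by
    by_cases hc : c = 0
    · exact ⟨0, fun h => absurd hc h⟩
    · obtain ⟨n, hn⟩ := cls_nonempty j hc
      exact ⟨n, fun _ => hn⟩
  choose nc hnc using hne
  set N : Ideal (R K) → ℕ := fun J =>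
    (S.filter fun c => ∃ n ∈ cls j c, Ideal.span {n} = J).card with hN
  refine ⟨S, fun c => ξ (Ideal.span {nc c}) / N (Ideal.span {nc c}), fun c hc => (hS c hc).1,
    fun s hs => ?_⟩
  simp only [Dc, ← tsum_mul_left]
  rw [← Summable.tsum_finsetSum fun c _ => (zstrip_summable j c hs).mul_left _]
  refine tsum_congr fun J => ?_
  by_cases hJ : J = ⊥
  · have : muR J = 0 := ar_muR_eq_zero.2 (by rw [hJ]; exact not_squarefree_zero)
    simp [this]
  · have hpos : N J ≠ 0 := by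
      obtain ⟨c, hc, hg⟩ := hgen J hJ
      exact Finset.card_ne_zero.2 ⟨c, Finset.mem_filter.2 ⟨hc, _, hg, span_gen J⟩⟩
    have hpos' : (N J : ℂ) ≠ 0 := by exact_mod_cast hpos
    have key : ∀ c ∈ S.filter (fun c => ∃ n ∈ cls j c, Ideal.span {n} = J),
        ξ (Ideal.span {nc c}) / N (Ideal.span {nc c}) * (muR J * (NI J : ℂ) ^ (-s)) =
          ξ J / N J * (muR J * (NI J : ℂ) ^ (-s)) := by
      intro c hc
      obtain ⟨hcS, hcJ⟩ := Finset.mem_filter.1 hc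
      have hc0 := (hS c hcS).1
      have h0 : ∃ n ∈ cls j c, Ideal.span {n} = Ideal.span {nc c} := ⟨_, hnc c hc0, rfl⟩
      have e1 : N (Ideal.span {nc c}) = N J := by
        simp only [hN]
        congr 1
        refine Finset.filter_congr fun c' hc' => ?_
        exact ⟨fun h => zstrip_trans hj hc0 (hS c' hc').1 h0 h hcJ,
          fun h => zstrip_trans hj hc0 (hS c' hc').1 hcJ h h0⟩
      obtain ⟨n, hn, rfl⟩ := hcJ
      rw [e1, hξ c hc0 _ (hnc c hc0) n hn]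
    simp only [mul_ite, mul_zero]
    rw [← Finset.sum_filter, Finset.sum_congr rfl key, Finset.sum_const, nsmul_eq_mul]
    change _ = (N J : ℂ) * _
    field_simp

theorem strip_of_cv [Q : Rec K] (hcv : CV K) (m : Ideal (𝓞 K)) (hm : ((P.M : ℕ) : 𝓞 K) ∈ m)
    (ξ : RayChar K m) :
    ∃ G : ℂ → ℂ, DifferentiableOn ℂ G {s : ℂ | theta0 < s.re} ∧
      ∀ s : ℂ, 1 < s.re →
        G s = ∑' J : Ideal (𝓞 K), muI J * ξ.toFun J * ((Ideal.absNorm J : ℂ)) ^ (-s) := by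
  have hm0 : m ≠ ⊥ := by
    rintro rfl
    exact P.M0 (by exact_mod_cast (Ideal.mem_bot.1 hm))
  obtain ⟨C, -, hC⟩ := amplify (acond_final hcv) (Rec.k K) le_rfl
  obtain ⟨Eu, hEu, hE⟩ := tsum_eq_euler hm0 ξ
  obtain ⟨S, α, hS, hα⟩ := tsum_eq_sum_Dc (Rec.k K) Q.hk (fun J => ξ.toFun (J.comap toR))
    ⟨1, fun J => norm_rayChar_le hm0 ξ _⟩ fun c hc n hn n' hn' =>
      rayChar_cls hm ξ Q.hk hc hn hn'
  have hG : ∀ c : K, ∃ G : ℂ → ℂ, c ≠ 0 → DifferentiableOn ℂ G {s : ℂ | theta0 < s.re} ∧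
      ∀ s : ℂ, 1 < s.re → G s = Dc (Rec.k K) c s := fun c => by
    by_cases hc : c = 0
    · exact ⟨0, fun h => absurd hc h⟩
    · obtain ⟨G, hG⟩ := mellin_cls (Rec.k K) Q.hk c hc theta0 C (by norm_num [theta0]) (hC c hc)
      exact ⟨G, fun _ => hG⟩
  choose G hG using hG
  refine ⟨fun s => Eu s * ∑ c ∈ S, α c * G c s, hEu.differentiableOn.mul
    (DifferentiableOn.fun_sum fun c hc => (hG c (hS c hc)).1.const_mul _), fun s hs => ?_⟩
  rw [hE s hs, hα s hs]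
  exact congrArg _ (Finset.sum_congr rfl fun c hc => by rw [(hG c (hS c hc)).2 s hs])

end Crest.Agent.GQ
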