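import Crest.Agent.GQ.PreEx
import Crest.Agent.GQ.RecEx
import Crest.Agent.GQ.ThCV
import Crest.Agent.GQ.ZStrip

/-! # GQ Strip: the uniform zero-free strip -/

set_option autoImplicit false

noncomputable section

open NumberField

namespace Crest.Agent.GQ

theorem strip (K : Type) [Field K] [NumberField K] (w : K) (hw : IsPrimitiveRoot w 3) :
    Strip K := by
  intro m hm ξ
  have hN : Ideal.absNorm m ≠ 0 := by rwa [Ne, Ideal.absNorm_eq_zero_iff]
  obtain ⟨P, -, hdvd⟩ := exists_pre K w hw hN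
  obtain ⟨Q⟩ := exists_rec K
  refine strip_of_cv cv_main m ?_ ξ
  obtain ⟨c, hc⟩ := hdvd
  rw [hc]
  push_cast
  exact m.mul_mem_right _ (Ideal.absNorm_mem m)

end Crest.Agent.GQ
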