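import Crest.Agent.GQ.PoissonAux1
import Crest.Agent.GQ.PoissonAux2

/-! # GQ Poisson: Poisson summation over the lattices `Lat x` -/

set_option autoImplicit false

noncomputable section

open NumberField Complex
open scoped ComplexConjugate

namespace Crest.Agent.GQ

variable {K : Type} [Field K] [NumberField K] [P : Pre K]

open MeasureTheory

theorem po_eC_zero : eC (0 : Pl K → ℂ) = 1 := by simp [eC]

theorem po_cont {φ : (Pl K → ℂ) → Pl K → ℂ} (h : Continuous φ) : Continuous fun z => eC (φ z) :=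
  continuous_eC.comp h

theorem po_factor {ρ : Pl K → ℝ} (w z : Pl K → ℂ) :
    (Real.exp (-Real.pi * po_q ρ z) : ℂ) * eC (-(w * z)) =
      ∏ v, cexp (-((Real.pi / ρ v : ℝ) : ℂ) * ‖z v‖ ^ 2 +
        (-(4 * Real.pi * I)) * (inner ℝ (conj (w v)) (z v) : ℝ)) := by
  rw [← Complex.exp_sum, eC, Complex.ofReal_exp, ← Complex.exp_add, po_q]
  congr 1
  push_cast
  rw [Finset.mul_sum, Finset.mul_sum, ← Finset.sum_add_distrib]
  refine Finset.sum_congr rfl fun v _ => ?_
  rw [Complex.inner, conj_conj, mul_comm (z v)]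
  simp only [Pi.neg_apply, Pi.mul_apply, neg_re, ofReal_neg]
  ring

theorem po_integrable {ρ : Pl K → ℝ} (hρ : ∀ v, 0 < ρ v) :
    Integrable (fun z : Pl K → ℂ => Real.exp (-Real.pi * po_q ρ z)) := by
  have h := (Integrable.fintype_prod (μ := fun _ : Pl K => (volume : Measure ℂ))
    fun v => GaussianFourier.integrable_cexp_neg_mul_sq_norm_add (V := ℂ)
      (b := ((Real.pi / ρ v : ℝ) : ℂ)) (by rw [ofReal_re]; exact div_pos Real.pi_pos (hρ v))
      (-(4 * Real.pi * I)) (conj ((0 : Pl K → ℂ) v))).norm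
  refine h.congr (Filter.Eventually.of_forall fun z => ?_)
  beta_reduce
  rw [← po_factor, norm_mul, norm_eC, mul_one, norm_real, Real.norm_of_nonneg (Real.exp_pos _).le]

theorem po_exp_le {c : ℝ} (hc : 0 < c) (u : Pl K → ℂ) :
    Real.exp (-c * ‖u‖ ^ 2) ≤ Real.exp (-Real.pi * po_q (fun _ => Real.pi * rr K / c) u) := by
  have hr : (0 : ℝ) < rr K := by exact_mod_cast rr_pos
  have hp := Real.pi_pos
  have h1 : po_q (fun _ => Real.pi * rr K / c) u ≤ rr K * (‖u‖ ^ 2 / (Real.pi * rr K / c)) := by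
    rw [po_q, ← nsmul_eq_mul]
    refine Finset.sum_le_card_nsmul _ _ _ fun v _ => ?_
    gcongr
    exact norm_le_pi_norm u v
  have h2 : Real.pi * (rr K * (‖u‖ ^ 2 / (Real.pi * rr K / c))) = c * ‖u‖ ^ 2 := by field_simp
  exact Real.exp_le_exp.2 (by nlinarith)

theorem po_sq_add_le (a b : Pl K → ℂ) : ‖a‖ ^ 2 ≤ 2 * ‖b + a‖ ^ 2 + 2 * ‖b‖ ^ 2 := by
  have h : ‖a‖ ≤ ‖b + a‖ + ‖b‖ := by simpa using norm_sub_le (b + a) b
  nlinarith [norm_nonneg a, norm_nonneg b, norm_nonneg (b + a), sq_nonneg (‖b + a‖ - ‖b‖)]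

theorem po_eC_dual {x : K} (hx : x ≠ 0) {y n : R K} (hy : y ∈ Lat (x * dl K)⁻¹) (hn : n ∈ Lat x)
    (z : Pl K → ℂ) : eC (emb (y : K) * (z + emb (n : K))) = eC (emb (y : K) * z) := by
  rw [mul_add, eC_add, ← emb_mul, eC_emb, (dual_Lat hx y).2 ⟨y.2, hy⟩ n hn, mul_one]

theorem po_coset {x : K} (hx : x ≠ 0) {n : R K} (hn : n ≠ 0) : ∃ S : Finset (R K),
    (∀ a ∈ S, a ∈ Lat (n * x)) ∧ (∀ y, ∃! a, a ∈ S ∧ n ∣ a - y) ∧ ∀ g : R K → ℂ,
      (∀ a ∈ S, Summable fun m : Lat x => ‖g (n * m - a)‖) →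
      ∑' κ : Lat (n * x), g κ = ∑ a ∈ S, ∑' m : Lat x, g (n * m - a) := by
  classical
  have hn' : (n : K) ≠ 0 := fun h => hn (Subtype.ext h)
  choose b hb hb' using exists_crt (mul_ne_zero hn' hx) 0 hn
  have hS : ∀ a ∈ (reps n).image b, a ∈ Lat (n * x) := by
    intro a ha
    obtain ⟨a, -, rfl⟩ := Finset.mem_image.1 ha
    simpa [mem_Lat] using hb' a
  have hU : ∀ y, ∃! a, a ∈ (reps n).image b ∧ n ∣ a - y := by
    intro y
    obtain ⟨a, ⟨ha, hay⟩, hu⟩ := reps_existsUnique hn y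
    refine ⟨b a, ⟨Finset.mem_image_of_mem _ ha, by simpa using dvd_add (hb a) hay⟩, ?_⟩
    rintro _ ⟨ha', h⟩
    obtain ⟨a', ha'', rfl⟩ := Finset.mem_image.1 ha'
    rw [hu a' ⟨ha'', by simpa using dvd_sub h (hb a')⟩]
  refine ⟨_, hS, hU, fun g hg => ?_⟩
  generalize (reps n).image b = S at hS hU hg
  let e : S × Lat x → Lat (n * x) := fun p =>
    ⟨n * p.2 - p.1, sub_mem ((mem_Lat_mul_iff hn).2 p.2.2) (hS _ p.1.2)⟩
  have he : Function.Bijective e := by
    constructor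
    · rintro ⟨⟨a, ha⟩, m⟩ ⟨⟨a', ha'⟩, m'⟩ h
      have h1 : n * m - a = n * m' - a' := congrArg Subtype.val h
      obtain rfl : a = a' := (hU a').unique ⟨ha, m - m', by linear_combination -h1⟩ ⟨ha', by simp⟩
      obtain rfl : m = m' := Subtype.ext (mul_left_cancel₀ hn (by linear_combination h1))
      rfl
    · intro κ
      obtain ⟨a, ⟨ha, m, hm⟩, -⟩ := hU (-κ)
      have hm' : m ∈ Lat x := by
        rw [← mem_Lat_mul_iff hn, ← hm]
        exact sub_mem (hS a ha) (neg_mem κ.2)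
      exact ⟨(⟨a, ha⟩, ⟨m, hm'⟩), Subtype.ext (by simp only [e]; linear_combination -hm)⟩
  have hs : Summable fun p : S × Lat x => g (n * p.2 - p.1) :=
    .of_norm ((summable_prod_of_nonneg fun _ => norm_nonneg _).2
      ⟨fun a => hg a a.2, Summable.of_finite⟩)
  rw [← (Equiv.ofBijective e he).tsum_eq, ← Finset.tsum_subtype, ← hs.tsum_prod]
  rfl

/-- Poisson summation for continuous functions of Gaussian decay -/
theorem poisson {x : K} (hx : x ≠ 0) {f : (Pl K → ℂ) → ℂ} (hf : Continuous f) {C c : ℝ}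
    (hc : 0 < c) (hb : ∀ z, ‖f z‖ ≤ C * Real.exp (-c * ‖z‖ ^ 2))
    (hs : Summable (fun y : Lat (x * dl K)⁻¹ =>
      ‖∫ z, f z * eC (-(emb ((y : R K) : K) * z))‖)) :
    ∑' n : Lat x, f (emb ((n : R K) : K)) =
      ((cov K * NS x : ℝ) : ℂ)⁻¹ *
        ∑' y : Lat (x * dl K)⁻¹, ∫ z, f z * eC (-(emb ((y : R K) : K) * z)) := by
  have hr : (0 : ℝ) < rr K := by exact_mod_cast rr_pos
  have hp := Real.pi_pos
  have hC : 0 ≤ C := by simpa using (norm_nonneg _).trans (hb 0)
  have hV : 0 < cov K * NS x := mul_pos cov_pos (NS_pos hx)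
  have hV' : ((cov K * NS x : ℝ) : ℂ) ≠ 0 := by exact_mod_cast hV.ne'
  have hint : Integrable f := by
    refine ((po_integrable (ρ := fun _ => Real.pi * rr K / c) fun _ => by positivity).const_mul
      C).mono' hf.aestronglyMeasurable (Filter.Eventually.of_forall fun z => ?_)
    exact (hb z).trans (mul_le_mul_of_nonneg_left (po_exp_le hc z) hC)
  set g : Lat x → ℝ := fun n => Real.exp (-Real.pi *
    po_q (fun _ => Real.pi * rr K / (c / 2)) (emb ((n : R K) : K))) with hg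
  have hgs : Summable g := by
    simpa [hg] using
      po_summable hx (ρ := fun _ => Real.pi * rr K / (c / 2)) (fun _ => by positivity) 0 0
  have hbd : ∀ (r : ℝ) (n : Lat x) (z : Pl K → ℂ), ‖z‖ ≤ r →
      ‖f (z + emb ((n : R K) : K))‖ ≤ C * Real.exp (c * r ^ 2) * g n := by
    intro r n z hz
    refine (hb _).trans ?_
    rw [mul_assoc]
    refine mul_le_mul_of_nonneg_left ?_ hC
    refine le_trans ?_ (mul_le_mul_of_nonneg_left (po_exp_le (half_pos hc) _) (Real.exp_pos _).le)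
    rw [← Real.exp_add]
    have h1 := po_sq_add_le (emb ((n : R K) : K)) z
    have h2 : ‖z‖ ^ 2 ≤ r ^ 2 := by gcongr
    exact Real.exp_le_exp.2 (by nlinarith)
  set F : (Pl K → ℂ) → ℂ := fun z => ∑' n : Lat x, f (z + emb ((n : R K) : K)) with hF
  have hFc : Continuous F := by
    rw [continuous_iff_continuousAt]
    intro z
    refine (continuousOn_tsum (s := Metric.closedBall 0 (‖z‖ + 1)) (fun n => ?_)
      (hgs.mul_left _) (fun n u hu => hbd (‖z‖ + 1) n u (by simpa using hu))).continuousAt ?_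
    · exact (hf.comp (by fun_prop)).continuousOn
    · exact Metric.closedBall_mem_nhds_of_mem (by simp)
  set a : R K → ℂ := Set.indicator (Lat (x * dl K)⁻¹ : Set (R K))
    fun y => ∫ z, f z * eC (-(emb (y : K) * z)) with ha
  have ha1 : ∀ y, a y ≠ 0 → y ∈ Lat (x * dl K)⁻¹ := fun y hy => Set.mem_of_indicator_ne_zero hy
  have ha2 : Summable fun y => ‖a y‖ := by
    have := (summable_subtype_iff_indicator (s := (Lat (x * dl K)⁻¹ : Set (R K)))
      (f := fun y : R K => ‖∫ z, f z * eC (-(emb (y : K) * z))‖)).1 hs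
    refine this.congr fun y => ?_
    rw [ha, norm_indicator_eq_indicator_norm]
  set G : (Pl K → ℂ) → ℂ := fun z => ∑' y : R K, a y * eC (emb (y : K) * z) with hG
  have hGc : Continuous G := by
    refine continuous_tsum (u := fun y => ‖a y‖) (fun y => ?_) ha2 fun y z => ?_
    · exact continuous_const.mul (po_cont (by fun_prop))
    · rw [norm_mul, norm_eC, mul_one]
  obtain ⟨r, hr'⟩ := (isBounded_fd hx).exists_norm_le
  have hIon : ∀ H : (Pl K → ℂ) → ℂ, Continuous H → IntegrableOn H (fd x) := fun H hH =>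
    (hH.continuousOn.integrableOn_compact (isBounded_fd hx).isCompact_closure).mono_set
      subset_closure
  have key := po_complete hx (F := fun z => ((cov K * NS x : ℝ) : ℂ) * F z - G z)
    ((continuous_const.mul hFc).sub hGc) (fun z n hn => ?_) (fun y hy => ?_)
  · have h0 := sub_eq_zero.1 (congrFun key 0)
    rw [eq_inv_mul_iff_mul_eq₀ hV']
    simp only [hF, hG, zero_add, mul_zero, po_eC_zero, mul_one] at h0
    rw [h0, ha, ← tsum_subtype]
    rfl
  · congr 1
    · congr 1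
      rw [hF]
      beta_reduce
      rw [← (Equiv.addLeft (⟨n, hn⟩ : Lat x)).tsum_eq fun m : Lat x => f (z + emb ((m : R K) : K))]
      refine tsum_congr fun m => ?_
      simp [emb_add, add_assoc]
    · refine tsum_congr fun y => ?_
      by_cases h : a y = 0
      · simp [h]
      · rw [po_eC_dual hx (ha1 y h) hn]
  · have hE : Continuous fun z : Pl K → ℂ => eC (-(emb (y : K) * z)) :=
      po_cont (by fun_prop)
    simp only [sub_mul, mul_assoc]
    rw [integral_sub (hIon _ (by fun_prop)) (hIon _ (by fun_prop)),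
      integral_const_mul, coeff_fd hx ha1 ha2 hy, sub_eq_zero, ha, Set.indicator_of_mem hy,
      integral_eq_tsum_fd hx (hint.mul_bdd (c := 1) hE.aestronglyMeasurable
        (Filter.Eventually.of_forall fun z => (norm_eC _).le))]
    congr 1
    rw [integral_tsum_of_summable_integral_norm]
    · congr 1
      funext z
      rw [hF, ← tsum_mul_right]
      refine tsum_congr fun n => ?_
      rw [eC_neg, eC_neg, po_eC_dual hx hy n.2]
    · intro n
      exact hIon _ ((hf.mul hE).comp (by fun_prop))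
    · refine Summable.of_nonneg_of_le (fun n => integral_nonneg fun _ => norm_nonneg _) (fun n => ?_)
        ((hgs.mul_left (C * Real.exp (c * r ^ 2))).mul_right (volume.real (fd x)))
      refine (Real.le_norm_self _).trans ((norm_setIntegral_le_of_norm_le_const
        (by rw [volume_fd hx]; exact ENNReal.ofReal_lt_top) fun z hz => ?_))
      rw [norm_norm, norm_mul, norm_eC, mul_one]
      exact hbd r n z (hr' z hz)
/-- the Gaussian `exp (-π ∑ |z_v|² / ρ_v)` -/
def gau (ρ : Pl K → ℝ) (z : Pl K → ℂ) : ℝ := Real.exp (-Real.pi * ∑ v, ‖z v‖ ^ 2 / ρ v)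
theorem integral_gau {ρ : Pl K → ℝ} (hρ : ∀ v, 0 < ρ v) (w : Pl K → ℂ) :
    ∫ z, (gau ρ z : ℂ) * eC (-(w * z)) =
      ((∏ v, ρ v : ℝ) : ℂ) * (gau (fun v => 1 / (4 * ρ v)) w : ℂ) := by
  have h : ∀ z, (gau ρ z : ℂ) * eC (-(w * z)) = _ := po_factor (ρ := ρ) w
  simp only [h]
  rw [integral_fintype_prod_volume_eq_prod fun v (u : ℂ) =>
    cexp (-((Real.pi / ρ v : ℝ) : ℂ) * ‖u‖ ^ 2 +
      (-(4 * Real.pi * I)) * (inner ℝ (conj (w v)) u : ℝ)), gau, Finset.mul_sum, Real.exp_sum]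
  push_cast
  rw [← Finset.prod_mul_distrib]
  refine Finset.prod_congr rfl fun v _ => ?_
  have h1 : (ρ v : ℂ) ≠ 0 := by exact_mod_cast (hρ v).ne'
  have h2 : (Real.pi : ℂ) ≠ 0 := by exact_mod_cast Real.pi_pos.ne'
  rw [GaussianFourier.integral_cexp_neg_mul_sq_norm_add
    (by rw [← ofReal_div, ofReal_re]; exact div_pos Real.pi_pos (hρ v)), finrank_real_complex,
    norm_conj]
  congr 1
  · rw [show (Real.pi : ℂ) / (Real.pi / ρ v) = ρ v by field_simp]
    simp
  · congr 1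
    field_simp
    rw [I_sq]
    ring
theorem summable_gau {x : K} (hx : x ≠ 0) {ρ : Pl K → ℝ} (hρ : ∀ v, 0 < ρ v) (z : Pl K → ℂ)
    (A : ℕ) : Summable (fun n : Lat x =>
      (1 + ‖emb ((n : R K) : K)‖) ^ A * gau ρ (emb ((n : R K) : K) + z)) :=
  po_summable hx hρ z A
theorem tsum_gau_le : ∃ C : ℝ, ∀ x : K, x ≠ 0 → ∀ ρ : Pl K → ℝ, (∀ v, 0 < ρ v) →
    ∀ z : Pl K → ℂ, ∑' n : Lat x, gau ρ (emb ((n : R K) : K) + z) ≤ C * (1 + (∏ v, ρ v) / NS x) :=
  po_tsum_le
open Classical in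
/-- rapid decay of the sum over non-zero points when the box is small -/
theorem tsum_gau_ne_zero_le {A B : ℝ} (hA : 0 ≤ A) (hB : 1 + A ≤ B) : ∃ C : ℝ, ∀ x : K, x ≠ 0 →
    ∀ ρ : Pl K → ℝ, (∀ v, 0 < ρ v) →
    ∑' n : Lat x, (if (n : R K) = 0 then 0 else Nr (n : R K) ^ A * gau ρ (emb ((n : R K) : K))) ≤
      C * min (((∏ v, ρ v) / NS x) ^ (1 + A)) (((∏ v, ρ v) / NS x) ^ B) := by
  obtain ⟨C₁, h₁, h1⟩ := po_tsum_ne_le (K := K) hA le_rfl
  obtain ⟨C₂, h₂, h2⟩ := po_tsum_ne_le (K := K) hA hB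
  refine ⟨C₁ + C₂, fun x hx ρ hρ => ?_⟩
  have hQ : 0 ≤ (∏ v, ρ v) / NS x :=
    div_nonneg (Finset.prod_nonneg fun v _ => (hρ v).le) (NS_pos hx).le
  rw [mul_min_of_nonneg _ _ (add_nonneg h₁ h₂)]
  refine le_min ((h1 x hx ρ hρ).trans ?_) ((h2 x hx ρ hρ).trans ?_)
  · gcongr; linarith
  · gcongr; linarith
theorem poisson_gau {x : K} (hx : x ≠ 0) {ρ : Pl K → ℝ} (hρ : ∀ v, 0 < ρ v) (z w : Pl K → ℂ) :
    ∑' n : Lat x, (gau ρ (emb ((n : R K) : K) + z) : ℂ) * eC (emb ((n : R K) : K) * w) =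
      (((∏ v, ρ v) / (cov K * NS x) : ℝ) : ℂ) * ∑' y : Lat (x * dl K)⁻¹,
        (gau (fun v => 1 / (4 * ρ v)) (emb ((y : R K) : K) - w) : ℂ) *
          eC ((emb ((y : R K) : K) - w) * z) := by
  have hp := Real.pi_pos
  have hS : 0 < ∑ v, ρ v := Finset.sum_pos (fun v _ => hρ v) Finset.univ_nonempty
  have hg : ∀ ρ u, 0 < gau (K := K) ρ u := fun _ _ => Real.exp_pos _
  have hT : ∀ y : Pl K → ℂ, ∫ u, (gau ρ (u + z) : ℂ) * eC (u * w) * eC (-(y * u)) =
      ((∏ v, ρ v : ℝ) : ℂ) * ((gau (fun v => 1 / (4 * ρ v)) (y - w) : ℂ) * eC ((y - w) * z)) := by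
    intro y
    rw [← mul_assoc, ← integral_gau hρ, ← integral_mul_const,
      ← integral_add_right_eq_self (fun u => (gau ρ u : ℂ) * eC (-((y - w) * u)) *
        eC ((y - w) * z)) z]
    congr 1
    funext u
    rw [mul_assoc, mul_assoc, ← eC_add, ← eC_add]
    congr 2
    ring
  refine (poisson hx (f := fun u => (gau ρ (u + z) : ℂ) * eC (u * w))
    (C := Real.exp (Real.pi / (∑ v, ρ v) * ‖z‖ ^ 2)) (c := Real.pi / (∑ v, ρ v) / 2) ?_
    (by positivity) (fun u => ?_) ?_).trans ?_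
  rotate_right
  · simp only [hT]
    rw [tsum_mul_left, ofReal_div]
    ring
  · refine Continuous.mul ?_ (po_cont (by fun_prop))
    unfold gau
    fun_prop
  · rw [norm_mul, norm_eC, mul_one, norm_real, Real.norm_of_nonneg (hg _ _).le, ← Real.exp_add]
    have h1 := po_norm_sq_le hρ (u + z)
    have h2 := po_sq_add_le u z
    rw [add_comm z u] at h2
    have h3 : Real.pi / (∑ v, ρ v) * ‖u + z‖ ^ 2 ≤ Real.pi * po_q ρ (u + z) := by
      rw [div_mul_eq_mul_div, div_le_iff₀ hS, mul_assoc]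
      gcongr
    have h4 : 0 < Real.pi / ∑ v, ρ v := by positivity
    refine Real.exp_le_exp.2 ?_
    change -Real.pi * po_q ρ (u + z) ≤ _
    nlinarith
  · simp only [hT, norm_mul, norm_eC, mul_one, norm_real]
    refine Summable.mul_left _ ?_
    have := summable_gau (mul_ne_zero hx dl_ne_zero |> inv_ne_zero)
      (ρ := fun v => 1 / (4 * ρ v)) (fun v => by have := hρ v; positivity) (-w) 0
    simpa [sub_eq_add_neg, abs_of_pos (hg _ _)] using this
/-- Poisson summation with a function periodic modulo `n` -/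
theorem poisson_per {x : K} (hx : x ≠ 0) {ρ : Pl K → ℝ} (hρ : ∀ v, 0 < ρ v) {n : R K} (hn : n ≠ 0)
    (f : R K → ℂ) (hf : ∀ a b, n ∣ a - b → f a = f b) :
    ∑' k : Lat x, (gau ρ (emb ((k : R K) : K)) : ℂ) * f k =
      (((∏ v, ρ v) / (cov K * NS x * Nr n) : ℝ) : ℂ) * ∑' κ : Lat ((n : K) / (x * dl K)),
        gs f n κ * (gau (fun v => 1 / (4 * ρ v)) (emb (((κ : R K) : K) / n)) : ℂ) := by
  have hn' : (n : K) ≠ 0 := fun h => hn (Subtype.ext h)
  have hx' : (x * dl K)⁻¹ ≠ 0 := inv_ne_zero (mul_ne_zero hx dl_ne_zero)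
  have hg : ∀ ρ u, 0 < gau (K := K) ρ u := fun _ _ => Real.exp_pos _
  have hρ' : ∀ v, 0 < 1 / (4 * ρ v) := fun v => by have := hρ v; positivity
  obtain ⟨S, hS, hU, hsum⟩ := po_coset hx' hn
  have hgs : ∀ a b : R K, n ∣ a - b → gs f n a = gs f n b := by
    intro a b h
    refine Finset.sum_congr rfl fun t _ => ?_
    have := eS_div_congr (n := n) (x := a * t) (y := b * t) (by rw [← sub_mul]; exact h.mul_right _)
    push_cast at this
    rw [this]
  have hemb : ∀ m a : R K, emb (((n * m - a : R K) : K) / n) = emb (m : K) - emb ((a : K) / n) := by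
    intro m a
    rw [eq_sub_iff_add_eq, ← emb_add]
    congr 1
    push_cast
    field_simp
    ring
  have hterm : ∀ m a : R K, gs f n (n * m - a) = gs f n (-a) := fun m a =>
    hgs _ _ ⟨m, by ring⟩
  have hf' : ∀ k : Lat x, (gau ρ (emb ((k : R K) : K)) : ℂ) * f k =
      ∑ a ∈ S, (Nr n : ℂ)⁻¹ * gs f n (-a) *
        ((gau ρ (emb ((k : R K) : K) + 0) : ℂ) * eC (emb ((k : R K) : K) * emb ((a : K) / n))) := by
    intro k
    rw [gs_inversion hn f hf k, sum_reps_eq hn _ ?_ S hU, Finset.mul_sum, Finset.mul_sum]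
    · refine Finset.sum_congr rfl fun a ha => ?_
      have h1 : InT (dl K)⁻¹ ((a : K) * (k : R K) / n) := by
        obtain ⟨t, ht, h⟩ := hS a ha
        obtain ⟨t', ht', h'⟩ := k.2
        refine ⟨t * t', mul_mem ht ht', ?_⟩
        have := dl_ne_zero (K := K)
        rw [h, h']
        field_simp
      rw [eS_eq_eT h1, ← emb_mul, eC_emb, add_zero, mul_div_assoc', mul_comm ((k : R K) : K)]
      ring
    · intro a b h
      have := eS_div_congr (n := n) (x := a * k) (y := b * k)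
        (by rw [← sub_mul]; exact h.mul_right _)
      push_cast at this
      rw [this, hgs (-a) (-b) (by rw [neg_sub_neg]; exact dvd_sub_comm.1 h)]
  rw [div_eq_mul_inv (n : K), hsum (fun κ => gs f n κ *
    (gau (fun v => 1 / (4 * ρ v)) (emb ((κ : K) / n)) : ℂ)) fun a _ => ?_]
  · simp only [hf']
    rw [Summable.tsum_finsetSum fun a _ => ?_, Finset.mul_sum]
    · refine Finset.sum_congr rfl fun a _ => ?_
      simp only [hemb, hterm]
      rw [tsum_mul_left, poisson_gau hx hρ, tsum_mul_left]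
      simp only [mul_zero, po_eC_zero, mul_one]
      push_cast
      ring
    · refine Summable.mul_left _ (.of_norm ?_)
      simpa [norm_eC, abs_of_pos (hg _ _)] using summable_gau hx hρ 0 0
  · simp only [hemb, hterm, norm_mul, norm_real]
    refine Summable.mul_left _ ?_
    simpa [sub_eq_add_neg, abs_of_pos (hg _ _)] using summable_gau hx' hρ' (-emb ((a : K) / n)) 0

end Crest.Agent.GQ
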