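import Crest.Agent.GQ.Fd

/-! # GQ Poisson, auxiliary file 1: Gaussian sums over lattices by shells -/

set_option autoImplicit false

noncomputable section

open NumberField Complex
open scoped ComplexConjugate

namespace Crest.Agent.GQ

variable {K : Type} [Field K] [NumberField K] [P : Pre K]

open MeasureTheory

theorem po_shell {ι : Type*} {g : ι → ℝ} (hg : ∀ i, 0 ≤ g i) (κ : ι → ℕ) {b : ℕ → ℝ}
    (hb : Summable b) (h : ∀ k, ∀ s : Finset ι, (∀ i ∈ s, κ i = k) → ∑ i ∈ s, g i ≤ b k) :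
    Summable g ∧ ∑' i, g i ≤ ∑' k, b k := by
  classical
  have hb0 : ∀ k, 0 ≤ b k := fun k => by simpa using h k ∅ (by simp)
  have key : ∀ s : Finset ι, ∑ i ∈ s, g i ≤ ∑' k, b k := by
    intro s
    rw [← Finset.sum_fiberwise_of_maps_to (g := κ) (t := s.image κ)
      (fun i hi => Finset.mem_image_of_mem _ hi)]
    refine (Finset.sum_le_sum fun k _ => h k _ fun i hi => (Finset.mem_filter.1 hi).2).trans ?_
    exact hb.sum_le_tsum _ fun k _ => hb0 k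
  exact ⟨summable_of_sum_le hg key, Real.tsum_le_of_sum_le hg key⟩

theorem po_summable_pow (m : ℕ) :
    Summable fun k : ℕ => ((k : ℝ) + 1) ^ m * Real.exp (-Real.pi * k) := by
  have h := (summable_nat_add_iff 1).2 (Real.summable_pow_mul_exp_neg_nat_mul m Real.pi_pos)
  refine (h.mul_right (Real.exp Real.pi)).congr fun k => ?_
  push_cast
  rw [mul_assoc, ← Real.exp_add]
  congr 2
  ring

/-- the quadratic form -/
def po_q (ρ : Pl K → ℝ) (z : Pl K → ℂ) : ℝ := ∑ v, ‖z v‖ ^ 2 / ρ v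

theorem po_q_nonneg {ρ : Pl K → ℝ} (hρ : ∀ v, 0 < ρ v) (z : Pl K → ℂ) : 0 ≤ po_q ρ z :=
  Finset.sum_nonneg fun v _ => div_nonneg (sq_nonneg _) (hρ v).le

theorem po_sq_le {ρ : Pl K → ℝ} (hρ : ∀ v, 0 < ρ v) (z : Pl K → ℂ) (v : Pl K) :
    ‖z v‖ ^ 2 ≤ po_q ρ z * ρ v := by
  rw [← div_le_iff₀ (hρ v)]
  exact Finset.single_le_sum (f := fun v => ‖z v‖ ^ 2 / ρ v)
    (fun v _ => div_nonneg (sq_nonneg _) (hρ v).le) (Finset.mem_univ v)

theorem po_sq_le_floor {ρ : Pl K → ℝ} (hρ : ∀ v, 0 < ρ v) (z : Pl K → ℂ) (v : Pl K) :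
    ‖z v‖ ^ 2 ≤ ((⌊po_q ρ z⌋₊ : ℝ) + 1) * ρ v :=
  (po_sq_le hρ z v).trans (mul_le_mul_of_nonneg_right (Nat.lt_floor_add_one _).le (hρ v).le)

theorem po_norm_sq_le {ρ : Pl K → ℝ} (hρ : ∀ v, 0 < ρ v) (z : Pl K → ℂ) :
    ‖z‖ ^ 2 ≤ po_q ρ z * ∑ v, ρ v := by
  have h0 : 0 ≤ po_q ρ z * ∑ v, ρ v :=
    mul_nonneg (po_q_nonneg hρ z) (Finset.sum_nonneg fun v _ => (hρ v).le)
  rw [← Real.le_sqrt (norm_nonneg _) h0, pi_norm_le_iff_of_nonneg (Real.sqrt_nonneg _)]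
  intro v
  rw [Real.le_sqrt (norm_nonneg _) h0]
  exact (po_sq_le hρ z v).trans (mul_le_mul_of_nonneg_left
    (Finset.single_le_sum (fun v _ => (hρ v).le) (Finset.mem_univ v)) (po_q_nonneg hρ z))

theorem po_exp_le_floor {ρ : Pl K → ℝ} (hρ : ∀ v, 0 < ρ v) (z : Pl K → ℂ) :
    Real.exp (-Real.pi * po_q ρ z) ≤ Real.exp (-Real.pi * (⌊po_q ρ z⌋₊ : ℝ)) := by
  have := Nat.floor_le (po_q_nonneg hρ z)
  have := Real.pi_pos
  exact Real.exp_le_exp.2 (by nlinarith)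

theorem po_card : ∃ C : ℝ, 0 < C ∧ ∀ x : K, x ≠ 0 → ∀ ρ : Pl K → ℝ, (∀ v, 0 < ρ v) →
    ∀ (z : Pl K → ℂ) (k : ℕ) (s : Finset (Lat x)),
      (∀ n ∈ s, ⌊po_q ρ (emb ((n : R K) : K) + z)⌋₊ = k) →
      (s.card : ℝ) ≤ C * (1 + ((k : ℝ) + 1) ^ rr K * ((∏ v, ρ v) / NS x)) := by
  obtain ⟨C, hC, h⟩ := box_count (K := K)
  refine ⟨C, hC, fun x hx ρ hρ z k s hs => ?_⟩
  have hk : (0 : ℝ) < (k : ℝ) + 1 := by positivity
  obtain ⟨hfin, hcard⟩ := h x hx (-z) (fun v => Real.sqrt (((k : ℝ) + 1) * ρ v))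
    (fun v => Real.sqrt_pos.2 (mul_pos hk (hρ v)))
  have e : ∏ v, Real.sqrt (((k : ℝ) + 1) * ρ v) ^ 2 = ((k : ℝ) + 1) ^ rr K * ∏ v, ρ v := by
    rw [Finset.prod_congr rfl fun v _ => Real.sq_sqrt (mul_pos hk (hρ v)).le,
      Finset.prod_mul_distrib, Finset.prod_const, Finset.card_univ]
  rw [e, mul_div_assoc] at hcard
  refine le_trans ?_ hcard
  rw [Nat.cast_le, ← Set.ncard_coe_finset]
  refine Set.ncard_le_ncard_of_injOn (fun n : Lat x => (n : R K)) (fun n hn => ⟨n.2, fun v => ?_⟩)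
    (fun a _ b _ hab => Subtype.ext hab) hfin
  have := po_sq_le_floor hρ (emb ((n : R K) : K) + z) v
  rw [hs n hn] at this
  rw [Real.le_sqrt (norm_nonneg _) (mul_pos hk (hρ v)).le]
  simpa using this

theorem po_summable {x : K} (hx : x ≠ 0) {ρ : Pl K → ℝ} (hρ : ∀ v, 0 < ρ v) (z : Pl K → ℂ)
    (A : ℕ) : Summable (fun n : Lat x => (1 + ‖emb ((n : R K) : K)‖) ^ A *
      Real.exp (-Real.pi * po_q ρ (emb ((n : R K) : K) + z))) := by
  obtain ⟨C, hC, h⟩ := po_card (K := K)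
  set Q := (∏ v, ρ v) / NS x with hQ
  have hQ0 : 0 ≤ Q := div_nonneg (Finset.prod_nonneg fun v _ => (hρ v).le) (NS_pos hx).le
  set S := ∑ v, ρ v with hS
  have hS0 : 0 ≤ S := Finset.sum_nonneg fun v _ => (hρ v).le
  refine (po_shell (fun n => ?_) (fun n : Lat x => ⌊po_q ρ (emb ((n : R K) : K) + z)⌋₊)
    ((po_summable_pow (A + rr K)).mul_left (C * (1 + Q) * (2 + ‖z‖ + S) ^ A)) ?_).1
  · positivity
  intro k s hs
  have hk : (1 : ℝ) ≤ (k : ℝ) + 1 := by simp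
  have h1 : ∀ n ∈ s, (1 + ‖emb ((n : R K) : K)‖) ^ A *
      Real.exp (-Real.pi * po_q ρ (emb ((n : R K) : K) + z)) ≤
      ((2 + ‖z‖ + S) * ((k : ℝ) + 1)) ^ A * Real.exp (-Real.pi * k) := by
    intro n hn
    have h2 := po_exp_le_floor hρ (emb ((n : R K) : K) + z)
    have h3 := po_norm_sq_le hρ (emb ((n : R K) : K) + z)
    have h4 := Nat.lt_floor_add_one (po_q ρ (emb ((n : R K) : K) + z))
    rw [hs n hn] at h2 h4
    have h5 : ‖emb ((n : R K) : K)‖ ≤ ‖emb ((n : R K) : K) + z‖ + ‖z‖ := by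
      simpa using norm_sub_le (emb ((n : R K) : K) + z) z
    have h6 : ‖emb ((n : R K) : K) + z‖ ≤ 1 + ((k : ℝ) + 1) * S := by
      have : po_q ρ (emb ((n : R K) : K) + z) * S ≤ ((k : ℝ) + 1) * S := by gcongr
      nlinarith [norm_nonneg (emb ((n : R K) : K) + z)]
    have h7 : 1 + ‖emb ((n : R K) : K)‖ ≤ (2 + ‖z‖ + S) * ((k : ℝ) + 1) := by
      nlinarith [norm_nonneg z]
    gcongr
  refine (Finset.sum_le_card_nsmul _ _ _ h1).trans ?_
  rw [nsmul_eq_mul]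
  have h8 := h x hx ρ hρ z k s hs
  have h9 : 1 + ((k : ℝ) + 1) ^ rr K * Q ≤ (1 + Q) * ((k : ℝ) + 1) ^ rr K := by
    nlinarith [one_le_pow₀ (n := rr K) hk]
  calc (s.card : ℝ) * (((2 + ‖z‖ + S) * ((k : ℝ) + 1)) ^ A * Real.exp (-Real.pi * k))
      ≤ (C * ((1 + Q) * ((k : ℝ) + 1) ^ rr K)) *
        (((2 + ‖z‖ + S) * ((k : ℝ) + 1)) ^ A * Real.exp (-Real.pi * k)) := by
        gcongr
        exact h8.trans (by gcongr)
    _ = _ := by rw [mul_pow, pow_add]; ring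

theorem po_tsum_le : ∃ C : ℝ, ∀ x : K, x ≠ 0 → ∀ ρ : Pl K → ℝ, (∀ v, 0 < ρ v) →
    ∀ z : Pl K → ℂ, ∑' n : Lat x, Real.exp (-Real.pi * po_q ρ (emb ((n : R K) : K) + z)) ≤
      C * (1 + (∏ v, ρ v) / NS x) := by
  obtain ⟨C, hC, h⟩ := po_card (K := K)
  refine ⟨C * ∑' k : ℕ, ((k : ℝ) + 1) ^ rr K * Real.exp (-Real.pi * k), fun x hx ρ hρ z => ?_⟩
  set Q := (∏ v, ρ v) / NS x with hQ
  have hQ0 : 0 ≤ Q := div_nonneg (Finset.prod_nonneg fun v _ => (hρ v).le) (NS_pos hx).le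
  refine (po_shell (fun n => ?_) (fun n : Lat x => ⌊po_q ρ (emb ((n : R K) : K) + z)⌋₊)
    ((po_summable_pow (rr K)).mul_left (C * (1 + Q))) ?_).2.trans (le_of_eq ?_)
  · positivity
  swap
  · rw [tsum_mul_left]; ring
  intro k s hs
  have hk : (1 : ℝ) ≤ (k : ℝ) + 1 := by simp
  have h1 : ∀ n ∈ s, Real.exp (-Real.pi * po_q ρ (emb ((n : R K) : K) + z)) ≤
      Real.exp (-Real.pi * k) := by
    intro n hn
    have h2 := po_exp_le_floor hρ (emb ((n : R K) : K) + z)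
    rwa [hs n hn] at h2
  refine (Finset.sum_le_card_nsmul _ _ _ h1).trans ?_
  rw [nsmul_eq_mul]
  have h8 := h x hx ρ hρ z k s hs
  have h9 : 1 + ((k : ℝ) + 1) ^ rr K * Q ≤ (1 + Q) * ((k : ℝ) + 1) ^ rr K := by
    nlinarith [one_le_pow₀ (n := rr K) hk]
  calc (s.card : ℝ) * Real.exp (-Real.pi * k)
      ≤ (C * ((1 + Q) * ((k : ℝ) + 1) ^ rr K)) * Real.exp (-Real.pi * k) := by
        gcongr
        exact h8.trans (by gcongr)
    _ = _ := by ring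

open Classical in
theorem po_tsum_ne_le {A E : ℝ} (hA : 0 ≤ A) (hE : 1 + A ≤ E) : ∃ C : ℝ, 0 ≤ C ∧ ∀ x : K, x ≠ 0 →
    ∀ ρ : Pl K → ℝ, (∀ v, 0 < ρ v) →
    ∑' n : Lat x, (if (n : R K) = 0 then 0 else
      Nr (n : R K) ^ A * Real.exp (-Real.pi * po_q ρ (emb ((n : R K) : K)))) ≤
      C * ((∏ v, ρ v) / NS x) ^ E := by
  obtain ⟨C, hC, h⟩ := po_card (K := K)
  refine ⟨2 * C * ∑' k : ℕ, ((k : ℝ) + 1) ^ (rr K * ⌈E⌉₊) * Real.exp (-Real.pi * k),
    mul_nonneg (by positivity) (tsum_nonneg fun k => by positivity), fun x hx ρ hρ => ?_⟩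
  set Q := (∏ v, ρ v) / NS x with hQ
  have hQ0 : 0 ≤ Q := div_nonneg (Finset.prod_nonneg fun v _ => (hρ v).le) (NS_pos hx).le
  refine (po_shell (fun n => ?_) (fun n : Lat x => ⌊po_q ρ (emb ((n : R K) : K))⌋₊)
    ((po_summable_pow (rr K * ⌈E⌉₊)).mul_left (2 * C * Q ^ E)) ?_).2.trans (le_of_eq ?_)
  rotate_right
  · rw [tsum_mul_left]; ring
  · split_ifs
    · exact le_rfl
    · exact mul_nonneg (Real.rpow_nonneg (Nr_nonneg _) _) (Real.exp_pos _).le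
  intro k s hs
  have hk : (1 : ℝ) ≤ (k : ℝ) + 1 := by simp
  set X := ((k : ℝ) + 1) ^ rr K * Q with hX
  have hX0 : 0 ≤ X := by positivity
  have h0 : ∀ n ∈ s, (n : R K) ≠ 0 → Nr (n : R K) ≤ X := by
    intro n hn hn0
    have hn0' : ((n : R K) : K) ≠ 0 := fun h => hn0 (Subtype.ext h)
    have h1 : Nm ((n : R K) : K) ≤ ((k : ℝ) + 1) ^ rr K * ∏ v, ρ v := by
      rw [Nm, rr, ← Finset.card_univ, ← Finset.prod_const, ← Finset.prod_mul_distrib]
      refine Finset.prod_le_prod (fun v _ => sq_nonneg _) fun v _ => ?_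
      have := po_sq_le_floor hρ (emb ((n : R K) : K)) v
      rwa [hs n hn] at this
    have h2 := NS_le_of_InT hn0' n.2
    rw [hX, hQ, ← mul_div_assoc, le_div_iff₀ (NS_pos hx)]
    refine le_trans ?_ h1
    rw [Nm_coe]
    exact mul_le_mul_of_nonneg_left h2 (Nr_nonneg _)
  by_cases hX1 : 1 ≤ X
  · have h1 : ∀ n ∈ s, (if (n : R K) = 0 then 0 else
        Nr (n : R K) ^ A * Real.exp (-Real.pi * po_q ρ (emb ((n : R K) : K)))) ≤
        X ^ A * Real.exp (-Real.pi * k) := by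
      intro n hn
      split_ifs with hn0
      · positivity
      · have h2 := po_exp_le_floor hρ (emb ((n : R K) : K))
        rw [hs n hn] at h2
        exact mul_le_mul (Real.rpow_le_rpow (Nr_nonneg _) (h0 n hn hn0) hA) h2
          (Real.exp_pos _).le (by positivity)
    refine (Finset.sum_le_card_nsmul _ _ _ h1).trans ?_
    rw [nsmul_eq_mul]
    have h8 := h x hx ρ hρ 0 k s (by simpa using hs)
    have h9 : X * X ^ A ≤ Q ^ E * ((k : ℝ) + 1) ^ (rr K * ⌈E⌉₊) := by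
      calc X * X ^ A = X ^ (1 + A) := by rw [Real.rpow_add (by linarith), Real.rpow_one]
        _ ≤ X ^ E := Real.rpow_le_rpow_of_exponent_le hX1 hE
        _ = (((k : ℝ) + 1) ^ rr K) ^ E * Q ^ E := Real.mul_rpow (by positivity) hQ0
        _ ≤ (((k : ℝ) + 1) ^ rr K) ^ ((⌈E⌉₊ : ℕ) : ℝ) * Q ^ E := by
            gcongr
            · exact one_le_pow₀ hk
            · exact Nat.le_ceil E
        _ = _ := by rw [Real.rpow_natCast, ← pow_mul, mul_comm]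
    calc (s.card : ℝ) * (X ^ A * Real.exp (-Real.pi * k))
        ≤ (C * (2 * X)) * (X ^ A * Real.exp (-Real.pi * k)) := by
          gcongr
          exact h8.trans (by rw [← hQ, ← hX]; gcongr; linarith)
      _ = 2 * C * (X * X ^ A) * Real.exp (-Real.pi * k) := by ring
      _ ≤ 2 * C * (Q ^ E * ((k : ℝ) + 1) ^ (rr K * ⌈E⌉₊)) * Real.exp (-Real.pi * k) := by gcongr
      _ = _ := by ring
  · rw [Finset.sum_eq_zero]
    · positivity
    · intro n hn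
      rw [if_pos]
      by_contra hn0
      exact hX1 ((one_le_Nr hn0).trans (h0 n hn hn0))

end Crest.Agent.GQ
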