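import Crest.Agent.GQ.Defs

/-! # GQ PreEx: existence of the basic data -/

set_option autoImplicit false

noncomputable section

open NumberField

namespace Crest.Agent.GQ

theorem pe_inv {A : Type} [CommRing A] [IsDedekindDomain A] (b : ClassGroup A → Ideal A)
    (hb : ∀ C, ∃ h : b C ∈ nonZeroDivisors (Ideal A), ClassGroup.mk0 ⟨b C, h⟩ = C) {a : Ideal A}
    (ha : a ≠ ⊥) : ∃ C x, a * b C = Ideal.span {x} := by
  have ha' := mem_nonZeroDivisors_of_ne_zero ha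
  obtain ⟨h, e⟩ := hb (ClassGroup.mk0 ⟨a, ha'⟩)⁻¹
  obtain ⟨x, -, hx⟩ := (ClassGroup.mk0_eq_mk0_inv_iff (I := ⟨a, ha'⟩) (J := ⟨_, h⟩)).1
    (by rw [e, inv_inv])
  exact ⟨_, x, hx⟩

theorem pe_class (K : Type) [Field K] [NumberField K] : ∃ N : ℕ, N ≠ 0 ∧
    ∀ a : Ideal (𝓞 K), ∃ x ∈ a, ∀ u ∈ a, x ∣ u * N := by
  have : ∀ C : ClassGroup (𝓞 K), ∃ b : Ideal (𝓞 K), ∃ h : b ∈ nonZeroDivisors (Ideal (𝓞 K)),
      ClassGroup.mk0 ⟨b, h⟩ = C := fun C => by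
    obtain ⟨⟨b, h⟩, e⟩ := ClassGroup.mk0_surjective C
    exact ⟨b, h, e⟩
  choose b hb using this
  have h0 : ∀ C, Ideal.absNorm (b C) ≠ 0 := fun C => by
    obtain ⟨h, -⟩ := hb C
    rw [Ne, Ideal.absNorm_eq_zero_iff]
    exact nonZeroDivisors.ne_zero h
  have h1 : ∀ C, ((Ideal.absNorm (b C) : ℕ) : 𝓞 K) ∈ b C := fun C => Ideal.absNorm_mem _
  obtain ⟨n, hn⟩ : ∃ n : ClassGroup (𝓞 K) → ℕ, ∀ C, n C ≠ 0 ∧ (n C : 𝓞 K) ∈ b C :=
    ⟨_, fun C => ⟨h0 C, h1 C⟩⟩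
  refine ⟨∏ C, n C, Finset.prod_ne_zero_iff.2 fun C _ => (hn C).1, fun a => ?_⟩
  rcases eq_or_ne a ⊥ with rfl | ha
  · exact ⟨0, Ideal.zero_mem _, fun u hu => by simp [Ideal.mem_bot.1 hu]⟩
  obtain ⟨C, x, hx⟩ := pe_inv b hb ha
  refine ⟨x, Ideal.mul_le_left (hx.ge (Ideal.mem_span_singleton_self x)), fun u hu => ?_⟩
  rw [← Ideal.mem_span_singleton, ← hx]
  exact Ideal.mul_mem_mul hu (Ideal.mem_of_dvd _ (Nat.cast_dvd_cast
    (Finset.dvd_prod_of_mem n (Finset.mem_univ C))) (hn C).2)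

theorem pe_dual (K : Type) [Field K] [NumberField K] : ∃ N : ℕ, N ≠ 0 ∧ ∀ y : K,
    (∀ x : K, IsIntegral ℤ x → ∃ n : ℤ, Algebra.trace ℚ K (y * x) = n) →
      IsIntegral ℤ ((N : K) * y) := by
  classical
  set b := integralBasis K
  obtain ⟨d, hd, H⟩ := exists_integral_multiples ℤ ℚ (Finset.univ.image b.traceDual)
  refine ⟨d.natAbs, Int.natAbs_ne_zero.2 hd, fun y hy => ?_⟩
  have h1 : IsIntegral ℤ ((d : K) * y) := by
    rw [← b.traceDual.sum_repr y, Finset.mul_sum]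
    refine IsIntegral.sum _ fun i _ => ?_
    obtain ⟨n, hn⟩ := hy (b i) (by rw [integralBasis_apply]; exact RingOfIntegers.isIntegral_coe _)
    rw [b.traceDual_repr_apply, Algebra.traceForm_apply, hn, mul_smul_comm, Int.cast_smul_eq_zsmul,
      ← zsmul_eq_mul]
    exact (H _ (Finset.mem_image_of_mem _ (Finset.mem_univ i))).zsmul n
  rw [← Int.cast_natCast, Int.natCast_natAbs]
  rcases abs_choice d with h | h <;> rw [h]
  · exact h1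
  · simpa using h1.neg

theorem pe_pid (K : Type) [Field K] [NumberField K] {M : ℕ} (hM : M ≠ 0)
    (H : ∀ a : Ideal (𝓞 K), ∃ x ∈ a, ∀ u ∈ a, x ∣ u * M) : IsPrincipalIdealRing (RS K M) := by
  have hM' : (M : K) ≠ 0 := Nat.cast_ne_zero.2 hM
  let f : 𝓞 K →+* RS K M := (algebraMap (𝓞 K) K).codRestrict _ fun x =>
    ⟨0, by simpa using RingOfIntegers.isIntegral_coe x⟩
  refine ⟨fun I => ?_⟩
  obtain ⟨x, hx, H⟩ := H (I.comap f)
  refine ⟨f x, le_antisymm (fun z hz => ?_) ((Ideal.span_singleton_le_iff_mem _).2 hx)⟩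
  obtain ⟨k, hk⟩ := z.2
  have h1 : f ⟨_, hk⟩ = (M : RS K M) ^ k * z := Subtype.ext (by simp [f])
  obtain ⟨c, hc⟩ := H ⟨_, hk⟩ (by rw [Ideal.mem_comap, h1]; exact I.mul_mem_left _ hz)
  have h2 : (M : K) ^ k * z * M = (x : K) * c := by
    simpa using congrArg (algebraMap (𝓞 K) K) hc
  refine Ideal.mem_span_singleton.2 ⟨⟨c / (M : K) ^ (k + 1), k + 1, ?_⟩, Subtype.ext ?_⟩
  · rw [mul_div_cancel₀ _ (pow_ne_zero _ hM')]
    exact RingOfIntegers.isIntegral_coe c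
  · change (z : K) = (x : K) * (c / (M : K) ^ (k + 1))
    rw [← mul_div_assoc, ← h2, eq_div_iff (pow_ne_zero _ hM')]
    ring

theorem exists_pre (K : Type) [Field K] [NumberField K] (w : K) (hw : IsPrimitiveRoot w 3)
    {m₀ : ℕ} (hm : m₀ ≠ 0) : ∃ P : Pre K, P.w = w ∧ m₀ ∣ P.M := by
  obtain ⟨N₁, h₁, H₁⟩ := pe_class K
  obtain ⟨N₂, h₂, H₂⟩ := pe_dual K
  have hM : 6 * m₀ * N₁ * N₂ ≠ 0 := by positivity
  refine ⟨⟨w, hw, 6 * m₀ * N₁ * N₂, hM, ⟨m₀ * N₁ * N₂, by ring⟩, pe_pid K hM fun a => ?_,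
    fun y hy => ⟨1, ?_⟩⟩, rfl, ⟨6 * N₁ * N₂, by change 6 * m₀ * N₁ * N₂ = _; ring⟩⟩
  · obtain ⟨x, hx, H⟩ := H₁ a
    exact ⟨x, hx, fun u hu => (H u hu).trans
      (mul_dvd_mul_left _ (Nat.cast_dvd_cast ⟨6 * m₀ * N₂, by ring⟩))⟩
  · rw [pow_one, Nat.cast_mul, mul_assoc]
    exact (isIntegral_natCast _).mul (H₂ y hy)

end Crest.Agent.GQ
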