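import Crest.Agent.GQ.RecTame
import Crest.Agent.R017.Recip1

/-! # GQ RecF: classical cubic reciprocity in terms of tame symbols -/

set_option autoImplicit false

noncomputable section

open NumberField IsDedekindDomain Polynomial
open scoped ComplexConjugate

namespace Crest.Agent.GQ

open Crest.Agent.R017 (O om lam Prim)

theorem rf_equiv {F : Type} [Field F] [NumberField F] (hF : Module.finrank ℚ F = 2) {w : F}
    (hw : IsPrimitiveRoot w 3) : ∃ e : O ≃+* 𝓞 F, algebraMap (𝓞 F) F (e om) = w := by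
  have hw2 : w ^ 2 + w + 1 = 0 := by
    have := hw.geom_sum_eq_zero (by norm_num)
    simp [Finset.sum_range_succ] at this
    linear_combination this
  have hli : LinearIndependent ℚ ![(1 : F), w] := by
    rw [LinearIndependent.pair_iff]
    intro s t h
    have h1 : ((s ^ 2 - s * t + t ^ 2 : ℚ) : F) = 0 := by
      simp only [Rat.smul_def, mul_one] at h
      push_cast
      linear_combination (s - t - t * w) * h + (t : F) ^ 2 * hw2
    have h2 : s ^ 2 - s * t + t ^ 2 = 0 := by exact_mod_cast h1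
    constructor <;> nlinarith [sq_nonneg (2 * s - t), sq_nonneg (2 * t - s), sq_nonneg s, sq_nonneg t]
  have hsp := hli.span_eq_top_of_card_eq_finrank (by simp [hF])
  have : IsCyclotomicExtension {3} ℚ F := (IsCyclotomicExtension.iff_singleton 3 ℚ F).2
    ⟨⟨w, hw⟩, fun x => by
      have hx : x ∈ Submodule.span ℚ (Set.range ![(1 : F), w]) := hsp ▸ Submodule.mem_top
      refine (Submodule.span_le (p := (Algebra.adjoin ℚ {b : F | b ^ 3 = 1}).toSubmodule)).2 ?_ hx
      rintro _ ⟨i, rfl⟩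
      refine Algebra.subset_adjoin ?_
      fin_cases i
      · simp
      · simpa using hw.pow_eq_one⟩
  have h0 : algebraMap (𝓞 F) F hw.toInteger = w := rfl
  let ψ : O →ₐ[ℤ] 𝓞 F := QuadraticAlgebra.lift ⟨hw.toInteger, by
    apply RingOfIntegers.ext
    simp [h0]
    linear_combination hw2⟩
  have hψ : ψ om = hw.toInteger := by simp [ψ, om]
  refine ⟨RingEquiv.ofBijective ψ ⟨(injective_iff_map_eq_zero ψ).2 fun x hx => ?_, fun x => ?_⟩, ?_⟩
  · have := congrArg ψ (R017.mul_star_self x)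
    rw [map_mul, hx, zero_mul, map_intCast, eq_comm, Int.cast_eq_zero] at this
    exact R017.nz_eq_zero.1 this
  · have h1 : Algebra.adjoin ℤ {hw.toInteger} ≤ ψ.range :=
      Algebra.adjoin_le (Set.singleton_subset_iff.2 ⟨om, hψ⟩)
    rw [IsCyclotomicExtension.Rat.adjoin_singleton_eq_top hw] at h1
    exact h1 Algebra.mem_top
  · change algebraMap (𝓞 F) F (ψ om) = w
    rw [hψ]
    rfl

section rf
variable {F : Type} [Field F] [NumberField F] (e : O ≃+* 𝓞 F)

/-- The embedding of the Eisenstein integers. -/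
def rf_i : O →+* F := (algebraMap (𝓞 F) F).comp e.toRingHom

theorem rf_i_apply (x : O) : rf_i e x = algebraMap (𝓞 F) F (e x) := rfl

theorem rf_ne {x : O} (hx : x ≠ 0) : rf_i e x ≠ 0 := by
  rw [rf_i_apply]
  simpa using hx

/-- The place of a prime element. -/
def rf_v {p : O} (hp : Prime p) : HeightOneSpectrum (𝓞 F) where
  asIdeal := Ideal.span {e p}
  isPrime := (Ideal.span_singleton_prime (by simpa using hp.ne_zero)).2
    ((MulEquiv.prime_iff e).2 hp)
  ne_bot := by simpa using hp.ne_zero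

theorem rf_mem {p : O} (hp : Prime p) (x : O) : e x ∈ (rf_v e hp).asIdeal ↔ p ∣ x := by
  rw [rf_v, Ideal.mem_span_singleton]
  exact map_dvd_iff e

theorem rf_eq {p : O} (hp : Prime p) {v : HeightOneSpectrum (𝓞 F)} (h : e p ∈ v.asIdeal) :
    v = rf_v e hp :=
  HeightOneSpectrum.ext ((rf_v e hp).isMaximal.eq_of_le v.isPrime.ne_top
    ((Ideal.span_singleton_le_iff_mem _).2 h)).symm

theorem rf_unit {x : O} {v : HeightOneSpectrum (𝓞 F)} (h : e x ∉ v.asIdeal) :
    v.valuation F (rf_i e x) = 1 := (HeightOneSpectrum.valuation_eq_one_iff_notMem v).2 h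

theorem rf_ord0 {x : O} {v : HeightOneSpectrum (𝓞 F)} (h : e x ∉ v.asIdeal) :
    ordv v (rf_i e x) = 0 := by simp [ordv, rf_unit e h]

theorem rf_ord1 {p : O} (hp : Prime p) : ordv (rf_v e hp) (rf_i e p) = 1 := by
  have := (rf_v e hp).intValuation_singleton (r := e p) (by simpa using hp.ne_zero) rfl
  rw [← HeightOneSpectrum.valuation_of_algebraMap (K := F)] at this
  rw [ordv, rf_i_apply]
  erw [this]
  simp

theorem rf_norm {p : O} (hp : Prime p) : Ideal.absNorm (rf_v e hp).asIdeal = R017.nm p := by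
  rw [Ideal.absNorm_apply, Submodule.cardQuot_apply, ← R017.card_quot hp.ne_zero]
  refine (Nat.card_congr (Ideal.quotientEquiv (Ideal.span {p}) _ e ?_).toEquiv).symm
  simp [rf_v, Ideal.map_span]

variable {e} {w : F} (hw : IsPrimitiveRoot w 3) (he : algebraMap (𝓞 F) F (e om) = w) {M : ℕ}
  (h3 : 3 ∣ M)

omit [NumberField F] in
include h3 in
theorem rf_three {v : HeightOneSpectrum (𝓞 F)} (h : (M : 𝓞 F) ∉ v.asIdeal) :
    (3 : 𝓞 F) ∉ v.asIdeal := by
  obtain ⟨k, rfl⟩ := h3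
  exact fun h' => h (by push_cast; exact v.asIdeal.mul_mem_right _ h')

include h3 in
theorem rf_lam : lam ∣ (M : O) := by
  obtain ⟨k, rfl⟩ := h3
  push_cast
  exact R017.lam_dvd_three.mul_right _

theorem rf_M {p : O} (hp : Prime p) (hM : ¬ p ∣ M) : (M : 𝓞 F) ∉ (rf_v e hp).asIdeal := by
  rwa [← map_natCast e, rf_mem]

include hw he h3

theorem rf_kv {p x : O} (hp : Prime p) (hM : ¬ p ∣ M) (hx : ¬ p ∣ x) :
    kv w (rf_v e hp) (rf_i e x) = R017.kap p x := by
  have hl : ¬ lam ∣ p := fun h =>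
    hM ((R017.prime_lam.associated_of_dvd hp h).symm.dvd.trans (rf_lam h3))
  obtain ⟨j, -, h1, h2⟩ := R017.kap_prime_spec hp hl hx
  rw [h2]
  refine kv_eq hw (rf_three h3 (rf_M hp hM)) ?_
  rw [rf_norm, ← he, ← rf_i_apply, ← map_pow, ← map_pow, ← map_sub, rf_i_apply]
  exact (HeightOneSpectrum.valuation_lt_one_iff_mem _ _).2 ((rf_mem e hp _).2 h1)

theorem rf_A1 {p c : O} (hp : Prime p) (hM : ¬ p ∣ M) (hc : c ∣ M) :
    BB w M (rf_i e p) (rf_i e c) = (R017.kap p c)⁻¹ := by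
  have hu : ∀ {v : HeightOneSpectrum (𝓞 F)}, (M : 𝓞 F) ∉ v.asIdeal → e c ∉ v.asIdeal :=
    fun {v} h h' => h (by rw [← map_natCast e]; exact v.asIdeal.mem_of_dvd (map_dvd e hc) h')
  have h0 := rf_ne e hp.ne_zero
  rw [BB, finprod_eq_single _ (rf_v e hp)]
  · rw [if_neg (rf_M hp hM), tame_of_unit_right hw (rf_three h3 (rf_M hp hM)) h0
      (rf_unit e (hu (rf_M hp hM))), rf_ord1, rf_kv hw he h3 hp hM fun h => hM (h.trans hc), zpow_neg_one]
  · intro v hv
    split_ifs with h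
    · rfl
    · rw [tame_of_unit_right hw (rf_three h3 h) h0 (rf_unit e (hu h)),
        rf_ord0 e fun h' => hv (rf_eq e hp h'), neg_zero, zpow_zero]

theorem rf_A2 {p q : O} (hp : Prime p) (hq : Prime q) (hpp : Prim p) (hqp : Prim q) (hpM : ¬ p ∣ M)
    (hqM : ¬ q ∣ M) : BB w M (rf_i e p) (rf_i e q) = 1 := by
  classical
  have p0 := rf_ne e hp.ne_zero
  have q0 := rf_ne e hq.ne_zero
  by_cases hpq : p = q
  · rw [hpq]; exact BB_self hw h3 q0
  have h1 : ¬ p ∣ q := fun h => hpq (hpp.eq_of_associated hqp (hp.associated_of_dvd hq h))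
  have h2 : ¬ q ∣ p := fun h => hpq (hqp.eq_of_associated hpp (hq.associated_of_dvd hp h)).symm
  have hne : rf_v e hp ≠ rf_v e hq := fun h =>
    h1 ((rf_mem e hp q).1 (h ▸ (rf_mem e hq q).2 dvd_rfl))
  rw [BB, finprod_eq_prod_of_mulSupport_subset _ (s := {rf_v e hp, rf_v e hq}), Finset.prod_pair hne,
    if_neg (rf_M hp hpM), if_neg (rf_M hq hqM),
    tame_of_unit_right hw (rf_three h3 (rf_M hp hpM)) p0 (rf_unit e (mt (rf_mem e hp q).1 h1)),
    tame_of_unit hw (rf_three h3 (rf_M hq hqM)) (rf_unit e (mt (rf_mem e hq p).1 h2)) q0,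
    rf_ord1, rf_ord1, rf_kv hw he h3 hp hpM h1, rf_kv hw he h3 hq hqM h2, zpow_neg_one, zpow_one,
    R017.cubic_recip hqp hpp, inv_mul_cancel₀]
  · rw [Ne, R017.kap_eq_zero hp.ne_zero, not_or, not_not]
    exact ⟨hpp.not_lam_dvd, hp.coprime_iff_not_dvd.2 h1⟩
  · intro v hv
    by_contra hcon
    simp only [Finset.coe_insert, Finset.coe_singleton, Set.mem_insert_iff, Set.mem_singleton_iff,
      not_or] at hcon
    refine hv ?_
    dsimp only
    split_ifs with h
    · rfl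
    · rw [tame_of_unit hw (rf_three h3 h) (rf_unit e fun h' => hcon.1 (rf_eq e hp h')) q0,
        rf_ord0 e fun h' => hcon.2 (rf_eq e hq h'), zpow_zero]

theorem rf_B1 {a c : O} (ha : Prim a) (hc0 : c ≠ 0) (hc : c ∣ M) :
    IsCoprime a M → BB w M (rf_i e a) (rf_i e c) = (R017.kap a c)⁻¹ := by
  refine Prim.induction (P := fun a => IsCoprime a M → BB w M (rf_i e a) (rf_i e c) = (R017.kap a c)⁻¹)
    (fun _ => ?_) (fun p n hp _ hn ih h => ?_) ha
  · rw [map_one, BB_one_left hw h3 (rf_ne e hc0), R017.kap_unit_left isUnit_one, inv_one]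
  · rw [map_mul, BB_mul_left hw h3 (rf_ne e hp.ne_zero) (rf_ne e hn.ne_zero) (rf_ne e hc0),
      ih h.of_mul_left_right, rf_A1 hw he h3 hp (hp.coprime_iff_not_dvd.1 h.of_mul_left_left) hc,
      R017.kap_mul_left hp.ne_zero hn.ne_zero, mul_inv]

theorem rf_B2 {a q : O} (ha : Prim a) (hq : Prime q) (hqp : Prim q) (hqM : ¬ q ∣ M) :
    IsCoprime a M → BB w M (rf_i e a) (rf_i e q) = 1 := by
  refine Prim.induction (P := fun a => IsCoprime a M → BB w M (rf_i e a) (rf_i e q) = 1)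
    (fun _ => ?_) (fun p n hp hpp hn ih h => ?_) ha
  · rw [map_one, BB_one_left hw h3 (rf_ne e hq.ne_zero)]
  · rw [map_mul, BB_mul_left hw h3 (rf_ne e hp.ne_zero) (rf_ne e hn.ne_zero) (rf_ne e hq.ne_zero),
      ih h.of_mul_left_right,
      rf_A2 hw he h3 hp hq hpp hqp (hp.coprime_iff_not_dvd.1 h.of_mul_left_left) hqM, mul_one]

theorem rf_C {a : O} (ha : (M : O) ^ 2 ∣ a - 1) {y : O} (hy : y ≠ 0) :
    BB w M (rf_i e a) (rf_i e y) = 1 := by
  have h9 : (9 : O) ∣ a - 1 := by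
    obtain ⟨k, rfl⟩ := h3
    refine Dvd.dvd.trans ⟨(k : O) ^ 2, ?_⟩ ha
    push_cast
    ring
  have hp := R017.r1_prim_of_nine h9
  have hM1 : (M : O) ∣ a - 1 := (dvd_pow_self _ two_ne_zero).trans ha
  have hc : IsCoprime a M := by
    obtain ⟨t, ht⟩ := hM1
    exact ⟨1, -t, by linear_combination ht⟩
  have a0 := rf_ne e hp.ne_zero
  obtain ⟨u, k, n, hu, hn, rfl⟩ := R017.exists_decomp hy
  have l0 := R017.prime_lam.ne_zero
  have e1 : BB w M (rf_i e a) (rf_i e u) = 1 := by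
    rw [rf_B1 hw he h3 hp hu.ne_zero hu.dvd hc, R017.kap_unit_per hu hp.not_lam_dvd h9,
      R017.kap_unit_left isUnit_one, inv_one]
  have e2 : BB w M (rf_i e a) (rf_i e lam) = 1 := by
    rw [rf_B1 hw he h3 hp l0 (rf_lam h3) hc, R017.r1_lam_one h9, inv_one]
  have e3 : BB w M (rf_i e a) (rf_i e n) = 1 := by
    refine Prim.induction (P := fun n => BB w M (rf_i e a) (rf_i e n) = 1) ?_
      (fun q n hq hqp hn ih => ?_) hn
    · rw [map_one, BB_one_right hw h3 a0]
    · rw [map_mul, BB_mul_right hw h3 a0 (rf_ne e hq.ne_zero) (rf_ne e hn.ne_zero), ih, mul_one]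
      by_cases h : q ∣ M
      · rw [rf_B1 hw he h3 hp hq.ne_zero h hc, R017.cubic_recip hp hqp,
          R017.kap_congr' hq.ne_zero (h.trans hM1), R017.kap_one_right hqp.not_lam_dvd, inv_one]
      · exact rf_B2 hw he h3 hp hq hqp h hc
  rw [map_mul, map_mul, map_pow, BB_mul_right hw h3 a0
      (mul_ne_zero (rf_ne e hu.ne_zero) (pow_ne_zero _ (rf_ne e l0))) (rf_ne e hn.ne_zero),
    BB_mul_right hw h3 a0 (rf_ne e hu.ne_zero) (pow_ne_zero _ (rf_ne e l0)),
    BB_pow_right hw h3 a0 (rf_ne e l0), e1, e2, e3]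
  simp

theorem rf_D {a : O} (ha : (M : O) ^ 2 ∣ a - 1) (a0 : a ≠ 0) {y : F} (hy : y ≠ 0) :
    BB w M (rf_i e a) y = 1 := by
  obtain ⟨n, d, hd, rfl⟩ := IsFractionRing.div_surjective (A := 𝓞 F) y
  obtain ⟨n, rfl⟩ := e.surjective n
  obtain ⟨d, rfl⟩ := e.surjective d
  have n0 : n ≠ 0 := by rintro rfl; simp at hy
  have d0 : d ≠ 0 := by rintro rfl; simp at hy
  rw [← rf_i_apply, ← rf_i_apply, div_eq_mul_inv,
    BB_mul_right hw h3 (rf_ne e a0) (rf_ne e n0) (inv_ne_zero (rf_ne e d0)),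
    BB_inv_right hw h3 (rf_ne e a0) (rf_ne e d0), rf_C hw he h3 ha n0, rf_C hw he h3 ha d0]
  simp

end rf

theorem BB_base {F : Type} [Field F] [NumberField F] (hF : Module.finrank ℚ F = 2) {w : F}
    (hw : IsPrimitiveRoot w 3) {M : ℕ} (hM : M ≠ 0) (h3 : 3 ∣ M) {u y : F} (hu : Cong M 2 u 1)
    (hy : y ≠ 0) : BB w M u y = 1 := by
  obtain ⟨e, he⟩ := rf_equiv hF hw
  obtain ⟨t, ⟨b, hb, hbt⟩, hu⟩ := hu
  obtain ⟨s, hs⟩ := e.surjective ⟨_, hbt⟩
  have hs' : rf_i e s = b * t := by rw [rf_i_apply, hs]; rfl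
  obtain ⟨c, d, hcd⟩ : IsCoprime (b : O) ((M : O) ^ 2) := (Nat.Coprime.cast hb).pow_right
  have ne : ∀ {a : O}, (M : O) ^ 2 ∣ a - 1 → a ≠ 0 := by
    rintro a h rfl
    have h1 : lam ∣ 0 - 1 := ((rf_lam h3).trans (dvd_pow_self _ two_ne_zero)).trans h
    exact R017.prime_lam.not_dvd_one (by simpa using h1)
  have h1 : (M : O) ^ 2 ∣ c * b - 1 := ⟨-d, by linear_combination hcd⟩
  have h2 : (M : O) ^ 2 ∣ c * (b + M ^ 2 * s) - 1 := ⟨c * s - d, by linear_combination hcd⟩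
  have h4 : rf_i e (c * (b + M ^ 2 * s)) = u * rf_i e (c * b) := by
    simp only [map_mul, map_add, map_pow, map_natCast, hs']
    linear_combination (-(rf_i e c) * b) * hu
  have h5 := rf_D hw he h3 h2 (ne h2) hy
  have u0 : u ≠ 0 := left_ne_zero_of_mul (h4 ▸ rf_ne e (ne h2))
  rwa [h4, BB_mul_left hw h3 u0 (rf_ne e (ne h1)) hy, rf_D hw he h3 h1 (ne h1) hy, mul_one] at h5

end Crest.Agent.GQ
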