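import Crest.Agent.GQ.RecLC
import Crest.Agent.GQ.RecF
import Crest.Agent.GQ.Base1

/-! # GQ RecK: cubic reciprocity over K -/

set_option autoImplicit false

noncomputable section

open NumberField IsDedekindDomain Polynomial
open scoped ComplexConjugate

namespace Crest.Agent.GQ

theorem rk_split {M : ℕ} (hM : M ≠ 0) (d : ℕ) (hd : d ≠ 0) :
    ∃ k b : ℕ, Nat.Coprime b M ∧ d ∣ b * M ^ k := by
  induction d using Nat.strong_induction_on with
  | _ d ih =>
    by_cases h : Nat.Coprime d M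
    · exact ⟨0, d, h, by simp⟩
    · obtain ⟨d', hd'⟩ := Nat.gcd_dvd_left d M
      have h1 : 1 < Nat.gcd d M :=
        lt_of_le_of_ne (Nat.gcd_pos_of_pos_right _ (Nat.pos_of_ne_zero hM)) (Ne.symm h)
      have h2 : d' ≠ 0 := by rintro rfl; exact hd (by simpa using hd')
      have h3 : d' < d := by
        have := Nat.pos_of_ne_zero h2
        nlinarith
      obtain ⟨k, b, hb, hk⟩ := ih d' h3 h2
      refine ⟨k + 1, b, hb, ?_⟩
      rw [hd', pow_succ, ← mul_assoc, mul_comm]
      exact mul_dvd_mul hk (Nat.gcd_dvd_right d M)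

section
variable {E F : Type} [Field E] [NumberField E] [Field F] [NumberField F] {M : ℕ}

theorem rk_int_nat {A : Type} [CommRing A] (n : ℕ) : IsIntegral ℤ (n : A) := by
  simpa using isIntegral_algebraMap (R := ℤ) (A := A) (x := (n : ℤ))

theorem rk_pow (hM : M ≠ 0) (x : F) : ∃ k : ℕ, (M : F) ^ k * x ∈ TS F M := by
  have hx : IsAlgebraic ℤ x := (IsFractionRing.isAlgebraic_iff ℤ ℚ F).2 (Algebra.IsAlgebraic.isAlgebraic x)
  obtain ⟨d, hd, hi⟩ := hx.exists_integral_multiple
  obtain ⟨k, b, hb, c, hc⟩ := rk_split hM d.natAbs (by simpa using hd)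
  refine ⟨k, b, hb, ?_⟩
  have h1 : IsIntegral ℤ ((d.natAbs : F) * x) := by
    rw [zsmul_eq_mul] at hi
    rcases Int.natAbs_eq d with h | h
    · rw [h] at hi; simpa using hi
    · rw [h] at hi; simpa using hi.neg
  have h2 : (b : F) * ((M : F) ^ k * x) = (c : F) * ((d.natAbs : F) * x) := by
    have : ((b * M ^ k : ℕ) : F) = ((d.natAbs * c : ℕ) : F) := by rw [hc]
    push_cast at this
    rw [← mul_assoc, this]; ring
  rw [h2]
  exact (rk_int_nat c).mul h1

omit [NumberField F] in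
theorem rk_mono {x : F} {k k' : ℕ} (h : k ≤ k') (hx : (M : F) ^ k * x ∈ TS F M) :
    (M : F) ^ k' * x ∈ TS F M := by
  obtain ⟨j, rfl⟩ := Nat.exists_eq_add_of_le h
  rw [add_comm, pow_add, mul_assoc]
  exact (TS F M).mul_mem ((TS F M).pow_mem (natCast_mem _ M) j) hx

theorem rk_lin (hM : M ≠ 0) (φ : E →+ F) : ∃ C : ℕ, ∀ t ∈ TS E M, (M : F) ^ C * φ t ∈ TS F M := by
  choose k hk using fun i => rk_pow hM (φ (integralBasis E i))
  refine ⟨Finset.univ.sup k, ?_⟩
  have h1 : ∀ a ∈ Submodule.span ℤ (Set.range (integralBasis E)),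
      (M : F) ^ Finset.univ.sup k * φ a ∈ TS F M := by
    intro a ha
    induction ha using Submodule.span_induction with
    | mem x hx =>
      obtain ⟨i, rfl⟩ := hx
      exact rk_mono (Finset.le_sup (Finset.mem_univ i)) (hk i)
    | zero => simp
    | add x y _ _ hx hy => rw [map_add, mul_add]; exact (TS F M).add_mem hx hy
    | smul n x _ hx =>
      rw [map_zsmul, zsmul_eq_mul, mul_left_comm]
      exact (TS F M).mul_mem (intCast_mem _ n) hx
  rintro t ⟨b, hb, hi⟩
  obtain ⟨b', hb', hi'⟩ := h1 ((b : E) * t) ((mem_span_integralBasis E).2 ⟨⟨_, hi⟩, rfl⟩)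
  refine ⟨b' * b, Nat.Coprime.mul_left hb' hb, ?_⟩
  rw [← nsmul_eq_mul b t, map_nsmul, nsmul_eq_mul] at hi'
  convert hi' using 1
  push_cast
  ring

theorem rk_prod {A ι : Type} [CommRing A] (s : Finset ι) (f : ι → A) (b c : A)
    (hb : IsIntegral ℤ b) (hc : IsIntegral ℤ c) (hf : ∀ i, IsIntegral ℤ (f i)) :
    ∃ z, IsIntegral ℤ z ∧ ∏ i ∈ s, (b + c * f i) = b ^ s.card + c * z := by
  classical
  induction s using Finset.induction_on with
  | empty => exact ⟨0, isIntegral_zero, by simp⟩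
  | insert i s hi ih =>
    obtain ⟨z, hz, e⟩ := ih
    refine ⟨b * z + f i * b ^ s.card + c * f i * z,
      ((hb.mul hz).add ((hf i).mul (hb.pow _))).add ((hc.mul (hf i)).mul hz), ?_⟩
    rw [Finset.prod_insert hi, e, Finset.card_insert_of_notMem hi]
    ring

theorem rk_norm [Algebra E F] (hM : M ≠ 0) {k : ℕ} {u : F} (hu : Cong M k u 1) :
    Cong M k (Algebra.norm E u) 1 := by
  obtain ⟨t, ⟨b, hb, hi⟩, e⟩ := hu
  let Ω := AlgebraicClosure E
  have : Module.Finite E F := Module.Finite.of_restrictScalars_finite ℚ E F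
  have h1 := Algebra.norm_eq_prod_embeddings E Ω u
  obtain ⟨z, hz, e2⟩ := rk_prod Finset.univ (fun σ : F →ₐ[E] Ω => σ ((b : F) * t)) (b : Ω)
    ((M : Ω) ^ k) (rk_int_nat b) ((rk_int_nat M).pow k)
    (fun σ => hi.map (σ.toRingHom.toIntAlgHom))
  have e3 : ∀ σ : F →ₐ[E] Ω, (b : Ω) + (M : Ω) ^ k * σ ((b : F) * t) = (b : Ω) * σ u := by
    intro σ
    rw [show u = 1 + (M : F) ^ k * t by rw [← e]; ring]
    simp only [map_add, map_mul, map_pow, map_natCast, map_one]
    ring
  simp only [e3, Finset.prod_mul_distrib, Finset.prod_const, ← h1] at e2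
  have hM' : (M : E) ^ k ≠ 0 := pow_ne_zero _ (Nat.cast_ne_zero.2 hM)
  have hM2 : (M : Ω) ^ k ≠ 0 := pow_ne_zero _ (Nat.cast_ne_zero.2 hM)
  refine ⟨(Algebra.norm E u - 1) / (M : E) ^ k,
    ⟨b ^ (Finset.univ : Finset (F →ₐ[E] Ω)).card, Nat.Coprime.pow_left _ hb, ?_⟩, by field_simp⟩
  refine (isIntegral_algebraMap_iff (algebraMap E Ω).injective).1 ?_
  have e4 : algebraMap E Ω (((b ^ (Finset.univ : Finset (F →ₐ[E] Ω)).card : ℕ) : E) *
      ((Algebra.norm E u - 1) / (M : E) ^ k)) = z := by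
    simp only [map_mul, map_div₀, map_sub, map_pow, map_natCast, map_one, Nat.cast_pow]
    rw [← mul_div_assoc, div_eq_iff hM2]
    linear_combination e2
  rwa [e4]

end

theorem rk_deep {K F : Type} [Field K] [NumberField K] [Field F] [NumberField F] [Algebra F K]
    (hF : Module.finrank ℚ F = 2) {w : F} (hw : IsPrimitiveRoot w 3) {M : ℕ} (hM : M ≠ 0)
    (h3 : 3 ∣ M) {y : K} (hy : y ≠ 0) :
    ∃ j : ℕ, ∀ u : K, u ≠ 0 → Cong M j u 1 → BB (algebraMap F K w) M y u = 1 := by
  have : Module.Finite F K := Module.Finite.of_restrictScalars_finite ℚ F K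
  have hi : IsIntegral F y := Algebra.IsIntegral.isIntegral y
  have hirr := minpoly.irreducible hi
  have hmo := minpoly.monic hi
  have hev := minpoly.aeval F y
  have h0 : (minpoly F y).eval 0 ≠ 0 := by
    rw [← coeff_zero_eq_eval_zero]
    exact minpoly.coeff_zero_ne_zero hi hy
  generalize minpoly F y = φ at hirr hmo hev h0
  have : Fact (Irreducible φ) := ⟨hirr⟩
  have : NumberField (AdjoinRoot φ) := numberField_adjoinRoot φ
  let : Algebra (AdjoinRoot φ) K := (AdjoinRoot.lift (algebraMap F K) y hev).toAlgebra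
  have a1 : algebraMap (AdjoinRoot φ) K (AdjoinRoot.root φ) = y := AdjoinRoot.lift_root hev
  have a2 : algebraMap (AdjoinRoot φ) K (algebraMap F (AdjoinRoot φ) w) = algebraMap F K w :=
    AdjoinRoot.lift_of hev
  have hr : AdjoinRoot.root φ ≠ 0 := fun h => hy (by rw [← a1, h, map_zero])
  have hwE : IsPrimitiveRoot (algebraMap F (AdjoinRoot φ) w) 3 :=
    hw.map_of_injective (algebraMap F (AdjoinRoot φ)).injective
  have hRT : ∀ p : F[X], RT w M p φ =
      BB (algebraMap F (AdjoinRoot φ) w) M (AdjoinRoot.root φ) (AdjoinRoot.mk φ p) := fun p => by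
    rw [RT_irreducible hw h3 p hirr hmo, symI, dif_pos hirr]
  obtain ⟨k, hk⟩ := RT_locally_const hw hM h3 (fun u y hu hy => BB_base hF hw hM h3 hu hy)
    φ.natDegree 1 φ (by simp) h0 isCoprime_one_left
  choose C hC using fun i : ℕ => rk_lin (M := M) hM
    ((lcoeff F i ∘ₗ AdjoinRoot.modByMonicHom hmo).toAddMonoidHom)
  refine ⟨k + (Finset.range (φ.natDegree + 1)).sup C, fun u hu hc => ?_⟩
  obtain ⟨t, ht, e⟩ := rk_norm (E := AdjoinRoot φ) hM hc
  have hdeg : ∀ x : AdjoinRoot φ, (AdjoinRoot.modByMonicHom hmo x).natDegree ≤ φ.natDegree := by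
    intro x
    obtain ⟨p, rfl⟩ := AdjoinRoot.mk_surjective x
    rw [AdjoinRoot.modByMonicHom_mk]
    exact natDegree_modByMonic_le p hmo
  have hone : AdjoinRoot.modByMonicHom hmo 1 = 1 := by
    rw [← map_one (AdjoinRoot.mk φ), AdjoinRoot.modByMonicHom_mk,
      (modByMonic_eq_self_iff hmo).2]
    rw [degree_one]
    exact degree_pos_of_irreducible hirr
  have hk' := (hk (AdjoinRoot.modByMonicHom hmo (Algebra.norm (AdjoinRoot φ) u)) φ (hdeg _) le_rfl
    (fun i => ?_) (fun i => ⟨0, (TS F M).zero_mem, by simp⟩)).2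
  · rw [hRT, hRT, AdjoinRoot.mk_leftInverse hmo, map_one, BB_one_right hwE h3 hr] at hk'
    rw [← a1, ← a2, BB_proj hwE h3 hr hu, hk']
  have e2 : AdjoinRoot.modByMonicHom hmo (Algebra.norm (AdjoinRoot φ) u) - 1 =
      ((M : F) ^ (k + (Finset.range (φ.natDegree + 1)).sup C)) •
        AdjoinRoot.modByMonicHom hmo t := by
    rw [← hone, ← map_sub, e, ← map_smul, Algebra.smul_def]
    simp
  have e3 := congrArg (fun p => coeff p i) e2
  simp only [coeff_sub, coeff_smul, smul_eq_mul] at e3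
  by_cases hi : i ≤ φ.natDegree
  · refine ⟨_, rk_mono (Finset.le_sup (f := C) (Finset.mem_range.2 (Nat.lt_succ_of_le hi)))
      (hC i t ht), ?_⟩
    rw [e3, pow_add, mul_assoc]
    rfl
  · refine ⟨0, (TS F M).zero_mem, ?_⟩
    rw [e3, coeff_eq_zero_of_natDegree_lt ((hdeg t).trans_lt (not_le.1 hi)), mul_zero, mul_zero]

variable {K : Type} [Field K] [NumberField K] [P : Pre K]

theorem BB_U {u y : K} (hu : u ∈ U 2) (hy : y ≠ 0) : BB P.w P.M u y = 1 := by
  have h3 : 3 ∣ P.M := Dvd.dvd.trans (by norm_num) P.six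
  have hi : IsIntegral ℚ P.w := Algebra.IsIntegral.isIntegral _
  have hF : Module.finrank ℚ (IntermediateField.adjoin ℚ {P.w}) = 2 := by
    rw [IntermediateField.adjoin.finrank hi,
      ← cyclotomic_eq_minpoly_rat P.hw (by norm_num), natDegree_cyclotomic]
    decide
  have hw : IsPrimitiveRoot (IntermediateField.AdjoinSimple.gen ℚ P.w) 3 :=
    IsPrimitiveRoot.of_map_of_injective (f := algebraMap _ K) P.hw (RingHom.injective _)
  obtain ⟨j, hj⟩ := rk_deep hF hw P.M0 h3 hy
  rw [IntermediateField.AdjoinSimple.algebraMap_gen] at hj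
  obtain ⟨z, hz, hz'⟩ := U_cube_approx hu j
  have u0 := U_ne_zero (by norm_num) hu
  have z0 := U_ne_zero le_rfl hz
  have h1 := hj (u / z ^ 3) (by positivity) hz'
  have h2 : BB P.w P.M y u = 1 := by
    rw [show u = u / z ^ 3 * z ^ 3 by field_simp, BB_mul_right P.hw h3 hy (by positivity)
      (by positivity), h1, BB_pow_right P.hw h3 hy z0, BB_cube P.hw h3 hy z0, mul_one]
  rw [BB_symm P.hw h3 hy u0, h2, inv_one]

end Crest.Agent.GQ
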