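import Crest.Agent.GQ.RecRT

/-! # GQ RecLC: local constancy of the Rosset-Tate symbol -/

set_option autoImplicit false

noncomputable section

open NumberField IsDedekindDomain Polynomial
open scoped ComplexConjugate

namespace Crest.Agent.GQ

section lcaux
open Filter
set_option linter.unusedSectionVars false

variable {F : Type} [Field F] [NumberField F] {M : ℕ}

theorem lc_nat_split (M : ℕ) (d : ℕ) (hd : d ≠ 0) :
    ∃ j d1 d2 : ℕ, d = d1 * d2 ∧ d1 ∣ M ^ j ∧ Nat.Coprime d2 M := by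
  induction d using Nat.strong_induction_on with
  | _ d ih =>
    by_cases h : Nat.Coprime d M
    · exact ⟨0, 1, d, by simp, by simp, h⟩
    · obtain ⟨d', hd'⟩ := Nat.gcd_dvd_left d M
      have hg : 1 < Nat.gcd d M := by
        have : Nat.gcd d M ≠ 0 := by
          intro h0; exact hd (Nat.eq_zero_of_gcd_eq_zero_left h0)
        have h1 : Nat.gcd d M ≠ 1 := h
        omega
      have hd0 : d' ≠ 0 := by
        rintro rfl; exact hd (by simpa using hd')
      have hlt : d' < d := by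
        calc d' = 1 * d' := by simp
          _ < Nat.gcd d M * d' := Nat.mul_lt_mul_of_pos_right hg (Nat.pos_of_ne_zero hd0)
          _ = d := hd'.symm
      obtain ⟨j, d1, d2, h1, h2, h3⟩ := ih d' hlt hd0
      refine ⟨j + 1, Nat.gcd d M * d1, d2, by rw [mul_assoc, ← h1, ← hd'], ?_, h3⟩
      rw [pow_succ']
      exact Nat.mul_dvd_mul (Nat.gcd_dvd_right d M) h2

theorem lc_isInt_nat (n : ℕ) : IsIntegral ℤ (n : F) := by
  simpa using isIntegral_algebraMap (R := ℤ) (A := F) (x := (n : ℤ))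

theorem lc_exists_pow (x : F) : ∃ j : ℕ, (M : F) ^ j * x ∈ TS F M := by
  have halg : IsAlgebraic ℤ x :=
    (IsFractionRing.isAlgebraic_iff ℤ ℚ F).mpr (Algebra.IsAlgebraic.isAlgebraic x)
  obtain ⟨y, hy, hint⟩ := halg.exists_integral_multiple
  obtain ⟨j, d1, d2, h1, ⟨e, he⟩, h3⟩ := lc_nat_split M y.natAbs (by simpa using hy)
  refine ⟨j, d2, h3, ?_⟩
  have hint' : IsIntegral ℤ ((y.natAbs : F) * x) := by
    rcases Int.natAbs_eq y with h | h
    · have : (y.natAbs : F) = (y : F) := by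
        conv_rhs => rw [h]
        simp
      rw [this]; simpa using hint
    · have : (y.natAbs : F) = -(y : F) := by
        conv_rhs => rw [h]
        simp
      rw [this]; simpa using hint.neg
  have := (lc_isInt_nat (F := F) e).mul hint'
  have hM : (M : F) ^ j = (d1 : F) * e := by exact_mod_cast congrArg (Nat.cast : ℕ → F) he
  rw [h1] at this
  rw [hM, show (d2 : F) * ((d1 : F) * e * x) = (e : F) * (((d1 * d2 : ℕ) : F) * x) by
    push_cast; ring]
  exact this

theorem lc_inv (h3 : 3 ∣ M) {t : F} (ht : t ∈ TS F M) :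
    1 + (M : F) * t ≠ 0 ∧ (1 + (M : F) * t)⁻¹ ∈ TS F M := by
  obtain ⟨b, hb, hy⟩ := ht
  have hM1 : M ≠ 1 := by rintro rfl; omega
  have hb0 : b ≠ 0 := by rintro rfl; exact hM1 (by simpa using hb)
  have hbF : (b : F) ≠ 0 := by exact_mod_cast hb0
  set y : 𝓞 F := ⟨(b : F) * t, hy⟩ with hydef
  set z : 𝓞 F := (b : 𝓞 F) + (M : 𝓞 F) * y with hz
  have hzF : (z : F) = (b : F) * (1 + (M : F) * t) := by
    simp only [hz, hydef, map_add, map_natCast]
    change (b : F) + (M : F) * ((b : F) * t) = _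
    ring
  have hcop : Nat.Coprime (Ideal.absNorm (Ideal.span {z})) M := by
    apply Nat.Coprime.symm
    apply Nat.coprime_of_dvd
    intro p hp hpM hpN
    obtain ⟨P, hP, hu, hd⟩ := Ideal.exists_isMaximal_dvd_of_dvd_absNorm' hp _ hpN
    have hzP : z ∈ P := Ideal.le_of_dvd hd (Ideal.mem_span_singleton_self z)
    have hpP : (p : 𝓞 F) ∈ P := by
      have : (p : ℤ) ∈ P.under ℤ := by rw [hu]; exact Ideal.mem_span_singleton_self _
      simpa [Ideal.mem_comap] using this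
    have hMP : (M : 𝓞 F) ∈ P := by
      obtain ⟨c, rfl⟩ := hpM
      push_cast
      exact P.mul_mem_right _ hpP
    have hbP : (b : 𝓞 F) ∈ P := by
      have : (b : 𝓞 F) = z - (M : 𝓞 F) * y := by rw [hz]; ring
      rw [this]
      exact P.sub_mem hzP (P.mul_mem_right _ hMP)
    have hco : IsCoprime (b : 𝓞 F) (M : 𝓞 F) := Nat.Coprime.cast hb
    obtain ⟨u, v, huv⟩ := hco
    apply hP.ne_top
    rw [Ideal.eq_top_iff_one, ← huv]
    exact P.add_mem (P.mul_mem_left _ hbP) (P.mul_mem_left _ hMP)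
  have hz0 : z ≠ 0 := by
    intro h0
    rw [h0] at hcop
    simp at hcop
    exact hM1 hcop
  have hzF0 : (z : F) ≠ 0 := by
    simpa using hz0
  have hne : 1 + (M : F) * t ≠ 0 := by
    intro h0; rw [hzF, h0] at hzF0; simp at hzF0
  refine ⟨hne, Ideal.absNorm (Ideal.span {z}), hcop, ?_⟩
  obtain ⟨c, hc⟩ := Ideal.mem_span_singleton.mp (Ideal.absNorm_mem (Ideal.span {z}))
  have hcF : ((Ideal.absNorm (Ideal.span {z}) : ℕ) : F) = (z : F) * (c : F) := by
    have := congrArg (algebraMap (𝓞 F) F) hc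
    simpa using this
  rw [hcF, hzF]
  have : (b : F) * (1 + (M : F) * t) * (c : F) * (1 + (M : F) * t)⁻¹ = (b : F) * (c : F) := by
    field_simp
  rw [this]
  exact (lc_isInt_nat b).mul c.isIntegral_coe

theorem lc_pow_mem (j : ℕ) : (M : F) ^ j ∈ TS F M := pow_mem (natCast_mem _ M) j

theorem lc_Cong_mono {k k' : ℕ} (h : k ≤ k') {a b : F} (hc : Cong M k' a b) : Cong M k a b := by
  obtain ⟨t, ht, e⟩ := hc
  obtain ⟨j, rfl⟩ := Nat.exists_eq_add_of_le h
  exact ⟨(M : F) ^ j * t, mul_mem (lc_pow_mem j) ht, by rw [e]; ring⟩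

/-- convergence along a filter in the `M`-adic topology -/
def lcConv (M : ℕ) {ι : Type} (l : Filter ι) (a : ι → F) (a0 : F) : Prop :=
  ∀ k : ℕ, ∀ᶠ x in l, Cong M k (a x) a0

variable {ι : Type} {l : Filter ι}

theorem lcConv_const (a : F) : lcConv M l (fun _ => a) a :=
  fun _ => Eventually.of_forall fun _ => ⟨0, zero_mem _, by simp⟩

theorem lcConv_congr {a b : ι → F} {a0 : F} (ha : lcConv M l a a0) (h : ∀ᶠ x in l, a x = b x) :
    lcConv M l b a0 := fun k => by
  filter_upwards [ha k, h] with x h1 h2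
  rwa [← h2]

theorem lcConv_add {a b : ι → F} {a0 b0 : F} (ha : lcConv M l a a0) (hb : lcConv M l b b0) :
    lcConv M l (fun x => a x + b x) (a0 + b0) := fun k => by
  filter_upwards [ha k, hb k] with x ⟨s, hs, e1⟩ ⟨t, ht, e2⟩
  exact ⟨s + t, add_mem hs ht, by linear_combination e1 + e2⟩

theorem lcConv_sub {a b : ι → F} {a0 b0 : F} (ha : lcConv M l a a0) (hb : lcConv M l b b0) :
    lcConv M l (fun x => a x - b x) (a0 - b0) := fun k => by
  filter_upwards [ha k, hb k] with x ⟨s, hs, e1⟩ ⟨t, ht, e2⟩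
  exact ⟨s - t, sub_mem hs ht, by linear_combination e1 - e2⟩

theorem lcConv_mul {a b : ι → F} {a0 b0 : F} (ha : lcConv M l a a0) (hb : lcConv M l b b0) :
    lcConv M l (fun x => a x * b x) (a0 * b0) := fun k => by
  obtain ⟨i, hi⟩ := lc_exists_pow (M := M) a0
  obtain ⟨j, hj⟩ := lc_exists_pow (M := M) b0
  filter_upwards [ha (k + j), hb (k + i)] with x ⟨s, hs, e1⟩ ⟨t, ht, e2⟩
  refine ⟨(M : F) ^ (k + j + i) * s * t + s * ((M : F) ^ j * b0) + ((M : F) ^ i * a0) * t,
    add_mem (add_mem (mul_mem (mul_mem (lc_pow_mem _) hs) ht) (mul_mem hs hj)) (mul_mem hi ht), ?_⟩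
  have h1 : a x = a0 + (M : F) ^ (k + j) * s := by linear_combination e1
  have h2 : b x = b0 + (M : F) ^ (k + i) * t := by linear_combination e2
  rw [h1, h2]; ring

theorem lcConv_sum {α : Type} (s : Finset α) {a : α → ι → F} {a0 : α → F}
    (ha : ∀ i ∈ s, lcConv M l (a i) (a0 i)) :
    lcConv M l (fun x => ∑ i ∈ s, a i x) (∑ i ∈ s, a0 i) := by
  classical
  induction s using Finset.induction_on with
  | empty => simpa using lcConv_const (0 : F)
  | insert i s hi ih =>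
    simp only [Finset.sum_insert hi]
    exact lcConv_add (ha i (Finset.mem_insert_self _ _))
      (ih fun j hj => ha j (Finset.mem_insert_of_mem hj))

theorem lcConv_ne (h3 : 3 ∣ M) {a : ι → F} {a0 : F} (ha : lcConv M l a a0) (h0 : a0 ≠ 0) :
    ∀ᶠ x in l, a x ≠ 0 := by
  obtain ⟨j, hj⟩ := lc_exists_pow (M := M) a0⁻¹
  filter_upwards [ha (j + 1)] with x ⟨s, hs, e1⟩
  have h1 : a x = a0 * (1 + (M : F) * (s * ((M : F) ^ j * a0⁻¹))) := by
    field_simp
    linear_combination e1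
  rw [h1]
  exact mul_ne_zero h0 (lc_inv h3 (mul_mem hs hj)).1

theorem lcConv_inv (h3 : 3 ∣ M) {a : ι → F} {a0 : F} (ha : lcConv M l a a0) (h0 : a0 ≠ 0) :
    lcConv M l (fun x => (a x)⁻¹) a0⁻¹ := fun k => by
  obtain ⟨j, hj⟩ := lc_exists_pow (M := M) a0⁻¹
  filter_upwards [ha (k + j + j + 1)] with x ⟨s, hs, e1⟩
  have hT : (M : F) ^ (k + j) * s * ((M : F) ^ j * a0⁻¹) ∈ TS F M :=
    mul_mem (mul_mem (lc_pow_mem _) hs) hj
  obtain ⟨hu0, hu⟩ := lc_inv h3 hT
  set u : F := 1 + (M : F) * ((M : F) ^ (k + j) * s * ((M : F) ^ j * a0⁻¹)) with hudef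
  have h1 : a x = a0 * u := by
    rw [hudef]
    field_simp
    linear_combination e1
  refine ⟨-((M : F) * s * ((M : F) ^ j * a0⁻¹) * ((M : F) ^ j * a0⁻¹) * u⁻¹),
    neg_mem (mul_mem (mul_mem (mul_mem (mul_mem (natCast_mem _ M) hs) hj) hj) hu), ?_⟩
  have h2 : (a x)⁻¹ - a0⁻¹ = -(a x - a0) * a0⁻¹ * a0⁻¹ * u⁻¹ := by
    rw [h1]
    field_simp
    ring
  rw [h2, e1]; ring

theorem lcConv_div (h3 : 3 ∣ M) {a b : ι → F} {a0 b0 : F} (ha : lcConv M l a a0)
    (hb : lcConv M l b b0) (h0 : b0 ≠ 0) : lcConv M l (fun x => a x / b x) (a0 / b0) := by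
  simpa only [div_eq_mul_inv] using lcConv_mul ha (lcConv_inv h3 hb h0)

theorem lc_BB {w : F} (hw : IsPrimitiveRoot w 3) (h3 : 3 ∣ M)
    (hB : ∀ u y : F, Cong M 2 u 1 → y ≠ 0 → BB w M u y = 1) {a b : ι → F} {a0 b0 : F}
    (ha : lcConv M l a a0) (hb : lcConv M l b b0) (ha0 : a0 ≠ 0) (hb0 : b0 ≠ 0) :
    ∀ᶠ x in l, BB w M (a x) (b x) = BB w M a0 b0 := by
  have h1 := lcConv_div h3 ha (lcConv_const a0) ha0 2
  have h2 := lcConv_div h3 hb (lcConv_const b0) hb0 2
  rw [div_self ha0] at h1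
  rw [div_self hb0] at h2
  filter_upwards [h1, h2, lcConv_ne h3 ha ha0, lcConv_ne h3 hb hb0] with x e1 e2 n1 n2
  have m1 : a x / a0 ≠ 0 := div_ne_zero n1 ha0
  have m2 : b x / b0 ≠ 0 := div_ne_zero n2 hb0
  calc BB w M (a x) (b x) = BB w M (a x / a0 * a0) (b x) := by rw [div_mul_cancel₀ _ ha0]
    _ = BB w M a0 (b x) := by rw [BB_mul_left hw h3 m1 ha0 n2, hB _ _ e1 n2, one_mul]
    _ = BB w M a0 (b x / b0 * b0) := by rw [div_mul_cancel₀ _ hb0]
    _ = BB w M a0 b0 := by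
      rw [BB_mul_right hw h3 ha0 m2 hb0, BB_symm hw h3 m2 ha0, hB _ _ e2 ha0, inv_one, one_mul]

/-- convergence of polynomials of bounded degree -/
def lcPConv (M : ℕ) {ι : Type} (l : Filter ι) (m : ℕ) (P : ι → F[X]) (p0 : F[X]) : Prop :=
  (∀ᶠ x in l, (P x).natDegree ≤ m) ∧ p0.natDegree ≤ m ∧
    ∀ i, lcConv M l (fun x => (P x).coeff i) (p0.coeff i)

theorem lcPConv_const {m : ℕ} {p : F[X]} (h : p.natDegree ≤ m) : lcPConv M l m (fun _ => p) p :=
  ⟨Eventually.of_forall fun _ => h, h, fun _ => lcConv_const _⟩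

theorem lcPConv_mul {m n : ℕ} {P Q : ι → F[X]} {p0 q0 : F[X]} (hP : lcPConv M l m P p0)
    (hQ : lcPConv M l n Q q0) : lcPConv M l (m + n) (fun x => P x * Q x) (p0 * q0) := by
  refine ⟨?_, natDegree_mul_le.trans (add_le_add hP.2.1 hQ.2.1), fun i => ?_⟩
  · filter_upwards [hP.1, hQ.1] with x h1 h2
    exact natDegree_mul_le.trans (add_le_add h1 h2)
  · simp only [coeff_mul]
    exact lcConv_sum _ fun c _ => lcConv_mul (hP.2.2 _) (hQ.2.2 _)

theorem lcPConv_eval {m : ℕ} {P : ι → F[X]} {p0 : F[X]} (hP : lcPConv M l m P p0) :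
    lcConv M l (fun x => (P x).eval 0) (p0.eval 0) := by
  simpa only [← coeff_zero_eq_eval_zero] using hP.2.2 0

theorem lcPConv_lc (h3 : 3 ∣ M) {P : ι → F[X]} {p0 : F[X]} (h0 : p0 ≠ 0)
    (hP : lcPConv M l p0.natDegree P p0) :
    lcConv M l (fun x => (P x).leadingCoeff) p0.leadingCoeff := by
  have h1 := hP.2.2 p0.natDegree
  have h2 := lcConv_ne h3 h1 (leadingCoeff_ne_zero.mpr h0)
  refine lcConv_congr h1 ?_
  filter_upwards [h2, hP.1] with x e1 e2
  rw [leadingCoeff, natDegree_eq_of_le_of_coeff_ne_zero e2 e1]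

theorem lc_step_deg {p q : F[X]} {m n : ℕ} (hnm : n ≤ m + 1) (hp : p.natDegree ≤ m + 1)
    (hq : q.natDegree ≤ n) (h0 : q.coeff n ≠ 0) :
    (p - C (p.coeff (m + 1) / q.coeff n) * (X ^ (m + 1 - n) * q)).natDegree ≤ m := by
  rw [natDegree_le_iff_coeff_eq_zero]
  intro N hN
  rw [coeff_sub, coeff_C_mul, coeff_X_pow_mul', if_pos (by omega)]
  rcases eq_or_lt_of_le (show m + 1 ≤ N from hN) with h | h
  · subst h
    rw [show m + 1 - (m + 1 - n) = n by omega, div_mul_cancel₀ _ h0, sub_self]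
  · rw [coeff_eq_zero_of_natDegree_lt (lt_of_le_of_lt hp h),
      coeff_eq_zero_of_natDegree_lt (p := q) (n := N - (m + 1 - n)) (by omega)]
    simp

theorem lc_rem (h3 : 3 ∣ M) {n : ℕ} {Q : ι → F[X]} {q0 : F[X]} (hQ : lcPConv M l (n + 1) Q q0)
    (h0 : q0.coeff (n + 1) ≠ 0) (m : ℕ) : ∀ (P : ι → F[X]) (p0 : F[X]), lcPConv M l m P p0 →
    ∃ (R : ι → F[X]) (r0 : F[X]), lcPConv M l n R r0 ∧ (∀ x, Q x ∣ P x - R x) ∧ q0 ∣ p0 - r0 := by
  induction m with
  | zero =>
    intro P p0 hP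
    exact ⟨P, p0, ⟨hP.1.mono fun x hx => hx.trans (Nat.zero_le _), hP.2.1.trans (Nat.zero_le _),
      hP.2.2⟩, by simp, by simp⟩
  | succ m ih =>
    intro P p0 hP
    by_cases hm : m + 1 ≤ n
    · exact ⟨P, p0, ⟨hP.1.mono fun x hx => hx.trans hm, hP.2.1.trans hm, hP.2.2⟩, by simp, by simp⟩
    · have hnm : n + 1 ≤ m + 1 := by omega
      obtain ⟨R, r0, hR, hd, hd0⟩ := ih
        (fun x => P x - C ((P x).coeff (m + 1) / (Q x).coeff (n + 1)) * (X ^ (m + 1 - (n + 1)) * Q x))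
        (p0 - C (p0.coeff (m + 1) / q0.coeff (n + 1)) * (X ^ (m + 1 - (n + 1)) * q0))
        ⟨by
          filter_upwards [hP.1, hQ.1, lcConv_ne h3 (hQ.2.2 (n + 1)) h0] with x e1 e2 e3
          exact lc_step_deg hnm e1 e2 e3,
         lc_step_deg hnm hP.2.1 hQ.2.1 h0,
         fun i => by
          simp only [coeff_sub, coeff_C_mul, coeff_X_pow_mul']
          refine lcConv_sub (hP.2.2 i) (lcConv_mul (lcConv_div h3 (hP.2.2 _) (hQ.2.2 _) h0) ?_)
          split_ifs
          · exact hQ.2.2 _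
          · exact lcConv_const _⟩
      refine ⟨R, r0, hR, fun x => ?_, ?_⟩
      · obtain ⟨c, hc⟩ := hd x
        exact ⟨c + C ((P x).coeff (m + 1) / (Q x).coeff (n + 1)) * X ^ (m + 1 - (n + 1)),
          by linear_combination hc⟩
      · obtain ⟨c, hc⟩ := hd0
        exact ⟨c + C (p0.coeff (m + 1) / q0.coeff (n + 1)) * X ^ (m + 1 - (n + 1)),
          by linear_combination hc⟩

theorem lc_exists_h {p0 q0 : F[X]} {n : ℕ} (hn : q0.natDegree = n + 1) (hc : IsCoprime p0 q0) :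
    ∃ h r : F[X], h.natDegree = n ∧ r.natDegree = n ∧ h.eval 0 ≠ 0 ∧ r.eval 0 ≠ 0 ∧
      IsCoprime h q0 ∧ q0 ∣ p0 * h - r := by
  classical
  have hq0 : q0 ≠ 0 := by rintro rfl; simp at hn
  set q1 : F[X] := q0 * C (q0.leadingCoeff)⁻¹ with hq1
  have hm : q1.Monic := monic_mul_leadingCoeff_inv hq0
  have hd1 : q1.natDegree = n + 1 := by rw [hq1, natDegree_mul_leadingCoeff_inv _ hq0, hn]
  have hdvd : q0 ∣ q1 := Dvd.intro _ rfl
  have hdvd' : q1 ∣ q0 := ⟨C q0.leadingCoeff, by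
    rw [hq1, mul_assoc, ← C_mul, inv_mul_cancel₀ (leadingCoeff_ne_zero.mpr hq0), C_1, mul_one]⟩
  have hq11 : q1 ≠ 1 := by intro h; rw [h] at hd1; simp at hd1
  let S : (Bool × Bool) ⊕ {φ // φ ∈ (UniqueFactorizationMonoid.factors q0).toFinset} →
      Subspace F F[X] := fun i => match i with
    | Sum.inl (a, b) => LinearMap.ker ((lcoeff F (if a then n else 0)) ∘ₗ modByMonicHom q1 ∘ₗ
        LinearMap.mulLeft F (if b then p0 else 1))
    | Sum.inr φ => (Ideal.span {φ.1}).restrictScalars F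
  have hS : ∀ i, S i ≠ ⊤ := by
    rintro (⟨a, b⟩ | φ) htop
    · obtain ⟨u, v, huv⟩ := hc
      have hin : (n + 1 : ℕ) > (if a then n else 0) := by split_ifs <;> omega
      have hmem : (if b then u else 1) * X ^ (if a then n else 0) ∈ S (Sum.inl (a, b)) := by
        rw [htop]; trivial
      simp only [S, LinearMap.mem_ker, LinearMap.comp_apply, LinearMap.mulLeft_apply,
        lcoeff_apply] at hmem
      change (((if b then p0 else 1) * ((if b then u else 1) * X ^ (if a then n else 0))) %ₘ q1).coeff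
        (if a then n else 0) = 0 at hmem
      have e : ((if b then p0 else 1) * ((if b then u else 1) * X ^ (if a then n else 0))) %ₘ q1
          = (X ^ (if a then n else 0) : F[X]) := by
        have e1 : (X ^ (if a then n else 0) : F[X]) %ₘ q1 = X ^ (if a then n else 0) := by
          rw [modByMonic_eq_self_iff hm, degree_X_pow, degree_eq_natDegree hm.ne_zero, hd1]
          exact_mod_cast hin
        rw [← e1]
        conv_lhs => rw [e1]
        apply modByMonic_eq_of_dvd_sub hm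
        refine hdvd'.trans ?_
        cases b
        · simp
        · exact ⟨-v * X ^ (if a then n else 0), by
            simp only [if_true]
            linear_combination (X ^ (if a then n else 0) : F[X]) * huv⟩
      rw [e, coeff_X_pow_self] at hmem
      exact one_ne_zero hmem
    · have hmem : (1 : F[X]) ∈ S (Sum.inr φ) := by rw [htop]; trivial
      simp only [S, Submodule.restrictScalars_mem, Ideal.mem_span_singleton] at hmem
      have := UniqueFactorizationMonoid.irreducible_of_factor φ.1 (Multiset.mem_toFinset.mp φ.2)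
      exact this.not_isUnit (isUnit_of_dvd_one hmem)
  have hne : ⋃ i, (S i : Set F[X]) ≠ Set.univ := fun h => by
    obtain ⟨i, hi⟩ := Subspace.exists_eq_top_of_iUnion_eq_univ h
    exact hS i hi
  obtain ⟨g, hg⟩ := (Set.ne_univ_iff_exists_notMem _).mp hne
  simp only [Set.mem_iUnion, not_exists, SetLike.mem_coe] at hg
  have k1 : (g %ₘ q1).coeff n ≠ 0 := by
    have := hg (Sum.inl (true, false))
    simpa [S] using this
  have k2 : (g %ₘ q1).coeff 0 ≠ 0 := by
    have := hg (Sum.inl (false, false))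
    simpa [S] using this
  have k3 : ((p0 * g) %ₘ q1).coeff n ≠ 0 := by
    have := hg (Sum.inl (true, true))
    simpa [S] using this
  have k4 : ((p0 * g) %ₘ q1).coeff 0 ≠ 0 := by
    have := hg (Sum.inl (false, true))
    simpa [S] using this
  have hle : ∀ f : F[X], (f %ₘ q1).natDegree ≤ n := fun f => by
    have := natDegree_modByMonic_lt f hm hq11
    omega
  have hsub : ∀ f : F[X], q0 ∣ f - f %ₘ q1 := fun f =>
    hdvd.trans ⟨f /ₘ q1, by linear_combination (-1 : F[X]) * modByMonic_add_div f q1⟩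
  refine ⟨g %ₘ q1, (p0 * g) %ₘ q1, natDegree_eq_of_le_of_coeff_ne_zero (hle _) k1,
    natDegree_eq_of_le_of_coeff_ne_zero (hle _) k3, by rwa [← coeff_zero_eq_eval_zero],
    by rwa [← coeff_zero_eq_eval_zero], ?_, ?_⟩
  · apply isCoprime_of_irreducible_dvd (fun h => hq0 h.2)
    intro z hz hzg hzq
    obtain ⟨φ, hφ, has⟩ := UniqueFactorizationMonoid.exists_mem_factors_of_dvd hq0 hz hzq
    have := hg (Sum.inr ⟨φ, Multiset.mem_toFinset.mpr hφ⟩)
    apply this
    simp only [S, Submodule.restrictScalars_mem, Ideal.mem_span_singleton]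
    refine has.symm.dvd.trans ?_
    have := dvd_add (hzq.trans (hsub g)) hzg
    simpa using this
  · have h1 := hsub (p0 * g)
    have h2 := (hsub g).mul_left p0
    have := dvd_sub h1 h2
    convert this using 1
    ring

theorem lc_main {w : F} (hw : IsPrimitiveRoot w 3) (h3 : 3 ∣ M)
    (hB : ∀ u y : F, Cong M 2 u 1 → y ≠ 0 → BB w M u y = 1) (n : ℕ) :
    ∀ (m : ℕ) (p0 q0 : F[X]) (P Q : ι → F[X]), q0.natDegree = n → q0.eval 0 ≠ 0 →
      IsCoprime p0 q0 → lcPConv M l m P p0 → lcPConv M l n Q q0 →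
      ∀ᶠ x in l, IsCoprime (P x) (Q x) ∧ RT w M (P x) (Q x) = RT w M p0 q0 := by
  induction n with
  | zero =>
    intro m p0 q0 P Q hn h0 _ _ hQ
    filter_upwards [hQ.1, lcConv_ne h3 (lcPConv_eval hQ) h0] with x e1 e2
    have e3 : (Q x).natDegree = 0 := Nat.le_zero.mp e1
    refine ⟨?_, by rw [RT_of_natDegree_zero hw h3 _ e3, RT_of_natDegree_zero hw h3 _ hn]⟩
    have hu : IsUnit (Q x) := by
      rw [eq_C_of_natDegree_eq_zero e3]
      exact isUnit_C.mpr (Ne.isUnit (by rwa [coeff_zero_eq_eval_zero]))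
    obtain ⟨u, hu⟩ := hu
    exact ⟨0, u⁻¹.1, by rw [← hu]; simp⟩
  | succ n ih =>
    intro m p0 q0 P Q hn h0 hc hP hQ
    have hq0 : q0 ≠ 0 := by rintro rfl; simp at h0
    obtain ⟨h, r, hh, hr, hh0, hr0, hhq, hdv⟩ := lc_exists_h hn hc
    have hlc : q0.coeff (n + 1) ≠ 0 := by
      rw [← hn]; exact leadingCoeff_ne_zero.mpr hq0
    have hH : lcPConv M l n (fun _ => h) h := lcPConv_const hh.le
    obtain ⟨R, r0, hR, hd, hd0⟩ := lc_rem h3 hQ hlc _ _ _ (lcPConv_mul hP hH)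
    have hrr : r0 = r := by
      have h1 : q0 ∣ r0 - r := by
        have := dvd_sub hdv hd0
        convert this using 1
        ring
      have h2 : (r0 - r).natDegree < q0.natDegree := by
        have := natDegree_sub_le r0 r
        have := hR.2.1
        omega
      exact sub_eq_zero.mp (eq_zero_of_dvd_of_natDegree_lt h1 h2)
    subst hrr
    have hcr : IsCoprime q0 r0 := by
      obtain ⟨c, hc'⟩ := hd0
      have h1 : IsCoprime (p0 * h) q0 := hc.mul_left hhq
      have h2 : p0 * h = r0 + q0 * c := by linear_combination hc'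
      rw [h2] at h1
      exact (IsCoprime.of_add_mul_left_left h1).symm
    have hr00 : r0 ≠ 0 := by rintro rfl; simp at hr0
    have hh00 : h ≠ 0 := by rintro rfl; simp at hh0
    have I1 := ih _ q0 r0 Q R hr hr0 hcr hQ hR
    have I2 := ih _ q0 h Q (fun _ => h) hh hh0 hhq.symm hQ hH
    have cQ0 := lcPConv_eval hQ
    have cQl := lcPConv_lc h3 hq0 (hn ▸ hQ)
    have cR0 := lcPConv_eval hR
    have cRl := lcPConv_lc h3 hr00 (hr ▸ hR)
    have lq := leadingCoeff_ne_zero.mpr hq0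
    have lr := leadingCoeff_ne_zero.mpr hr00
    have lh := leadingCoeff_ne_zero.mpr hh00
    have B1 := lc_BB hw h3 hB (lcConv_div h3 cQ0 cQl lq) cR0 (div_ne_zero h0 lq) hr0
    have B2 := lc_BB hw h3 hB cQl (lcConv_div h3 cR0 cRl lr) lq (div_ne_zero hr0 lr)
    have B3 := lc_BB hw h3 hB (lcConv_div h3 cQ0 cQl lq) (lcConv_const (h.eval 0))
      (div_ne_zero h0 lq) hh0
    have B4 := lc_BB hw h3 hB cQl (lcConv_const (h.eval 0 / h.leadingCoeff)) lq
      (div_ne_zero hh0 lh)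
    filter_upwards [I1, I2, B1, B2, B3, B4, lcConv_ne h3 cQ0 h0, lcConv_ne h3 cR0 hr0] with
      x ⟨c1, e1⟩ ⟨c2, e2⟩ b1 b2 b3 b4 n1 n2
    have hQx : Q x ≠ 0 := by intro h'; rw [h'] at n1; simp at n1
    have c3 : IsCoprime (P x) (Q x) := by
      obtain ⟨c, hc'⟩ := hd x
      have h2 : P x * h = R x + Q x * c := by linear_combination hc'
      have h1 : IsCoprime (P x * h) (Q x) := by
        rw [h2]; exact c1.symm.add_mul_left_left c
      exact h1.of_mul_left_left
    refine ⟨c3, ?_⟩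
    have f1 : RT w M (R x) (Q x) = RT w M r0 q0 := by
      rw [RT_recip hw h3 n2 n1 c1.symm, RT_recip hw h3 hr0 h0 hcr.symm, e1, b1, b2]
    have f2 : RT w M h (Q x) = RT w M h q0 := by
      rw [RT_recip hw h3 hh0 n1 c2.symm, RT_recip hw h3 hh0 h0 hhq, e2, b3, b4]
    have f3 : RT w M (P x) (Q x) * RT w M h (Q x) = RT w M (R x) (Q x) := by
      rw [← RT_mul_left hw h3 n1 c3 c2.symm]
      exact RT_congr hw h3 hQx (hd x)
    have f4 : RT w M p0 q0 * RT w M h q0 = RT w M r0 q0 := by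
      rw [← RT_mul_left hw h3 h0 hc hhq]
      exact RT_congr hw h3 hq0 hd0
    rw [f1, f2, ← f4] at f3
    exact mul_right_cancel₀ (RT_ne_zero hw h3 h0 hhq) f3

end lcaux

theorem RT_locally_const {F : Type} [Field F] [NumberField F] {w : F} (hw : IsPrimitiveRoot w 3)
    {M : ℕ} (hM : M ≠ 0) (h3 : 3 ∣ M)
    (hB : ∀ u y : F, Cong M 2 u 1 → y ≠ 0 → BB w M u y = 1) (m : ℕ) (p₀ q₀ : F[X])
    (hm : p₀.natDegree ≤ m) (hq : q₀.eval 0 ≠ 0) (hc : IsCoprime p₀ q₀) :
    ∃ k : ℕ, ∀ p q : F[X], p.natDegree ≤ m → q.natDegree ≤ q₀.natDegree →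
      (∀ i, Cong M k (p.coeff i) (p₀.coeff i)) → (∀ i, Cong M k (q.coeff i) (q₀.coeff i)) →
      IsCoprime p q ∧ RT w M p q = RT w M p₀ q₀ := by
  let S : ℕ → Set (F[X] × F[X]) := fun k => {x | x.1.natDegree ≤ m ∧
    x.2.natDegree ≤ q₀.natDegree ∧ (∀ i, Cong M k (x.1.coeff i) (p₀.coeff i)) ∧
    (∀ i, Cong M k (x.2.coeff i) (q₀.coeff i))}
  have hanti : Antitone S := fun k k' h x hx =>
    ⟨hx.1, hx.2.1, fun i => lc_Cong_mono h (hx.2.2.1 i), fun i => lc_Cong_mono h (hx.2.2.2 i)⟩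
  have hb : (⨅ k, Filter.principal (S k)).HasBasis (fun _ => True) S :=
    Filter.hasBasis_iInf_principal hanti.directed_ge
  have hev : ∀ k, ∀ᶠ x in ⨅ k, Filter.principal (S k), x ∈ S k := fun k =>
    hb.mem_of_mem trivial
  have := lc_main (l := ⨅ k, Filter.principal (S k)) hw h3 hB q₀.natDegree m p₀ q₀
    Prod.fst Prod.snd rfl hq hc
    ⟨(hev 0).mono fun x hx => hx.1, hm, fun i k => (hev k).mono fun x hx => hx.2.2.1 i⟩
    ⟨(hev 0).mono fun x hx => hx.2.1, le_rfl, fun i k => (hev k).mono fun x hx => hx.2.2.2 i⟩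
  obtain ⟨k, -, hk⟩ := hb.eventually_iff.mp this
  exact ⟨k, fun p q h1 h2 h3 h4 => hk (x := (p, q)) ⟨h1, h2, h3, h4⟩⟩

end Crest.Agent.GQ
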