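import Crest.Agent.GQ.RecProj

/-! # GQ RecProd: the Rosset-Tate symbol and its reciprocity law -/

set_option autoImplicit false

noncomputable section

open NumberField IsDedekindDomain Polynomial
open scoped ComplexConjugate

namespace Crest.Agent.GQ

variable {F : Type} [Field F] [NumberField F]

theorem numberField_adjoinRoot (φ : F[X]) [Fact (Irreducible φ)] : NumberField (AdjoinRoot φ) :=
  haveI : Module.Finite F (AdjoinRoot φ) :=
    (AdjoinRoot.powerBasis (Fact.out : Irreducible φ).ne_zero).finite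
  NumberField.of_module_finite F _

/-- the norm of a product algebra -/
theorem pd_norm_pi {E ι : Type} [Field E] [Fintype ι] (B : ι → Type) [∀ i, CommRing (B i)]
    [∀ i, Algebra E (B i)] [∀ i, Module.Finite E (B i)] (z : ∀ i, B i) :
    Algebra.norm E z = ∏ i, Algebra.norm E (z i) := by
  classical
  conv_lhs => rw [← Finset.univ_prod_mulSingle z, map_prod]
  refine Finset.prod_congr rfl fun i _ => ?_
  let e : (∀ j, B j) ≃ₗ[E] B i × (∀ j : {j // j ≠ i}, B j) :=
    { Equiv.piSplitAt i B with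
      map_add' := fun _ _ => rfl
      map_smul' := fun _ _ => rfl }
  have h1 : e.toLinearMap ∘ₗ Algebra.lmul E _ (Pi.mulSingle i (z i)) =
      LinearMap.prodMap (Algebra.lmul E (B i) (z i)) LinearMap.id ∘ₗ e.toLinearMap := by
    refine LinearMap.ext fun v => Prod.ext ?_ (funext fun j => ?_)
    · change (Pi.mulSingle i (z i) * v : ∀ j, B j) i = z i * v i
      simp
    · change (Pi.mulSingle i (z i) * v : ∀ j, B j) j = v j
      simp [Pi.mulSingle_eq_of_ne j.2]
  have h2 : e.toLinearMap ∘ₗ Algebra.lmul E _ (Pi.mulSingle i (z i)) ∘ₗ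
      e.symm.toLinearMap =
      LinearMap.prodMap (Algebra.lmul E (B i) (z i)) LinearMap.id := by
    rw [← LinearMap.comp_assoc, h1, LinearMap.comp_assoc]
    simp
  rw [Algebra.norm_apply, Algebra.norm_apply, ← LinearMap.det_conj _ e]
  change LinearMap.det (e.toLinearMap ∘ₗ Algebra.lmul E _ (Pi.mulSingle i (z i)) ∘ₗ
      e.symm.toLinearMap) = _
  rw [h2, LinearMap.det_prodMap, LinearMap.det_id, mul_one]

/-- the norm of a finite reduced algebra -/
theorem pd_norm_red {E A : Type} [Field E] [CommRing A] [Algebra E A] [Module.Finite E A]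
    [IsReduced A] [Fintype (MaximalSpectrum A)] (z : A) :
    Algebra.norm E z =
      ∏ m : MaximalSpectrum A, Algebra.norm E (Ideal.Quotient.mk m.asIdeal z) := by
  have : IsArtinianRing A := IsArtinianRing.of_finite E A
  rw [← Algebra.norm_eq_of_algEquiv ((IsArtinianRing.equivPi A).restrictScalars E), pd_norm_pi]
  rfl

/-- norms in a pushout -/
theorem pd_norm_pushout {K E E' A : Type} [Field K] [Field E] [Field E'] [CommRing A] [Algebra K E]
    [Algebra K E'] [Algebra K A] [Algebra E A] [Algebra E' A] [IsScalarTower K E A]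
    [IsScalarTower K E' A] [Algebra.IsPushout K E E' A] [FiniteDimensional K E'] (a : E) (b : E') :
    Algebra.norm E (algebraMap E A a - algebraMap E' A b) =
      aeval a (LinearMap.charpoly (Algebra.lmul K E' b)) := by
  have h1 : algebraMap E A a - algebraMap E' A b =
      Algebra.IsPushout.equiv K E E' A (algebraMap E _ a - (1 : E) ⊗ₜ[K] b) := by
    rw [map_sub, AlgEquiv.commutes, Algebra.IsPushout.equiv_tmul, map_one, one_mul]
  rw [h1, Algebra.norm_eq_of_algEquiv, Algebra.norm_apply, aeval_def, ← eval_map,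
    ← LinearMap.charpoly_baseChange, LinearMap.eval_charpoly, Algebra.baseChange_lmul,
    ← (Algebra.lmul E (TensorProduct K E E')).commutes, ← map_sub]

theorem pd_norm_self {K E' : Type} [Field K] [Field E'] [Algebra K E'] [FiniteDimensional K E']
    (b : E') : Algebra.norm K (-b) = eval 0 (LinearMap.charpoly (Algebra.lmul K E' b)) := by
  rw [LinearMap.eval_charpoly, map_zero, zero_sub, ← map_neg]
  rfl

theorem pd_charpoly_root {K : Type} [Field K] {φ : K[X]} (hm : φ.Monic)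
    [Module.Finite K (AdjoinRoot φ)] :
    LinearMap.charpoly (Algebra.lmul K (AdjoinRoot φ) (AdjoinRoot.root φ)) = φ := by
  have h1 := charpoly_leftMulMatrix (AdjoinRoot.powerBasis hm.ne_zero)
  rw [AdjoinRoot.minpoly_powerBasis_gen_of_monic hm, Algebra.leftMulMatrix_apply,
    LinearMap.charpoly_toMatrix] at h1
  exact h1

theorem pd_BB_prod {E ι : Type} [Field E] [NumberField E] {w : E} (hw : IsPrimitiveRoot w 3)
    {M : ℕ} (h3 : 3 ∣ M) {a : E} (ha : a ≠ 0) (s : Finset ι) (z : ι → E) (hz : ∀ i, z i ≠ 0) :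
    BB w M a (∏ i ∈ s, z i) = ∏ i ∈ s, BB w M a (z i) := by
  classical
  induction s using Finset.induction_on with
  | empty => simpa using BB_one_right hw h3 ha
  | insert i s hi ih =>
    rw [Finset.prod_insert hi, Finset.prod_insert hi,
      BB_mul_right hw h3 ha (hz i) (Finset.prod_ne_zero_iff.2 fun j _ => hz j), ih]

theorem pd_local {L : Type} [Field L] [NumberField L] {w : L} (hw : IsPrimitiveRoot w 3)
    {M : ℕ} (h3 : 3 ∣ M) {x y : L} (hx : x ≠ 0) (hy : y ≠ 0) (hxy : y - x ≠ 0) :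
    BB w M y (y - x) = BB w M x (x - y) * BB w M y (0 - x) := by
  have ht : y * x⁻¹ ≠ 0 := mul_ne_zero hy (inv_ne_zero hx)
  have ht1 : y * x⁻¹ ≠ 1 := by
    intro h
    rw [mul_inv_eq_one₀ hx] at h
    exact hxy (sub_eq_zero.2 h)
  have h1 : BB w M (y * x⁻¹) (y - x) = BB w M y (-x) := by
    have e : y - x = -x * (1 - y * x⁻¹) := by field_simp; ring
    rw [e, BB_mul_right hw h3 ht (neg_ne_zero.2 hx) (sub_ne_zero.2 ht1.symm), BB_stein hw h3 ht ht1,
      mul_one, BB_mul_left hw h3 hy (inv_ne_zero hx) (neg_ne_zero.2 hx),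
      BB_inv_left hw h3 hx (neg_ne_zero.2 hx), BB_neg_right hw h3 hx hx, BB_self hw h3 hx, inv_one,
      mul_one]
  rw [BB_mul_left hw h3 hy (inv_ne_zero hx) hxy, BB_inv_left hw h3 hx hxy] at h1
  rw [zero_sub, ← h1, ← neg_sub y x, BB_neg_right hw h3 hx hxy]
  have := BB_ne_zero hw h3 hx hxy
  field_simp

theorem pd_core {E₁ E₂ ι : Type} [Field E₁] [NumberField E₁] [Field E₂] [NumberField E₂]
    [Fintype ι] (L : ι → Type) [∀ i, Field (L i)] [∀ i, NumberField (L i)]
    [∀ i, Algebra E₁ (L i)] [∀ i, Algebra E₂ (L i)] {w₁ : E₁} {w₂ : E₂}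
    (hw₁ : IsPrimitiveRoot w₁ 3) (hw₂ : IsPrimitiveRoot w₂ 3)
    (hw : ∀ i, algebraMap E₁ (L i) w₁ = algebraMap E₂ (L i) w₂) {M : ℕ} (h3 : 3 ∣ M) {x : E₁}
    {y : E₂} (hx : x ≠ 0) (hy : y ≠ 0)
    (hxy : ∀ i, algebraMap E₂ (L i) y - algebraMap E₁ (L i) x ≠ 0) :
    BB w₂ M y (∏ i, Algebra.norm E₂ (algebraMap E₂ (L i) y - algebraMap E₁ (L i) x)) =
      BB w₁ M x (∏ i, Algebra.norm E₁ (algebraMap E₁ (L i) x - algebraMap E₂ (L i) y)) *
        BB w₂ M y (∏ i, Algebra.norm E₂ (algebraMap E₂ (L i) 0 - algebraMap E₁ (L i) x)) := by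
  have hx' : ∀ i, algebraMap E₁ (L i) x ≠ 0 := fun i => (_root_.map_ne_zero _).2 hx
  have hy' : ∀ i, algebraMap E₂ (L i) y ≠ 0 := fun i => (_root_.map_ne_zero _).2 hy
  have hyx : ∀ i, algebraMap E₁ (L i) x - algebraMap E₂ (L i) y ≠ 0 := fun i => by
    rw [← neg_sub]; exact neg_ne_zero.2 (hxy i)
  have h0x : ∀ i, algebraMap E₂ (L i) 0 - algebraMap E₁ (L i) x ≠ 0 := fun i => by
    rw [map_zero, zero_sub]; exact neg_ne_zero.2 (hx' i)
  have f₁ : ∀ i, Module.Finite E₁ (L i) := fun i => Module.Finite.right ℚ E₁ (L i)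
  have f₂ : ∀ i, Module.Finite E₂ (L i) := fun i => Module.Finite.right ℚ E₂ (L i)
  rw [pd_BB_prod hw₂ h3 hy _ _ fun i => Algebra.norm_ne_zero_iff.2 (hxy i),
    pd_BB_prod hw₁ h3 hx _ _ fun i => Algebra.norm_ne_zero_iff.2 (hyx i),
    pd_BB_prod hw₂ h3 hy _ _ fun i => Algebra.norm_ne_zero_iff.2 (h0x i),
    ← Finset.prod_mul_distrib]
  refine Finset.prod_congr rfl fun i _ => ?_
  rw [← BB_proj hw₂ h3 hy (hxy i), ← BB_proj hw₁ h3 hx (hyx i), ← BB_proj hw₂ h3 hy (h0x i), hw i,
    map_zero]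
  exact pd_local (hw₂.map_of_injective (algebraMap E₂ (L i)).injective) h3 (hx' i) (hy' i) (hxy i)

theorem pd_main {K E₁ E₂ A : Type} [Field K] [NumberField K] [Field E₁] [NumberField E₁] [Field E₂]
    [NumberField E₂] [CommRing A] [Algebra K E₁] [Algebra K E₂] [Algebra K A] [Algebra E₁ A]
    [Algebra E₂ A] [IsScalarTower K E₁ A] [IsScalarTower K E₂ A] [Algebra.IsPushout K E₁ E₂ A]
    [IsReduced A] [FiniteDimensional K E₁] [FiniteDimensional K E₂] [Module.Finite K A]
    {w : K} (hw : IsPrimitiveRoot w 3) {M : ℕ} (h3 : 3 ∣ M) {x : E₁} {y : E₂} (hx : x ≠ 0)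
    (hy : y ≠ 0) (hxy : aeval y (LinearMap.charpoly (Algebra.lmul K E₁ x)) ≠ 0) :
    BB (algebraMap K E₂ w) M y (aeval y (LinearMap.charpoly (Algebra.lmul K E₁ x))) =
      BB (algebraMap K E₁ w) M x (aeval x (LinearMap.charpoly (Algebra.lmul K E₂ y))) *
        BB w M (eval 0 (LinearMap.charpoly (Algebra.lmul K E₂ y)))
          (eval 0 (LinearMap.charpoly (Algebra.lmul K E₁ x))) := by
  have : Algebra.IsPushout K E₂ E₁ A := Algebra.IsPushout.symm inferInstance
  have : Module.Finite E₁ A := Module.Finite.of_restrictScalars_finite K E₁ A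
  have : Module.Finite E₂ A := Module.Finite.of_restrictScalars_finite K E₂ A
  have : IsArtinianRing A := IsArtinianRing.of_finite K A
  let _ : Fintype (MaximalSpectrum A) := Fintype.ofFinite _
  let _ : ∀ m : MaximalSpectrum A, Field (A ⧸ m.asIdeal) := fun m =>
    have := m.isMaximal
    Ideal.Quotient.field m.asIdeal
  have : ∀ m : MaximalSpectrum A, NumberField (A ⧸ m.asIdeal) := fun m =>
    NumberField.of_module_finite K _
  have hw₁ := hw.map_of_injective (algebraMap K E₁).injective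
  have hw₂ := hw.map_of_injective (algebraMap K E₂).injective
  have n1 := pd_norm_pushout (K := K) (A := A) y x
  have n2 := pd_norm_pushout (K := K) (A := A) x y
  have n3 := pd_norm_pushout (K := K) (A := A) (0 : E₂) x
  rw [pd_norm_red] at n1 n2 n3
  have hne : ∀ m : MaximalSpectrum A,
      algebraMap E₂ (A ⧸ m.asIdeal) y - algebraMap E₁ (A ⧸ m.asIdeal) x ≠ 0 := by
    intro m
    rw [← n1] at hxy
    exact Algebra.norm_ne_zero_iff.1 (Finset.prod_ne_zero_iff.1 hxy m (Finset.mem_univ _))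
  have key := pd_core (fun m : MaximalSpectrum A => A ⧸ m.asIdeal) hw₁ hw₂
    (fun m => by rw [← IsScalarTower.algebraMap_apply, ← IsScalarTower.algebraMap_apply]) h3 hx hy
    hne
  have hx0 : eval 0 (LinearMap.charpoly (Algebra.lmul K E₁ x)) ≠ 0 := by
    rw [← pd_norm_self]; exact Algebra.norm_ne_zero_iff.2 (neg_ne_zero.2 hx)
  have hy0 : eval 0 (LinearMap.charpoly (Algebra.lmul K E₂ y)) ≠ 0 := by
    rw [← pd_norm_self]; exact Algebra.norm_ne_zero_iff.2 (neg_ne_zero.2 hy)
  have e3 : aeval (0 : E₂) (LinearMap.charpoly (Algebra.lmul K E₁ x)) =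
      algebraMap K E₂ (eval 0 (LinearMap.charpoly (Algebra.lmul K E₁ x))) := by
    rw [← map_zero (algebraMap K E₂), aeval_algebraMap_apply, aeval_def, Algebra.algebraMap_self,
      eval₂_id]
  have last : BB (algebraMap K E₂ w) M y
      (algebraMap K E₂ (eval 0 (LinearMap.charpoly (Algebra.lmul K E₁ x)))) =
      BB w M (eval 0 (LinearMap.charpoly (Algebra.lmul K E₂ y)))
        (eval 0 (LinearMap.charpoly (Algebra.lmul K E₁ x))) := by
    rw [BB_symm hw₂ h3 ((_root_.map_ne_zero _).2 hx0) hy,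
      ← BB_neg_right hw₂ h3 ((_root_.map_ne_zero _).2 hx0) hy, BB_proj hw h3 hx0 (neg_ne_zero.2 hy),
      pd_norm_self, BB_symm hw h3 hx0 hy0]
  rw [← last, ← e3, ← n1, ← n2, ← n3]
  exact key

open Classical in
/-- `B^{F(y)}(y, p(y))` for a root `y` of the irreducible polynomial `φ` -/
def symI (w : F) (M : ℕ) (φ p : F[X]) : ℂ :=
  if h : Irreducible φ then
    haveI : Fact (Irreducible φ) := ⟨h⟩
    haveI : NumberField (AdjoinRoot φ) := numberField_adjoinRoot φ
    BB (algebraMap F (AdjoinRoot φ) w) M (AdjoinRoot.root φ) (AdjoinRoot.mk φ p)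
  else 1

open Classical in
/-- the Rosset-Tate symbol `(p / q)` -/
def RT (w : F) (M : ℕ) (p q : F[X]) : ℂ :=
  ((UniqueFactorizationMonoid.normalizedFactors q).map (fun φ => symI w M φ p)).prod

variable {w : F} (hw : IsPrimitiveRoot w 3) {M : ℕ} (h3 : 3 ∣ M)
include hw h3

/-- reciprocity for two distinct monic irreducible polynomials different from `X` -/
theorem symI_recip {φ ψ : F[X]} (hφ : Irreducible φ) (hψ : Irreducible ψ) (hφm : φ.Monic)
    (hψm : ψ.Monic) (hne : φ ≠ ψ) (hφ0 : φ.eval 0 ≠ 0) (hψ0 : ψ.eval 0 ≠ 0) :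
    symI w M ψ φ = symI w M φ ψ * BB w M (ψ.eval 0) (φ.eval 0) := by
  have : Fact (Irreducible φ) := ⟨hφ⟩
  have : Fact (Irreducible ψ) := ⟨hψ⟩
  have : NumberField (AdjoinRoot φ) := numberField_adjoinRoot φ
  have : NumberField (AdjoinRoot ψ) := numberField_adjoinRoot ψ
  have : Module.Finite F (AdjoinRoot φ) := (AdjoinRoot.powerBasis hφ.ne_zero).finite
  have : Module.Finite F (AdjoinRoot ψ) := (AdjoinRoot.powerBasis hψ.ne_zero).finite
  let _ : Algebra (AdjoinRoot ψ) (TensorProduct F (AdjoinRoot φ) (AdjoinRoot ψ)) :=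
    Algebra.TensorProduct.rightAlgebra
  have : Algebra.FormallyUnramified F (AdjoinRoot ψ) :=
    Algebra.FormallyUnramified.of_isSeparable F _
  have : IsReduced (TensorProduct F (AdjoinRoot φ) (AdjoinRoot ψ)) :=
    Algebra.FormallyUnramified.isReduced_of_field (AdjoinRoot φ) _
  have hroot : ∀ (χ : F[X]) [Fact (Irreducible χ)], χ.eval 0 ≠ 0 → AdjoinRoot.root χ ≠ 0 := by
    intro χ _ h0 hr
    have h1 : aeval (AdjoinRoot.root χ) χ = 0 := by rw [AdjoinRoot.aeval_eq, AdjoinRoot.mk_self]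
    rw [hr, ← map_zero (algebraMap F (AdjoinRoot χ)), aeval_algebraMap_apply, aeval_def,
      Algebra.algebraMap_self, eval₂_id] at h1
    exact h0 ((algebraMap F (AdjoinRoot χ)).injective h1)
  have hxy : aeval (AdjoinRoot.root ψ) φ ≠ 0 := by
    rw [AdjoinRoot.aeval_eq, Ne, AdjoinRoot.mk_eq_zero]
    intro hd
    exact hne (eq_of_monic_of_associated hψm hφm (hψ.associated_of_dvd hφ hd)).symm
  have key := pd_main (A := TensorProduct F (AdjoinRoot φ) (AdjoinRoot ψ)) hw h3 (hroot φ hφ0)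
    (hroot ψ hψ0) (by rwa [pd_charpoly_root hφm])
  rw [pd_charpoly_root hφm, pd_charpoly_root hψm, AdjoinRoot.aeval_eq, AdjoinRoot.aeval_eq] at key
  rw [symI, symI, dif_pos hφ, dif_pos hψ]
  exact key

end Crest.Agent.GQ
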