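import Crest.Agent.GQ.RecProj3Aux

/-! # GQ RecProj3AuxB: the norm of a uniformizer -/

set_option autoImplicit false

noncomputable section

open NumberField IsDedekindDomain WithZero

namespace Crest.Agent.GQ

theorem p3_rot {n : ℕ} (i : Fin n) :
    ((finRotate n i : ℕ) = i + 1 ∧ (finRotate n i : ℕ) ≠ 0) ∨ ((finRotate n i : ℕ) = 0 ∧ (i : ℕ) + 1 = n) := by
  have h : (finRotate n i : ℕ) = (i + 1) % n := by
    rw [finRotate_apply, Fin.val_add, Fin.val_one', Nat.add_mod_mod]
  rcases (Nat.succ_le_of_lt i.2).lt_or_eq with h1 | h1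
  · left; rw [h, Nat.mod_eq_of_lt h1]; omega
  · right; exact ⟨by rw [h, show (i : ℕ) + 1 = n from h1, Nat.mod_self], h1⟩

variable {E L : Type} [Field E] [NumberField E] [Field L] [NumberField L] [Algebra E L]
  {p : HeightOneSpectrum (𝓞 E)}

instance p3_liesOver (q : above L p) : q.1.asIdeal.LiesOver p.asIdeal := q.2

/-- ramification index -/
abbrev p3e (q : above L p) : ℕ := p.asIdeal.ramificationIdx' q.1.asIdeal
/-- residue degree -/
abbrev p3f (q : above L p) : ℕ := p.asIdeal.inertiaDeg' q.1.asIdeal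

theorem p3e_pos (q : above L p) : 0 < p3e q :=
  Nat.pos_of_ne_zero (Ideal.IsDedekindDomain.ramificationIdx'_ne_zero_of_liesOver q.1.asIdeal p.ne_bot)

theorem p3_val (q : above L p) (c : E) :
    q.1.valuation L (algebraMap E L c) = p.valuation E c ^ p3e q :=
  (HeightOneSpectrum.valuation_liesOver L p q.1 c).symm

theorem p3_exp_lt (q : above L p) : exp (-(p3e q : ℤ)) < 1 := by
  rw [← exp_zero, exp_lt_exp]; have := p3e_pos q; omega

theorem p3_val_le (q : above L p) {c : E} (h : p.valuation E c ≤ 1) :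
    q.1.valuation L (algebraMap E L c) ≤ 1 := by
  rw [p3_val]; exact pow_le_one' h _

theorem p3_val_le_exp (q : above L p) {c : E} (h : p.valuation E c < 1) :
    q.1.valuation L (algebraMap E L c) ≤ exp (-(p3e q : ℤ)) := by
  rw [p3_val]
  refine (pow_le_pow_left' (p3_le_exp h) _).trans (le_of_eq ?_)
  rw [← exp_nsmul]; simp

theorem p3_val_lt (q : above L p) {c : E} (h : q.1.valuation L (algebraMap E L c) < 1) :
    p.valuation E c < 1 := by
  rw [p3_val] at h
  exact (pow_lt_one_iff (p3e_pos q).ne').1 h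

theorem p3_val_unif (q : above L p) {a : E} (ha : p.valuation E a = exp (-1)) :
    q.1.valuation L (algebraMap E L a) = exp (-(p3e q : ℤ)) := by
  rw [p3_val, ha, ← exp_nsmul]; simp

theorem p3_int (q : HeightOneSpectrum (𝓞 L)) (x : 𝓞 L) : q.valuation L (algebraMap (𝓞 L) L x) ≤ 1 :=
  q.valuation_le_one x

theorem p3_mem (q : HeightOneSpectrum (𝓞 L)) {x : 𝓞 L} :
    q.valuation L (algebraMap (𝓞 L) L x) < 1 ↔ x ∈ q.asIdeal :=
  q.valuation_lt_one_iff_mem x

theorem p3_mem_pow (q : HeightOneSpectrum (𝓞 L)) {x : 𝓞 L} {n : ℕ} (h : x ∈ q.asIdeal ^ n) :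
    q.valuation L (algebraMap (𝓞 L) L x) ≤ exp (-(n : ℤ)) := by
  have := q.valuation_of_algebraMap (K := L) x
  exact this.le.trans ((q.intValuation_le_pow_iff_mem x n).2 h)

omit [NumberField E] [NumberField L] in
theorem p3_tower (c : 𝓞 E) :
    algebraMap (𝓞 L) L (algebraMap (𝓞 E) (𝓞 L) c) = algebraMap E L (algebraMap (𝓞 E) E c) := by
  rw [← IsScalarTower.algebraMap_apply, ← IsScalarTower.algebraMap_apply]

theorem p3_indep (q : above L p) {κ : Type*} [Fintype κ] {β : κ → 𝓞 L}
    (hβ : ∀ c : κ → 𝓞 E, ∑ j, algebraMap _ _ (c j) * β j ∈ q.1.asIdeal → ∀ j, c j ∈ p.asIdeal)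
    (c : κ → E) (hc : ∀ j, p.valuation E (c j) ≤ 1)
    (h : q.1.valuation L (∑ j, algebraMap E L (c j) * algebraMap (𝓞 L) L (β j)) < 1) (j : κ) :
    p.valuation E (c j) < 1 := by
  choose c' hc' using fun j => p.exists_valuation_sub_lt_of_integer (hc j) 1
  simp only [Units.val_one] at hc'
  have h1 : q.1.valuation L (algebraMap (𝓞 L) L (∑ j, algebraMap _ _ (c' j) * β j)) < 1 := by
    have e : algebraMap (𝓞 L) L (∑ j, algebraMap _ _ (c' j) * β j) =
        ∑ j, algebraMap E L (c j) * algebraMap (𝓞 L) L (β j) +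
          ∑ j, algebraMap E L (algebraMap (𝓞 E) E (c' j) - c j) * algebraMap (𝓞 L) L (β j) := by
      rw [map_sum, ← Finset.sum_add_distrib]
      refine Finset.sum_congr rfl fun j _ => ?_
      rw [map_mul, p3_tower, map_sub]; ring
    rw [e]
    refine Valuation.map_add_lt _ h (Valuation.map_sum_lt _ one_ne_zero fun j _ => ?_)
    rw [map_mul]
    exact lt_of_le_of_lt (mul_le_of_le_one_right' (p3_int _ _))
      ((p3_val_le_exp q (hc' j)).trans_lt (p3_exp_lt q))
  have h2 := (p3_mem p).2 (hβ c' ((p3_mem q.1).1 h1) j)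
  have h3 := Valuation.map_sub_lt _ h2 (hc' j)
  rwa [sub_sub_cancel] at h3

theorem p3_crt (x : above L p → 𝓞 L) (n : above L p → ℕ) :
    ∃ y : 𝓞 L, ∀ q : above L p, q.1.valuation L (algebraMap (𝓞 L) L (y - x q)) ≤ exp (-(n q : ℤ)) := by
  let _ : Fintype (above L p) := (finite_above L p).fintype
  obtain ⟨y, hy⟩ := IsDedekindDomain.exists_forall_sub_mem_ideal (s := (Finset.univ : Finset (above L p)))
    (fun q => q.1.asIdeal) n (fun q _ => q.1.prime)
    (fun i _ j _ hij h => hij (Subtype.ext (HeightOneSpectrum.ext h))) (fun q => x q.1)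
  exact ⟨y, fun q => p3_mem_pow _ (hy q (Finset.mem_univ q))⟩

theorem p3_card [Fintype (above L p)] : ∑ q : above L p, p3e q * p3f q = Module.finrank E L := by
  rw [← Ideal.sum_ramification_inertia (𝓞 L) E L p.ne_bot]
  refine Finset.sum_bij (fun q _ => q.1.asIdeal) (fun q _ => ?_) (fun q _ q' _ h => ?_)
    (fun P hP => ?_) (fun _ _ => rfl)
  · exact (IsDedekindDomain.mem_primesOverFinset_iff p.ne_bot _).2 ⟨q.1.isPrime, q.2⟩
  · exact Subtype.ext (HeightOneSpectrum.ext h)
  · obtain ⟨h1, h2⟩ := (IsDedekindDomain.mem_primesOverFinset_iff p.ne_bot _).1 hP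
    exact ⟨⟨⟨P, h1, Ideal.ne_bot_of_liesOver_of_ne_bot p.ne_bot P⟩, h2⟩, Finset.mem_univ _, rfl⟩

theorem p3_norm {a : E} (ha : p.valuation E a = exp (-1)) (q0 : above L p) (z : 𝓞 L)
    (hz : q0.1.valuation L (algebraMap (𝓞 L) L z) = exp (-1))
    (hz' : ∀ q : above L p, q ≠ q0 →
      q.1.valuation L (algebraMap (𝓞 L) L z - 1) ≤ exp (-(p3e q : ℤ)))
    (h : 𝓞 L) (hh : q0.1.valuation L
      (algebraMap (𝓞 L) L h - algebraMap (𝓞 L) L z ^ p3e q0 / algebraMap E L a) < 1) :
    ∃ (D : E) (d : 𝓞 E), (Algebra.norm E (algebraMap (𝓞 L) L z) = a ^ p3f q0 * D ∨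
      Algebra.norm E (algebraMap (𝓞 L) L z) = -(a ^ p3f q0 * D)) ∧
      p.valuation E (D - algebraMap (𝓞 E) E d) < 1 ∧ algebraMap _ _ d -
        h ^ ((Ideal.absNorm q0.1.asIdeal - 1) / (Ideal.absNorm p.asIdeal - 1)) ∈ q0.1.asIdeal := by
  classical
  let _ : Fintype (above L p) := (finite_above L p).fintype
  have ha0 : a ≠ 0 := fun h0 => by rw [h0, map_zero] at ha; exact exp_ne_zero ha.symm
  have ha0' : algebraMap E L a ≠ 0 := (map_ne_zero _).2 ha0
  choose β hβ hβ' _ using fun q : above L p => p3_res p q.1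
  choose ε hε using fun q : above L p => p3_crt (fun q' => if q' = q then 1 else 0) p3e
  have hε1 : ∀ q : above L p, q.1.valuation L (algebraMap (𝓞 L) L (ε q)) = 1 := fun q => by
    have h1 := (hε q q).trans_lt (p3_exp_lt q)
    rw [if_pos rfl, map_sub, map_one] at h1
    have := Valuation.map_one_add_of_lt _ h1
    rwa [add_sub_cancel] at this
  have hε0 : ∀ q q' : above L p, q' ≠ q →
      q'.1.valuation L (algebraMap (𝓞 L) L (ε q)) ≤ exp (-(p3e q' : ℤ)) := fun q q' hq => by
    have h1 := hε q q'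
    rwa [if_neg hq, sub_zero] at h1
  obtain ⟨ϖ, hϖ, hϖ0⟩ : ∃ ϖ : above L p → 𝓞 L,
      (∀ q : above L p, q.1.valuation L (algebraMap (𝓞 L) L (ϖ q)) = exp (-1)) ∧ ϖ q0 = z := by
    choose ϖ hϖ using fun q : above L p => q.1.valuation_exists_uniformizer' L
    refine ⟨fun q => if q = q0 then z else ϖ q, fun q => ?_, if_pos rfl⟩
    by_cases hq : q = q0
    · subst hq; simpa only [if_true] using hz
    · simp only [if_neg hq]; exact hϖ q
  let ι := Σ q : above L p, Fin (p3e q) × Fin (p3f q)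
  let b : ι → L := fun s => algebraMap (𝓞 L) L (ε s.1) *
    (algebraMap (𝓞 L) L (ϖ s.1) ^ (s.2.1 : ℕ) * algebraMap (𝓞 L) L (β s.1 s.2.2))
  have hb2 : ∀ (s : ι) (q : above L p), q.1.valuation L
      (algebraMap (𝓞 L) L (ϖ s.1) ^ (s.2.1 : ℕ) * algebraMap (𝓞 L) L (β s.1 s.2.2)) ≤ 1 := fun s q => by
    rw [← map_pow, ← map_mul]; exact p3_int _ _
  have hb1 : ∀ (s : ι) (q : above L p), q.1.valuation L (b s) ≤ 1 := fun s q => by
    simp only [b]
    rw [map_mul]
    exact mul_le_one' (p3_int _ _) (hb2 s q)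
  have hb0 : ∀ (s : ι) (q : above L p), q ≠ s.1 → q.1.valuation L (b s) ≤ exp (-(p3e q : ℤ)) :=
    fun s q hq => by
      simp only [b]
      rw [map_mul]
      exact (mul_le_of_le_one_right' (hb2 s q)).trans (hε0 _ _ hq)
  -- independence modulo `p`
  have hI : ∀ c : ι → E, (∀ s, p.valuation E (c s) ≤ 1) →
      (∀ q : above L p, q.1.valuation L (∑ s, c s • b s) ≤ exp (-(p3e q : ℤ))) →
      ∀ s, p.valuation E (c s) < 1 := by
    rintro c hc hsum ⟨q, i, j⟩
    let S : Fin (p3e q) → L := fun i =>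
      ∑ j, algebraMap E L (c ⟨q, i, j⟩) * algebraMap (𝓞 L) L (β q j)
    have e1 : algebraMap (𝓞 L) L (ε q) * ∑ i : Fin (p3e q), algebraMap (𝓞 L) L (ϖ q) ^ (i : ℕ) * S i =
        ∑ s, c s • b s - ∑ q' ∈ Finset.univ.erase q, ∑ x, c ⟨q', x⟩ • b ⟨q', x⟩ := by
      rw [Fintype.sum_sigma, ← Finset.add_sum_erase _ _ (Finset.mem_univ q), add_sub_cancel_right,
        Fintype.sum_prod_type, Finset.mul_sum]
      refine Finset.sum_congr rfl fun i _ => ?_
      simp only [S, b, Finset.mul_sum, Algebra.smul_def]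
      exact Finset.sum_congr rfl fun j _ => by ring
    have e2 : q.1.valuation L (∑ i : Fin (p3e q), algebraMap (𝓞 L) L (ϖ q) ^ (i : ℕ) * S i) ≤
        exp (-(p3e q : ℤ)) := by
      rw [← one_mul (q.1.valuation L _), ← hε1 q, ← map_mul, e1]
      refine Valuation.map_sub_le _ (hsum q) (Valuation.map_sum_le _ fun q' hq' =>
        Valuation.map_sum_le _ fun x _ => ?_)
      rw [Algebra.smul_def, map_mul]
      exact (mul_le_of_le_one_left' (p3_val_le q (hc _))).trans
        (hb0 ⟨q', x⟩ q (Finset.ne_of_mem_erase hq').symm)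
    have key : ∀ i, q.1.valuation L (S i) < 1 → ∀ j, p.valuation E (c ⟨q, i, j⟩) < 1 := fun i hi =>
      p3_indep q (hβ q) (fun j => c ⟨q, i, j⟩) (fun j => hc _) hi
    refine key i (p3_local _ (hϖ q) S (fun i => Valuation.map_sum_le _ fun j _ => ?_)
      (fun i hi => Valuation.map_sum_le _ fun j _ => ?_) e2 i) j
    · rw [map_mul]; exact mul_le_one' (p3_val_le q (hc _)) (p3_int _ _)
    · rw [map_mul]
      exact (mul_le_of_le_one_right' (p3_int _ _)).trans (p3_val_le_exp q (key i hi j))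
  have hli : LinearIndependent E b := by
    refine Fintype.linearIndependent_iff.2 fun c hc s => by_contra fun hs => ?_
    obtain ⟨t, ht, -, ht'⟩ := p3_scale (p.valuation E) c hs
    have := hI (fun u => c u / c t) ht' (fun q => by
      have : ∑ u, (c u / c t) • b u = (c t)⁻¹ • ∑ u, c u • b u := by
        rw [Finset.smul_sum]
        exact Finset.sum_congr rfl fun u _ => by rw [smul_smul, div_eq_inv_mul]
      rw [this, hc, smul_zero, map_zero]
      exact zero_le) t
    simp only [div_self ht, map_one, lt_self_iff_false] at this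
  have hcard : Fintype.card ι = Module.finrank E L := by
    rw [← p3_card (p := p)]
    simp [ι]
  let B : Module.Basis ι E L := basisOfLinearIndependentOfCardEqFinrank' b hli hcard
  have hB : ∀ s, B s = b s := fun s => by simp [B]
  have hsum : ∀ x, ∑ s, B.repr x s • b s = x := fun x => by
    simpa only [hB] using B.sum_repr x
  have hC : ∀ x : L, (∀ q : above L p, q.1.valuation L x ≤ 1) → ∀ s, p.valuation E (B.repr x s) ≤ 1 := by
    intro x hx s
    by_contra hs
    rw [not_le] at hs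
    have hs0 : B.repr x s ≠ 0 := fun h0 => by
      rw [h0, map_zero] at hs; exact not_lt_zero hs
    obtain ⟨t, ht, ht1, ht'⟩ := p3_scale (p.valuation E) (fun u => B.repr x u) hs0
    have hlt : p.valuation E (B.repr x t)⁻¹ < 1 := by
      rw [map_inv₀]; exact inv_lt_one_of_one_lt₀ (hs.trans_le (ht1 s))
    have := hI (fun u => B.repr x u / B.repr x t) ht' (fun q => by
      have : ∑ u, (B.repr x u / B.repr x t) • b u = (B.repr x t)⁻¹ • ∑ u, B.repr x u • b u := by
        rw [Finset.smul_sum]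
        exact Finset.sum_congr rfl fun u _ => by rw [smul_smul, div_eq_inv_mul]
      rw [this, hsum, Algebra.smul_def, map_mul]
      exact (mul_le_of_le_one_right' (hx q)).trans (p3_val_le_exp q hlt)) t
    simp only [div_self ht, map_one, lt_self_iff_false] at this
  have hC' : ∀ x : L, (∀ q : above L p, q.1.valuation L x ≤ exp (-(p3e q : ℤ))) →
      ∀ s, p.valuation E (B.repr x s) < 1 := fun x hx =>
    hI _ (hC x fun q => (hx q).trans (p3_exp_lt q).le) (fun q => by rw [hsum]; exact hx q)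
  let s0 : Fin (p3f q0) → ι := fun j => ⟨q0, ⟨0, p3e_pos q0⟩, j⟩
  have hs0 : Function.Injective s0 := fun j j' hj =>
    (Prod.ext_iff.1 (sigma_mk_injective (β := fun q : above L p => Fin (p3e q) × Fin (p3f q)) hj)).2
  have hbs0 : ∀ j, b (s0 j) = algebraMap (𝓞 L) L (ε q0) * algebraMap (𝓞 L) L (β q0 j) := fun j => by
    simp [b, s0]
  have hC0 : ∀ x : L, (∀ q : above L p, q.1.valuation L x ≤ 1) → q0.1.valuation L x < 1 →
      ∀ l, p.valuation E (B.repr x (s0 l)) < 1 := by
    intro x hx hx0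
    refine p3_indep q0 (hβ q0) (fun l => B.repr x (s0 l)) (fun l => hC x hx _) ?_
    have e1 : algebraMap (𝓞 L) L (ε q0) *
        ∑ l, algebraMap E L (B.repr x (s0 l)) * algebraMap (𝓞 L) L (β q0 l) =
        x - ∑ s ∈ (Finset.univ.map ⟨s0, hs0⟩)ᶜ, B.repr x s • b s := by
      conv_rhs => rw [← hsum x]
      rw [hsum x, eq_sub_iff_add_eq]
      conv_rhs => rw [← hsum x, ← Finset.sum_add_sum_compl (Finset.univ.map ⟨s0, hs0⟩)]
      rw [Finset.sum_map, Finset.mul_sum]
      congr 1
      refine Finset.sum_congr rfl fun l _ => ?_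
      simp only [Function.Embedding.coeFn_mk, hbs0, Algebra.smul_def]
      ring
    rw [← one_mul (q0.1.valuation L _), ← hε1 q0, ← map_mul, e1, hε1 q0]
    refine Valuation.map_sub_lt _ hx0 (Valuation.map_sum_lt _ one_ne_zero fun s hs => ?_)
    rw [Algebra.smul_def, map_mul]
    refine lt_of_le_of_lt (mul_le_of_le_one_left' (p3_val_le q0 (hC x hx s))) ?_
    obtain ⟨q, i, j⟩ := s
    by_cases hq : q0 = q
    · subst hq
      have hi : (i : ℕ) ≠ 0 := fun hi => (Finset.mem_compl.1 hs)
        (Finset.mem_map.2 ⟨j, Finset.mem_univ _, by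
          simp only [Function.Embedding.coeFn_mk, s0]
          congr 2
          exact Fin.ext hi.symm⟩)
      simp only [b]
      rw [map_mul, map_mul, map_pow, hε1, one_mul, hϖ]
      refine lt_of_le_of_lt (mul_le_of_le_one_right' (p3_int _ _)) (pow_lt_one' ?_ hi)
      rw [← exp_zero, exp_lt_exp]; omega
    · exact (hb0 ⟨q, i, j⟩ q0 hq).trans_lt (p3_exp_lt q0)
  obtain ⟨m, hm, hm'⟩ := hβ' q0 h
  let τ : Equiv.Perm ι := Equiv.sigmaCongrRight fun q =>
    Equiv.prodCongr (if q = q0 then finRotate (p3e q) else Equiv.refl _) (Equiv.refl _)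
  have hτ0 : ∀ i j, τ ⟨q0, i, j⟩ = ⟨q0, finRotate _ i, j⟩ := fun i j => by
    change (⟨q0, (if q0 = q0 then finRotate (p3e q0) else Equiv.refl _) i, j⟩ : ι) = _
    rw [if_pos rfl]
  have hτ1 : ∀ q i j, q ≠ q0 → τ ⟨q, i, j⟩ = ⟨q, i, j⟩ := fun q i j hq => by
    change (⟨q, (if q = q0 then finRotate (p3e q) else Equiv.refl _) i, j⟩ : ι) = _
    rw [if_neg hq]
    rfl
  obtain ⟨D, hD, hD'⟩ := p3_det (p.valuation E) (Algebra.leftMulMatrix B (algebraMap (𝓞 L) L z)) τ s0 hs0
    ha0 (m.map (algebraMap (𝓞 E) E)) (fun l j => p3_int p _) (by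
      rintro ⟨q, i, j⟩ hs t
      have e1 : (if t = τ ⟨q, i, j⟩ then (1 : E) else 0) = B.repr (b (τ ⟨q, i, j⟩)) t := by
        rw [← hB, B.repr_self_apply]
        simp only [eq_comm]
      rw [Algebra.leftMulMatrix_eq_repr_mul, e1, hB, ← Finsupp.sub_apply, ← map_sub]
      refine hC' _ (fun q' => ?_) t
      by_cases hq : q = q0
      · subst hq
        rw [hτ0] at hs ⊢
        rcases p3_rot i with hi | hi
        · have : algebraMap (𝓞 L) L z * b ⟨q, i, j⟩ = b ⟨q, finRotate _ i, j⟩ := by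
            simp only [b, hi.1, hϖ0]; ring
          rw [this, sub_self, map_zero]
          exact zero_le
        · refine absurd ⟨j, ?_⟩ hs
          simp only [s0]
          congr 2
          exact Fin.ext hi.1.symm
      · rw [hτ1 _ _ _ hq, ← sub_one_mul, map_mul]
        by_cases hq' : q' = q0
        · refine (mul_le_of_le_one_left' ?_).trans (hb0 _ _ (hq' ▸ Ne.symm hq))
          exact Valuation.map_sub_le _ (p3_int _ _) (by simp)
        · exact (mul_le_of_le_one_right' (hb1 _ _)).trans (hz' q' hq'))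
    (by
      rintro ⟨q, i, j'⟩ j hs
      have hq : q = q0 := congrArg Sigma.fst hs
      subst hq
      rw [hτ0] at hs
      obtain ⟨hi, hj⟩ := Prod.ext_iff.1
        (sigma_mk_injective (β := fun q : above L p => Fin (p3e q) × Fin (p3f q)) hs)
      dsimp only at hi hj
      subst hj
      have hi' : (i : ℕ) + 1 = p3e q := by
        rcases p3_rot i with h1 | h1
        · exact absurd (congrArg Fin.val hi) h1.2
        · exact h1.2
      set r : L := algebraMap (𝓞 L) L (ε q) *
        (algebraMap (𝓞 L) L z ^ p3e q / algebraMap E L a) * algebraMap (𝓞 L) L (β q j') with hr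
      have e1 : ∀ t, Algebra.leftMulMatrix B (algebraMap (𝓞 L) L z) t ⟨q, i, j'⟩ / a = B.repr r t := by
        intro t
        have : algebraMap (𝓞 L) L z * B ⟨q, i, j'⟩ = a • r := by
          have hp : algebraMap (𝓞 L) L z ^ p3e q = algebraMap (𝓞 L) L z ^ (i : ℕ) * algebraMap (𝓞 L) L z := by
            rw [← pow_succ, hi']
          rw [hB, hr, Algebra.smul_def, hp]
          simp only [b, hϖ0]
          field_simp
        rw [Algebra.leftMulMatrix_eq_repr_mul, this, map_smul, Finsupp.smul_apply, smul_eq_mul,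
          mul_div_cancel_left₀ _ ha0]
      have hr1 : ∀ q' : above L p, q'.1.valuation L r ≤ 1 := by
        intro q'
        rw [hr, map_mul, map_mul, map_div₀, p3_val_unif q' ha, map_pow]
        refine mul_le_one' ?_ (p3_int _ _)
        rw [← mul_div_assoc]
        refine div_le_one_of_le₀ ?_ zero_le
        by_cases hq' : q' = q
        · subst hq'
          rw [hε1, one_mul, hz, ← exp_nsmul]; simp
        · exact (mul_le_of_le_one_right' (pow_le_one' (p3_int _ _) _)).trans (hε0 _ _ hq')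
      refine ⟨fun t => by rw [e1]; exact hC r hr1 t, fun l => ?_⟩
      have e2 : (m.map (algebraMap (𝓞 E) E)) l j' =
          B.repr (∑ l', algebraMap (𝓞 E) E (m l' j') • b (s0 l')) (s0 l) := by
        simp only [← hB, map_sum, map_smul, Finsupp.finset_sum_apply, Finsupp.smul_apply,
          B.repr_self_apply, hs0.eq_iff, smul_eq_mul, mul_ite, mul_one, mul_zero, Finset.sum_ite_eq',
          Finset.mem_univ, if_true, Matrix.map_apply]
      rw [e1, e2, ← Finsupp.sub_apply, ← map_sub]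
      refine hC0 _ (fun q' => Valuation.map_sub_le _ (hr1 q') (Valuation.map_sum_le _ fun l' _ => ?_)) ?_ l
      · rw [Algebra.smul_def, map_mul]
        exact mul_le_one' (p3_val_le q' (p3_int _ _)) (hb1 _ _)
      · have e3 : r - ∑ l', algebraMap (𝓞 E) E (m l' j') • b (s0 l') = algebraMap (𝓞 L) L (ε q) *
            (algebraMap (𝓞 L) L (h * β q j' - ∑ l, algebraMap _ _ (m l j') * β q l) -
              (algebraMap (𝓞 L) L h - algebraMap (𝓞 L) L z ^ p3e q / algebraMap E L a) *
                algebraMap (𝓞 L) L (β q j')) := by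
          simp only [hr, hbs0, map_sub, map_mul, map_sum, p3_tower, Algebra.smul_def, mul_sub,
            Finset.mul_sum]
          have : ∀ l, algebraMap E L (algebraMap (𝓞 E) E (m l j')) *
              (algebraMap (𝓞 L) L (ε q) * algebraMap (𝓞 L) L (β q l)) = algebraMap (𝓞 L) L (ε q) *
              (algebraMap E L (algebraMap (𝓞 E) E (m l j')) * algebraMap (𝓞 L) L (β q l)) :=
            fun l => by ring
          simp only [this]
          ring
        rw [e3, map_mul, hε1, one_mul]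
        refine Valuation.map_sub_lt _ ((p3_mem _).2 (hm j')) ?_
        rw [map_mul]
        exact lt_of_le_of_lt (mul_le_of_le_one_right' (p3_int _ _)) hh)
  refine ⟨D, m.det, ?_, ?_, hm'⟩
  · rwa [Fintype.card_fin, ← Algebra.norm_eq_matrix_det] at hD
  · rwa [RingHom.map_det]

end Crest.Agent.GQ
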