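import Crest.Agent.GQ.RecProj2
import Crest.Agent.GQ.RecProj3AuxB

/-! # GQ RecProj3: projection formula for a pair of uniformizers -/

set_option autoImplicit false

noncomputable section

open NumberField IsDedekindDomain Polynomial
open scoped ComplexConjugate

namespace Crest.Agent.GQ

theorem p3_of_ordv {K : Type} [Field K] [NumberField K] {v : HeightOneSpectrum (𝓞 K)} {x : K}
    (hx : x ≠ 0) {n : ℤ} (h : ordv v x = n) : v.valuation K x = WithZero.exp (-n) := by
  rw [← h, ordv, neg_neg, WithZero.exp_log ((Valuation.ne_zero_iff _).2 hx)]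

theorem p3_ordv {K : Type} [Field K] [NumberField K] {v : HeightOneSpectrum (𝓞 K)} {x : K}
    {n : ℤ} (h : v.valuation K x = WithZero.exp (-n)) : ordv v x = n := by
  rw [ordv, h, WithZero.log_exp, neg_neg]

variable {E L : Type} [Field E] [NumberField E] [Field L] [NumberField L] [Algebra E L]
  {w : E} (hw : IsPrimitiveRoot w 3) {p : HeightOneSpectrum (𝓞 E)} (h3 : (3 : 𝓞 E) ∉ p.asIdeal)
include hw h3

theorem p3_kv (q : above L p) {d : 𝓞 E} {h : 𝓞 L} (hh : q.1.valuation L (algebraMap (𝓞 L) L h) = 1)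
    (hd : algebraMap _ _ d - h ^ ((Ideal.absNorm q.1.asIdeal - 1) / (Ideal.absNorm p.asIdeal - 1)) ∈
      q.1.asIdeal) : p.valuation E (algebraMap (𝓞 E) E d) = 1 ∧
      kv w p (algebraMap (𝓞 E) E d) = kv (algebraMap E L w) q.1 (algebraMap (𝓞 L) L h) := by
  have hw' : IsPrimitiveRoot (algebraMap E L w) 3 := hw.map_of_injective (algebraMap E L).injective
  obtain ⟨-, -, -, hdvd⟩ := p3_res p q.1
  constructor
  · refine le_antisymm (p3_int _ _) (not_lt.1 fun hlt => ?_)
    have h1 := (p3_val_le_exp q hlt).trans_lt (p3_exp_lt q)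
    have h2 := (p3_mem _).2 hd
    rw [map_sub, p3_tower, map_pow] at h2
    have h4 := Valuation.map_sub_lt _ h1 h2
    rw [sub_sub_cancel, map_pow, hh, one_pow] at h4
    exact lt_irrefl _ h4
  · obtain ⟨j, -, hj, hj'⟩ := kv_spec hw' (three_not_mem_above hw h3 q.2) hh
    rw [hj']
    refine kv_eq hw h3 (p3_val_lt q ?_)
    have hm := absNorm_mod_three hw h3
    have h1 : (Ideal.absNorm q.1.asIdeal - 1) / (Ideal.absNorm p.asIdeal - 1) *
        ((Ideal.absNorm p.asIdeal - 1) / 3) = (Ideal.absNorm q.1.asIdeal - 1) / 3 := by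
      rw [← Nat.mul_div_assoc _ (by omega : 3 ∣ Ideal.absNorm p.asIdeal - 1), Nat.div_mul_cancel hdvd]
    have h2 := (p3_mem _).2 (Ideal.mem_of_dvd _
      (sub_dvd_pow_sub_pow _ _ ((Ideal.absNorm p.asIdeal - 1) / 3)) hd)
    rw [← pow_mul, h1, map_sub, map_pow, map_pow, p3_tower] at h2
    have h4 := Valuation.map_add_lt _ h2 hj
    rw [sub_add_sub_cancel] at h4
    rw [map_sub, map_pow, map_pow]
    exact h4

theorem p3_special {a : E} (ha : p.valuation E a = WithZero.exp (-1)) (q0 : above L p) (z : 𝓞 L)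
    (hz : q0.1.valuation L (algebraMap (𝓞 L) L z) = WithZero.exp (-1))
    (hz' : ∀ q : above L p, q ≠ q0 →
      q.1.valuation L (algebraMap (𝓞 L) L z - 1) ≤ WithZero.exp (-(p3e q : ℤ))) :
    ∏ᶠ q ∈ above L p, tame (algebraMap E L w) q (algebraMap E L a) (algebraMap (𝓞 L) L z) =
      tame w p a (Algebra.norm E (algebraMap (𝓞 L) L z)) := by
  classical
  have hw' : IsPrimitiveRoot (algebraMap E L w) 3 := hw.map_of_injective (algebraMap E L).injective
  have h3' := three_not_mem_above hw h3 q0.2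
  have ha0 : a ≠ 0 := fun h0 => by rw [h0, map_zero] at ha; exact WithZero.exp_ne_zero ha.symm
  have ha0' : algebraMap E L a ≠ 0 := (_root_.map_ne_zero _).2 ha0
  have hz0 : algebraMap (𝓞 L) L z ≠ 0 := fun h0 => by
    rw [h0, map_zero] at hz; exact WithZero.exp_ne_zero hz.symm
  have hη : q0.1.valuation L (algebraMap (𝓞 L) L z ^ p3e q0 / algebraMap E L a) = 1 := by
    rw [map_div₀, map_pow, hz, p3_val_unif q0 ha, ← WithZero.exp_nsmul]
    simp
  obtain ⟨h, hh⟩ := q0.1.exists_valuation_sub_lt_of_integer hη.le 1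
  rw [Units.val_one] at hh
  have hh1 : q0.1.valuation L (algebraMap (𝓞 L) L h) = 1 := by
    rw [← hη] at hh ⊢
    exact Valuation.map_eq_of_sub_lt _ hh
  obtain ⟨D, d, hN, hD, hd⟩ := p3_norm ha q0 z hz hz' h hh
  obtain ⟨hd1, hd2⟩ := p3_kv hw h3 q0 hh1 hd
  have hD1 : p.valuation E D = 1 := by
    rw [← hd1] at hD ⊢
    exact Valuation.map_eq_of_sub_lt _ hD
  have hD0 : D ≠ 0 := fun h0 => by rw [h0, map_zero] at hD1; exact zero_ne_one hD1
  rw [finprod_eq_single _ q0.1]
  · rw [finprod_eq_if, if_pos q0.2]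
    have hv : p.valuation E (Algebra.norm E (algebraMap (𝓞 L) L z)) = WithZero.exp (-(p3f q0 : ℤ)) := by
      rcases hN with hN | hN <;> rw [hN]
      · rw [map_mul, map_pow, ha, hD1, ← WithZero.exp_nsmul]; simp
      · rw [Valuation.map_neg, map_mul, map_pow, ha, hD1, ← WithZero.exp_nsmul]; simp
    have e1 : algebraMap E L a ^ (1 : ℤ) * algebraMap (𝓞 L) L z ^ (-(p3e q0 : ℤ)) =
        (algebraMap (𝓞 L) L z ^ p3e q0 / algebraMap E L a) ^ (-1 : ℤ) := by
      simp only [zpow_neg, zpow_one, zpow_natCast]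
      field_simp
    have e2 : kv w p (a ^ (p3f q0 : ℤ) * Algebra.norm E (algebraMap (𝓞 L) L z) ^ (-(1 : ℤ))) =
        kv w p (D ^ (-1 : ℤ)) := by
      rcases hN with hN | hN <;> rw [hN]
      · congr 1
        simp only [zpow_neg, zpow_one, zpow_natCast]
        field_simp
      · rw [← kv_neg hw h3]
        congr 1
        simp only [zpow_neg, zpow_one, zpow_natCast]
        field_simp
    rw [tame, tame, p3_ordv hz, p3_ordv (p3_val_unif q0 ha), p3_ordv hv, p3_ordv ha, e1, e2,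
      kv_zpow hw' h3' hη, kv_zpow hw h3 hD1, kv_congr hw h3 hD1 hD, hd2, kv_congr hw' h3' hh1 hh]
  · intro q hq
    rw [finprod_eq_if]
    split_ifs with hq'
    · have h1 := (hz' ⟨q, hq'⟩ fun h => hq (congrArg Subtype.val h)).trans_lt (p3_exp_lt _)
      have h2 : q.valuation L (algebraMap (𝓞 L) L z) = 1 := by
        have := Valuation.map_one_add_of_lt _ h1
        rwa [add_sub_cancel] at this
      have h3q := three_not_mem_above hw h3 hq'
      rw [tame_of_unit_right hw' h3q ha0' h2, kv_congr hw' h3q h2 h1, kv_one hw' h3q, one_zpow]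
    · rfl

theorem proj_unif {a : E} (ha0 : a ≠ 0) (ha : ordv p a = 1) {z : L} (hz0 : z ≠ 0)
    {q₀ : HeightOneSpectrum (𝓞 L)} (hq₀ : q₀ ∈ above L p) (hz : ordv q₀ z = 1)
    (hz' : ∀ q ∈ above L p, q ≠ q₀ → q.valuation L z = 1) :
    ∏ᶠ q ∈ above L p, tame (algebraMap E L w) q (algebraMap E L a) z =
      tame w p a (Algebra.norm E z) := by
  classical
  have hw' : IsPrimitiveRoot (algebraMap E L w) 3 := hw.map_of_injective (algebraMap E L).injective
  have ha0' : algebraMap E L a ≠ 0 := (_root_.map_ne_zero _).2 ha0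
  let q0 : above L p := ⟨q₀, hq₀⟩
  obtain ⟨ϖ, hϖ⟩ := q₀.valuation_exists_uniformizer' L
  obtain ⟨y, hy⟩ := p3_crt (fun q : above L p => if q = q0 then ϖ else 1) (fun q => p3e q + 1)
  have hy0 : q₀.valuation L (algebraMap (𝓞 L) L y) = WithZero.exp (-1) := by
    have h1 := hy q0
    rw [if_pos rfl, map_sub] at h1
    have h2 : q₀.valuation L (algebraMap (𝓞 L) L ϖ) = WithZero.exp (-1) := hϖ
    rw [← h2]
    refine Valuation.map_eq_of_sub_lt _ (h1.trans_lt ?_)
    rw [h2, WithZero.exp_lt_exp]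
    have := p3e_pos q0
    omega
  have hy1 : ∀ q : above L p, q ≠ q0 →
      q.1.valuation L (algebraMap (𝓞 L) L y - 1) ≤ WithZero.exp (-(p3e q : ℤ)) := fun q hq => by
    have h1 := hy q
    rw [if_neg hq, map_sub, map_one] at h1
    refine h1.trans ?_
    rw [WithZero.exp_le_exp]
    omega
  have hyne : algebraMap (𝓞 L) L y ≠ 0 := fun h0 => by
    rw [h0, map_zero] at hy0; exact WithZero.exp_ne_zero hy0.symm
  have hu0 : z / algebraMap (𝓞 L) L y ≠ 0 := div_ne_zero hz0 hyne
  have hu : ∀ q ∈ above L p, q.valuation L (z / algebraMap (𝓞 L) L y) = 1 := fun q hq => by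
    rw [map_div₀]
    by_cases h : q = q₀
    · rw [h, hy0, p3_of_ordv hz0 hz, div_self WithZero.exp_ne_zero]
    · have h1 := (hy1 ⟨q, hq⟩ fun h' => h (congrArg Subtype.val h')).trans_lt (p3_exp_lt _)
      have h2 := Valuation.map_one_add_of_lt _ h1
      rw [add_sub_cancel] at h2
      rw [hz' q hq h, h2, div_one]
  have e : z = algebraMap (𝓞 L) L y * (z / algebraMap (𝓞 L) L y) := by field_simp
  rw [e, map_mul, tame_mul_right hw h3 ha0 (Algebra.norm_ne_zero_iff.2 hyne)
    (Algebra.norm_ne_zero_iff.2 hu0), ← p3_special hw h3 (p3_of_ordv ha0 ha) q0 y hy0 hy1,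
    ← proj_unit_right hw h3 ha0 hu, ← finprod_mem_mul_distrib (finite_above L p)]
  exact finprod_mem_congr rfl fun q hq =>
    tame_mul_right hw' (three_not_mem_above hw h3 hq) ha0' hyne hu0

end Crest.Agent.GQ
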