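import Crest.Agent.GQ.RecProj2
import Crest.Agent.GQ.RecProj3

/-! # GQ RecProj: the projection formula -/

set_option autoImplicit false

noncomputable section

open NumberField IsDedekindDomain Polynomial
open scoped ComplexConjugate

namespace Crest.Agent.GQ

theorem pj_zpow {K : Type} [Field K] (Q : K → Prop) (h1 : Q 1)
    (hmul : ∀ x y, x ≠ 0 → y ≠ 0 → Q x → Q y → Q (x * y))
    (hcan : ∀ x y, x ≠ 0 → y ≠ 0 → Q x → Q (x * y) → Q y) {x : K} (hx : x ≠ 0) (hQ : Q x)
    (n : ℤ) : Q (x ^ n) := by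
  have hnat : ∀ k : ℕ, Q (x ^ k) := by
    intro k
    induction k with
    | zero => simpa using h1
    | succ k ih => rw [pow_succ]; exact hmul _ _ (pow_ne_zero _ hx) hx ih hQ
  obtain ⟨k, rfl | rfl⟩ := n.eq_nat_or_neg
  · simpa using hnat k
  · refine hcan (x ^ k) _ (pow_ne_zero _ hx) (zpow_ne_zero _ hx) (hnat k) ?_
    rwa [zpow_neg, zpow_natCast, mul_inv_cancel₀ (pow_ne_zero _ hx)]

theorem pj_exists_unif {L : Type} [Field L] [NumberField L] {S : Set (HeightOneSpectrum (𝓞 L))}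
    (hS : S.Finite) {q₀ : HeightOneSpectrum (𝓞 L)} (hq₀ : q₀ ∈ S) :
    ∃ z : L, z ≠ 0 ∧ ordv q₀ z = 1 ∧ ∀ q ∈ S, q ≠ q₀ → q.valuation L z = 1 := by
  classical
  obtain ⟨π, hπ⟩ := q₀.intValuation_exists_uniformizer
  obtain ⟨y, hy⟩ := IsDedekindDomain.exists_forall_sub_mem_ideal (s := hS.toFinset)
    (fun q : HeightOneSpectrum (𝓞 L) => q.asIdeal) (fun _ => 2) (fun q _ => q.prime)
    (fun q _ q' _ h h' => h (HeightOneSpectrum.ext h')) (fun q => if q.1 = q₀ then π else 1)
  have h0 : q₀.intValuation y = WithZero.exp (-(1 : ℤ)) := by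
    have h1 := hy q₀ (hS.mem_toFinset.2 hq₀)
    simp only [if_true] at h1
    have h2 := (q₀.intValuation_le_pow_iff_mem _ 2).2 h1
    have h3 : q₀.intValuation (y - π) < q₀.intValuation π := by
      rw [hπ]
      exact h2.trans_lt (WithZero.exp_lt_exp.2 (by norm_num))
    rw [← hπ]
    exact Valuation.map_eq_of_sub_lt _ h3
  have hv : q₀.valuation L (y : L) = WithZero.exp (-(1 : ℤ)) := by
    rw [← h0]; exact q₀.valuation_of_algebraMap y
  refine ⟨y, ?_, ?_, fun q hq hne => ?_⟩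
  · intro h
    rw [h, map_zero] at hv
    exact WithZero.exp_ne_zero hv.symm
  · simp [ordv, hv]
  · have h1 := hy q (hS.mem_toFinset.2 hq)
    simp only [if_neg hne] at h1
    refine (q.valuation_eq_one_iff_notMem (K := L)).2 fun hm => ?_
    have h2 : y - 1 ∈ q.asIdeal := Ideal.pow_le_self two_ne_zero h1
    have h3 : (1 : 𝓞 L) ∈ q.asIdeal := by simpa using q.asIdeal.sub_mem hm h2
    exact q.isPrime.ne_top ((Ideal.eq_top_iff_one _).2 h3)

variable {E L : Type} [Field E] [NumberField E] [Field L] [NumberField L] [Algebra E L]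
  {w : E} (hw : IsPrimitiveRoot w 3)
include hw

theorem proj_local {p : HeightOneSpectrum (𝓞 E)} (h3 : (3 : 𝓞 E) ∉ p.asIdeal) {a : E} (ha : a ≠ 0)
    {z : L} (hz : z ≠ 0) :
    ∏ᶠ q ∈ above L p, tame (algebraMap E L w) q (algebraMap E L a) z =
      tame w p a (Algebra.norm E z) := by
  have hw' : IsPrimitiveRoot (algebraMap E L w) 3 := hw.map_of_injective (algebraMap E L).injective
  have hfin := finite_above L p
  have hal : ∀ {x : E}, x ≠ 0 → algebraMap E L x ≠ 0 := fun hx => by simpa using hx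
  have hN : ∀ {y : L}, y ≠ 0 → Algebra.norm E y ≠ 0 := fun hy => Algebra.norm_ne_zero_iff.2 hy
  set F : E → L → ℂ := fun a z =>
    ∏ᶠ q ∈ above L p, tame (algebraMap E L w) q (algebraMap E L a) z with hF
  set G : E → L → ℂ := fun a z => tame w p a (Algebra.norm E z) with hG
  have hFl : ∀ x x' y, x ≠ 0 → x' ≠ 0 → y ≠ 0 → F (x * x') y = F x y * F x' y := by
    intro x x' y hx hx' hy
    simp only [hF]
    rw [← finprod_mem_mul_distrib hfin]
    refine finprod_mem_congr rfl fun q hq => ?_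
    rw [map_mul, tame_mul_left hw' (three_not_mem_above hw h3 hq) (hal hx) (hal hx') hy]
  have hFr : ∀ x y y', x ≠ 0 → y ≠ 0 → y' ≠ 0 → F x (y * y') = F x y * F x y' := by
    intro x y y' hx hy hy'
    simp only [hF]
    rw [← finprod_mem_mul_distrib hfin]
    refine finprod_mem_congr rfl fun q hq => ?_
    rw [tame_mul_right hw' (three_not_mem_above hw h3 hq) (hal hx) hy hy']
  have hGl : ∀ x x' y, x ≠ 0 → x' ≠ 0 → y ≠ 0 → G (x * x') y = G x y * G x' y :=
    fun x x' y hx hx' hy => tame_mul_left hw h3 hx hx' (hN hy)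
  have hGr : ∀ x y y', x ≠ 0 → y ≠ 0 → y' ≠ 0 → G x (y * y') = G x y * G x y' := by
    intro x y y' hx hy hy'
    simp only [hG]
    rw [map_mul, tame_mul_right hw h3 hx (hN hy) (hN hy')]
  have hG0 : ∀ x y, x ≠ 0 → y ≠ 0 → G x y ≠ 0 := by
    intro x y hx hy h0
    have := tame_cube hw h3 hx (hN hy)
    change G x y ^ 3 = 1 at this
    rw [h0] at this
    norm_num at this
  obtain ⟨π, hπ0, hπ, -⟩ := pj_exists_unif (Set.finite_singleton p) (Set.mem_singleton p)
  have hstep : ∀ T : Set (HeightOneSpectrum (𝓞 L)), T.Finite → ∀ y : L, y ≠ 0 →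
      (∀ q ∈ above L p, q ∉ T → q.valuation L y = 1) → F π y = G π y := by
    intro T hT
    induction T, hT using Set.Finite.induction_on with
    | empty => exact fun y _ h => proj_unit_right hw h3 hπ0 fun q hq => h q hq (by simp)
    | @insert q₀ T _ _ ih =>
      intro y hy h
      by_cases hq₀ : q₀ ∈ above L p
      swap
      · refine ih y hy fun q hq hqT => h q hq ?_
        rintro (rfl | h')
        · exact hq₀ hq
        · exact hqT h'
      obtain ⟨ϖ, hϖ0, hϖ, hϖ'⟩ := pj_exists_unif hfin hq₀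
      have h1 : F π ϖ = G π ϖ := proj_unif hw h3 hπ0 hπ hϖ0 hq₀ hϖ hϖ'
      have h2 : ∀ n : ℤ, F π (ϖ ^ n) = G π (ϖ ^ n) := by
        refine pj_zpow (fun y => F π y = G π y) ?_ ?_ ?_ hϖ0 h1
        · exact proj_unit_right hw h3 hπ0 fun q _ => map_one _
        · intro x y hx hy h h'
          rw [hFr _ _ _ hπ0 hx hy, hGr _ _ _ hπ0 hx hy, h, h']
        · intro x y hx hy h h'
          rw [hFr _ _ _ hπ0 hx hy, hGr _ _ _ hπ0 hx hy, h] at h'
          exact mul_left_cancel₀ (hG0 _ _ hπ0 hx) h'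
      have hy' : y * ϖ ^ (-ordv q₀ y) ≠ 0 := mul_ne_zero hy (zpow_ne_zero _ hϖ0)
      have h4 : F π (y * ϖ ^ (-ordv q₀ y)) = G π (y * ϖ ^ (-ordv q₀ y)) := by
        refine ih _ hy' fun q hq hqT => ?_
        by_cases hne : q = q₀
        · subst hne
          rw [← ordv_eq_zero_iff q hy', ordv_mul q hy (zpow_ne_zero _ hϖ0), ordv_zpow, hϖ]
          ring
        · rw [map_mul, map_zpow₀, hϖ' q hq hne, h q hq (by simp [hne, hqT]), one_zpow, mul_one]
      have h5 : y = y * ϖ ^ (-ordv q₀ y) * ϖ ^ (ordv q₀ y) := by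
        rw [mul_assoc, ← zpow_add₀ hϖ0, neg_add_cancel, zpow_zero, mul_one]
      rw [h5, hFr _ _ _ hπ0 hy' (zpow_ne_zero _ hϖ0), hGr _ _ _ hπ0 hy' (zpow_ne_zero _ hϖ0), h4,
        h2]
  have h1 : F π z = G π z := hstep _ hfin z hz fun q hq hq' => absurd hq hq'
  have h2 : ∀ n : ℤ, F (π ^ n) z = G (π ^ n) z := by
    refine pj_zpow (fun x => F x z = G x z) ?_ ?_ ?_ hπ0 h1
    · exact proj_unit_left hw h3 (map_one _) hz
    · intro x y hx hy h h'
      rw [hFl _ _ _ hx hy hz, hGl _ _ _ hx hy hz, h, h']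
    · intro x y hx hy h h'
      rw [hFl _ _ _ hx hy hz, hGl _ _ _ hx hy hz, h] at h'
      exact mul_left_cancel₀ (hG0 _ _ hx hz) h'
  have ha' : a * π ^ (-ordv p a) ≠ 0 := mul_ne_zero ha (zpow_ne_zero _ hπ0)
  have h4 : F (a * π ^ (-ordv p a)) z = G (a * π ^ (-ordv p a)) z := by
    refine proj_unit_left hw h3 ?_ hz
    rw [← ordv_eq_zero_iff p ha', ordv_mul p ha (zpow_ne_zero _ hπ0), ordv_zpow, hπ]
    ring
  have h5 : a = a * π ^ (-ordv p a) * π ^ (ordv p a) := by
    rw [mul_assoc, ← zpow_add₀ hπ0, neg_add_cancel, zpow_zero, mul_one]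
  change F a z = G a z
  rw [h5, hFl _ _ _ ha' (zpow_ne_zero _ hπ0) hz, hGl _ _ _ ha' (zpow_ne_zero _ hπ0) hz, h4, h2]

theorem BB_proj {M : ℕ} (h3 : 3 ∣ M) {a : E} (ha : a ≠ 0) {z : L} (hz : z ≠ 0) :
    BB (algebraMap E L w) M (algebraMap E L a) z = BB w M a (Algebra.norm E z) := by
  classical
  have hw' : IsPrimitiveRoot (algebraMap E L w) 3 := hw.map_of_injective (algebraMap E L).injective
  have hal : algebraMap E L a ≠ 0 := by simpa using ha
  set f : HeightOneSpectrum (𝓞 L) → ℂ := fun q =>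
    if (M : 𝓞 L) ∈ q.asIdeal then 1 else tame (algebraMap E L w) q (algebraMap E L a) z with hf
  have hfin : (Function.mulSupport f).Finite := by
    convert finite_mulSupport_BB hw' h3 hal hz
  have hmem : ∀ (p : HeightOneSpectrum (𝓞 E)), ∀ q ∈ above L p,
      ((M : 𝓞 L) ∈ q.asIdeal ↔ (M : 𝓞 E) ∈ p.asIdeal) := by
    intro p q hq
    have : q.asIdeal.LiesOver p.asIdeal := hq
    rw [Ideal.mem_of_liesOver q.asIdeal p.asIdeal, map_natCast]
  have hloc : ∀ p : HeightOneSpectrum (𝓞 E),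
      (if (M : 𝓞 E) ∈ p.asIdeal then (1 : ℂ) else tame w p a (Algebra.norm E z)) =
        ∏ᶠ q ∈ above L p, f q := by
    intro p
    by_cases hM : (M : 𝓞 E) ∈ p.asIdeal
    · rw [if_pos hM]
      exact (finprod_mem_eq_one_of_forall_eq_one fun q hq => if_pos ((hmem p q hq).2 hM)).symm
    · rw [if_neg hM]
      have h3' : (3 : 𝓞 E) ∉ p.asIdeal := by
        intro h
        obtain ⟨c, rfl⟩ := h3
        exact hM (by simpa using p.asIdeal.mul_mem_right (c : 𝓞 E) h)
      rw [← proj_local hw h3' ha hz]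
      exact finprod_mem_congr rfl fun q hq => (if_neg fun h => hM ((hmem p q hq).1 h)).symm
  have habove : ∀ (p : HeightOneSpectrum (𝓞 E)) (q : HeightOneSpectrum (𝓞 L)),
      q ∈ above L p ↔ q.under (𝓞 E) = p := by
    intro p q
    constructor
    · intro hq
      have : q.asIdeal.LiesOver p.asIdeal := hq
      exact HeightOneSpectrum.ext (Ideal.over_def q.asIdeal p.asIdeal).symm
    · rintro rfl
      exact ⟨rfl⟩
  have hT : ((fun q : HeightOneSpectrum (𝓞 L) => q.under (𝓞 E)) ''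
      Function.mulSupport f).Finite := hfin.image _
  have e1 : BB (algebraMap E L w) M (algebraMap E L a) z = ∏ᶠ q, f q := by
    unfold BB
    convert rfl
  have e2 : BB w M a (Algebra.norm E z) =
      ∏ᶠ p : HeightOneSpectrum (𝓞 E), ∏ᶠ q ∈ above L p, f q := by
    unfold BB
    refine finprod_congr fun p => ?_
    rw [← hloc p]
  rw [e1, e2, ← finprod_mem_univ f,
    ← finprod_mem_univ (fun p : HeightOneSpectrum (𝓞 E) => ∏ᶠ q ∈ above L p, f q),
    finprod_mem_inter_mulSupport_eq' (fun p : HeightOneSpectrum (𝓞 E) => ∏ᶠ q ∈ above L p, f q)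
      Set.univ ((fun q : HeightOneSpectrum (𝓞 L) => q.under (𝓞 E)) '' Function.mulSupport f),
    ← finprod_mem_biUnion _ hT (fun p _ => finite_above L p)]
  · refine finprod_mem_inter_mulSupport_eq' _ _ _ fun q hq => ?_
    simp only [Set.mem_univ, true_iff]
    exact Set.mem_biUnion ⟨q, hq, rfl⟩ ((habove _ q).2 rfl)
  · intro p _ p' _ hne
    refine Set.disjoint_left.2 fun q hq hq' => hne ?_
    rw [← (habove p q).1 hq, ← (habove p' q).1 hq']
  · intro p hp
    simp only [Set.mem_univ, true_iff]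
    by_contra hn
    refine hp (finprod_mem_eq_one_of_forall_eq_one fun q hq => ?_)
    by_contra hq'
    exact hn ⟨q, hq', (habove p q).1 hq⟩

end Crest.Agent.GQ
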