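import Crest.Agent.GQ.RecTame

/-! # GQ RecProj1: projection formula, first argument a unit -/

set_option autoImplicit false

noncomputable section

open NumberField IsDedekindDomain Polynomial
open scoped ComplexConjugate

namespace Crest.Agent.GQ

/-- the primes of `L` above `p` -/
def above {E : Type} (L : Type) [Field E] [NumberField E] [Field L] [NumberField L] [Algebra E L]
    (p : HeightOneSpectrum (𝓞 E)) : Set (HeightOneSpectrum (𝓞 L)) :=
  {q | q.asIdeal.LiesOver p.asIdeal}

theorem finite_above {E : Type} (L : Type) [Field E] [NumberField E] [Field L] [NumberField L]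
    [Algebra E L] (p : HeightOneSpectrum (𝓞 E)) : (above L p).Finite := by
  refine Set.Finite.of_finite_image (f := fun q => q.asIdeal)
    ((Algebra.QuasiFinite.finite_primesOver (S := 𝓞 L) p.asIdeal).subset ?_)
    fun q _ q' _ h => HeightOneSpectrum.ext h
  rintro _ ⟨q, hq, rfl⟩
  exact ⟨q.isPrime, hq⟩

theorem p1_mult_prime {A : Type} [CommRing A] [IsDedekindDomain A] (v : HeightOneSpectrum A)
    {Q : Ideal A} (hQ : Prime Q) (h : v.asIdeal ≠ Q) : multiplicity v.asIdeal Q = 0 := by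
  rw [multiplicity_eq_zero]
  intro hd
  exact h (associated_iff_eq.1 (v.prime.associated_of_dvd hQ hd))

theorem p1_mult_relNorm {E : Type} (L : Type) [Field E] [NumberField E] [Field L] [NumberField L]
    [Algebra E L] (p : HeightOneSpectrum (𝓞 E)) (I : Ideal (𝓞 L)) (hI : I ≠ 0) :
    multiplicity p.asIdeal (Ideal.relNorm (𝓞 E) I) =
      ∑ q ∈ (finite_above L p).toFinset, q.asIdeal.inertiaDeg (𝓞 E) * multiplicity q.asIdeal I := by
  classical
  induction I using UniqueFactorizationMonoid.induction_on_prime with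
  | h₁ => exact absurd rfl hI
  | h₂ I hu =>
    rw [multiplicity_of_isUnit_right p.prime.not_isUnit (hu.map _)]
    exact (Finset.sum_eq_zero fun q _ => by
      rw [multiplicity_of_isUnit_right q.prime.not_isUnit hu, mul_zero]).symm
  | h₃ I Q hI0 hQ ih =>
    have hQ0 : Q ≠ ⊥ := hQ.ne_zero
    have hQp : Q.IsPrime := Ideal.isPrime_of_prime hQ
    have hQm : Q.IsMaximal := hQp.isMaximal hQ0
    have hn : Ideal.relNorm (𝓞 E) (Q * I) ≠ 0 := fun h => hI (Ideal.relNorm_eq_bot_iff.1 h)
    rw [map_mul] at hn ⊢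
    rw [multiplicity_mul p.prime (FiniteMultiplicity.of_prime_left p.prime hn), ih hI0]
    simp only [fun q : HeightOneSpectrum (𝓞 L) =>
      multiplicity_mul q.prime (FiniteMultiplicity.of_prime_left q.prime hI), mul_add,
      Finset.sum_add_distrib]
    congr 1
    have hP0 : Q.under (𝓞 E) ≠ ⊥ := Ideal.under_ne_bot (𝓞 E) hQ0
    have hPp : Prime (Q.under (𝓞 E)) := Ideal.prime_of_isPrime hP0 inferInstance
    rw [Ideal.relNorm_eq_pow_of_isMaximal Q (Q.under (𝓞 E)),
      (FiniteMultiplicity.of_prime_left p.prime hP0).multiplicity_pow p.prime]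
    by_cases h : p.asIdeal = Q.under (𝓞 E)
    · rw [Finset.sum_eq_single (⟨Q, hQp, hQ0⟩ : HeightOneSpectrum (𝓞 L))]
      · rw [h, multiplicity_self, multiplicity_self]
      · intro q _ hq
        rw [p1_mult_prime q hQ fun e => hq (HeightOneSpectrum.ext e), mul_zero]
      · intro hq
        exact absurd ((finite_above L p).mem_toFinset.2 (⟨h⟩ : Q.LiesOver p.asIdeal)) hq
    · rw [p1_mult_prime p hPp h, mul_zero]
      refine (Finset.sum_eq_zero fun q hq => ?_).symm
      rw [p1_mult_prime q hQ fun e => h ?_, mul_zero]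
      rw [← e]
      exact ((finite_above L p).mem_toFinset.1 hq).over

theorem p1_ordv_int {E : Type} [Field E] [NumberField E] (v : HeightOneSpectrum (𝓞 E)) {x : 𝓞 E}
    (hx : x ≠ 0) : ordv v (algebraMap (𝓞 E) E x) = multiplicity v.asIdeal (Ideal.span {x}) := by
  rw [ordv, HeightOneSpectrum.valuation_of_algebraMap,
    HeightOneSpectrum.intValuation_eq_exp_neg_multiplicity v hx, WithZero.log_exp, neg_neg]

theorem p1_ordv_norm_int {E : Type} (L : Type) [Field E] [NumberField E] [Field L] [NumberField L]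
    [Algebra E L] (p : HeightOneSpectrum (𝓞 E)) {x : 𝓞 L} (hx : x ≠ 0) :
    ordv p (Algebra.norm E (algebraMap (𝓞 L) L x)) =
      ∑ q ∈ (finite_above L p).toFinset,
        (q.asIdeal.inertiaDeg (𝓞 E) : ℤ) * ordv q (algebraMap (𝓞 L) L x) := by
  have hx' : algebraMap (𝓞 L) L x ≠ 0 := by simpa using hx
  have e := Algebra.algebraMap_intNorm (A := 𝓞 E) (K := E) (L := L) x
  have hn : Algebra.intNorm (𝓞 E) (𝓞 L) x ≠ 0 := fun h => by
    rw [h, map_zero] at e
    exact hx' (Algebra.norm_eq_zero_iff.1 e.symm)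
  rw [← e, p1_ordv_int p hn, ← Ideal.relNorm_singleton,
    p1_mult_relNorm L p _ (by simpa using hx)]
  push_cast
  exact Finset.sum_congr rfl fun q _ => by rw [p1_ordv_int q hx]

theorem p1_ordv_norm {E : Type} (L : Type) [Field E] [NumberField E] [Field L] [NumberField L]
    [Algebra E L] (p : HeightOneSpectrum (𝓞 E)) {z : L} (hz : z ≠ 0) :
    ordv p (Algebra.norm E z) =
      ∑ q ∈ (finite_above L p).toFinset, (q.asIdeal.inertiaDeg (𝓞 E) : ℤ) * ordv q z := by
  obtain ⟨x, y, hy, rfl⟩ := IsFractionRing.div_surjective (A := 𝓞 L) z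
  have hy0 : y ≠ 0 := nonZeroDivisors.ne_zero hy
  have hy' : algebraMap (𝓞 L) L y ≠ 0 := by simpa using hy0
  have hx0 : x ≠ 0 := by rintro rfl; simp at hz
  set z := algebraMap (𝓞 L) L x / algebraMap (𝓞 L) L y with hzd
  have e : algebraMap (𝓞 L) L x = z * algebraMap (𝓞 L) L y := by rw [hzd, div_mul_cancel₀ _ hy']
  have h1 := p1_ordv_norm_int L p hx0
  have h2 := p1_ordv_norm_int L p hy0
  rw [e, map_mul, ordv_mul p (Algebra.norm_ne_zero_iff.2 hz) (Algebra.norm_ne_zero_iff.2 hy'),
    h2] at h1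
  simp only [fun q : HeightOneSpectrum (𝓞 L) => ordv_mul q hz hy', mul_add,
    Finset.sum_add_distrib] at h1
  exact add_right_cancel h1

theorem p1_zpow_sum {ι : Type} {c : ℂ} (hc : c ≠ 0) (s : Finset ι) (f : ι → ℤ) :
    c ^ (∑ i ∈ s, f i) = ∏ i ∈ s, c ^ f i := by
  classical
  induction s using Finset.induction_on with
  | empty => simp
  | insert i s hi ih => rw [Finset.sum_insert hi, Finset.prod_insert hi, zpow_add₀ hc, ih]

theorem p1_geom (Q f : ℕ) (hQ : Q % 3 = 1) :
    (Q ^ f - 1) / 3 = (Q - 1) / 3 * ∑ i ∈ Finset.range f, Q ^ i ∧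
      (∑ i ∈ Finset.range f, Q ^ i) % 3 = f % 3 := by
  obtain ⟨m, rfl⟩ : ∃ m, Q = 3 * m + 1 := ⟨Q / 3, by omega⟩
  constructor
  · have h := geom_sum_mul_add (3 * m) f
    rw [← h, Nat.add_sub_cancel, Nat.add_sub_cancel, Nat.mul_div_cancel_left _ (by norm_num : 0 < 3),
      show (∑ i ∈ Finset.range f, (3 * m + 1) ^ i) * (3 * m) =
        3 * (m * ∑ i ∈ Finset.range f, (3 * m + 1) ^ i) by ring,
      Nat.mul_div_cancel_left _ (by norm_num : 0 < 3)]
  · rw [Finset.sum_nat_mod, Finset.sum_congr rfl (g := fun _ => 1) fun i _ => by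
      rw [Nat.pow_mod, hQ, one_pow]; rfl]
    simp

theorem p1_val_pow_sub {E : Type} [Field E] (v : Valuation E (WithZero (Multiplicative ℤ))) {x y : E}
    (hx : v x ≤ 1) (hy : v y ≤ 1) (h : v (x - y) < 1) (n : ℕ) : v (x ^ n - y ^ n) < 1 := by
  rw [← (Commute.all x y).geom_sum₂_mul n, map_mul]
  refine lt_of_le_of_lt (mul_le_of_le_one_left' ?_) h
  refine v.map_sum_le fun i _ => ?_
  rw [map_mul, map_pow, map_pow]
  exact mul_le_one' (pow_le_one' hx _) (pow_le_one' hy _)

variable {E L : Type} [Field E] [NumberField E] [Field L] [NumberField L] [Algebra E L]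
  {w : E} (hw : IsPrimitiveRoot w 3) {p : HeightOneSpectrum (𝓞 E)} (h3 : (3 : 𝓞 E) ∉ p.asIdeal)
include hw h3

theorem three_not_mem_above {q : HeightOneSpectrum (𝓞 L)} (hq : q ∈ above L p) :
    (3 : 𝓞 L) ∉ q.asIdeal := by
  intro h
  have : q.asIdeal.LiesOver p.asIdeal := hq
  apply h3
  rw [Ideal.mem_of_liesOver q.asIdeal p.asIdeal, map_ofNat]
  exact h

theorem p1_kv_above {q : HeightOneSpectrum (𝓞 L)} (hq : q ∈ above L p) {a : E}
    (ha : p.valuation E a = 1) :
    kv (algebraMap E L w) q (algebraMap E L a) = kv w p a ^ q.asIdeal.inertiaDeg (𝓞 E) := by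
  have : q.asIdeal.LiesOver p.asIdeal := hq
  have hw' : IsPrimitiveRoot (algebraMap E L w) 3 := hw.map_of_injective (algebraMap E L).injective
  obtain ⟨j, -, hj, hk⟩ := kv_spec hw h3 ha
  obtain ⟨g1, g2⟩ := p1_geom (Ideal.absNorm p.asIdeal) (q.asIdeal.inertiaDeg (𝓞 E))
    (absNorm_mod_three hw h3)
  set S := ∑ i ∈ Finset.range (q.asIdeal.inertiaDeg (𝓞 E)), Ideal.absNorm p.asIdeal ^ i
  have hv : p.valuation E w = 1 := by
    have h1 : p.valuation E w ^ 3 = 1 := by rw [← map_pow, hw.pow_eq_one, map_one]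
    exact (pow_eq_one_iff_of_nonneg zero_le (by norm_num)).1 h1
  have h1 := p1_val_pow_sub (p.valuation E) (by rw [map_pow, ha, one_pow])
    (by rw [map_pow, hv, one_pow]) hj S
  have h2 : q.valuation L (algebraMap E L a ^ ((Ideal.absNorm q.asIdeal - 1) / 3) -
      algebraMap E L w ^ (j * S)) < 1 := by
    rw [← Ideal.absNorm_pow_inertiaDeg p.asIdeal q.asIdeal, g1, ← map_pow, ← map_pow, ← map_sub,
      ← HeightOneSpectrum.valuation_liesOver L p q, pow_mul, pow_mul]
    exact pow_lt_one₀ zero_le h1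
      (Ideal.IsDedekindDomain.ramificationIdx'_ne_zero_of_liesOver q.asIdeal p.ne_bot)
  have h4 := kv_cube hw h3 ha
  rw [kv_eq hw' (three_not_mem_above hw h3 hq) h2, pow_mul, ← hk, pow_eq_pow_mod S h4, g2,
    ← pow_eq_pow_mod _ h4]

theorem proj_unit_left {a : E} (ha : p.valuation E a = 1) {z : L} (hz : z ≠ 0) :
    ∏ᶠ q ∈ above L p, tame (algebraMap E L w) q (algebraMap E L a) z =
      tame w p a (Algebra.norm E z) := by
  have hw' : IsPrimitiveRoot (algebraMap E L w) 3 := hw.map_of_injective (algebraMap E L).injective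
  have hk : kv w p a ≠ 0 := fun h => by
    have := kv_cube hw h3 ha
    rw [h] at this
    norm_num at this
  rw [finprod_mem_eq_finite_toFinset_prod _ (finite_above L p),
    tame_of_unit hw h3 ha (Algebra.norm_ne_zero_iff.2 hz), p1_ordv_norm L p hz,
    p1_zpow_sum hk]
  refine Finset.prod_congr rfl fun q hq => ?_
  have hq' := (finite_above L p).mem_toFinset.1 hq
  have : q.asIdeal.LiesOver p.asIdeal := hq'
  have ha' : q.valuation L (algebraMap E L a) = 1 := by
    rw [← HeightOneSpectrum.valuation_liesOver L p q, ha, one_pow]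
  rw [tame_of_unit hw' (three_not_mem_above hw h3 hq') ha' hz, p1_kv_above hw h3 hq' ha,
    zpow_mul, zpow_natCast]

end Crest.Agent.GQ
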