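import Mathlib

/-! # GQ RecProj2Aux: the norm modulo a prime is the product of the residue field norms -/

set_option autoImplicit false

noncomputable section

namespace Crest.Agent.GQ

open IsLocalRing Module IsLocalization.AtPrime UniqueFactorizationMonoid

section quot

variable {R S : Type*} [CommRing R] [CommRing S] [Algebra R S]

attribute [local instance] Ideal.Quotient.field

theorem p2_norm_quotient_mk [Module.Free R S] [Module.Finite R S] [IsLocalRing R] (x : S) :
    Algebra.norm (R ⧸ maximalIdeal R)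
        (Ideal.Quotient.mk (Ideal.map (algebraMap R S) (maximalIdeal R)) x) =
      Ideal.Quotient.mk (maximalIdeal R) (Algebra.norm R x) := by
  classical
  let ι := Module.Free.ChooseBasisIndex R S
  let b : Module.Basis ι R S := Module.Free.chooseBasis R S
  rw [Algebra.norm_eq_matrix_det b, Algebra.norm_eq_matrix_det (basisQuotient b), RingHom.map_det]
  congr 1
  ext i j
  simp only [Algebra.leftMulMatrix_apply, Algebra.coe_lmul_eq_mul, LinearMap.toMatrix_apply,
    basisQuotient_apply, LinearMap.mul_apply', RingHom.mapMatrix_apply, Matrix.map_apply, ← map_mul,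
    basisQuotient_repr]

theorem p2_norm_quotient_loc (p : Ideal R) [p.IsMaximal]
    (Rₚ Sₚ : Type*) [CommRing Rₚ] [CommRing Sₚ] [Algebra R Rₚ] [IsLocalization.AtPrime Rₚ p]
    [IsLocalRing Rₚ] [Algebra S Sₚ] [Algebra R Sₚ] [Algebra Rₚ Sₚ]
    [IsLocalization (Algebra.algebraMapSubmonoid S p.primeCompl) Sₚ]
    [IsScalarTower R S Sₚ] [IsScalarTower R Rₚ Sₚ] (x : S) :
    Algebra.norm (R ⧸ p) (Ideal.Quotient.mk (Ideal.map (algebraMap R S) p) x) =
      (equivQuotMaximalIdeal p Rₚ).symm (Algebra.norm (Rₚ ⧸ maximalIdeal Rₚ)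
        (algebraMap S (Sₚ ⧸ Ideal.map (algebraMap Rₚ Sₚ) (maximalIdeal Rₚ)) x)) := by
  have : IsScalarTower R (Rₚ ⧸ maximalIdeal Rₚ)
      (Sₚ ⧸ Ideal.map (algebraMap Rₚ Sₚ) (maximalIdeal Rₚ)) := by
    apply IsScalarTower.of_algebraMap_eq'
    rw [IsScalarTower.algebraMap_eq R Rₚ (Rₚ ⧸ _), IsScalarTower.algebraMap_eq R Rₚ (Sₚ ⧸ _),
      ← RingHom.comp_assoc, ← IsScalarTower.algebraMap_eq Rₚ]
  rw [Algebra.norm_eq_of_equiv_equiv (equivQuotMaximalIdeal p Rₚ)
    (equivQuotientMapMaximalIdeal S p Rₚ Sₚ)]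
  · congr
  · ext x
    simp only [equivQuotMaximalIdeal, RingHom.quotientKerEquivOfSurjective,
      RingEquiv.coe_ringHom_trans, RingHom.coe_comp, RingHom.coe_coe, Function.comp_apply,
      Ideal.quotEquivOfEq_mk, RingHom.quotientKerEquivOfRightInverse.apply, RingHom.kerLift_mk,
      equivQuotientMapMaximalIdeal, Ideal.Quotient.algebraMap_quotient_map_quotient]
    rw [← IsScalarTower.algebraMap_apply, ← IsScalarTower.algebraMap_apply]

open nonZeroDivisors in
/-- The norm of `B / A` reduces to the norm of `B ⧸ pB` over `A ⧸ p`. -/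
theorem p2_norm_quotient (p : Ideal R) [p.IsMaximal] [IsDedekindDomain R] [IsDomain S]
    [Module.IsTorsionFree R S] [Module.Finite R S] [IsIntegrallyClosed S] (x : S) :
    Algebra.norm (R ⧸ p) (Ideal.Quotient.mk (Ideal.map (algebraMap R S) p) x) =
      Ideal.Quotient.mk p (Algebra.intNorm R S x) := by
  let Rₚ := Localization.AtPrime p
  let Sₚ := Localization (Algebra.algebraMapSubmonoid S p.primeCompl)
  let : Algebra Rₚ Sₚ := localizationAlgebra p.primeCompl S
  have : IsScalarTower R Rₚ Sₚ := IsScalarTower.of_algebraMap_eq'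
    (by rw [RingHom.algebraMap_toAlgebra, IsLocalization.map_comp, ← IsScalarTower.algebraMap_eq])
  have : IsLocalization (Submonoid.map (algebraMap R S) (Ideal.primeCompl p)) Sₚ :=
    inferInstanceAs (IsLocalization (Algebra.algebraMapSubmonoid S p.primeCompl) Sₚ)
  have e : Algebra.algebraMapSubmonoid S p.primeCompl ≤ S⁰ :=
    Submonoid.map_le_of_le_comap _ <| p.primeCompl_le_nonZeroDivisors.trans
      (nonZeroDivisors_le_comap_nonZeroDivisors_of_injective _
        (FaithfulSMul.algebraMap_injective _ _))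
  have : IsDomain Sₚ := IsLocalization.isDomain_of_le_nonZeroDivisors _ e
  have : IsTorsionFree Rₚ Sₚ := by
    rw [isTorsionFree_iff_algebraMap_injective, RingHom.injective_iff_ker_eq_bot,
      RingHom.ker_eq_bot_iff_eq_zero]
    simp
  have : Module.Finite Rₚ Sₚ := .of_isLocalization R S p.primeCompl
  have : IsIntegrallyClosed Sₚ := isIntegrallyClosed_of_isLocalization _ _ e
  have : IsPrincipalIdealRing Rₚ := by
    by_cases hp : p = ⊥
    · infer_instance
    · have := (IsDedekindDomain.isDedekindDomainDvr R).2 p hp inferInstance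
      infer_instance
  have : Module.Free Rₚ Sₚ := Module.free_of_finite_type_torsion_free'
  apply (equivQuotMaximalIdeal p Rₚ).injective
  rw [p2_norm_quotient_loc p Rₚ Sₚ, IsScalarTower.algebraMap_eq S Sₚ,
    RingHom.comp_apply, Ideal.Quotient.algebraMap_eq, p2_norm_quotient_mk,
    RingEquiv.apply_symm_apply, ← Algebra.intNorm_eq_norm,
    ← Algebra.intNorm_eq_of_isLocalization p.primeCompl (Aₘ := Rₚ) (Bₘ := Sₚ) x,
    ← Ideal.Quotient.algebraMap_eq, ← IsScalarTower.algebraMap_apply]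
  simp only [equivQuotMaximalIdeal, RingHom.quotientKerEquivOfSurjective, RingEquiv.coe_trans,
    Function.comp_apply, Ideal.quotEquivOfEq_mk, RingHom.quotientKerEquivOfRightInverse.apply,
    RingHom.kerLift_mk]

end quot

theorem p2_det_exact {k V' V V'' : Type*} [Field k] [AddCommGroup V'] [Module k V'] [AddCommGroup V]
    [Module k V] [AddCommGroup V''] [Module k V''] [FiniteDimensional k V] (i : V' →ₗ[k] V)
    (q : V →ₗ[k] V'') (hi : Function.Injective i) (hq : Function.Surjective q)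
    (he : LinearMap.range i = LinearMap.ker q) (f' : V' →ₗ[k] V') (f : V →ₗ[k] V)
    (f'' : V'' →ₗ[k] V'') (h1 : ∀ x, f (i x) = i (f' x)) (h2 : ∀ x, q (f x) = f'' (q x)) :
    LinearMap.det f = LinearMap.det f' * LinearMap.det f'' := by
  have hW : LinearMap.ker q ≤ (LinearMap.ker q).comap f := fun x hx => by
    rw [Submodule.mem_comap, LinearMap.mem_ker, h2, LinearMap.mem_ker.1 hx, map_zero]
  rw [LinearMap.det_eq_det_mul_det _ f hW]
  congr 1
  · rw [← LinearMap.det_conj f' ((LinearEquiv.ofInjective i hi).trans (LinearEquiv.ofEq _ _ he))]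
    congr 1
    refine LinearMap.ext fun x => ?_
    obtain ⟨y, rfl⟩ := ((LinearEquiv.ofInjective i hi).trans (LinearEquiv.ofEq _ _ he)).surjective x
    simp only [LinearMap.comp_apply, LinearEquiv.coe_coe, LinearEquiv.symm_apply_apply]
    exact Subtype.ext (h1 y)
  · rw [← LinearMap.det_conj _ (q.quotKerEquivOfSurjective hq)]
    congr 1
    refine LinearMap.ext fun x => ?_
    obtain ⟨y, rfl⟩ := (q.quotKerEquivOfSurjective hq).surjective x
    obtain ⟨y, rfl⟩ := Submodule.Quotient.mk_surjective _ y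
    simp only [LinearMap.comp_apply, LinearEquiv.coe_coe, LinearEquiv.symm_apply_apply]
    exact h2 y

theorem p2_norm_mul_ideal {k A : Type*} [Field k] [CommRing A] [Algebra k A]
    [FiniteDimensional k A] {I P J : Ideal A} {a : A} (hJ : J ≤ I) (ha : a ∈ I)
    (h1 : ∀ x ∈ I, ∃ s, x - a * s ∈ J) (h2 : ∀ s, a * s ∈ J ↔ s ∈ P) (z : A) :
    Algebra.norm k (Ideal.Quotient.mk J z) =
      Algebra.norm k (Ideal.Quotient.mk P z) * Algebra.norm k (Ideal.Quotient.mk I z) := by
  simp only [Algebra.norm_apply]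
  refine p2_det_exact
    ((Submodule.mapQ P J (LinearMap.mulLeft A a) fun s hs => (h2 s).2 hs).restrictScalars k)
    ((Submodule.mapQ J I LinearMap.id hJ).restrictScalars k) ?_ ?_ ?_ _ _ _ ?_ ?_
  · rw [injective_iff_map_eq_zero]
    intro x hx
    obtain ⟨s, rfl⟩ := Submodule.Quotient.mk_surjective _ x
    exact (Submodule.Quotient.mk_eq_zero _).2 ((h2 s).1 ((Submodule.Quotient.mk_eq_zero _).1 hx))
  · intro x
    obtain ⟨s, rfl⟩ := Submodule.Quotient.mk_surjective _ x
    exact ⟨Submodule.Quotient.mk s, rfl⟩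
  · ext x
    obtain ⟨s, rfl⟩ := Submodule.Quotient.mk_surjective _ x
    constructor
    · rintro ⟨y, hy⟩
      obtain ⟨t, rfl⟩ := Submodule.Quotient.mk_surjective _ y
      rw [LinearMap.mem_ker, ← hy]
      exact (Submodule.Quotient.mk_eq_zero _).2 (I.mul_mem_right t ha)
    · intro hx
      obtain ⟨t, ht⟩ := h1 s ((Submodule.Quotient.mk_eq_zero _).1 hx)
      exact ⟨Submodule.Quotient.mk t, ((Submodule.Quotient.eq _).2 ht).symm⟩
  · intro x
    obtain ⟨s, rfl⟩ := Submodule.Quotient.mk_surjective _ x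
    change Ideal.Quotient.mk J z * Ideal.Quotient.mk J (a * s) = Ideal.Quotient.mk J (a * (z * s))
    rw [← map_mul, mul_left_comm]
  · intro x
    obtain ⟨s, rfl⟩ := Submodule.Quotient.mk_surjective _ x
    rfl

theorem p2_exists_gen {S : Type*} [CommRing S] [IsDedekindDomain S] {I P : Ideal S} (hI : I ≠ ⊥)
    (hP : P.IsMaximal) (hP0 : P ≠ ⊥) : ∃ a ∈ I, (∀ x ∈ I, ∃ s, x - a * s ∈ P * I) ∧
      ∀ s, a * s ∈ P * I ↔ s ∈ P := by
  have hlt : P * I < I := by
    refine lt_of_le_of_ne Ideal.mul_le_right fun h => hP.ne_top ?_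
    rw [← Ideal.one_eq_top]
    exact mul_right_cancel₀ hI (h.trans (one_mul I).symm)
  obtain ⟨a, ha, ha'⟩ := SetLike.exists_of_lt hlt
  obtain ⟨C, hC⟩ : I ∣ Ideal.span {a} :=
    Ideal.dvd_iff_le.2 ((Ideal.span_singleton_le_iff_mem _).2 ha)
  have hCP : ¬ C ≤ P := fun h => ha' (by
    have : Ideal.span {a} ≤ P * I := by
      rw [hC, mul_comm]
      exact Ideal.mul_mono_left h
    exact this (Ideal.mem_span_singleton_self a))
  have hsup : C ⊔ P = ⊤ := by
    by_contra h
    exact hCP (hP.eq_of_le h le_sup_right ▸ le_sup_left)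
  refine ⟨a, ha, fun x hx => ?_, fun s => ⟨fun h => ?_, fun h => ?_⟩⟩
  · have h1 : I = Ideal.span {a} ⊔ P * I := by
      rw [hC, mul_comm P, ← Ideal.mul_sup, hsup, Ideal.mul_top]
    rw [h1] at hx
    obtain ⟨y, hy, w, hw, rfl⟩ := Submodule.mem_sup.1 hx
    obtain ⟨s, rfl⟩ := Ideal.mem_span_singleton'.1 hy
    exact ⟨s, by simpa [mul_comm] using hw⟩
  · have h1 : P * I ∣ Ideal.span {a} * Ideal.span {s} := by
      rw [Ideal.span_singleton_mul_span_singleton]
      exact Ideal.dvd_iff_le.2 ((Ideal.span_singleton_le_iff_mem _).2 h)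
    rw [hC, mul_comm P, mul_assoc, mul_dvd_mul_iff_left hI] at h1
    rcases (Ideal.prime_of_isPrime hP0 hP.isPrime).dvd_or_dvd h1 with h2 | h2
    · exact absurd (Ideal.dvd_iff_le.1 h2) hCP
    · exact Ideal.dvd_span_singleton.1 h2
  · rw [mul_comm a]
    exact Ideal.mul_mem_mul h ha

/-- the norm on a quotient of a Dedekind domain -/
theorem p2_norm_multiset {k S : Type*} [Field k] [CommRing S] [IsDedekindDomain S] (J : Ideal S)
    [Algebra k (S ⧸ J)] [FiniteDimensional k (S ⧸ J)] (z : S ⧸ J) (s : Multiset (Ideal S))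
    (hs : ∀ P ∈ s, P.IsMaximal ∧ P ≠ ⊥) (hJ : J ≤ s.prod) :
    Algebra.norm k (Ideal.Quotient.mk (s.prod.map (Ideal.Quotient.mk J)) z) =
      (s.map fun P => Algebra.norm k (Ideal.Quotient.mk (P.map (Ideal.Quotient.mk J)) z)).prod := by
  induction s using Multiset.induction_on with
  | empty =>
    have : Ideal.Quotient.mk ((0 : Multiset (Ideal S)).prod.map (Ideal.Quotient.mk J)) z = 1 := by
      rw [← map_one (Ideal.Quotient.mk _), Ideal.Quotient.eq]
      simp [Ideal.map_top]
    rw [this, map_one]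
    simp
  | cons P s ih =>
    rw [Multiset.prod_cons] at hJ
    rw [Multiset.prod_cons, Multiset.map_cons, Multiset.prod_cons,
      ← ih (fun Q hQ => hs Q (Multiset.mem_cons_of_mem hQ)) (hJ.trans Ideal.mul_le_right)]
    have hI : s.prod ≠ ⊥ := Multiset.prod_ne_zero fun h => (hs _ (Multiset.mem_cons_of_mem h)).2 rfl
    obtain ⟨hP, hP0⟩ := hs P (Multiset.mem_cons_self _ _)
    obtain ⟨a, ha, h1, h2⟩ := p2_exists_gen hI hP hP0
    have hm : ∀ (I : Ideal S), J ≤ I → ∀ x, Ideal.Quotient.mk J x ∈ I.map (Ideal.Quotient.mk J) ↔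
        x ∈ I := fun I hI x => Ideal.mem_quotient_iff_mem hI
    refine p2_norm_mul_ideal (a := Ideal.Quotient.mk J a) (Ideal.map_mono Ideal.mul_le_right)
      (Ideal.mem_map_of_mem _ ha) (fun x hx => ?_) (fun x => ?_) z
    · obtain ⟨x, rfl⟩ := Ideal.Quotient.mk_surjective x
      obtain ⟨t, ht⟩ := h1 x ((hm _ (hJ.trans Ideal.mul_le_right) x).1 hx)
      exact ⟨Ideal.Quotient.mk J t, by
        rw [← map_mul, ← map_sub]; exact Ideal.mem_map_of_mem _ ht⟩
    · obtain ⟨x, rfl⟩ := Ideal.Quotient.mk_surjective x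
      rw [← map_mul, hm _ hJ, hm _ (hJ.trans Ideal.mul_le_left), h2]

theorem p2_norm_factors {k S : Type*} [Field k] [CommRing S] [IsDedekindDomain S] (J : Ideal S)
    (hJ : J ≠ ⊥) [Algebra k (S ⧸ J)] [FiniteDimensional k (S ⧸ J)] (z : S ⧸ J) :
    Algebra.norm k z = ((normalizedFactors J).map fun P =>
      Algebra.norm k (Ideal.Quotient.mk (P.map (Ideal.Quotient.mk J)) z)).prod := by
  have key : ∀ I : Ideal (S ⧸ J), I = ⊥ →
      Algebra.norm k (Ideal.Quotient.mk I z) = Algebra.norm k z := by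
    rintro _ rfl
    exact (Algebra.norm_eq_of_algEquiv (AlgEquiv.quotientBot k (S ⧸ J)) _).symm
  rw [← p2_norm_multiset J z _ (fun P hP => ?_) (Ideal.prod_normalizedFactors_eq_self hJ).ge, key]
  · rw [Ideal.prod_normalizedFactors_eq_self hJ, Ideal.map_quotient_self]
  · have h := prime_of_normalized_factor P hP
    exact ⟨(Ideal.isPrime_of_prime h).isMaximal h.ne_zero, h.ne_zero⟩

end Crest.Agent.GQ
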