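import Crest.Agent.GQ.RecProj1
import Crest.Agent.GQ.RecProj2Aux

/-! # GQ RecProj2: projection formula, second argument a unit above p -/

set_option autoImplicit false

noncomputable section

open NumberField IsDedekindDomain Polynomial
open scoped ComplexConjugate

namespace Crest.Agent.GQ

attribute [local instance] Ideal.Quotient.field

theorem p2_map_ne_bot {E : Type} (L : Type) [Field E] [NumberField E] [Field L] [NumberField L]
    [Algebra E L] (p : HeightOneSpectrum (𝓞 E)) :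
    Ideal.map (algebraMap (𝓞 E) (𝓞 L)) p.asIdeal ≠ ⊥ := Ideal.map_ne_bot_of_ne_bot p.ne_bot

theorem p2_mem_above {E L : Type} [Field E] [NumberField E] [Field L] [NumberField L]
    [Algebra E L] {p : HeightOneSpectrum (𝓞 E)} {q : HeightOneSpectrum (𝓞 L)} :
    q ∈ above L p ↔ Ideal.map (algebraMap (𝓞 E) (𝓞 L)) p.asIdeal ≤ q.asIdeal := by
  rw [Ideal.map_le_iff_le_comap]
  exact ⟨fun h => h.over.le, fun h => ⟨p.isMaximal.eq_of_le
    (Ideal.comap_ne_top _ q.isPrime.ne_top) h⟩⟩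

/-- common denominators prime to `p` -/
theorem p2_den {E L : Type} [Field E] [NumberField E] [Field L] [NumberField L]
    [Algebra E L] {p : HeightOneSpectrum (𝓞 E)} {z : L}
    (hz : ∀ q ∈ above L p, q.valuation L z = 1) :
    ∃ n d : 𝓞 L, (∀ q ∈ above L p, n ∉ q.asIdeal) ∧ (∀ q ∈ above L p, d ∉ q.asIdeal) ∧
      z * algebraMap (𝓞 L) L d = algebraMap (𝓞 L) L n := by
  let D : Ideal (𝓞 L) := (1 : Submodule (𝓞 L) L).comap (LinearMap.toSpanSingleton (𝓞 L) L z)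
  have hD : ∀ d, d ∈ D ↔ ∃ n, z * algebraMap (𝓞 L) L d = algebraMap (𝓞 L) L n := fun d => by
    simp only [D, Submodule.mem_comap, LinearMap.toSpanSingleton_apply, Submodule.mem_one,
      Algebra.smul_def, mul_comm z, eq_comm]
  have htop : D ⊔ Ideal.map (algebraMap (𝓞 E) (𝓞 L)) p.asIdeal = ⊤ := by
    by_contra h
    obtain ⟨M, hM, hle⟩ := Ideal.exists_le_maximal _ h
    let q : HeightOneSpectrum (𝓞 L) := ⟨M, hM.isPrime, fun h0 =>
      p2_map_ne_bot L p (le_bot_iff.1 (h0 ▸ le_sup_right.trans hle))⟩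
    obtain ⟨n, d, hd⟩ := q.exists_primeCompl_mul_eq_of_integer z
      (hz q (p2_mem_above.2 (le_sup_right.trans hle))).le
    exact d.2 ((le_sup_left.trans hle) ((hD d).2 ⟨n, hd⟩))
  obtain ⟨d, hd, e, he, hde⟩ := Submodule.mem_sup.1 ((Ideal.eq_top_iff_one _).1 htop)
  obtain ⟨n, hn⟩ := (hD d).1 hd
  have h2 : ∀ q ∈ above L p, d ∉ q.asIdeal := fun q hq h =>
    q.isPrime.ne_top ((Ideal.eq_top_iff_one _).2 (hde ▸ add_mem h (p2_mem_above.1 hq he)))
  refine ⟨n, d, fun q hq => ?_, h2, hn⟩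
  rw [← q.valuation_eq_one_iff_notMem (K := L), ← hn, map_mul, hz q hq,
    q.valuation_eq_one_iff_notMem.2 (h2 q hq), mul_one]

/-- the cubic character of the residue field -/
def p2_chi {E : Type} [Field E] [NumberField E] (w : E) (p : HeightOneSpectrum (𝓞 E))
    (t : 𝓞 E ⧸ p.asIdeal) : ℂ := kv w p (algebraMap (𝓞 E) E (Quotient.out t))

variable {E L : Type} [Field E] [NumberField E] [Field L] [NumberField L] [Algebra E L]
  {w : E} (hw : IsPrimitiveRoot w 3) {p : HeightOneSpectrum (𝓞 E)} (h3 : (3 : 𝓞 E) ∉ p.asIdeal)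
include hw h3

theorem p2_chi_mk {c : 𝓞 E} (hc : c ∉ p.asIdeal) :
    p2_chi w p (Ideal.Quotient.mk p.asIdeal c) = kv w p (algebraMap (𝓞 E) E c) := by
  refine (kv_congr hw h3 (p.valuation_eq_one_iff_notMem.2 hc) ?_).symm
  rw [← map_sub]
  refine (p.valuation_lt_one_iff_mem _).2 (Ideal.Quotient.eq.1 ?_)
  exact (Ideal.Quotient.mk_out _).symm

theorem p2_chi_mul {s t : 𝓞 E ⧸ p.asIdeal} (hs : s ≠ 0) (ht : t ≠ 0) :
    p2_chi w p (s * t) = p2_chi w p s * p2_chi w p t := by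
  obtain ⟨a, rfl⟩ := Ideal.Quotient.mk_surjective s
  obtain ⟨b, rfl⟩ := Ideal.Quotient.mk_surjective t
  rw [Ne, Ideal.Quotient.eq_zero_iff_mem] at hs ht
  rw [← map_mul, p2_chi_mk hw h3 hs, p2_chi_mk hw h3 ht,
    p2_chi_mk hw h3 (fun h => (p.isPrime.mem_or_mem h).elim hs ht), map_mul,
    kv_mul hw h3 (p.valuation_eq_one_iff_notMem.2 hs) (p.valuation_eq_one_iff_notMem.2 ht)]

theorem p2_chi_prod {ι : Type*} (s : Multiset ι) (f : ι → 𝓞 E ⧸ p.asIdeal) (hf : ∀ i ∈ s, f i ≠ 0) :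
    (s.map f).prod ≠ 0 ∧ p2_chi w p (s.map f).prod = (s.map fun i => p2_chi w p (f i)).prod := by
  induction s using Multiset.induction_on with
  | empty =>
    refine ⟨by simp, ?_⟩
    have := p2_chi_mk hw h3 (c := 1) ((Ideal.ne_top_iff_one _).1 p.isPrime.ne_top)
    simpa [kv_one hw h3] using this
  | cons a s ih =>
    obtain ⟨h1, h2⟩ := ih fun i hi => hf i (Multiset.mem_cons_of_mem hi)
    have h0 := hf a (Multiset.mem_cons_self _ _)
    simp only [Multiset.map_cons, Multiset.prod_cons]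
    exact ⟨mul_ne_zero h0 h1, by rw [p2_chi_mul hw h3 h0 h1, h2]⟩

/-- the symbol at `q` is the symbol at `p` of the residue field norm -/
theorem p2_local {q : HeightOneSpectrum (𝓞 L)} (hq : q ∈ above L p) {y : 𝓞 L}
    (hy : y ∉ q.asIdeal) :
    Algebra.norm (𝓞 E ⧸ p.asIdeal) (Ideal.Quotient.mk (q.asIdeal.map (Ideal.Quotient.mk
        (Ideal.map (algebraMap (𝓞 E) (𝓞 L)) p.asIdeal))) (Ideal.Quotient.mk _ y)) ≠ 0 ∧
    p2_chi w p (Algebra.norm (𝓞 E ⧸ p.asIdeal) (Ideal.Quotient.mk (q.asIdeal.map (Ideal.Quotient.mk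
        (Ideal.map (algebraMap (𝓞 E) (𝓞 L)) p.asIdeal))) (Ideal.Quotient.mk _ y))) =
      kv (algebraMap E L w) q (algebraMap (𝓞 L) L y) := by
  have hle := p2_mem_above.1 hq
  have hlo : q.asIdeal.LiesOver p.asIdeal := hq
  set J := Ideal.map (algebraMap (𝓞 E) (𝓞 L)) p.asIdeal with hJ
  let e := DoubleQuot.quotQuotEquivQuotOfLE hle
  have hfin : Finite (𝓞 L ⧸ q.asIdeal) := Ideal.finiteQuotientOfFreeOfNeBot _ q.ne_bot
  have hfin' : Finite ((𝓞 L ⧸ J) ⧸ q.asIdeal.map (Ideal.Quotient.mk J)) :=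
    Finite.of_equiv _ e.symm.toEquiv
  have hmax : (q.asIdeal.map (Ideal.Quotient.mk J)).IsMaximal :=
    Ideal.Quotient.maximal_of_isField _ (e.toMulEquiv.isField (Field.toIsField _))
  have hmem : ∀ x : 𝓞 L, Ideal.Quotient.mk (q.asIdeal.map (Ideal.Quotient.mk J))
      (Ideal.Quotient.mk J x) = 0 ↔ x ∈ q.asIdeal := fun x => by
    rw [Ideal.Quotient.eq_zero_iff_mem, Ideal.mem_quotient_iff_mem hle]
  obtain ⟨c, hc⟩ := Ideal.Quotient.mk_surjective (Algebra.norm (𝓞 E ⧸ p.asIdeal)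
    (Ideal.Quotient.mk (q.asIdeal.map (Ideal.Quotient.mk J)) (Ideal.Quotient.mk J y)))
  have hpow := FiniteField.algebraMap_norm_eq_pow (K := 𝓞 E ⧸ p.asIdeal)
    (x := Ideal.Quotient.mk (q.asIdeal.map (Ideal.Quotient.mk J)) (Ideal.Quotient.mk J y))
  have c1 : Nat.card ((𝓞 L ⧸ J) ⧸ q.asIdeal.map (Ideal.Quotient.mk J)) = Ideal.absNorm q.asIdeal :=
    Nat.card_congr e.toEquiv
  have c2 : Nat.card (𝓞 E ⧸ p.asIdeal) = Ideal.absNorm p.asIdeal := rfl
  have hdvd : Ideal.absNorm p.asIdeal - 1 ∣ Ideal.absNorm q.asIdeal - 1 := by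
    rw [← c1, ← c2, Module.natCard_eq_pow_finrank (K := 𝓞 E ⧸ p.asIdeal)
      (V := (𝓞 L ⧸ J) ⧸ q.asIdeal.map (Ideal.Quotient.mk J))]
    simpa using Nat.sub_dvd_pow_sub_pow (Nat.card (𝓞 E ⧸ p.asIdeal)) 1 _
  have h3' : 3 ∣ Ideal.absNorm p.asIdeal - 1 := by
    have := absNorm_mod_three hw h3
    omega
  rw [← hc, c1, c2] at hpow
  set m := (Ideal.absNorm q.asIdeal - 1) / (Ideal.absNorm p.asIdeal - 1) with hm
  have h1 : algebraMap (𝓞 E) (𝓞 L) c - y ^ m ∈ q.asIdeal := by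
    rw [← hmem, map_sub, map_sub, map_pow, map_pow, ← hpow, sub_eq_zero]
    rfl
  have hc0 : c ∉ p.asIdeal := fun h => by
    have h2 : algebraMap (𝓞 E) (𝓞 L) c ∈ q.asIdeal := hle (Ideal.mem_map_of_mem _ h)
    exact hy (q.isPrime.mem_of_pow_mem m (by simpa using sub_mem h2 h1))
  rw [← hc]
  refine ⟨fun h => hc0 (Ideal.Quotient.eq_zero_iff_mem.1 h), ?_⟩
  rw [p2_chi_mk hw h3 hc0]
  obtain ⟨j, -, hj, hj'⟩ := kv_spec hw h3 (p.valuation_eq_one_iff_notMem.2 hc0)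
  rw [hj']
  refine (kv_eq (hw.map_of_injective (algebraMap E L).injective) (three_not_mem_above hw h3 hq)
    ?_).symm
  set n := (Ideal.absNorm p.asIdeal - 1) / 3 with hn
  have hmn : (Ideal.absNorm q.asIdeal - 1) / 3 = m * n := by
    rw [hm, hn, ← Nat.mul_div_assoc _ h3', Nat.div_mul_cancel hdvd]
  have h4 : q.valuation L (algebraMap E L (algebraMap (𝓞 E) E c ^ n - w ^ j)) < 1 := by
    rw [← HeightOneSpectrum.valuation_liesOver L p q]
    exact pow_lt_one₀ zero_le hj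
      (Ideal.IsDedekindDomain.ramificationIdx'_ne_zero_of_liesOver q.asIdeal p.ne_bot)
  have h5 : q.valuation L (algebraMap (𝓞 L) L ((y ^ m) ^ n - algebraMap (𝓞 E) (𝓞 L) c ^ n)) < 1 := by
    refine (q.valuation_lt_one_iff_mem _).2 (Ideal.mem_of_dvd _ (sub_dvd_pow_sub_pow _ _ n) ?_)
    simpa using neg_mem h1
  have h6 := lt_of_le_of_lt (Valuation.map_add _ _ _) (max_lt h5 h4)
  convert h6 using 2
  rw [hmn]
  simp only [map_sub, map_pow, ← IsScalarTower.algebraMap_apply, pow_mul]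
  ring

theorem p2_int {y : 𝓞 L} (hy : ∀ q ∈ above L p, y ∉ q.asIdeal) :
    p.valuation E (Algebra.norm E (algebraMap (𝓞 L) L y)) = 1 ∧
    kv w p (Algebra.norm E (algebraMap (𝓞 L) L y)) = ∏ q ∈ (finite_above L p).toFinset,
      kv (algebraMap E L w) q (algebraMap (𝓞 L) L y) ^ p.asIdeal.ramificationIdx' q.asIdeal := by
  classical
  have hJ0 := p2_map_ne_bot L p
  set J := Ideal.map (algebraMap (𝓞 E) (𝓞 L)) p.asIdeal with hJ
  have hfin : Finite (𝓞 L ⧸ J) := Ideal.finiteQuotientOfFreeOfNeBot _ hJ0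
  have hfd : FiniteDimensional (𝓞 E ⧸ p.asIdeal) (𝓞 L ⧸ J) := Module.Finite.of_finite
  have h1 := p2_norm_factors (k := 𝓞 E ⧸ p.asIdeal) J hJ0 (Ideal.Quotient.mk J y)
  rw [p2_norm_quotient] at h1
  have hex : ∀ P ∈ UniqueFactorizationMonoid.normalizedFactors J,
      ∃ q ∈ above L p, q.asIdeal = P := fun P hP => by
    obtain ⟨h2, h4⟩ := (Ideal.mem_normalizedFactors_iff hJ0).1 hP
    exact ⟨⟨P, h2, fun h0 => hJ0 (le_bot_iff.1 (h0 ▸ h4))⟩, p2_mem_above.2 h4, rfl⟩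
  obtain ⟨h2, h4⟩ := p2_chi_prod hw h3 (UniqueFactorizationMonoid.normalizedFactors J)
    (fun P => Algebra.norm (𝓞 E ⧸ p.asIdeal) (Ideal.Quotient.mk (P.map (Ideal.Quotient.mk J))
      (Ideal.Quotient.mk J y))) fun P hP => by
    obtain ⟨q, hq, rfl⟩ := hex P hP
    exact (p2_local hw h3 hq (hy q hq)).1
  rw [← h1] at h2 h4
  have h5 : Algebra.intNorm (𝓞 E) (𝓞 L) y ∉ p.asIdeal := fun h =>
    h2 (Ideal.Quotient.eq_zero_iff_mem.2 h)
  rw [← Algebra.algebraMap_intNorm (A := 𝓞 E) (K := E) (L := L) y]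
  refine ⟨p.valuation_eq_one_iff_notMem.2 h5, ?_⟩
  rw [← p2_chi_mk hw h3 h5, h4, Finset.prod_multiset_map_count]
  refine (Finset.prod_bij (fun q _ => q.asIdeal) (fun q hq => ?_) (fun q _ q' _ h => ?_)
    (fun P hP => ?_) fun q hq => ?_).symm
  · rw [Multiset.mem_toFinset, Ideal.mem_normalizedFactors_iff hJ0]
    exact ⟨q.isPrime, p2_mem_above.1 ((finite_above L p).mem_toFinset.1 hq)⟩
  · exact HeightOneSpectrum.ext h
  · obtain ⟨q, hq, rfl⟩ := hex P (Multiset.mem_toFinset.1 hP)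
    exact ⟨q, (finite_above L p).mem_toFinset.2 hq, rfl⟩
  · have hq' := (finite_above L p).mem_toFinset.1 hq
    rw [(p2_local hw h3 hq' (hy q hq')).2,
      Ideal.IsDedekindDomain.ramificationIdx'_eq_normalizedFactors_count hJ0 q.isPrime q.ne_bot]

theorem p2_norm {z : L} (hz : ∀ q ∈ above L p, q.valuation L z = 1) :
    p.valuation E (Algebra.norm E z) = 1 ∧
    kv w p (Algebra.norm E z) = ∏ q ∈ (finite_above L p).toFinset,
      kv (algebraMap E L w) q z ^ p.asIdeal.ramificationIdx' q.asIdeal := by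
  obtain ⟨n, d, hn, hd, h⟩ := p2_den hz
  obtain ⟨n1, n2⟩ := p2_int hw h3 hn
  obtain ⟨d1, d2⟩ := p2_int hw h3 hd
  rw [← h, map_mul] at n1 n2
  rw [map_mul, d1, mul_one] at n1
  refine ⟨n1, ?_⟩
  have h0 : kv w p (Algebra.norm E (algebraMap (𝓞 L) L d)) ≠ 0 := fun h0 => by
    have := kv_cube hw h3 d1
    rw [h0] at this
    norm_num at this
  refine mul_right_cancel₀ h0 ?_
  rw [← kv_mul hw h3 n1 d1, n2, d2, ← Finset.prod_mul_distrib]
  refine Finset.prod_congr rfl fun q hq => ?_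
  have hq' := (finite_above L p).mem_toFinset.1 hq
  rw [kv_mul (hw.map_of_injective (algebraMap E L).injective) (three_not_mem_above hw h3 hq')
    (hz q hq') (q.valuation_eq_one_iff_notMem.2 (hd q hq')), mul_pow]

theorem proj_unit_right {a : E} (ha : a ≠ 0) {z : L}
    (hz : ∀ q ∈ above L p, q.valuation L z = 1) :
    ∏ᶠ q ∈ above L p, tame (algebraMap E L w) q (algebraMap E L a) z =
      tame w p a (Algebra.norm E z) := by
  obtain ⟨h1, h2⟩ := p2_norm hw h3 hz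
  rw [finprod_mem_eq_finite_toFinset_prod _ (finite_above L p), tame_of_unit_right hw h3 ha h1, h2,
    ← Finset.prod_zpow]
  refine Finset.prod_congr rfl fun q hq => ?_
  have hq' := (finite_above L p).mem_toFinset.1 hq
  have hlo : q.asIdeal.LiesOver p.asIdeal := hq'
  rw [tame_of_unit_right (hw.map_of_injective (algebraMap E L).injective)
    (three_not_mem_above hw h3 hq') (by simpa using ha) (hz q hq'), ← zpow_natCast, ← zpow_mul]
  congr 1
  rw [ordv, ordv, ← HeightOneSpectrum.valuation_liesOver L p q, WithZero.log_pow]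
  simp

end Crest.Agent.GQ
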