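import Crest.Agent.GQ.RecProj1

/-! # GQ RecProj3Aux: linear algebra and residue fields for the projection formula -/

set_option autoImplicit false

noncomputable section

open NumberField IsDedekindDomain WithZero

namespace Crest.Agent.GQ

section lin
variable {K Γ : Type*} [Field K] [LinearOrderedCommGroupWithZero Γ] (v : Valuation K Γ)

theorem p3_det_congr {ι : Type*} [Fintype ι] [DecidableEq ι] (M N : Matrix ι ι K)
    (hN : ∀ i j, v (N i j) ≤ 1) (h : ∀ i j, v (M i j - N i j) < 1) : v (M.det - N.det) < 1 := by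
  have hM : ∀ i j, v (M i j) ≤ 1 := fun i j => by
    have := v.map_add_le (h i j).le (hN i j)
    rwa [sub_add_cancel] at this
  let M' : Matrix ι ι v.valuationSubring := Matrix.of fun i j => ⟨M i j, hM i j⟩
  let N' : Matrix ι ι v.valuationSubring := Matrix.of fun i j => ⟨N i j, hN i j⟩
  have e1 : M.det = (M'.det : K) := (RingHom.map_det v.valuationSubring.subtype M').symm
  have e2 : N.det = (N'.det : K) := (RingHom.map_det v.valuationSubring.subtype N').symm
  have e3 : (IsLocalRing.residue v.valuationSubring).mapMatrix M' =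
      (IsLocalRing.residue v.valuationSubring).mapMatrix N' := by
    ext i j
    refine (Ideal.Quotient.eq).2 ?_
    rw [Valuation.mem_maximalIdeal_iff]
    exact h i j
  have e4 : M'.det - N'.det ∈ IsLocalRing.maximalIdeal v.valuationSubring := by
    refine (Ideal.Quotient.eq).1 ?_
    change IsLocalRing.residue _ _ = IsLocalRing.residue _ _
    rw [RingHom.map_det, RingHom.map_det, e3]
  rw [Valuation.mem_maximalIdeal_iff] at e4
  rw [e1, e2]
  exact e4

theorem p3_det {ι κ : Type*} [Fintype ι] [DecidableEq ι] [Fintype κ] [DecidableEq κ]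
    (P : Matrix ι ι K) (τ : Equiv.Perm ι) (s0 : κ → ι) (hs0 : Function.Injective s0) {π : K}
    (hπ : π ≠ 0) (m : Matrix κ κ K) (hm : ∀ l j, v (m l j) ≤ 1)
    (h1 : ∀ s, τ s ∉ Set.range s0 → ∀ t, v (P t s - if t = τ s then 1 else 0) < 1)
    (h2 : ∀ s j, τ s = s0 j → (∀ t, v (P t s / π) ≤ 1) ∧ ∀ l, v (P (s0 l) s / π - m l j) < 1) :
    ∃ D : K, (P.det = π ^ Fintype.card κ * D ∨ P.det = -(π ^ Fintype.card κ * D)) ∧
      v (D - m.det) < 1 := by
  classical
  let d : ι → K := fun u => if u ∈ Set.range s0 then π else 1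
  have hd : ∀ u, d u ≠ 0 := fun u => by
    simp only [d]
    split_ifs
    exacts [hπ, one_ne_zero]
  let P' : Matrix ι ι K := Matrix.of fun t u => P t (τ.symm u) / d u
  have hP : P = (P' * Matrix.diagonal d).submatrix id τ := by
    ext t s
    simp [P', div_mul_cancel₀ _ (hd _)]
  have hprod : ∏ u, d u = π ^ Fintype.card κ := by
    rw [Finset.prod_ite, Finset.prod_const_one, mul_one, Finset.prod_const]
    congr 1
    rw [← Fintype.card_subtype, Fintype.card_congr (Equiv.ofInjective s0 hs0)]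
  let e : κ ≃ {u // u ∈ Set.range s0} := Equiv.ofInjective s0 hs0
  let P0 : Matrix ι ι K := Matrix.of fun t u =>
    if hu : u ∈ Set.range s0 then
      (if ht : t ∈ Set.range s0 then m (e.symm ⟨t, ht⟩) (e.symm ⟨u, hu⟩) else P' t u)
    else if t = u then 1 else 0
  have hdet0 : P0.det = m.det := by
    rw [Matrix.twoBlockTriangular_det' P0 (fun u => u ∈ Set.range s0) (fun i hi j hj => by
      have : i ≠ j := fun h => hj (h ▸ hi)
      simp only [P0, Matrix.of_apply, dif_neg hj, if_neg this])]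
    have a1 : Matrix.toSquareBlockProp P0 (fun u => u ∈ Set.range s0) = m.submatrix e.symm e.symm := by
      ext ⟨t, ht⟩ ⟨u, hu⟩
      simp only [Matrix.toSquareBlockProp_def, P0, Matrix.of_apply, dif_pos ht, dif_pos hu,
        Matrix.submatrix_apply]
    have a2 : Matrix.toSquareBlockProp P0 (fun u => ¬ u ∈ Set.range s0) = 1 := by
      ext ⟨t, ht⟩ ⟨u, hu⟩
      simp only [Matrix.toSquareBlockProp_def, P0, Matrix.of_apply, dif_neg hu, Matrix.one_apply,
        Subtype.mk.injEq]
    rw [a1, a2, Matrix.det_one, mul_one]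
    convert Matrix.det_submatrix_equiv_self e.symm m
  refine ⟨P'.det, ?_, ?_⟩
  · have : P.det = Equiv.Perm.sign τ * (π ^ Fintype.card κ * P'.det) := by
      rw [hP, Matrix.det_permute', Matrix.det_mul, Matrix.det_diagonal, hprod, mul_comm P'.det]
    rcases Int.units_eq_one_or (Equiv.Perm.sign τ) with h | h
    · left; rw [this, h]; simp
    · right; rw [this, h]; simp
  · rw [← hdet0]
    have hin : ∀ t j, v (P' t (s0 j)) ≤ 1 ∧ ∀ l, v (P' (s0 l) (s0 j) - m l j) < 1 := fun t j => by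
      have h := h2 (τ.symm (s0 j)) j (by simp)
      have hd' : d (s0 j) = π := if_pos ⟨j, rfl⟩
      simp only [P', Matrix.of_apply, hd']
      exact ⟨h.1 t, h.2⟩
    refine p3_det_congr v _ _ (fun t u => ?_) (fun t u => ?_)
    · simp only [P0, Matrix.of_apply]
      split_ifs with hu ht htu
      · exact hm _ _
      · obtain ⟨j, rfl⟩ := hu
        exact (hin t j).1
      · simp
      · simp
    · simp only [P0, Matrix.of_apply]
      by_cases hu : u ∈ Set.range s0
      · rw [dif_pos hu]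
        by_cases ht : t ∈ Set.range s0
        · rw [dif_pos ht]
          obtain ⟨j, rfl⟩ := hu
          obtain ⟨l, rfl⟩ := ht
          have b1 : ∀ j, e.symm ⟨s0 j, ⟨j, rfl⟩⟩ = j := fun j => Equiv.ofInjective_symm_apply hs0 j
          rw [b1, b1]
          exact (hin (s0 l) j).2 l
        · rw [dif_neg ht, sub_self, map_zero]
          exact zero_lt_one
      · rw [dif_neg hu]
        have h := h1 (τ.symm u) (by simpa using hu) t
        have hd' : d u = 1 := if_neg hu
        simp only [P', Matrix.of_apply, hd', div_one]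
        simpa using h

/-- scaling by the largest coefficient -/
theorem p3_scale {ι : Type*} [Fintype ι] (c : ι → K) {s : ι} (hs : c s ≠ 0) :
    ∃ t, c t ≠ 0 ∧ (∀ u, v (c u) ≤ v (c t)) ∧ ∀ u, v (c u / c t) ≤ 1 := by
  obtain ⟨t, -, ht⟩ := Finset.exists_max_image Finset.univ (fun u => v (c u)) ⟨s, Finset.mem_univ s⟩
  have h0 : c t ≠ 0 := fun h => by
    have := ht s (Finset.mem_univ s)
    rw [h, map_zero, le_zero_iff, map_eq_zero] at this
    exact hs this
  refine ⟨t, h0, fun u => ht u (Finset.mem_univ u), fun u => ?_⟩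
  rw [map_div₀]
  exact div_le_one_of_le₀ (ht u (Finset.mem_univ u)) zero_le

end lin

theorem p3_le_exp {x : ℤᵐ⁰} (h : x < 1) : x ≤ exp (-1) := by
  rcases eq_or_ne x 0 with rfl | h0
  · exact zero_le
  · rw [← exp_log h0] at h ⊢
    rw [← exp_zero, exp_lt_exp] at h
    rw [exp_le_exp]
    omega

/-- independence of the powers of a uniformizer -/
theorem p3_local {K : Type*} [Field K] (w : Valuation K ℤᵐ⁰) {e : ℕ} {z : K} (hz : w z = exp (-1))
    (s : Fin e → K) (h1 : ∀ i, w (s i) ≤ 1) (h2 : ∀ i, w (s i) < 1 → w (s i) ≤ exp (-(e : ℤ)))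
    (h3 : w (∑ i : Fin e, z ^ (i : ℕ) * s i) ≤ exp (-(e : ℤ))) (i : Fin e) : w (s i) < 1 := by
  have hp : ∀ n : ℕ, w (z ^ n) = exp (-(n : ℤ)) := fun n => by
    rw [map_pow, hz, ← exp_nsmul]; simp
  induction i using WellFoundedLT.induction with
  | _ i ih => ?_
  have e1 : z ^ (i : ℕ) * s i = ∑ i : Fin e, z ^ (i : ℕ) * s i -
      ∑ k ∈ Finset.univ.erase i, z ^ (k : ℕ) * s k := by
    rw [← Finset.add_sum_erase _ _ (Finset.mem_univ i)]; ring
  have hlt : exp (-(e : ℤ)) < exp (-((i : ℕ) : ℤ)) := by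
    rw [exp_lt_exp]; have := i.2; omega
  have e2 : w (z ^ (i : ℕ) * s i) < exp (-((i : ℕ) : ℤ)) := by
    rw [e1]
    refine w.map_sub_lt (h3.trans_lt hlt) (w.map_sum_lt exp_ne_zero fun k hk => ?_)
    rw [map_mul, hp]
    rcases lt_or_gt_of_ne (Finset.ne_of_mem_erase hk) with h | h
    · refine lt_of_le_of_lt ?_ hlt
      refine (mul_le_of_le_one_left' ?_).trans (h2 k (ih k h))
      rw [← exp_zero, exp_le_exp]; omega
    · refine lt_of_le_of_lt (mul_le_of_le_one_right' (h1 k)) ?_
      rw [exp_lt_exp]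
      have : (i : ℕ) < k := h
      omega
  rw [map_mul, hp] at e2
  exact (mul_lt_iff_lt_one_right exp_pos).1 e2

variable {E L : Type} [Field E] [NumberField E] [Field L] [NumberField L] [Algebra E L]

/-- a basis of the residue field extension -/
theorem p3_res (p : HeightOneSpectrum (𝓞 E)) (q : HeightOneSpectrum (𝓞 L))
    [q.asIdeal.LiesOver p.asIdeal] : ∃ β : Fin (p.asIdeal.inertiaDeg' q.asIdeal) → 𝓞 L,
      (∀ c : Fin (p.asIdeal.inertiaDeg' q.asIdeal) → 𝓞 E,
        ∑ j, algebraMap _ _ (c j) * β j ∈ q.asIdeal → ∀ j, c j ∈ p.asIdeal) ∧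
      (∀ h : 𝓞 L, ∃ m : Matrix (Fin (p.asIdeal.inertiaDeg' q.asIdeal))
          (Fin (p.asIdeal.inertiaDeg' q.asIdeal)) (𝓞 E),
        (∀ j, h * β j - ∑ l, algebraMap _ _ (m l j) * β l ∈ q.asIdeal) ∧
        algebraMap _ _ m.det -
          h ^ ((Ideal.absNorm q.asIdeal - 1) / (Ideal.absNorm p.asIdeal - 1)) ∈ q.asIdeal) ∧
      (Ideal.absNorm p.asIdeal - 1) ∣ (Ideal.absNorm q.asIdeal - 1) := by
  let _ := Ideal.Quotient.field p.asIdeal
  let _ := Ideal.Quotient.field q.asIdeal
  have : Finite (𝓞 L ⧸ q.asIdeal) := Ideal.finiteQuotientOfFreeOfNeBot _ q.ne_bot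
  have : Finite (𝓞 E ⧸ p.asIdeal) := Ideal.finiteQuotientOfFreeOfNeBot _ p.ne_bot
  let b := Module.finBasisOfFinrankEq (𝓞 E ⧸ p.asIdeal) (𝓞 L ⧸ q.asIdeal)
    (Ideal.inertiaDeg'_algebraMap p.asIdeal q.asIdeal).symm
  choose β hβ using fun j => Ideal.Quotient.mk_surjective (b j)
  have hsm : ∀ (c : 𝓞 E) (x : 𝓞 L), Ideal.Quotient.mk q.asIdeal (algebraMap _ _ c * x) =
      Ideal.Quotient.mk p.asIdeal c • Ideal.Quotient.mk q.asIdeal x := fun c x => by
    rw [map_mul, Algebra.smul_def, Ideal.Quotient.algebraMap_mk_of_liesOver]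
  have hq : Ideal.absNorm q.asIdeal = Nat.card (𝓞 L ⧸ q.asIdeal) := by
    rw [Ideal.absNorm_apply, Submodule.cardQuot_apply]
  have hp : Ideal.absNorm p.asIdeal = Nat.card (𝓞 E ⧸ p.asIdeal) := by
    rw [Ideal.absNorm_apply, Submodule.cardQuot_apply]
  refine ⟨β, fun c hc j => ?_, fun h => ?_, ?_⟩
  · rw [← Ideal.Quotient.eq_zero_iff_mem, map_sum] at hc
    simp only [hsm, hβ] at hc
    exact Ideal.Quotient.eq_zero_iff_mem.1 (Fintype.linearIndependent_iff.1 b.linearIndependent _ hc j)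
  · choose m hm using fun l j => Ideal.Quotient.mk_surjective
      (Algebra.leftMulMatrix b (Ideal.Quotient.mk q.asIdeal h) l j)
    refine ⟨Matrix.of m, fun j => ?_, ?_⟩
    · rw [← Ideal.Quotient.eq, map_sum, map_mul]
      simp only [hsm, hβ, Matrix.of_apply, hm, Algebra.leftMulMatrix_eq_repr_mul]
      exact (b.sum_repr _).symm
    · rw [← Ideal.Quotient.eq, map_pow, hq, hp, ← FiniteField.algebraMap_norm_eq_pow,
        ← Ideal.Quotient.algebraMap_mk_of_liesOver q.asIdeal p.asIdeal, RingHom.map_det,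
        Algebra.norm_eq_matrix_det b]
      congr 2
      ext l j
      exact hm l j
  · rw [hq, hp, Module.natCard_eq_pow_finrank (K := 𝓞 E ⧸ p.asIdeal) (V := 𝓞 L ⧸ q.asIdeal)]
    exact Nat.sub_one_dvd_pow_sub_one _ _

end Crest.Agent.GQ
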