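import Crest.Agent.GQ.RecProd

/-! # GQ RecRT: formal properties of the Rosset-Tate symbol -/

set_option autoImplicit false

noncomputable section

open NumberField IsDedekindDomain Polynomial
open scoped ComplexConjugate

namespace Crest.Agent.GQ

theorem rr_induction {F : Type} [Field F] (P : F[X] → Prop) (hC : ∀ a : F, a ≠ 0 → P (C a))
    (hmul : ∀ φ q : F[X], Irreducible φ → φ.Monic → q ≠ 0 → P q → P (φ * q)) :
    ∀ q : F[X], q ≠ 0 → P q := by
  intro q
  induction hn : q.natDegree using Nat.strong_induction_on generalizing q with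
  | _ n ih =>
    intro hq
    by_cases hu : IsUnit q
    · obtain ⟨a, ha, rfl⟩ := Polynomial.isUnit_iff.1 hu
      exact hC a ha.ne_zero
    · obtain ⟨φ, hm, hφ, q', rfl⟩ := Polynomial.exists_monic_irreducible_factor q hu
      have hq' : q' ≠ 0 := right_ne_zero_of_mul hq
      refine hmul φ q' hφ hm hq' (ih q'.natDegree ?_ q' rfl hq')
      rw [← hn, Polynomial.natDegree_mul hφ.ne_zero hq']
      have := hφ.natDegree_pos
      omega

theorem rr_root_ne_zero {F : Type} [Field F] {φ : F[X]} (hφ : Irreducible φ)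
    (h0 : φ.eval 0 ≠ 0) : AdjoinRoot.root φ ≠ 0 := by
  intro h
  have h1 : AdjoinRoot.mk φ X = 0 := by rw [AdjoinRoot.mk_X]; exact h
  rw [AdjoinRoot.mk_eq_zero] at h1
  have h2 : X ∣ φ := (hφ.associated_of_dvd irreducible_X h1).symm.dvd
  rw [Polynomial.X_dvd_iff, Polynomial.coeff_zero_eq_eval_zero] at h2
  exact h0 h2

theorem rr_mk_ne_zero {F : Type} [Field F] {φ p : F[X]} (hφ : Irreducible φ)
    (h : IsCoprime p φ) : AdjoinRoot.mk φ p ≠ 0 := by
  intro h1
  rw [AdjoinRoot.mk_eq_zero] at h1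
  exact hφ.not_isUnit (h.isUnit_of_dvd' h1 dvd_rfl)

theorem rr_eval_ne_zero_of_dvd {F : Type} [Field F] {φ q : F[X]} (h : φ ∣ q)
    (h0 : q.eval 0 ≠ 0) : φ.eval 0 ≠ 0 := by
  obtain ⟨c, rfl⟩ := h
  rw [eval_mul] at h0
  exact left_ne_zero_of_mul h0

theorem rr_ne_zero_of_eval {F : Type} [Field F] {q : F[X]} (h0 : q.eval 0 ≠ 0) : q ≠ 0 := by
  rintro rfl
  simp at h0

theorem rr_norm_root {F : Type} [Field F] {φ : F[X]} [Fact (Irreducible φ)] (hm : φ.Monic) :
    Algebra.norm F (AdjoinRoot.root φ) = (-1) ^ φ.natDegree * φ.eval 0 := by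
  have h := Algebra.PowerBasis.norm_gen_eq_coeff_zero_minpoly (AdjoinRoot.powerBasis hm.ne_zero)
  rw [AdjoinRoot.powerBasis_gen, AdjoinRoot.powerBasis_dim, AdjoinRoot.minpoly_root hm.ne_zero,
    hm.leadingCoeff, inv_one, C_1, mul_one, Polynomial.coeff_zero_eq_eval_zero] at h
  exact h

variable {F : Type} [Field F] [NumberField F] {w : F} (hw : IsPrimitiveRoot w 3) {M : ℕ}
  (h3 : 3 ∣ M)

theorem rr_symI_congr {φ p p' : F[X]} (h : φ ∣ p - p') : symI w M φ p = symI w M φ p' := by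
  unfold symI
  by_cases hφ : Irreducible φ
  · rw [dif_pos hφ, dif_pos hφ, (AdjoinRoot.mk_eq_mk (f := φ)).2 h]
  · rw [dif_neg hφ, dif_neg hφ]

theorem rr_RT_mul_right (p : F[X]) {q q' : F[X]} (hq : q ≠ 0) (hq' : q' ≠ 0) :
    RT w M p (q * q') = RT w M p q * RT w M p q' := by
  classical
  unfold RT
  rw [UniqueFactorizationMonoid.normalizedFactors_mul hq hq', Multiset.map_add, Multiset.prod_add]

include hw h3

theorem rr_symI_mul {φ p p' : F[X]} (hφ : Irreducible φ) (h0 : φ.eval 0 ≠ 0)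
    (h : IsCoprime p φ) (h' : IsCoprime p' φ) :
    symI w M φ (p * p') = symI w M φ p * symI w M φ p' := by
  unfold symI
  rw [dif_pos hφ, dif_pos hφ, dif_pos hφ]
  have : Fact (Irreducible φ) := ⟨hφ⟩
  have : NumberField (AdjoinRoot φ) := numberField_adjoinRoot φ
  have hw' : IsPrimitiveRoot (algebraMap F (AdjoinRoot φ) w) 3 :=
    hw.map_of_injective (algebraMap F (AdjoinRoot φ)).injective
  rw [map_mul]
  exact BB_mul_right hw' h3 (rr_root_ne_zero hφ h0) (rr_mk_ne_zero hφ h) (rr_mk_ne_zero hφ h')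

theorem rr_symI_ne_zero {φ p : F[X]} (hφ : Irreducible φ) (h0 : φ.eval 0 ≠ 0)
    (h : IsCoprime p φ) : symI w M φ p ≠ 0 := by
  unfold symI
  rw [dif_pos hφ]
  have : Fact (Irreducible φ) := ⟨hφ⟩
  have : NumberField (AdjoinRoot φ) := numberField_adjoinRoot φ
  have hw' : IsPrimitiveRoot (algebraMap F (AdjoinRoot φ) w) 3 :=
    hw.map_of_injective (algebraMap F (AdjoinRoot φ)).injective
  exact BB_ne_zero hw' h3 (rr_root_ne_zero hφ h0) (rr_mk_ne_zero hφ h)

theorem rr_symI_C {φ : F[X]} (hφ : Irreducible φ) (hm : φ.Monic) (h0 : φ.eval 0 ≠ 0) {a : F}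
    (ha : a ≠ 0) : symI w M φ (C a) = BB w M (φ.eval 0) a := by
  unfold symI
  rw [dif_pos hφ]
  have : Fact (Irreducible φ) := ⟨hφ⟩
  have : NumberField (AdjoinRoot φ) := numberField_adjoinRoot φ
  have hw' : IsPrimitiveRoot (algebraMap F (AdjoinRoot φ) w) 3 :=
    hw.map_of_injective (algebraMap F (AdjoinRoot φ)).injective
  have hr := rr_root_ne_zero hφ h0
  have ha' : algebraMap F (AdjoinRoot φ) a ≠ 0 := by simpa using ha
  have e : AdjoinRoot.mk φ (C a) = algebraMap F (AdjoinRoot φ) a := rfl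
  rw [e, BB_symm hw' h3 ha' hr, BB_proj hw h3 ha hr, rr_norm_root hm, BB_symm hw h3 ha h0]
  congr 1
  rcases neg_one_pow_eq_or F φ.natDegree with h | h
  · rw [h, one_mul]
  · rw [h, neg_one_mul, BB_neg_right hw h3 ha h0]

theorem RT_of_natDegree_zero (p : F[X]) {q : F[X]} (hq : q.natDegree = 0) : RT w M p q = 1 := by
  classical
  unfold RT
  have : UniqueFactorizationMonoid.normalizedFactors q = 0 := by
    rw [Polynomial.natDegree_eq_zero] at hq
    obtain ⟨a, rfl⟩ := hq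
    by_cases ha : a = 0
    · simp [ha]
    · exact UniqueFactorizationMonoid.normalizedFactors_of_isUnit
        (Polynomial.isUnit_C.2 (Ne.isUnit ha))
  rw [this]
  simp

theorem RT_congr {p p' q : F[X]} (hq : q ≠ 0) (h : q ∣ p - p') : RT w M p q = RT w M p' q := by
  classical
  unfold RT
  congr 1
  refine Multiset.map_congr rfl fun φ hφ => ?_
  exact rr_symI_congr ((UniqueFactorizationMonoid.dvd_of_mem_normalizedFactors hφ).trans h)

theorem RT_mul_left {p p' q : F[X]} (hq : q.eval 0 ≠ 0) (h : IsCoprime p q) (h' : IsCoprime p' q) :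
    RT w M (p * p') q = RT w M p q * RT w M p' q := by
  classical
  unfold RT
  rw [← Multiset.prod_map_mul]
  congr 1
  refine Multiset.map_congr rfl fun φ hφ => ?_
  have hd := UniqueFactorizationMonoid.dvd_of_mem_normalizedFactors hφ
  exact rr_symI_mul hw h3 (UniqueFactorizationMonoid.irreducible_of_normalized_factor φ hφ)
    (rr_eval_ne_zero_of_dvd hd hq) (h.of_isCoprime_of_dvd_right hd)
    (h'.of_isCoprime_of_dvd_right hd)

theorem RT_ne_zero {p q : F[X]} (hq : q.eval 0 ≠ 0) (h : IsCoprime p q) : RT w M p q ≠ 0 := by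
  classical
  unfold RT
  refine Multiset.prod_ne_zero ?_
  intro h0
  obtain ⟨φ, hφ, h1⟩ := Multiset.mem_map.1 h0
  have hd := UniqueFactorizationMonoid.dvd_of_mem_normalizedFactors hφ
  exact rr_symI_ne_zero hw h3 (UniqueFactorizationMonoid.irreducible_of_normalized_factor φ hφ)
    (rr_eval_ne_zero_of_dvd hd hq) (h.of_isCoprime_of_dvd_right hd) h1

theorem RT_irreducible (p : F[X]) {φ : F[X]} (hφ : Irreducible φ) (hm : φ.Monic) :
    RT w M p φ = symI w M φ p := by
  classical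
  unfold RT
  rw [UniqueFactorizationMonoid.normalizedFactors_irreducible hφ, hm.normalize_eq_self]
  simp

theorem rr_RT_C {a : F} (ha : a ≠ 0) (q : F[X]) (hq : q.eval 0 ≠ 0) :
    RT w M (C a) q = BB w M (q.eval 0 / q.leadingCoeff) a := by
  refine rr_induction (fun q => q.eval 0 ≠ 0 →
    RT w M (C a) q = BB w M (q.eval 0 / q.leadingCoeff) a) ?_ ?_ q (rr_ne_zero_of_eval hq) hq
  · intro b hb _
    rw [RT_of_natDegree_zero hw h3 _ (natDegree_C b), eval_C, leadingCoeff_C, div_self hb,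
      BB_one_left hw h3 ha]
  · intro φ q hφ hm hq ih h0
    rw [eval_mul] at h0
    have h1 := left_ne_zero_of_mul h0
    have h2 := right_ne_zero_of_mul h0
    have hl : q.leadingCoeff ≠ 0 := leadingCoeff_ne_zero.2 hq
    rw [rr_RT_mul_right _ hφ.ne_zero hq, ih h2, RT_irreducible hw h3 _ hφ hm,
      rr_symI_C hw h3 hφ hm h1 ha, eval_mul, leadingCoeff_mul, hm.leadingCoeff, one_mul,
      mul_div_assoc, BB_mul_left hw h3 h1 (div_ne_zero h2 hl) ha]

theorem rr_recip_irr {φ : F[X]} (hφ : Irreducible φ) (hm : φ.Monic) (h0 : φ.eval 0 ≠ 0)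
    (q : F[X]) (hq : q.eval 0 ≠ 0) (h : IsCoprime φ q) :
    RT w M φ q = RT w M q φ * BB w M (q.eval 0 / q.leadingCoeff) (φ.eval 0) *
      BB w M q.leadingCoeff (φ.eval 0) := by
  refine rr_induction (fun q => q.eval 0 ≠ 0 → IsCoprime φ q →
    RT w M φ q = RT w M q φ * BB w M (q.eval 0 / q.leadingCoeff) (φ.eval 0) *
      BB w M q.leadingCoeff (φ.eval 0)) ?_ ?_ q (rr_ne_zero_of_eval hq) hq h
  · intro b hb _ _
    rw [RT_of_natDegree_zero hw h3 _ (natDegree_C b), eval_C, leadingCoeff_C, div_self hb,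
      BB_one_left hw h3 h0, rr_RT_C hw h3 hb φ h0, hm.leadingCoeff, div_one, mul_one,
      BB_symm hw h3 hb h0, inv_mul_cancel₀ (BB_ne_zero hw h3 hb h0)]
  · intro ψ q hψ hψm hq ih hq0 hc
    rw [eval_mul] at hq0
    have h1 := left_ne_zero_of_mul hq0
    have h2 := right_ne_zero_of_mul hq0
    have hl : q.leadingCoeff ≠ 0 := leadingCoeff_ne_zero.2 hq
    have c1 : IsCoprime φ ψ := hc.of_mul_right_left
    have c2 : IsCoprime φ q := hc.of_mul_right_right
    have hne : φ ≠ ψ := by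
      rintro rfl
      exact hφ.not_isUnit (isCoprime_self.1 c1)
    rw [rr_RT_mul_right _ hψ.ne_zero hq, ih h2 c2, RT_mul_left hw h3 h0 c1.symm c2.symm,
      RT_irreducible hw h3 φ hψ hψm, RT_irreducible hw h3 ψ hφ hm,
      symI_recip hw h3 hφ hψ hm hψm hne h0 h1, eval_mul, leadingCoeff_mul, hψm.leadingCoeff,
      one_mul, mul_div_assoc, BB_mul_left hw h3 h1 (div_ne_zero h2 hl) h0]
    ring

theorem RT_recip {p q : F[X]} (hp : p.eval 0 ≠ 0) (hq : q.eval 0 ≠ 0) (h : IsCoprime p q) :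
    RT w M p q = RT w M q p * BB w M (q.eval 0 / q.leadingCoeff) (p.eval 0) *
      BB w M q.leadingCoeff (p.eval 0 / p.leadingCoeff) := by
  have hlq : q.leadingCoeff ≠ 0 := leadingCoeff_ne_zero.2 (rr_ne_zero_of_eval hq)
  refine rr_induction (fun p => p.eval 0 ≠ 0 → IsCoprime p q →
    RT w M p q = RT w M q p * BB w M (q.eval 0 / q.leadingCoeff) (p.eval 0) *
      BB w M q.leadingCoeff (p.eval 0 / p.leadingCoeff)) ?_ ?_ p (rr_ne_zero_of_eval hp) hp h
  · intro a ha _ _
    rw [rr_RT_C hw h3 ha q hq, RT_of_natDegree_zero hw h3 _ (natDegree_C a), eval_C,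
      leadingCoeff_C, div_self ha, BB_one_right hw h3 hlq, one_mul, mul_one]
  · intro φ p hφ hm hp ih hp0 hc
    rw [eval_mul] at hp0
    have h1 := left_ne_zero_of_mul hp0
    have h2 := right_ne_zero_of_mul hp0
    have hl : p.leadingCoeff ≠ 0 := leadingCoeff_ne_zero.2 hp
    have c1 : IsCoprime φ q := hc.of_mul_left_left
    have c2 : IsCoprime p q := hc.of_mul_left_right
    rw [RT_mul_left hw h3 hq c1 c2, ih h2 c2, rr_recip_irr hw h3 hφ hm h1 q hq c1,
      rr_RT_mul_right _ hφ.ne_zero hp, eval_mul, leadingCoeff_mul, hm.leadingCoeff, one_mul,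
      mul_div_assoc, BB_mul_right hw h3 (div_ne_zero hq hlq) h1 h2,
      BB_mul_right hw h3 hlq h1 (div_ne_zero h2 hl)]
    ring

end Crest.Agent.GQ
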