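import Crest.Agent.GQ.Defs

/-! # GQ RecTame: tame cubic symbols over a number field -/

set_option autoImplicit false

noncomputable section

open NumberField IsDedekindDomain Polynomial
open scoped ComplexConjugate

namespace Crest.Agent.GQ

/-- `a ≡ b mod M^k` at the primes dividing `M` -/
def Cong {E : Type} [Field E] [NumberField E] (M k : ℕ) (a b : E) : Prop :=
  ∃ t ∈ TS E M, a - b = (M : E) ^ k * t

variable {E : Type} [Field E] [NumberField E]

/-- additive valuation -/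
def ordv (v : HeightOneSpectrum (𝓞 E)) (x : E) : ℤ := -WithZero.log (v.valuation E x)

open Classical in
/-- cubic residue symbol of a `v`-unit -/
def kv (w : E) (v : HeightOneSpectrum (𝓞 E)) (x : E) : ℂ :=
  ∑ j ∈ Finset.range 3,
    if v.valuation E (x ^ ((Ideal.absNorm v.asIdeal - 1) / 3) - w ^ j) < 1 then omC ^ j else 0

/-- tame cubic Hilbert symbol -/
def tame (w : E) (v : HeightOneSpectrum (𝓞 E)) (x y : E) : ℂ :=
  kv w v (x ^ ordv v y * y ^ (-ordv v x))

open Classical in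
/-- product of the tame symbols at the primes not dividing `M` -/
def BB (w : E) (M : ℕ) (x y : E) : ℂ :=
  ∏ᶠ v : HeightOneSpectrum (𝓞 E), if (M : 𝓞 E) ∈ v.asIdeal then 1 else tame w v x y

theorem ordv_mul (v : HeightOneSpectrum (𝓞 E)) {x y : E} (hx : x ≠ 0) (hy : y ≠ 0) :
    ordv v (x * y) = ordv v x + ordv v y := by
  unfold ordv
  rw [map_mul, WithZero.log_mul (by simpa using hx) (by simpa using hy)]
  ring
theorem ordv_zpow (v : HeightOneSpectrum (𝓞 E)) (x : E) (n : ℤ) : ordv v (x ^ n) = n * ordv v x := by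
  unfold ordv
  rw [map_zpow₀, WithZero.log_zpow]
  simp
theorem ordv_eq_zero_iff (v : HeightOneSpectrum (𝓞 E)) {x : E} (hx : x ≠ 0) :
    ordv v x = 0 ↔ v.valuation E x = 1 := by
  unfold ordv
  have h0 : v.valuation E x ≠ 0 := by simpa using hx
  constructor
  · intro h
    have h' : WithZero.log (v.valuation E x) = 0 := by omega
    rw [← WithZero.exp_log h0, h']; simp
  · intro h; simp [h]
theorem finite_ordv {x : E} (hx : x ≠ 0) : {v : HeightOneSpectrum (𝓞 E) | ordv v x ≠ 0}.Finite := by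
  refine ((HeightOneSpectrum.Support.finite (𝓞 E) x).union
    (HeightOneSpectrum.Support.finite (𝓞 E) x⁻¹)).subset ?_
  intro v hv
  have h1 : v.valuation E x ≠ 1 := fun h => hv ((ordv_eq_zero_iff v hx).2 h)
  have h0 : v.valuation E x ≠ 0 := by simpa using hx
  rcases lt_or_gt_of_ne h1 with h | h
  · right
    show 1 < v.valuation E x⁻¹
    rw [map_inv₀]
    exact (one_lt_inv₀ (zero_lt_iff.2 h0)).2 h
  · left
    exact h

theorem rt_omC_cube : omC ^ 3 = 1 := by
  have h : Real.sqrt 3 ^ 2 = 3 := Real.sq_sqrt (by norm_num)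
  apply Complex.ext
  · simp [omC, pow_succ]
    nlinarith [h]
  · simp [omC, pow_succ]
    have : Real.sqrt 3 * Real.sqrt 3 = 3 := by nlinarith [h]
    linear_combination (-Real.sqrt 3 / 8) * this

theorem rt_omC_ne : omC ≠ 0 := by
  intro h
  have := rt_omC_cube
  rw [h] at this
  norm_num at this

theorem rt_omC_mod (j : ℕ) : omC ^ (j % 3) = omC ^ j := by
  conv_rhs => rw [← Nat.div_add_mod j 3, pow_add, pow_mul, rt_omC_cube, one_pow, one_mul]

theorem rt_trans {F Γ : Type*} [Field F] [LinearOrderedCommGroupWithZero Γ] (V : Valuation F Γ)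
    {a b c : F} (h1 : V (a - b) < 1) (h2 : V (b - c) < 1) : V (a - c) < 1 := by
  have := V.map_add_lt h1 h2
  rwa [sub_add_sub_cancel] at this

theorem rt_symm {F Γ : Type*} [Field F] [LinearOrderedCommGroupWithZero Γ] (V : Valuation F Γ)
    {a b : F} (h1 : V (a - b) < 1) : V (b - a) < 1 := by
  rwa [V.map_sub_swap]

theorem rt_mul_lt {F Γ : Type*} [Field F] [LinearOrderedCommGroupWithZero Γ] (V : Valuation F Γ)
    {a b : F} (h1 : V a ≤ 1) (h2 : V b < 1) : V (a * b) < 1 := by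
  rw [map_mul]
  exact mul_lt_one_of_nonneg_of_lt_one_right h1 zero_le h2

theorem rt_mul {F Γ : Type*} [Field F] [LinearOrderedCommGroupWithZero Γ] (V : Valuation F Γ)
    {a b c d : F} (h1 : V (a - b) < 1) (h2 : V (c - d) < 1) (ha : V a ≤ 1) (hd : V d ≤ 1) :
    V (a * c - b * d) < 1 := by
  have := V.map_add_lt (rt_mul_lt V ha h2) (rt_mul_lt V hd h1)
  rwa [show a * (c - d) + d * (a - b) = a * c - b * d by ring] at this

theorem rt_pow {F Γ : Type*} [Field F] [LinearOrderedCommGroupWithZero Γ] (V : Valuation F Γ)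
    {a b : F} (h1 : V (a - b) < 1) (ha : V a ≤ 1) (hb : V b ≤ 1) (n : ℕ) :
    V (a ^ n - b ^ n) < 1 := by
  induction n with
  | zero => simp
  | succ n ih =>
    rw [pow_succ, pow_succ]
    exact rt_mul V ih h1 (by rw [map_pow]; exact pow_le_one₀ zero_le ha) hb

theorem rt_eq_one {F Γ : Type*} [Field F] [LinearOrderedCommGroupWithZero Γ] (V : Valuation F Γ)
    {a b : F} (h1 : V (a - b) < 1) (hb : V b = 1) : V a = 1 := by
  have := V.map_add_eq_of_lt_left (x := b) (y := a - b) (by rwa [hb])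
  rwa [add_sub_cancel, hb] at this

theorem rt_fermat (v : HeightOneSpectrum (𝓞 E)) {x : E} (hx : v.valuation E x = 1) :
    v.valuation E (x ^ (Ideal.absNorm v.asIdeal - 1) - 1) < 1 := by
  obtain ⟨a, ha⟩ := v.exists_valuation_sub_lt_of_integer hx.le 1
  have ha' : v.valuation E (algebraMap (𝓞 E) E a - x) < 1 := by simpa using ha
  have h1 : v.valuation E (algebraMap (𝓞 E) E a) = 1 := rt_eq_one _ ha' hx
  have h2 : a ∉ v.asIdeal := (v.valuation_eq_one_iff_notMem (K := E)).1 h1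
  haveI := v.isMaximal
  letI : Field (𝓞 E ⧸ v.asIdeal) := Ideal.Quotient.field _
  haveI : Finite (𝓞 E ⧸ v.asIdeal) := Ideal.finiteQuotientOfFreeOfNeBot _ v.ne_bot
  letI : Fintype (𝓞 E ⧸ v.asIdeal) := Fintype.ofFinite _
  have h4 : (Ideal.Quotient.mk v.asIdeal a) ≠ 0 := by
    rwa [Ne, Ideal.Quotient.eq_zero_iff_mem]
  have h5 := FiniteField.pow_card_sub_one_eq_one _ h4
  have hc : Fintype.card (𝓞 E ⧸ v.asIdeal) = Ideal.absNorm v.asIdeal := by
    rw [Ideal.absNorm_apply, Submodule.cardQuot_apply, Nat.card_eq_fintype_card]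
  rw [hc] at h5
  have h6 : a ^ (Ideal.absNorm v.asIdeal - 1) - 1 ∈ v.asIdeal := by
    rw [← Ideal.Quotient.eq_zero_iff_mem, map_sub, map_pow, h5, map_one, sub_self]
  have h7 := (v.valuation_lt_one_iff_mem (K := E) _).2 h6
  have h8 : v.valuation E ((algebraMap (𝓞 E) E a) ^ (Ideal.absNorm v.asIdeal - 1) - 1) < 1 := by
    have : (algebraMap (𝓞 E) E (a ^ (Ideal.absNorm v.asIdeal - 1) - 1))
      = (algebraMap (𝓞 E) E a) ^ (Ideal.absNorm v.asIdeal - 1) - 1 := by simp
    rw [← this]; exact h7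
  exact rt_trans _ (rt_symm _ (rt_pow _ ha' h1.le hx.le _)) h8

theorem rt_unit (v : HeightOneSpectrum (𝓞 E)) {x y : E} (hx : x ≠ 0) (hy : y ≠ 0) :
    v.valuation E (x ^ ordv v y * y ^ (-ordv v x)) = 1 := by
  rw [← ordv_eq_zero_iff v (mul_ne_zero (zpow_ne_zero _ hx) (zpow_ne_zero _ hy)),
    ordv_mul v (zpow_ne_zero _ hx) (zpow_ne_zero _ hy), ordv_zpow, ordv_zpow]
  ring

theorem rt_vw {w : E} (hw : IsPrimitiveRoot w 3) (v : HeightOneSpectrum (𝓞 E)) :
    v.valuation E w = 1 := by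
  have h : v.valuation E w ^ 3 = 1 := by rw [← map_pow, hw.pow_eq_one, map_one]
  exact (pow_eq_one_iff_of_nonneg zero_le (by norm_num)).1 h

theorem rt_w_mod {w : E} (hw : IsPrimitiveRoot w 3) (j : ℕ) : w ^ (j % 3) = w ^ j := by
  conv_rhs => rw [← Nat.div_add_mod j 3, pow_add, pow_mul, hw.pow_eq_one, one_pow, one_mul]

theorem rt_w_sum {w : E} (hw : IsPrimitiveRoot w 3) : 1 + w + w ^ 2 = 0 := by
  have := hw.geom_sum_eq_zero (by norm_num)
  simpa [Finset.sum_range_succ] using this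

section loc
variable {w : E} (hw : IsPrimitiveRoot w 3) {v : HeightOneSpectrum (𝓞 E)}
  (h3 : (3 : 𝓞 E) ∉ v.asIdeal)
include hw h3

theorem rt_dist {i j : ℕ} (h : v.valuation E (w ^ i - w ^ j) < 1) : i % 3 = j % 3 := by
  have hs := rt_w_sum hw
  have hv := rt_vw hw v
  have hc := hw.pow_eq_one
  have h3' : v.valuation E 3 = 1 := by
    have := (v.valuation_eq_one_iff_notMem (K := E)).2 h3
    have e : algebraMap (𝓞 E) E 3 = 3 := map_ofNat _ 3
    rw [← e]; exact this
  have hp : ∀ n : ℕ, v.valuation E (w ^ n) ≤ 1 := fun n => by rw [map_pow, hv, one_pow]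
  have key : ¬ v.valuation E (1 - w) < 1 := by
    intro h1
    have h2 : v.valuation E (1 - w ^ 2) ≤ 1 :=
      (v.valuation E).map_sub_le (by simp) (hp 2)
    have := rt_mul_lt _ h2 h1
    rw [show (1 - w ^ 2) * (1 - w) = 3 by linear_combination hc - hs, h3'] at this
    exact lt_irrefl _ this
  rw [← rt_w_mod hw i, ← rt_w_mod hw j] at h
  have hi : i % 3 < 3 := Nat.mod_lt _ (by norm_num)
  have hj : j % 3 < 3 := Nat.mod_lt _ (by norm_num)
  generalize i % 3 = a at *
  generalize j % 3 = b at *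
  by_contra hab
  apply key
  have hn : ∀ n : ℕ, v.valuation E (-w ^ n) ≤ 1 := fun n => by
    rw [Valuation.map_neg]; exact hp n
  interval_cases a <;> interval_cases b
  · exact absurd rfl hab
  · simpa using h
  · have := rt_mul_lt _ (hn 1) h
    rwa [show -w ^ 1 * (w ^ 0 - w ^ 2) = 1 - w by linear_combination hc] at this
  · have := rt_mul_lt _ (hn 0) h
    rwa [show -w ^ 0 * (w ^ 1 - w ^ 0) = 1 - w by ring] at this
  · exact absurd rfl hab
  · have := rt_mul_lt _ (hp 2) h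
    rwa [show w ^ 2 * (w ^ 1 - w ^ 2) = 1 - w by linear_combination (1 - w) * hc] at this
  · have := rt_mul_lt _ (hp 1) h
    rwa [show w ^ 1 * (w ^ 2 - w ^ 0) = 1 - w by linear_combination hc] at this
  · have := rt_mul_lt _ (hn 2) h
    rwa [show -w ^ 2 * (w ^ 2 - w ^ 1) = 1 - w by linear_combination (1 - w) * hc] at this
  · exact absurd rfl hab

theorem absNorm_mod_three : Ideal.absNorm v.asIdeal % 3 = 1 := by
  have h := rt_fermat v (rt_vw hw v)
  have h1 : (Ideal.absNorm v.asIdeal - 1) % 3 = 0 % 3 := rt_dist hw h3 (by simpa using h)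
  have h2 : Ideal.absNorm v.asIdeal ≠ 0 := by
    rw [Ne, Ideal.absNorm_eq_zero_iff]; exact v.ne_bot
  omega

theorem rt_kv_eq {x : E} {j : ℕ}
    (h : v.valuation E (x ^ ((Ideal.absNorm v.asIdeal - 1) / 3) - w ^ j) < 1) :
    kv w v x = omC ^ j := by
  classical
  unfold kv
  rw [Finset.sum_eq_single (j % 3)]
  · rw [if_pos (by rwa [rt_w_mod hw]), rt_omC_mod]
  · intro i hi hij
    rw [if_neg]
    intro h'
    have := rt_dist hw h3 (rt_trans _ (rt_symm _ h') h)
    rw [Nat.mod_eq_of_lt (Finset.mem_range.1 hi)] at this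
    exact hij this
  · intro hj
    exact absurd (Finset.mem_range.2 (Nat.mod_lt _ (by norm_num))) hj

theorem kv_spec {x : E} (hx : v.valuation E x = 1) : ∃ j : ℕ, j < 3 ∧
    v.valuation E (x ^ ((Ideal.absNorm v.asIdeal - 1) / 3) - w ^ j) < 1 ∧ kv w v x = omC ^ j := by
  have h := rt_fermat v hx
  have hN := absNorm_mod_three hw h3
  have hs := rt_w_sum hw
  have hc := hw.pow_eq_one
  set X := x ^ ((Ideal.absNorm v.asIdeal - 1) / 3) with hX
  have e : x ^ (Ideal.absNorm v.asIdeal - 1) = X ^ 3 := by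
    rw [hX, ← pow_mul]; congr 1; omega
  rw [e, show X ^ 3 - 1 = (X - w ^ 0) * (X - w ^ 1) * (X - w ^ 2) by
    linear_combination (X ^ 2 - w * X) * hs + (1 - X) * hc - X * (1 - w) * hs, map_mul, map_mul] at h
  have : ∃ j : ℕ, j < 3 ∧ v.valuation E (X - w ^ j) < 1 := by
    by_contra hne
    push Not at hne
    exact absurd h (not_lt.2 (one_le_mul (one_le_mul (hne 0 (by norm_num)) (hne 1 (by norm_num)))
      (hne 2 (by norm_num))))
  obtain ⟨j, hj, hj'⟩ := this
  exact ⟨j, hj, hj', rt_kv_eq hw h3 hj'⟩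
theorem kv_eq {x : E} {j : ℕ}
    (h : v.valuation E (x ^ ((Ideal.absNorm v.asIdeal - 1) / 3) - w ^ j) < 1) :
    kv w v x = omC ^ j := rt_kv_eq hw h3 h
theorem kv_mul {x y : E} (hx : v.valuation E x = 1) (hy : v.valuation E y = 1) :
    kv w v (x * y) = kv w v x * kv w v y := by
  obtain ⟨i, -, hi, hi'⟩ := kv_spec hw h3 hx
  obtain ⟨j, -, hj, hj'⟩ := kv_spec hw h3 hy
  rw [hi', hj', ← pow_add]
  apply kv_eq hw h3
  rw [mul_pow, pow_add]
  exact rt_mul _ hi hj (by rw [map_pow, hx, one_pow]) (by rw [map_pow, rt_vw hw v, one_pow])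
theorem rt_kv_one : kv w v 1 = 1 := by
  have := kv_eq hw h3 (x := 1) (j := 0) (by simp)
  simpa using this
theorem rt_kv_ne {x : E} (hx : v.valuation E x = 1) : kv w v x ≠ 0 := by
  obtain ⟨i, -, -, hi'⟩ := kv_spec hw h3 hx
  rw [hi']; exact pow_ne_zero _ rt_omC_ne
theorem rt_kv_pow {x : E} (hx : v.valuation E x = 1) (n : ℕ) : kv w v (x ^ n) = kv w v x ^ n := by
  induction n with
  | zero => simpa using rt_kv_one hw h3
  | succ n ih => rw [pow_succ, kv_mul hw h3 (by rw [map_pow, hx, one_pow]) hx, ih, pow_succ]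
theorem rt_kv_inv {x : E} (hx : v.valuation E x = 1) : kv w v x⁻¹ = (kv w v x)⁻¹ := by
  have h0 : x ≠ 0 := by
    rintro rfl
    simp at hx
  have := kv_mul hw h3 hx (show v.valuation E x⁻¹ = 1 by rw [map_inv₀, hx, inv_one])
  rw [mul_inv_cancel₀ h0, rt_kv_one hw h3] at this
  exact eq_inv_of_mul_eq_one_right this.symm
theorem kv_zpow {x : E} (hx : v.valuation E x = 1) (n : ℤ) : kv w v (x ^ n) = kv w v x ^ n := by
  cases n with
  | ofNat n => simpa using rt_kv_pow hw h3 hx n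
  | negSucc n =>
    rw [zpow_negSucc, zpow_negSucc, rt_kv_inv hw h3 (by rw [map_pow, hx, one_pow]),
      rt_kv_pow hw h3 hx]
theorem kv_congr {x y : E} (hx : v.valuation E x = 1) (h : v.valuation E (x - y) < 1) :
    kv w v x = kv w v y := by
  obtain ⟨i, -, hi, hi'⟩ := kv_spec hw h3 hx
  have hy : v.valuation E y = 1 := rt_eq_one _ (rt_symm _ h) hx
  rw [hi']
  exact (kv_eq hw h3 (rt_trans _ (rt_pow _ (rt_symm _ h) hy.le hx.le _) hi)).symm
theorem kv_one : kv w v 1 = 1 := rt_kv_one hw h3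
theorem kv_neg (x : E) : kv w v (-x) = kv w v x := by
  classical
  have hN := absNorm_mod_three hw h3
  have h := rt_fermat v (x := (-1 : E)) (by simp)
  set m := (Ideal.absNorm v.asIdeal - 1) / 3 with hm
  have e : (-1 : E) ^ (Ideal.absNorm v.asIdeal - 1) = (-1) ^ m := by
    rw [show Ideal.absNorm v.asIdeal - 1 = 3 * m by omega, pow_mul]; norm_num
  rw [e] at h
  have key : ∀ (y : E) (j : ℕ), v.valuation E (y ^ m - w ^ j) < 1 →
      v.valuation E ((-y) ^ m - w ^ j) < 1 := by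
    intro y j hy
    have := rt_mul _ h hy (by simp) (by rw [map_pow, rt_vw hw v, one_pow])
    rwa [one_mul, ← neg_pow] at this
  unfold kv
  refine Finset.sum_congr rfl fun j _ => ?_
  refine if_congr ⟨fun h' => ?_, key x j⟩ rfl rfl
  simpa using key (-x) j h'
theorem kv_cube {x : E} (hx : v.valuation E x = 1) : kv w v x ^ 3 = 1 := by
  obtain ⟨i, -, -, hi'⟩ := kv_spec hw h3 hx
  rw [hi', ← pow_mul, mul_comm, pow_mul, rt_omC_cube, one_pow]
theorem tame_mul_left {x x' y : E} (hx : x ≠ 0) (hx' : x' ≠ 0) (hy : y ≠ 0) :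
    tame w v (x * x') y = tame w v x y * tame w v x' y := by
  unfold tame
  rw [← kv_mul hw h3 (rt_unit v hx hy) (rt_unit v hx' hy), ordv_mul v hx hx', neg_add,
    zpow_add₀ hy, mul_zpow]
  congr 1; ring
theorem tame_mul_right {x y y' : E} (hx : x ≠ 0) (hy : y ≠ 0) (hy' : y' ≠ 0) :
    tame w v x (y * y') = tame w v x y * tame w v x y' := by
  unfold tame
  rw [← kv_mul hw h3 (rt_unit v hx hy) (rt_unit v hx hy'), ordv_mul v hy hy',
    zpow_add₀ hx, mul_zpow]
  congr 1; ring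
theorem tame_cube {x y : E} (hx : x ≠ 0) (hy : y ≠ 0) : tame w v x y ^ 3 = 1 :=
  kv_cube hw h3 (rt_unit v hx hy)
theorem rt_tame_of_unit {x y : E} (hx : v.valuation E x = 1) :
    tame w v x y = kv w v x ^ ordv v y := by
  have h0 : x ≠ 0 := by
    rintro rfl
    simp at hx
  unfold tame
  rw [(ordv_eq_zero_iff v h0).2 hx, neg_zero, zpow_zero, mul_one, kv_zpow hw h3 hx]
theorem rt_tame_of_unit_right {x y : E} (hy : v.valuation E y = 1) :
    tame w v x y = kv w v y ^ (-ordv v x) := by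
  have h0 : y ≠ 0 := by
    rintro rfl
    simp at hy
  unfold tame
  rw [(ordv_eq_zero_iff v h0).2 hy, zpow_zero, one_mul, kv_zpow hw h3 hy]
theorem tame_stein {x : E} (hx : x ≠ 0) (hx1 : x ≠ 1) : tame w v x (1 - x) = 1 := by
  have hx1' : 1 - x ≠ 0 := sub_ne_zero.2 hx1.symm
  rcases lt_trichotomy (v.valuation E x) 1 with h | h | h
  · have h1 : v.valuation E ((1 - x) - 1) < 1 := by simpa using h
    have h2 : v.valuation E (1 - x) = 1 := rt_eq_one _ h1 (by simp)
    rw [rt_tame_of_unit_right hw h3 h2, kv_congr hw h3 h2 h1, kv_one hw h3, one_zpow]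
  · rw [rt_tame_of_unit hw h3 h]
    have h1 : v.valuation E (1 - x) ≤ 1 := (v.valuation E).map_sub_le (by simp) h.le
    rcases h1.lt_or_eq with h2 | h2
    · rw [kv_congr hw h3 h (rt_symm _ h2), kv_one hw h3, one_zpow]
    · rw [(ordv_eq_zero_iff v hx1').2 h2, zpow_zero]
  · have h1 : v.valuation E (1 - x) = v.valuation E x := by
      rw [Valuation.map_sub_swap]
      exact (v.valuation E).map_sub_eq_of_lt_left (by simpa using h)
    have h2 : ordv v (1 - x) = ordv v x := by unfold ordv; rw [h1]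
    have h0 : v.valuation E x ≠ 0 := by simpa using hx
    have h4 : v.valuation E (x / (1 - x)) = 1 := by rw [map_div₀, h1, div_self h0]
    have h5 : v.valuation E (x / (1 - x) - (-1)) < 1 := by
      rw [show x / (1 - x) - (-1) = (1 - x)⁻¹ by field_simp; ring, map_inv₀, h1]
      exact inv_lt_one_of_one_lt₀ h
    unfold tame
    rw [h2, zpow_neg, ← div_eq_mul_inv, ← div_zpow, kv_zpow hw h3 h4, kv_congr hw h3 h4 h5,
      kv_neg hw h3, kv_one hw h3, one_zpow]
theorem tame_of_unit {x y : E} (hx : v.valuation E x = 1) (hy : y ≠ 0) :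
    tame w v x y = kv w v x ^ ordv v y := by
  have _ := hy
  exact rt_tame_of_unit hw h3 hx
theorem tame_of_unit_right {x y : E} (hx : x ≠ 0) (hy : v.valuation E y = 1) :
    tame w v x y = kv w v y ^ (-ordv v x) := by
  have _ := hx
  exact rt_tame_of_unit_right hw h3 hy
end loc

section glob
variable {w : E} (hw : IsPrimitiveRoot w 3) {M : ℕ} (h3 : 3 ∣ M)
include hw h3

omit hw in
theorem rt_three {v : HeightOneSpectrum (𝓞 E)} (hv : (M : 𝓞 E) ∉ v.asIdeal) :
    (3 : 𝓞 E) ∉ v.asIdeal := by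
  intro h
  obtain ⟨c, rfl⟩ := h3
  apply hv
  push_cast
  exact v.asIdeal.mul_mem_right _ h

open Classical in
theorem finite_mulSupport_BB {x y : E} (hx : x ≠ 0) (hy : y ≠ 0) :
    (Function.mulSupport (fun v : HeightOneSpectrum (𝓞 E) =>
      if (M : 𝓞 E) ∈ v.asIdeal then (1 : ℂ) else tame w v x y)).Finite := by
  refine ((finite_ordv hx).union (finite_ordv hy)).subset ?_
  intro v hv
  by_contra hn
  simp only [Set.mem_union, Set.mem_setOf_eq, not_or, not_not] at hn
  apply hv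
  by_cases hM : (M : 𝓞 E) ∈ v.asIdeal
  · simp [hM]
  · simp only [hM, if_false]
    unfold tame
    rw [hn.1, hn.2]
    simpa using kv_one hw (rt_three h3 hM)
omit hw in
theorem rt_BB_eq_one {x y : E}
    (h : ∀ v : HeightOneSpectrum (𝓞 E), (3 : 𝓞 E) ∉ v.asIdeal → tame w v x y = 1) :
    BB w M x y = 1 := by
  unfold BB
  apply finprod_eq_one_of_forall_eq_one
  intro v
  split_ifs with hM
  · rfl
  · exact h v (rt_three h3 hM)
theorem BB_mul_left {x x' y : E} (hx : x ≠ 0) (hx' : x' ≠ 0) (hy : y ≠ 0) :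
    BB w M (x * x') y = BB w M x y * BB w M x' y := by
  unfold BB
  rw [← finprod_mul_distrib (finite_mulSupport_BB hw h3 hx hy) (finite_mulSupport_BB hw h3 hx' hy)]
  refine finprod_congr fun v => ?_
  split_ifs with hM
  · simp
  · exact tame_mul_left hw (rt_three h3 hM) hx hx' hy
theorem BB_mul_right {x y y' : E} (hx : x ≠ 0) (hy : y ≠ 0) (hy' : y' ≠ 0) :
    BB w M x (y * y') = BB w M x y * BB w M x y' := by
  unfold BB
  rw [← finprod_mul_distrib (finite_mulSupport_BB hw h3 hx hy) (finite_mulSupport_BB hw h3 hx hy')]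
  refine finprod_congr fun v => ?_
  split_ifs with hM
  · simp
  · exact tame_mul_right hw (rt_three h3 hM) hx hy hy'
theorem BB_cube {x y : E} (hx : x ≠ 0) (hy : y ≠ 0) : BB w M x y ^ 3 = 1 := by
  unfold BB
  rw [finprod_pow (finite_mulSupport_BB hw h3 hx hy)]
  apply finprod_eq_one_of_forall_eq_one
  intro v
  split_ifs with hM
  · simp
  · exact tame_cube hw (rt_three h3 hM) hx hy
theorem BB_ne_zero {x y : E} (hx : x ≠ 0) (hy : y ≠ 0) : BB w M x y ≠ 0 := by
  intro h
  have := BB_cube hw h3 hx hy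
  rw [h] at this
  norm_num at this
theorem BB_stein {x : E} (hx : x ≠ 0) (hx1 : x ≠ 1) : BB w M x (1 - x) = 1 :=
  rt_BB_eq_one h3 fun _ hv => tame_stein hw hv hx hx1
theorem BB_one_left {y : E} (hy : y ≠ 0) : BB w M 1 y = 1 :=
  rt_BB_eq_one h3 fun _ hv => by
    rw [tame_of_unit hw hv (by simp) hy, kv_one hw hv, one_zpow]
theorem BB_one_right {x : E} (hx : x ≠ 0) : BB w M x 1 = 1 :=
  rt_BB_eq_one h3 fun _ hv => by
    rw [tame_of_unit_right hw hv hx (by simp), kv_one hw hv, one_zpow]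
theorem BB_neg_left {x y : E} (hx : x ≠ 0) (hy : y ≠ 0) : BB w M (-x) y = BB w M x y := by
  have h : BB w M (-1) y = 1 := rt_BB_eq_one h3 fun _ hv => by
    rw [tame_of_unit hw hv (by simp) hy, kv_neg hw hv, kv_one hw hv, one_zpow]
  rw [← neg_one_mul, BB_mul_left hw h3 (by norm_num) hx hy, h, one_mul]
theorem BB_neg_right {x y : E} (hx : x ≠ 0) (hy : y ≠ 0) : BB w M x (-y) = BB w M x y := by
  have h : BB w M x (-1) = 1 := rt_BB_eq_one h3 fun _ hv => by
    rw [tame_of_unit_right hw hv hx (by simp), kv_neg hw hv, kv_one hw hv, one_zpow]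
  rw [← neg_one_mul, BB_mul_right hw h3 hx (by norm_num) hy, h, one_mul]
theorem BB_inv_left {x y : E} (hx : x ≠ 0) (hy : y ≠ 0) : BB w M x⁻¹ y = (BB w M x y)⁻¹ := by
  have := BB_mul_left hw h3 hx (inv_ne_zero hx) hy
  rw [mul_inv_cancel₀ hx, BB_one_left hw h3 hy] at this
  exact eq_inv_of_mul_eq_one_right this.symm
theorem BB_inv_right {x y : E} (hx : x ≠ 0) (hy : y ≠ 0) : BB w M x y⁻¹ = (BB w M x y)⁻¹ := by
  have := BB_mul_right hw h3 hx hy (inv_ne_zero hy)
  rw [mul_inv_cancel₀ hy, BB_one_right hw h3 hx] at this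
  exact eq_inv_of_mul_eq_one_right this.symm
theorem BB_self {x : E} (hx : x ≠ 0) : BB w M x x = 1 :=
  rt_BB_eq_one h3 fun v hv => by
    unfold tame
    rw [← zpow_add₀ hx, add_neg_cancel, zpow_zero, kv_one hw hv]
theorem BB_symm {x y : E} (hx : x ≠ 0) (hy : y ≠ 0) : BB w M y x = (BB w M x y)⁻¹ := by
  have h := BB_self hw h3 (mul_ne_zero hx hy)
  rw [BB_mul_left hw h3 hx hy (mul_ne_zero hx hy), BB_mul_right hw h3 hx hx hy,
    BB_mul_right hw h3 hy hx hy, BB_self hw h3 hx, BB_self hw h3 hy, one_mul, mul_one] at h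
  exact eq_inv_of_mul_eq_one_right h
theorem BB_pow_right {x y : E} (hx : x ≠ 0) (hy : y ≠ 0) (n : ℕ) :
    BB w M x (y ^ n) = BB w M x y ^ n := by
  induction n with
  | zero => simpa using BB_one_right hw h3 hx
  | succ n ih => rw [pow_succ, BB_mul_right hw h3 hx (pow_ne_zero _ hy) hy, ih, pow_succ]
end glob

end Crest.Agent.GQ
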