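import Crest.Agent.GQ.ThRow

/-! # GQ ThBet: the complete exponential sums -/

set_option autoImplicit false

noncomputable section

open NumberField Complex
open scoped ComplexConjugate

namespace Crest.Agent.GQ

variable {K : Type} [Field K] [NumberField K] [P : Pre K]

variable [Q : Rec K]

/-- A sum over a quotient group, evaluated on a system of representatives. -/
theorem be_finsum {G ι : Type*} [AddCommGroup G] (L : AddSubgroup G) {F : G → ℂ}
    (hF : ∀ a b, a - b ∈ L → F a = F b) (S : Finset ι) (σ : ι → G)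
    (hS : ∀ d, F d ≠ 0 → ∃! s, s ∈ S ∧ d - σ s ∈ L) :
    ∑ᶠ δ : G ⧸ L, F (Quotient.out δ) = ∑ s ∈ S, F (σ s) := by
  classical
  have hmk : ∀ a b : G, (a : G ⧸ L) = (b : G ⧸ L) ↔ a - b ∈ L := fun a b =>
    QuotientAddGroup.eq_iff_sub_mem
  have hout : ∀ a : G, F (Quotient.out (a : G ⧸ L)) = F a := fun a =>
    hF _ _ ((hmk _ _).1 (QuotientAddGroup.out_eq' _))
  rw [← Finset.sum_filter_ne_zero S,
    finsum_eq_sum_of_support_subset (s := (S.filter fun s => F (σ s) ≠ 0).image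
      fun s => ((σ s : G) : G ⧸ L)), Finset.sum_image]
  · exact Finset.sum_congr rfl fun s _ => hout _
  · intro s hs t ht h
    have hs' := Finset.mem_filter.1 (Finset.mem_coe.1 hs)
    have ht' := Finset.mem_filter.1 (Finset.mem_coe.1 ht)
    exact (hS _ hs'.2).unique ⟨hs'.1, by rw [sub_self]; exact L.zero_mem⟩
      ⟨ht'.1, (hmk _ _).1 h⟩
  · intro δ hδ
    obtain ⟨s, ⟨hs, h⟩, -⟩ := hS _ hδ
    refine Finset.mem_coe.2 (Finset.mem_image.2 ⟨s, Finset.mem_filter.2 ⟨hs, ?_⟩, ?_⟩)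
    · rw [← hF _ _ h]; exact hδ
    · rw [← QuotientAddGroup.out_eq' δ]
      exact ((hmk _ _).2 h).symm

omit Q in
theorem be_mem_cLat {c d : R K} {x : K} (hc : c ≠ 0) :
    d ∈ cLat c x ↔ c ∣ d ∧ InT (c * x) d := by
  constructor
  · rintro ⟨n, hn, rfl⟩
    exact ⟨dvd_mul_right _ _, (InT_mul_iff (fl_coe_ne hc)).2 hn⟩
  · rintro ⟨⟨n, rfl⟩, h⟩
    exact ⟨n, (InT_mul_iff (fl_coe_ne hc)).1 h, rfl⟩

theorem be_per {g : SLR K} {x : K} (hx : IsPer g x) {r : R K} (hr : r ∈ Lat (x * dl K)⁻¹)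
    {c : R K} (hc : c ≠ 0) (a b : R K) (h : a - b ∈ cLat c x) :
    phi g c a * eT ((r : K) * a / c) = phi g c b * eT ((r : K) * b / c) := by
  obtain ⟨n, hn, h⟩ := h
  have e : a = b + c * n := by
    rw [show c * n = a - b from h]; ring
  have h1 : eT ((r : K) * n) = 1 := (dual_Lat hx.1 (r : K)).2 ⟨r.2, hr⟩ n hn
  have h2 : (r : K) * ((b + c * n : R K) : K) / c = (r : K) * b / c + r * n := by
    have := fl_coe_ne hc
    push_cast
    field_simp
  rw [e, hx.2 n hn, h2, eT_add, h1, mul_one]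

theorem be_eq_sum {ι : Type*} {g : SLR K} {x : K} (hx : IsPer g x) {r : R K}
    (hr : r ∈ Lat (x * dl K)⁻¹) {c : R K} (hc : c ≠ 0) (S : Finset ι) (σ : ι → R K)
    (hS : ∀ d, phi g c d ≠ 0 → ∃! s, s ∈ S ∧ d - σ s ∈ cLat c x) :
    bet g x r c = ∑ s ∈ S, phi g c (σ s) * eT ((r : K) * σ s / c) := by
  unfold bet
  rw [if_neg hc]
  exact be_finsum (cLat c x) (F := fun d => phi g c d * eT ((r : K) * d / c)) (be_per hx hr hc) S σ
    fun d hd => hS d (left_ne_zero_of_mul hd)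

omit Q in
theorem be_eM {x r : K} (hx : x ≠ 0) (hr : InT (x * dl K)⁻¹ r) {a b : K} (h : InT x (a - b)) :
    eM (r * a) = eM (r * b) := by
  rw [show r * a = r * b + r * (a - b) by ring, eM_add, eM_T (b4_InT_mul hx hr h), mul_one]

/-- Factorisation by the Chinese remainder theorem. -/
theorem be_crt {g : SLR K} {x : K} (hx : IsPer g x) {r : R K} (hr : r ∈ Lat (x * dl K)⁻¹)
    {c : R K} (hc : c ≠ 0) {a : K → ℂ} (ha : ∀ ε ε', InT x (ε - ε') → a ε = a ε')
    (hφ : ∀ d, phi g c d = kap c d * a ((d : K) / c)) (F : Finset K)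
    (hF : ∀ ε, a ε ≠ 0 → ∃! s, s ∈ F ∧ InT x (ε - s)) :
    bet g x r c = (∑ s ∈ F, a s * eM ((r : K) * s)) * gs (kap c) c r := by
  have hcK := fl_coe_ne hc
  choose b hb1 hb2 using fun (y : R K) (s : K) =>
    exists_crt (mul_ne_zero hcK hx.1) ((c : K) * s) hc y
  have hdiv : ∀ (d : R K) (s : K), InT (c * x) ((d : K) - c * s) ↔ InT x ((d : K) / c - s) := by
    intro d s
    rw [← InT_mul_iff (d := (c : K)) (x := x) hcK]
    rw [show (c : K) * ((d : K) / c - s) = d - c * s by field_simp]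
  rw [be_eq_sum hx hr hc (reps c ×ˢ F) (fun q => b q.1 q.2), Finset.sum_product, gs,
    Finset.sum_mul_sum, Finset.sum_comm]
  · refine Finset.sum_congr rfl fun s _ => Finset.sum_congr rfl fun y _ => ?_
    have h1 := (hdiv _ _).1 (hb2 y s)
    have h2 : eS ((r : K) * b y s / c) = eS ((r : K) * y / c) := by
      have := eS_div_congr (n := c) (x := r * b y s) (y := r * y)
        (by rw [← mul_sub]; exact (hb1 y s).mul_left r)
      simpa only [Subring.coe_mul] using this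
    rw [hφ, ha _ _ h1, kap_congr' (hb1 y s), eT_eq, h2, mul_div_assoc (r : K) (b y s : K),
      be_eM hx.1 hr h1]
    ring
  · intro d hd
    rw [hφ] at hd
    obtain ⟨s, ⟨hs, h1⟩, hu⟩ := hF _ (right_ne_zero_of_mul hd)
    obtain ⟨y, ⟨hy, h2⟩, hu'⟩ := reps_existsUnique hc d
    refine ⟨(y, s), ⟨Finset.mem_product.2 ⟨hy, hs⟩, (be_mem_cLat hc).2 ⟨?_, ?_⟩⟩, ?_⟩
    · have := dvd_neg.2 (dvd_add (hb1 y s) h2)
      rwa [show -(b y s - y + (y - d)) = d - b y s by ring] at this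
    · have := ((hdiv _ _).2 h1).sub (hb2 y s)
      rwa [show (d : K) - c * s - (b y s - c * s) = ((d - b y s : R K) : K) by push_cast; ring]
        at this
    · rintro ⟨y', s'⟩ ⟨hm, h⟩
      obtain ⟨hy', hs'⟩ := Finset.mem_product.1 hm
      obtain ⟨h3, h4⟩ := (be_mem_cLat hc).1 h
      refine Prod.ext (hu' y' ⟨hy', ?_⟩) (hu s' ⟨hs', (hdiv _ _).1 ?_⟩)
      · have := dvd_neg.2 (dvd_add h3 (hb1 y' s'))
        rwa [show -(d - b y' s' + (b y' s' - y')) = y' - d by ring] at this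
      · have := h4.add (hb2 y' s')
        rwa [show ((d - b y' s' : R K) : K) + (b y' s' - c * s') = d - c * s' by push_cast; ring]
          at this

omit Q in
/-- Representatives of a coset of `z T` modulo `x T`. -/
theorem be_reps {z x : K} (hx : x ≠ 0) (h : InT z x) (w : K) : ∃ F : Finset K,
    (∀ s ∈ F, InT z (s - w)) ∧ (∀ ε, InT z (ε - w) → ∃! s, s ∈ F ∧ InT x (ε - s)) ∧
    (F.card : ℝ) = NS x / NS z := by
  classical
  obtain ⟨F, h1, h2, h3⟩ := lat_reps hx h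
  refine ⟨F.image fun y : R K => (y : K) + w, fun s hs => ?_, fun ε hε => ?_, ?_⟩
  · obtain ⟨y, hy, rfl⟩ := Finset.mem_image.1 hs
    rw [add_sub_cancel_right]
    exact h1 y hy
  · obtain ⟨ρ, hρ⟩ := exists_decomp hx (ε - w)
    have hρ' : ρ ∈ Lat z := by
      have := hε.sub (h.trans hρ)
      rwa [sub_sub_cancel] at this
    obtain ⟨y, ⟨hy, h4⟩, hu⟩ := h2 ρ hρ'
    refine ⟨y + w, ⟨Finset.mem_image.2 ⟨y, hy, rfl⟩, ?_⟩, ?_⟩
    · have := hρ.add h4
      rwa [show ε - w - ρ + ((ρ - y : R K) : K) = ε - (y + w) by push_cast; ring] at this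
    · rintro s ⟨hs, h5⟩
      obtain ⟨y', hy', rfl⟩ := Finset.mem_image.1 hs
      rw [hu y' ⟨hy', ?_⟩]
      have := h5.sub hρ
      rwa [show ε - (y' + w) - (ε - w - ρ) = ((ρ - y' : R K) : K) by push_cast; ring] at this
  · rw [Finset.card_image_of_injective _ fun y y' e => Subtype.ext (add_right_cancel e), h3]

/-- The `M`-adic support condition. -/
def be_A (g : SLR K) (c ε : K) : Prop :=
  InT (MM K) (c * ((g.1 1 1 : K) - ε * g.1 1 0)) ∧
    InT (MM K) (c * (-(g.1 0 1 : K) + ε * g.1 0 0) - 1)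

theorem be_A_iff (g : SLR K) {c : R K} (hc : c ≠ 0) (d : R K) :
    (c * g.1 1 1 - d * g.1 1 0 ∈ Lat (MM K) ∧ -(c * g.1 0 1) + d * g.1 0 0 - 1 ∈ Lat (MM K)) ↔
      be_A g c ((d : K) / c) := by
  have hcK := fl_coe_ne hc
  have e1 : ((c * g.1 1 1 - d * g.1 1 0 : R K) : K) =
      c * ((g.1 1 1 : K) - (d : K) / c * g.1 1 0) := by
    push_cast; field_simp
  have e2 : ((-(c * g.1 0 1) + d * g.1 0 0 - 1 : R K) : K) =
      c * (-(g.1 0 1 : K) + (d : K) / c * g.1 0 0) - 1 := by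
    push_cast; field_simp
  rw [mem_Lat, mem_Lat, e1, e2, be_A]

theorem be_A_U {g : SLR K} {c ε u : K} (hu : u ∈ U Q.k) (h : be_A g c ε) : be_A g (c * u) ε := by
  refine ⟨?_, ?_⟩
  · have := h.1.mul_T (U_mem_T hu)
    rwa [mul_right_comm] at this
  · have := (h.2.mul_T (U_mem_T hu)).add hu
    rwa [show (c * (-(g.1 0 1 : K) + ε * g.1 0 0) - 1) * u + (u - 1) =
      c * u * (-(g.1 0 1 : K) + ε * g.1 0 0) - 1 by ring] at this

theorem be_A_shift {g : SLR K} {m : K} (hm : ∀ i j, m * (g.1 i j : K) ∈ T K) {c ε ε' : K}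
    (he : InT (MM K * m) (c * (ε' - ε))) (h : be_A g c ε) : be_A g c ε' := by
  obtain ⟨t, ht, e⟩ := he
  have key : ∀ i j, InT (MM K) (c * (ε' - ε) * (g.1 i j : K)) := fun i j =>
    ⟨t * (m * g.1 i j), (T K).mul_mem ht (hm i j), by rw [e]; ring⟩
  refine ⟨?_, ?_⟩
  · have := h.1.sub (key 1 0)
    rwa [show c * ((g.1 1 1 : K) - ε * g.1 1 0) - c * (ε' - ε) * g.1 1 0 =
      c * ((g.1 1 1 : K) - ε' * g.1 1 0) by ring] at this
  · have := h.2.add (key 0 0)
    rwa [show c * (-(g.1 0 1 : K) + ε * g.1 0 0) - 1 + c * (ε' - ε) * g.1 0 0 =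
      c * (-(g.1 0 1 : K) + ε' * g.1 0 0) - 1 by ring] at this

theorem be_MM_T : MM K ∈ T K := (T K).pow_mem MK_mem_T _

theorem be_A_supp {g : SLR K} {m : K} (hm : ∀ i j, m * (g.1 i j : K) ∈ T K) {c ε : K}
    (h : be_A g c ε) : m * c ∈ T K ∧ m * (c * ε) ∈ T K := by
  have hdet : (g.1 0 0 : K) * g.1 1 1 - g.1 0 1 * g.1 1 0 = 1 := by
    have := g.det_coe
    rw [Matrix.det_fin_two] at this
    exact_mod_cast congrArg (fun z : R K => (z : K)) this
  have hT : ∀ y : K, InT (MM K) y → y ∈ T K := by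
    rintro y ⟨t, ht, rfl⟩
    exact (T K).mul_mem be_MM_T ht
  have hu := hT _ h.1
  have hv := (T K).add_mem (hT _ h.2) (T K).one_mem
  rw [sub_add_cancel] at hv
  refine ⟨?_, ?_⟩
  · have := (T K).add_mem ((T K).mul_mem hu (hm 0 0)) ((T K).mul_mem hv (hm 1 0))
    convert this using 1
    linear_combination (-(m * c)) * hdet
  · have := (T K).add_mem ((T K).mul_mem hu (hm 0 1)) ((T K).mul_mem hv (hm 1 1))
    convert this using 1
    linear_combination (-(m * (c * ε))) * hdet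

/-- The subgroup `x T` of `K`. -/
def be_L (x : K) : AddSubgroup K where
  carrier := {y | InT x y}
  zero_mem' := InT.zero x
  add_mem' := InT.add
  neg_mem' := InT.neg

open Classical in
/-- The summand of the `M`-adic sum. -/
def be_F (g : SLR K) (r c ε : K) : ℂ := if be_A g c ε then eM (r * ε) else 0

/-- The `M`-adic sum. -/
def be_S (g : SLR K) (x r c : K) : ℂ := ∑ᶠ δ : K ⧸ be_L x, be_F g r c (Quotient.out δ)

theorem be_F_ne {g : SLR K} {r c ε : K} : be_F g r c ε ≠ 0 ↔ be_A g c ε := by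
  unfold be_F
  split_ifs with h
  · refine iff_of_true (fun e => ?_) h
    have := norm_eM (r * ε)
    rw [e, norm_zero] at this
    exact zero_ne_one this
  · exact iff_of_false (fun e => e rfl) h

theorem be_S_ne {g : SLR K} {x r c : K} (h : be_S g x r c ≠ 0) : ∃ ε, be_A g c ε := by
  by_contra hn
  refine h (finsum_eq_zero_of_forall_eq_zero fun δ => ?_)
  by_contra h1
  exact hn ⟨_, be_F_ne.1 h1⟩

theorem be_S_eq {ι : Type*} {g : SLR K} {x r c : K} (hx : x ≠ 0) (hr : InT (x * dl K)⁻¹ r)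
    (hA : ∀ ε ε', InT x (ε' - ε) → be_A g c ε → be_A g c ε') (S : Finset ι) (σ : ι → K)
    (hS : ∀ ε, be_A g c ε → ∃! s, s ∈ S ∧ InT x (ε - σ s)) :
    be_S g x r c = ∑ s ∈ S, be_F g r c (σ s) := by
  refine be_finsum (be_L x) (fun a b h => ?_) S σ fun ε hε => hS ε (be_F_ne.1 hε)
  have h' : InT x (a - b) := h
  have h'' : InT x (b - a) := by
    have := h'.neg
    rwa [neg_sub] at this
  unfold be_F
  rw [be_eM hx hr h']
  rw [show be_A g c a = be_A g c b from propext ⟨hA _ _ h'', hA _ _ h'⟩]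

/-- A system of representatives of the support. -/
theorem be_exists_reps {g : SLR K} {m : K} (hm0 : m ≠ 0) (hmT : m ∈ T K)
    (hm : ∀ i j, m * (g.1 i j : K) ∈ T K) {x : K} (hx : x ≠ 0) (hmx : m * x ∈ T K) {c : K}
    (hc : c ≠ 0) : ∃ F : Finset K, (∀ ε, be_A g c ε → ∃! s, s ∈ F ∧ InT x (ε - s)) ∧
      (F.card : ℝ) ≤ NS x * NS m ^ 2 * NS c := by
  by_cases h : m * c ∈ T K
  · have hz : InT (m ^ 2 * c)⁻¹ x :=
      ⟨m * c * (m * x), (T K).mul_mem h hmx, by field_simp⟩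
    obtain ⟨F, -, h2, h3⟩ := be_reps hx hz 0
    refine ⟨F, fun ε hε => h2 ε ⟨m * (m * (c * ε)), (T K).mul_mem hmT (be_A_supp hm hε).2, ?_⟩,
      le_of_eq ?_⟩
    · field_simp
      ring
    · rw [h3, NS_inv, NS_mul, NS_pow, div_inv_eq_mul, mul_assoc]
  · refine ⟨∅, fun ε hε => absurd (be_A_supp hm hε).1 h, ?_⟩
    have := NS_pos hx
    have := NS_pos hc
    simp only [Finset.card_empty, Nat.cast_zero]
    positivity

theorem be_S_dual {g : SLR K} {m : K} (hm0 : m ≠ 0)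
    (hm : ∀ i j, m * (g.1 i j : K) ∈ T K) {x r c : K} (hx : x ≠ 0) (hc : c ≠ 0)
    (hr : InT (x * dl K)⁻¹ r) (hA : ∀ ε ε', InT x (ε' - ε) → be_A g c ε → be_A g c ε')
    {F : Finset K} (hF : ∀ ε, be_A g c ε → ∃! s, s ∈ F ∧ InT x (ε - s))
    (h : be_S g x r c ≠ 0) : InT (MM K * m / c * dl K)⁻¹ r := by
  have hMM : MM K ≠ 0 := pow_ne_zero _ MK_ne_zero
  refine (eM_Lat (div_ne_zero (mul_ne_zero hMM hm0) hc) r).1 fun n hn => ?_
  have hn' : InT (MM K * m) (c * n) := by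
    have := (InT_mul_iff hc).2 (mem_Lat.1 hn)
    rwa [mul_div_cancel₀ _ hc] at this
  have h1 : ∀ ε : K, be_A g c (ε + n) ↔ be_A g c ε := fun ε =>
    ⟨be_A_shift hm (by rw [sub_add_cancel_left, mul_neg]; exact hn'.neg),
      be_A_shift hm (by rw [add_sub_cancel_left]; exact hn')⟩
  have h2 := be_S_eq hx hr hA F (fun s => s + n) fun ε hε => by
    have := hF (ε - n) ((h1 _).1 (by rwa [sub_add_cancel]))
    simpa only [sub_sub, add_comm (n : K)] using this
  have h3 : ∑ s ∈ F, be_F g r c (s + n) = eM (r * n) * ∑ s ∈ F, be_F g r c s := by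
    rw [Finset.mul_sum]
    refine Finset.sum_congr rfl fun s _ => ?_
    unfold be_F
    by_cases hs : be_A g c s
    · rw [if_pos hs, if_pos ((h1 s).2 hs), mul_add, eM_add, mul_comm]
    · rw [if_neg hs, if_neg (fun e => hs ((h1 s).1 e)), mul_zero]
  rw [h3, ← be_S_eq hx hr hA F (fun s => s) hF] at h2
  exact (mul_eq_right₀ h).1 h2.symm

omit Q in
theorem be_cls_zero {j : ℕ} {n : R K} (h : n ∈ cls j ((0 : R K) : K)) : n = 0 := by
  obtain ⟨t, -, e⟩ := h
  apply Subtype.ext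
  simpa using e

/-- evaluation of `bet` with an arbitrary system of representatives -/
theorem bet_eq_sum {g : SLR K} {x : K} (hx : IsPer g x) {r : R K} (hr : r ∈ Lat (x * dl K)⁻¹)
    {c : R K} (hc : c ≠ 0) (S : Finset (R K))
    (hS : ∀ d, phi g c d ≠ 0 → ∃! s, s ∈ S ∧ d - s ∈ cLat c x) :
    bet g x r c = ∑ s ∈ S, phi g c s * eT ((r : K) * s / c) :=
  be_eq_sum hx hr hc S (fun s => s) hS
theorem bet_struct {g : SLR K} {x : K} (hx : IsPer g x) : ∃ (j : ℕ) (C : ℝ) (Λ : R K → R K → ℂ),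
    Q.k ≤ j ∧
    (∀ r ∈ Lat (x * dl K)⁻¹, ∀ c : R K, bet g x r c = Λ r c * gs (kap c) c r) ∧
    (∀ r c c' : R K, c' ∈ cls Q.k (c : K) → Λ r c' = Λ r c) ∧
    (∀ r r' c : R K, r' ∈ cls j (r : K) → Λ r' c = Λ r c) ∧
    (∀ r c : R K, ‖Λ r c‖ ≤ C * NS (c : K)) ∧
    (∀ r c : R K, Λ r c ≠ 0 → c ≠ 0 ∧ InT (MK K ^ j)⁻¹ c ∧ InT ((c : K) / MK K ^ j) r) := by
  classical
  obtain ⟨γ, hγ, hne⟩ := exists_gam_mul_ne_zero g
  set g' := γ * g with hg'
  have hM := MK_ne_zero (K := K)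
  have hMM : MM K ≠ 0 := pow_ne_zero _ hM
  have hup : ∀ {a b : ℕ} {y : K}, a ≤ b → MK K ^ a * y ∈ T K → MK K ^ b * y ∈ T K := by
    intro a b y hab h
    obtain ⟨e, rfl⟩ := Nat.exists_eq_add_of_le hab
    have := (T K).mul_mem ((T K).pow_mem MK_mem_T e) h
    rwa [← mul_assoc, ← pow_add, add_comm] at this
  obtain ⟨N, hN, hNx⟩ : ∃ N : ℕ, (∀ i j, MK K ^ N * (g'.1 i j : K) ∈ T K) ∧ MK K ^ N * x ∈ T K := by
    choose k hk using fun i j => exists_pow_mul_mem_T (g'.1 i j : K)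
    obtain ⟨k', hk'⟩ := exists_pow_mul_mem_T x
    refine ⟨k 0 0 + k 0 1 + k 1 0 + k 1 1 + k', fun i j => hup ?_ (hk i j), hup (by omega) hk'⟩
    fin_cases i <;> fin_cases j <;> simp only [Fin.zero_eta, Fin.mk_one, Fin.isValue] <;> omega
  obtain ⟨e, he⟩ := exists_pow_InT (dl_ne_zero (K := K))
  have hm0 : MK K ^ N ≠ 0 := pow_ne_zero _ hM
  have hmT : MK K ^ N ∈ T K := (T K).pow_mem MK_mem_T N
  set κ : R K → ℂ := fun c => Q.B (g'.1 0 0 : K) ((c : K) / g'.1 1 0) * (conj (sg g') * sg γ)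
    with hκ
  have hκn : ∀ c : R K, c ≠ 0 → ‖κ c‖ = 1 := fun c hc => by
    rw [hκ]
    simp only [norm_mul, RCLike.norm_conj, norm_sg, mul_one]
    exact norm_B (fl_coe_ne (hne 0 0)) (div_ne_zero (fl_coe_ne hc) (fl_coe_ne (hne 1 0)))
  have hφ : ∀ c : R K, c ≠ 0 → ∀ d : R K,
      phi g c d = kap c d * (if be_A g' c ((d : K) / c) then κ c else 0) := fun c hc d => by
    have h1 := phi_gam_mul hγ g c d
    have h2 : phi g c d = sg γ * phi g' c d := by
      rw [hg', h1, ← mul_assoc, fl_mul_conj (norm_sg γ), one_mul]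
    rw [h2, phi_formula (hne 0 0) (hne 1 0) hc d]
    by_cases h : be_A g' c ((d : K) / c)
    · rw [if_pos h, if_pos ((be_A_iff g' hc d).2 h), hκ]; ring
    · rw [if_neg h, if_neg (fun h' => h ((be_A_iff g' hc d).1 h')), mul_zero, mul_zero]
  have hA : ∀ c : R K, c ≠ 0 → ∀ ε ε', InT x (ε' - ε) → be_A g' c ε → be_A g' c ε' := by
    intro c hc ε ε' h hε
    have hcK := fl_coe_ne hc
    obtain ⟨l, hl⟩ := exists_pow_InT (mul_ne_zero hcK hx.1)
    have hy : MM K * MK K ^ N * MK K ^ l ≠ 0 := mul_ne_zero (mul_ne_zero hMM hm0) (pow_ne_zero _ hM)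
    have hy1 : InT (MM K * MK K ^ N) (MM K * MK K ^ N * MK K ^ l) :=
      ⟨_, (T K).pow_mem MK_mem_T l, rfl⟩
    have hy2 : InT (c * x) (MM K * MK K ^ N * MK K ^ l) := by
      rw [mul_comm (MM K * MK K ^ N)]
      exact hl.mul_T ((T K).mul_mem be_MM_T hmT)
    obtain ⟨d₁, h1, h1'⟩ := exists_crt hy (c * ε) hc 1
    obtain ⟨d₂, h2, h2'⟩ := exists_crt hy (c * ε') hc 1
    have e1 : ∀ (d : R K) (η : K), (c : K) * (d / c - η) = d - c * η := fun d η => by field_simp
    have hA1 : be_A g' c ((d₁ : K) / c) := be_A_shift hN (by rw [e1]; exact hy1.trans h1') hε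
    obtain ⟨n, hn, hn'⟩ : d₂ - d₁ ∈ cLat c x := by
      refine (be_mem_cLat hc).2 ⟨?_, ?_⟩
      · have := dvd_sub h2 h1
        rwa [sub_sub_sub_cancel_right] at this
      · have := ((hy2.trans h2').sub (hy2.trans h1')).add ((InT_mul_iff hcK).2 h)
        rwa [show (d₂ : K) - c * ε' - (d₁ - c * ε) + c * (ε' - ε) = ((d₂ - d₁ : R K) : K) by
          push_cast; ring] at this
    have h3 : phi g c d₂ = phi g c d₁ := by
      rw [show d₂ = d₁ + c * n by rw [show c * n = d₂ - d₁ from hn']; ring]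
      exact hx.2 n hn c d₁
    rw [hφ c hc, hφ c hc, if_pos hA1, kap_congr' h1, kap_congr' h2, kap_one_right, one_mul,
      one_mul] at h3
    have hA2 : be_A g' c ((d₂ : K) / c) := by
      by_contra hn2
      rw [if_neg hn2] at h3
      have := hκn c hc
      rw [← h3, norm_zero] at this
      exact zero_ne_one this
    refine be_A_shift hN ?_ hA2
    have := (hy1.trans h2').neg
    rwa [← e1, ← mul_neg, neg_sub] at this
  have hreps := fun (c : R K) (hc : c ≠ 0) => be_exists_reps hm0 hmT hN hx.1 hNx (fl_coe_ne hc)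
  have hdual : ∀ r c : R K, c ≠ 0 → r ∈ Lat (x * dl K)⁻¹ → be_S g' x r c ≠ 0 →
      InT (MM K * MK K ^ N / c * dl K)⁻¹ r := fun r c hc hr h => by
    obtain ⟨F, hF, -⟩ := hreps c hc
    exact be_S_dual hm0 hN hx.1 (fl_coe_ne hc) hr (hA c hc) hF h
  refine ⟨Q.k + N + N + e, NS x * NS (MK K ^ N) ^ 2,
    fun r c => if c ≠ 0 ∧ r ∈ Lat (x * dl K)⁻¹ then κ c * be_S g' x r c else 0, by omega,
    fun r hr c => ?_, fun r c c' hc' => ?_, fun r r' c hr' => ?_, fun r c => ?_, fun r c h => ?_⟩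
  · by_cases hc : c = 0
    · simp [bet, hc]
    · obtain ⟨F, hF, -⟩ := hreps c hc
      rw [be_crt hx hr hc (a := fun ε => if be_A g' c ε then κ c else 0) (fun ε ε' h => ?_)
        (hφ c hc) F (fun ε hε => hF ε (by by_contra h; exact hε (if_neg h)))]
      · simp only [if_pos (⟨hc, hr⟩ : c ≠ 0 ∧ r ∈ Lat (x * dl K)⁻¹)]
        rw [be_S_eq hx.1 hr (hA c hc) F (fun s => s) hF, Finset.mul_sum]
        congr 1
        refine Finset.sum_congr rfl fun s _ => ?_
        unfold be_F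
        split_ifs <;> simp
      · have h' : InT x (ε' - ε) := by
          have := h.neg
          rwa [neg_sub] at this
        rw [show be_A g' c ε = be_A g' c ε' from propext ⟨hA c hc _ _ h', hA c hc _ _ h⟩]
  · by_cases hc : c = 0
    · subst hc
      rw [be_cls_zero hc']
    · have hcK := fl_coe_ne hc
      have hc0 : c' ≠ 0 := ne_zero_of_mem_cls Q.hk hcK hc'
      have hu := (mem_cls_iff hcK).1 hc'
      have hu0 := U_ne_zero Q.hk hu
      have e1 : (c' : K) = c * ((c' : K) / c) := by field_simp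
      have h1 : κ c' = κ c := by
        have h10 := fl_coe_ne (hne 1 0)
        have e2 : (c' : K) / g'.1 1 0 = (c : K) / g'.1 1 0 * ((c' : K) / c) := by field_simp
        simp only [hκ]
        rw [e2, Q.B_mul_right _ _ _ (fl_coe_ne (hne 0 0)) (div_ne_zero hcK h10) hu0,
          B_U_right (fl_coe_ne (hne 0 0)) hu, mul_one]
      have h2 : ∀ ε, be_A g' c' ε = be_A g' c ε := fun ε => by
        refine propext ⟨fun h => ?_, fun h => by rw [e1]; exact be_A_U hu h⟩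
        have := be_A_U (U_inv Q.hk hu) h
        rwa [show (c' : K) * ((c' : K) / c)⁻¹ = c by have := fl_coe_ne hc0; field_simp] at this
      simp only [hc, hc0, ne_eq, not_false_eq_true, true_and, h1, be_S, be_F, h2]
  · by_cases hr : r = 0
    · subst hr
      rw [be_cls_zero hr']
    · have hj : 1 ≤ Q.k + N + N + e := by have := Q.hk; omega
      have h1 : InT (r : K) r' := mem_Lat_of_mem_cls hr'
      have h2 : InT (r' : K) r := InT_of_mem_cls hj (fl_coe_ne hr) hr'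
      have hL : r' ∈ Lat (x * dl K)⁻¹ ↔ r ∈ Lat (x * dl K)⁻¹ :=
        ⟨fun h => InT.trans h h2, fun h => InT.trans h h1⟩
      beta_reduce
      by_cases hc : c ≠ 0 ∧ r ∈ Lat (x * dl K)⁻¹
      · rw [if_pos hc, if_pos ⟨hc.1, hL.2 hc.2⟩]
        congr 1
        by_cases hd : InT (MM K * MK K ^ N / c * dl K)⁻¹ r
        · unfold be_S
          refine finsum_congr fun δ => ?_
          unfold be_F
          split_ifs with hδ
          · set ε := Quotient.out δ
            obtain ⟨t, ht, e1⟩ := hr'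
            obtain ⟨t', ht', e2⟩ := hd
            have h3 : InT (dl K)⁻¹ (((r' : K) - r) * ε) := by
              refine ⟨t' * t * MK K ^ e * (MK K ^ N * (c * ε)), (T K).mul_mem ((T K).mul_mem
                ((T K).mul_mem ht' ht) ((T K).pow_mem MK_mem_T e)) (be_A_supp hN hδ).2, ?_⟩
              have := fl_coe_ne hc.1
              have := dl_ne_zero (K := K)
              rw [e1, e2]
              simp only [MM, pow_add]
              field_simp
            rw [show (r' : K) * ε = r * ε + (r' - r) * ε by ring, eM_add, eM_T h3, mul_one]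
          · rfl
        · have h3 : be_S g' x r c = 0 := by
            by_contra h
            exact hd (hdual r c hc.1 hc.2 h)
          have h4 : be_S g' x r' c = 0 := by
            by_contra h
            exact hd ((hdual r' c hc.1 (hL.2 hc.2) h).trans h2)
          rw [h3, h4]
      · rw [if_neg hc, if_neg fun h => hc ⟨h.1, hL.1 h.2⟩]
  · have hC : 0 ≤ NS x * NS (MK K ^ N) ^ 2 := by
      have := NS_pos hx.1
      positivity
    by_cases hc : c ≠ 0 ∧ r ∈ Lat (x * dl K)⁻¹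
    · obtain ⟨F, hF, hcard⟩ := hreps c hc.1
      simp only [if_pos hc]
      rw [norm_mul, hκn c hc.1, one_mul, be_S_eq hx.1 hc.2 (hA c hc.1) F (fun s => s) hF]
      refine (norm_sum_le _ _).trans (le_trans ?_ hcard)
      rw [← mul_one (F.card : ℝ), ← nsmul_eq_mul]
      refine Finset.sum_le_card_nsmul _ _ _ fun s _ => ?_
      unfold be_F
      split_ifs
      · exact (norm_eM _).le
      · simp
    · simp only [if_neg hc, norm_zero]
      refine mul_nonneg hC ?_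
      by_cases h0 : (c : K) = 0
      · rw [h0, ← mul_zero (0 : K), NS_mul]
        exact mul_self_nonneg _
      · exact (NS_pos h0).le
  · by_cases hc : c ≠ 0 ∧ r ∈ Lat (x * dl K)⁻¹
    · simp only [if_pos hc] at h
      have hS := right_ne_zero_of_mul h
      obtain ⟨ε, hε⟩ := be_S_ne hS
      refine ⟨hc.1, ⟨_, hup (by omega : N ≤ Q.k + N + N + e) (be_A_supp hN hε).1, ?_⟩, ?_⟩
      · field_simp
      · refine InT.trans ?_ (hdual r c hc.1 hc.2 hS)
        obtain ⟨t, ht, e1⟩ := he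
        refine ⟨MK K ^ N * t, (T K).mul_mem hmT ht, ?_⟩
        have := fl_coe_ne hc.1
        have h0 := dl_ne_zero (K := K)
        have ht0 : t ≠ 0 := fun h0 => pow_ne_zero e hM (by rw [e1, h0, mul_zero])
        simp only [MM, pow_add]
        rw [e1]
        field_simp
    · exact absurd (if_neg hc) h
/-- the standard translate `g ≈ (0, -1/c₀; c₀, 0)` -/
theorem bet_std {c₀ : R K} (hc : c₀ ≠ 0) : ∃ (g : SLR K) (κ₀ : ℂ), ‖κ₀‖ = 1 ∧
    IsPer g (MM K / (c₀ : K) ^ 2) ∧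
    ∀ r ∈ Lat (MM K / (c₀ : K) ^ 2 * dl K)⁻¹, ∀ c : R K,
      bet g (MM K / (c₀ : K) ^ 2) r c = κ₀ * gcl r (c₀ : K) c := by
  classical
  have hM := MK_ne_zero (K := K)
  have hMM : MM K ≠ 0 := pow_ne_zero _ hM
  have hcK := fl_coe_ne hc
  obtain ⟨l₁, hl₁⟩ := exists_pow_InT hcK
  obtain ⟨l₂, hl₂⟩ := exists_pow_InT (div_ne_zero hMM hcK)
  have hy : MK K ^ (l₁ + l₂) ≠ 0 := pow_ne_zero _ hM
  obtain ⟨a, ha1, ha2⟩ := exists_crt (mul_ne_zero hy (pow_ne_zero 1 hM)) (MK K ^ (l₁ + l₂)) hc 1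
  have ha0 : a ≠ 0 := ne_zero_of_mem_cls le_rfl hy ha2
  have ha3 : InT (MK K ^ (l₁ + l₂)) a := mem_Lat_of_mem_cls (j := 1) ha2
  obtain ⟨s₁, hs₁, e₁⟩ : InT (c₀ : K) a :=
    (show InT (c₀ : K) (MK K ^ (l₁ + l₂)) by
      rw [pow_add]; exact hl₁.mul_T ((T K).pow_mem MK_mem_T _)).trans ha3
  obtain ⟨s₂, hs₂, e₂⟩ : InT (MM K / c₀) a :=
    (show InT (MM K / c₀) (MK K ^ (l₁ + l₂)) by
      rw [add_comm, pow_add]; exact hl₂.mul_T ((T K).pow_mem MK_mem_T _)).trans ha3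
  have haT : (a : K) ∈ T K := by
    obtain ⟨t, ht, e⟩ := ha3
    rw [e]
    exact (T K).mul_mem ((T K).pow_mem MK_mem_T _) ht
  have e₂' : (c₀ : K) * a = MM K * s₂ := by rw [e₂]; field_simp
  obtain ⟨b, hb⟩ : c₀ ∣ a * a - 1 := by
    have := ha1.mul_left (a + 1)
    rwa [show (a + 1) * (a - 1) = a * a - 1 by ring] at this
  have hbK : (a : K) * a - 1 = c₀ * b := by exact_mod_cast congrArg (fun z : R K => (z : K)) hb
  set g : SLR K := mk2 a b c₀ a (by linear_combination hb) with hg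
  have hx : MM K / (c₀ : K) ^ 2 ≠ 0 := div_ne_zero hMM (pow_ne_zero _ hcK)
  have hT1 : (a : K) * a - 1 ∈ T K := (T K).sub_mem ((T K).mul_mem haT haT) (T K).one_mem
  have hAiff : ∀ c : R K, c ≠ 0 → ∀ ε : K, be_A g c ε ↔
      c ∈ cls Q.k (c₀ : K) ∧ InT (MM K / (c₀ : K) ^ 2) ε := by
    intro c hc0 ε
    have hc0K := fl_coe_ne hc0
    show InT (MM K) (c * ((a : K) - ε * c₀)) ∧ InT (MM K) (c * (-(b : K) + ε * a) - 1) ↔ _
    constructor
    · rintro ⟨⟨t₁, ht₁, h₁⟩, ⟨t₂, ht₂, h₂⟩⟩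
      have hcl : c ∈ cls Q.k (c₀ : K) := by
        refine ⟨t₁ * s₁ + t₂, (T K).add_mem ((T K).mul_mem ht₁ hs₁) ht₂, ?_⟩
        show (c : K) - c₀ = c₀ * MM K * (t₁ * s₁ + t₂)
        linear_combination (a : K) * h₁ + c₀ * h₂ - c * hbK + MM K * t₁ * e₁
      refine ⟨hcl, ?_⟩
      have h3 : InT (c₀ * (MM K / (c₀ : K) ^ 2)) (c * ε) := by
        refine ⟨t₁ * (a * a - 1) + s₂ * (1 + MM K * t₂), (T K).add_mem ((T K).mul_mem ht₁ hT1)
          ((T K).mul_mem hs₂ ((T K).add_mem (T K).one_mem ((T K).mul_mem be_MM_T ht₂))), ?_⟩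
        have : (c₀ : K) * (c * ε) = MM K * (t₁ * (a * a - 1) + s₂ * (1 + MM K * t₂)) := by
          linear_combination (c₀ : K) * b * h₁ + c₀ * a * h₂ + (1 + MM K * t₂) * e₂'
            - (c₀ * c * ε + MM K * t₁) * hbK
        rw [show (c₀ : K) * (MM K / (c₀ : K) ^ 2) = MM K / c₀ by field_simp, div_mul_eq_mul_div,
          ← this, mul_div_cancel_left₀ _ hcK]
      have h4 : InT (c * (MM K / (c₀ : K) ^ 2)) (c₀ * (MM K / (c₀ : K) ^ 2)) :=
        (InT_of_mem_cls Q.hk hcK hcl).mul (InT.refl _)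
      exact (InT_mul_iff hc0K).1 (h4.trans h3)
    · rintro ⟨⟨t, ht, h₁⟩, ⟨t', ht', h₂⟩⟩
      have h₁' : (c : K) = c₀ * (1 + MM K * t) := by
        have : (c : K) - c₀ = c₀ * MM K * t := h₁
        linear_combination this
      have h₂' : (c₀ : K) ^ 2 * ε = MM K * t' := by rw [h₂]; field_simp
      have hv : 1 + MM K * t ∈ T K := (T K).add_mem (T K).one_mem ((T K).mul_mem be_MM_T ht)
      refine ⟨⟨(1 + MM K * t) * (s₂ - t'), (T K).mul_mem hv ((T K).sub_mem hs₂ ht'), ?_⟩,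
        ⟨t + (1 + MM K * t) * (s₁ * (t' - s₂)), (T K).add_mem ht
          ((T K).mul_mem hv ((T K).mul_mem hs₁ ((T K).sub_mem ht' hs₂))), ?_⟩⟩
      · rw [h₁']
        linear_combination (1 + MM K * t) * (e₂' - h₂')
      · rw [h₁']
        linear_combination (1 + MM K * t) * (hbK + s₁ * h₂' - s₁ * e₂' + (c₀ * ε - a) * e₁)
  have hφ : ∀ c : R K, c ≠ 0 → ∀ d : R K, phi g c d = kap c d *
      (if c ∈ cls Q.k (c₀ : K) ∧ InT (MM K / (c₀ : K) ^ 2) ((d : K) / c) then conj (sg g)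
        else 0) := by
    intro c hc0 d
    rw [phi_formula (g := g) ha0 hc hc0 d]
    by_cases h : c ∈ cls Q.k (c₀ : K) ∧ InT (MM K / (c₀ : K) ^ 2) ((d : K) / c)
    · rw [if_pos h, if_pos ((be_A_iff g hc0 d).2 ((hAiff c hc0 _).2 h))]
      have : Q.B (g.1 0 0 : K) ((c : K) / g.1 1 0) = 1 :=
        B_U_right (fl_coe_ne ha0) ((mem_cls_iff hcK).1 h.1)
      rw [this, mul_one]
    · rw [if_neg h, if_neg (fun h' => h ((hAiff c hc0 _).1 ((be_A_iff g hc0 d).1 h'))), mul_zero]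
  have hsh : ∀ ε ε' : K, InT (MM K / (c₀ : K) ^ 2) (ε - ε') →
      (InT (MM K / (c₀ : K) ^ 2) ε ↔ InT (MM K / (c₀ : K) ^ 2) ε') := fun ε ε' h =>
    ⟨fun h' => by have := h'.sub h; rwa [sub_sub_cancel] at this,
      fun h' => by have := h.add h'; rwa [sub_add_cancel] at this⟩
  have hper : IsPer g (MM K / (c₀ : K) ^ 2) := by
    refine ⟨hx, fun n hn c d => ?_⟩
    by_cases hc0 : c = 0
    · rw [hc0, zero_mul, add_zero]
    · have h1 : ((d + c * n : R K) : K) / c - d / c = n := by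
        have := fl_coe_ne hc0
        push_cast
        field_simp
        ring
      rw [hφ c hc0, hφ c hc0, kap_congr' (x := d + c * n) (y := d) ⟨n, by ring⟩]
      simp only [hsh (((d + c * n : R K) : K) / c) (d / c) (by rw [h1]; exact hn)]
  refine ⟨g, conj (sg g), by rw [RCLike.norm_conj, norm_sg], hper, fun r hr c => ?_⟩
  unfold gcl
  by_cases hc0 : c = 0
  · rw [if_neg fun h => ne_zero_of_mem_cls Q.hk hcK h hc0, mul_zero, bet, if_pos hc0]
  · rw [be_crt hper hr hc0 (a := fun ε => if c ∈ cls Q.k (c₀ : K) ∧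
      InT (MM K / (c₀ : K) ^ 2) ε then conj (sg g) else 0) (fun ε ε' h => by simp only [hsh _ _ h])
      (hφ c hc0) {0} fun ε hε => ⟨0, ⟨Finset.mem_singleton_self _, ?_⟩,
        fun s hs => Finset.mem_singleton.1 hs.1⟩]
    · rw [Finset.sum_singleton, mul_zero, eM_T (InT.zero _), mul_one]
      by_cases h : c ∈ cls Q.k (c₀ : K)
      · rw [if_pos h, if_pos ⟨h, InT.zero _⟩]
      · rw [if_neg h, if_neg fun h' => h h'.1, zero_mul, mul_zero]
    · rw [sub_zero]
      by_contra h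
      exact hε (if_neg fun h' => h h'.2)
open Classical in
theorem bet_one_zero (c : R K) : bet 1 (MM K) 0 c =
    if c ≠ 0 ∧ c ∈ Lat (MM K) ∧ ∃ m : R K, Associated c (m ^ 3)
    then ((phiN c * Nm (c : K) : ℝ) : ℂ) else 0 := by
  have hMM : MM K ≠ 0 := pow_ne_zero _ MK_ne_zero
  by_cases hc : c = 0
  · rw [if_neg fun h => h.1 hc, bet, if_pos hc]
  have hcK := fl_coe_ne hc
  have hφ : ∀ d : R K, phi 1 c d = kap c d *
      (if c ∈ Lat (MM K) ∧ InT (MM K / c) ((d : K) / c - 1 / c) then 1 else 0) := by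
    intro d
    have h1 : InT (MM K / c) ((d : K) / c - 1 / c) ↔ d - 1 ∈ Lat (MM K) := by
      rw [← InT_mul_iff (d := (c : K)) hcK, mul_div_cancel₀ _ hcK, mem_Lat,
        show (c : K) * ((d : K) / c - 1 / c) = ((d - 1 : R K) : K) by push_cast; field_simp]
    rw [phi_one, phi0, h1]
    by_cases h2 : IsCoprime c d
    · by_cases h3 : c ∈ Lat (MM K) ∧ d - 1 ∈ Lat (MM K)
      · rw [if_pos h3, if_pos ⟨h3.1, h3.2, h2⟩, mul_one]
      · rw [if_neg h3, if_neg fun h => h3 ⟨h.1, h.2.1⟩, mul_zero]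
    · rw [if_neg fun h => h2 h.2.2, (kap_eq_zero hc).2 h2, zero_mul]
  by_cases hL : c ∈ Lat (MM K)
  · have hcT : InT (MM K / c) (MM K) := by
      obtain ⟨t, ht, e⟩ := hL
      exact ⟨c, e ▸ (T K).mul_mem be_MM_T ht, by field_simp⟩
    obtain ⟨F, h1, h2, h3⟩ := be_reps hMM hcT (1 / c)
    rw [be_crt isPer_one (zero_mem _) hc (a := fun ε =>
      if c ∈ Lat (MM K) ∧ InT (MM K / c) (ε - 1 / c) then 1 else 0) (fun ε ε' h => ?_) hφ F
      fun ε hε => h2 ε (by by_contra h; exact hε (if_neg fun h' => h h'.2)), gs_kap_zero hc]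
    · have h4 : ∑ s ∈ F, (if c ∈ Lat (MM K) ∧ InT (MM K / c) (s - 1 / c) then (1 : ℂ) else 0) *
          eM (((0 : R K) : K) * s) = (NS (c : K) : ℂ) := by
        rw [Finset.sum_congr rfl fun s hs => by
          rw [if_pos ⟨hL, h1 s hs⟩, ZeroMemClass.coe_zero, zero_mul, eM_T (InT.zero _), one_mul]]
        rw [NS_div, div_div_cancel₀ (NS_pos hMM).ne'] at h3
        rw [Finset.sum_const, nsmul_eq_mul, mul_one, ← h3]
        norm_cast
      rw [h4]
      by_cases h5 : ∃ m : R K, Associated c (m ^ 3)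
      · rw [if_pos h5, if_pos ⟨hc, hL, h5⟩, Nm_coe]
        push_cast
        ring
      · rw [if_neg h5, if_neg fun h => h5 h.2.2, mul_zero]
    · have h' := hcT.trans h
      have : InT (MM K / c) (ε - 1 / c) ↔ InT (MM K / c) (ε' - 1 / c) :=
        ⟨fun h'' => by have := h''.sub h'; rwa [sub_sub_sub_cancel_left] at this,
          fun h'' => by have := h'.add h''; rwa [sub_add_sub_cancel] at this⟩
      simp only [this]
  · rw [if_neg fun h => hL h.2.1, bet_eq_sum isPer_one (zero_mem _) hc ∅, Finset.sum_empty]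
    intro d hd
    rw [hφ, if_neg fun h => hL h.1, mul_zero] at hd
    exact absurd rfl hd

end Crest.Agent.GQ
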