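import Crest.Agent.GQ.ThConvAux2
import Crest.Agent.GQ.Pack

/-! # GQ ThConvAux3: bounds for the test functions and the sums `Dt` -/

set_option autoImplicit false

noncomputable section

open NumberField Complex Filter Topology
open scoped ComplexConjugate

namespace Crest.Agent.GQ

open MeasureTheory

theorem cv_one_le {ρ : ℝ} (hρ : 0 < ρ) (lam Y : ℝ) : ∃ c : ℝ, ∀ y u : ℝ, |y| ≤ Y →
    -y - 2 * u + -Real.pi * Real.exp (-y) * (Real.exp (2 * u) + 4 * ρ ^ 2 * Real.exp (-2 * u)) ≤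
      c - lam * u ^ 2 := by
  set m : ℝ := min 1 (4 * ρ ^ 2) with hm
  have hm0 : 0 < m := lt_min one_pos (by positivity)
  set k : ℝ := Real.pi * Real.exp (-Y) * m * (2 / 3) with hk
  have hk0 : 0 < k := by positivity
  refine ⟨Y + 1 + (1 + lam) ^ 2 / (4 * k), fun y u hy => ?_⟩
  have h1 : Real.exp (-Y) ≤ Real.exp (-y) := Real.exp_le_exp.2 (by linarith [le_abs_self y])
  have h2 : 2 / 3 * u ^ 4 ≤ Real.exp (2 * u) + Real.exp (-2 * u) := by
    have a1 := Real.pow_div_factorial_le_exp (2 * |u|) (by positivity) 4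
    have a2 : (2 * |u|) ^ 4 = 16 * u ^ 4 := by
      rw [mul_pow, show |u| ^ 4 = u ^ 4 from Even.pow_abs (by decide) u]; norm_num
    rw [a2] at a1
    norm_num [Nat.factorial] at a1
    have a3 := Real.exp_pos (2 * u)
    have a4 := Real.exp_pos (-2 * u)
    rcases abs_cases u with h | h <;> rw [h.1] at a1
    · linarith
    · rw [show 2 * -u = -2 * u by ring] at a1; linarith
  have h3 : m * (2 / 3 * u ^ 4) ≤ Real.exp (2 * u) + 4 * ρ ^ 2 * Real.exp (-2 * u) := by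
    have a1 := mul_le_mul_of_nonneg_right (min_le_left 1 (4 * ρ ^ 2)) (Real.exp_pos (2 * u)).le
    have a2 := mul_le_mul_of_nonneg_right (min_le_right 1 (4 * ρ ^ 2)) (Real.exp_pos (-2 * u)).le
    have a3 := mul_le_mul_of_nonneg_left h2 hm0.le
    rw [← hm] at a1 a2
    linarith
  have h4 : k * u ^ 4 ≤ Real.pi * Real.exp (-y) *
      (Real.exp (2 * u) + 4 * ρ ^ 2 * Real.exp (-2 * u)) := by
    calc k * u ^ 4 = Real.pi * Real.exp (-Y) * (m * (2 / 3 * u ^ 4)) := by rw [hk]; ring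
      _ ≤ _ := by gcongr
  have h5 : (1 + lam) * u ^ 2 ≤ k * u ^ 4 + (1 + lam) ^ 2 / (4 * k) := by
    have e : k * u ^ 4 + (1 + lam) ^ 2 / (4 * k) - (1 + lam) * u ^ 2 =
        (2 * k * u ^ 2 - (1 + lam)) ^ 2 / (4 * k) := by field_simp; ring
    have : 0 ≤ (2 * k * u ^ 2 - (1 + lam)) ^ 2 / (4 * k) := by positivity
    linarith
  nlinarith [neg_abs_le y, sq_nonneg (u + 1)]

variable {K : Type} [Field K] [NumberField K] [P : Pre K]

theorem cv_ff_pos (ρ y u : Pl K → ℝ) : 0 < ff ρ y u :=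
  Finset.prod_pos fun _ _ => mul_pos (Real.exp_pos _) (Real.exp_pos _)

theorem cv_ff_cont (ρ : Pl K → ℝ) : Continuous (Function.uncurry (ff ρ)) := by
  unfold ff Function.uncurry
  fun_prop

theorem cv_ff_le {ρ : Pl K → ℝ} (hρ : ∀ v, 0 < ρ v) (lam Y : ℝ) : ∃ C : ℝ, 0 < C ∧
    ∀ y ∈ cube K Y, ∀ u, ff ρ y u ≤ C * Real.exp (-lam * ∑ v, u v ^ 2) := by
  choose c hc using fun v => cv_one_le (hρ v) lam Y
  refine ⟨Real.exp (∑ v, c v), Real.exp_pos _, fun y hy u => ?_⟩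
  simp only [ff, ← Real.exp_add, ← Real.exp_sum, Real.exp_le_exp, Finset.mul_sum,
    ← Finset.sum_add_distrib]
  exact Finset.sum_le_sum fun v _ => by linarith [hc v (y v) (u v) (cv_mem_cube.1 hy v)]

theorem cv_sum {β : R K → ℂ} {x : K} {C A : ℝ} (hx : x ≠ 0)
    (h1 : ∀ c, β c ≠ 0 → c ≠ 0 ∧ c ∈ Lat x) (h2 : ∀ c, ‖β c‖ ≤ C * Nm (c : K) ^ A) :
    ∃ a C₀ : ℝ, 0 ≤ a ∧ 0 ≤ C₀ ∧ ∀ t : Pl K → ℝ,
      Summable (fun c => ‖β c‖ * Real.exp (-2 * ∑ v, (t + lg (c : K)) v ^ 2)) ∧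
      Real.exp (8 / 3 * ∑ v, t v) * ∑' c, ‖β c‖ * Real.exp (-2 * ∑ v, (t + lg (c : K)) v ^ 2) ≤
        C₀ * Real.exp (-a * ∑ v, t v) := by
  classical
  obtain ⟨C₁, hC₁, hp⟩ := tsum_pk_le (K := K) one_pos (A := 0) (B := 2 + |A|) le_rfl
    (by linarith [abs_nonneg A])
  have hS := NS_pos hx
  refine ⟨2 * A + 2 * (2 + |A|) - 8 / 3, |C| * Real.exp (∑ _v : Pl K, A ^ 2) * C₁ *
    (NS x)⁻¹ ^ (2 + |A|), by linarith [neg_abs_le A], by positivity, fun t => ?_⟩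
  have key : ∀ c, ‖β c‖ * Real.exp (-2 * ∑ v, (t + lg (c : K)) v ^ 2) ≤
      |C| * Real.exp (∑ _v : Pl K, A ^ 2) * Real.exp (-(2 * A) * ∑ v, t v) *
        if c ∈ Lat x ∧ c ≠ 0 then Nr c ^ (0 : ℝ) * ‖pk 1 (-t) 0 (c : K)‖ else 0 := by
    intro c
    by_cases hc : β c = 0
    · rw [hc, norm_zero, zero_mul]
      exact mul_nonneg (by positivity) (pk_nonneg _ _ _ _ _ _)
    obtain ⟨a1, a2⟩ := h1 c hc
    have a3 : (c : K) ≠ 0 := by exact_mod_cast a1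
    rw [if_pos ⟨a2, a1⟩, Real.rpow_zero, one_mul, norm_pk]
    have a4 : ‖β c‖ ≤ |C| * Real.exp (2 * (∑ v, lg (c : K) v) * A) := by
      rw [Real.exp_mul, ← Nm_eq_exp a3]
      exact (h2 c).trans (mul_le_mul_of_nonneg_right (le_abs_self C)
        (Real.rpow_nonneg (Nm_pos a3).le _))
    refine (mul_le_mul_of_nonneg_right a4 (Real.exp_pos _).le).trans ?_
    rw [mul_assoc |C|, mul_assoc |C|, mul_assoc |C|]
    refine mul_le_mul_of_nonneg_left ?_ (abs_nonneg _)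
    rw [← Real.exp_add, ← Real.exp_add, ← Real.exp_add, Real.exp_le_exp]
    simp only [Finset.mul_sum, Finset.sum_mul,
      ← Finset.sum_add_distrib, ← Finset.sum_neg_distrib, Pi.add_apply, Pi.neg_apply]
    exact Finset.sum_le_sum fun v _ => by nlinarith [sq_nonneg (t v + lg (c : K) v - A)]
  have hs := (summable_pk one_pos 0 hx (-t) 0).mul_left
    (|C| * Real.exp (∑ _v : Pl K, A ^ 2) * Real.exp (-(2 * A) * ∑ v, t v))
  have hs' := Summable.of_nonneg_of_le (fun c => by positivity) key hs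
  refine ⟨hs', ?_⟩
  have h3 := hs'.tsum_le_tsum key hs
  rw [tsum_mul_left] at h3
  have h4 := (hp x hx (-t) 0).trans (mul_le_mul_of_nonneg_left (min_le_right _ _) hC₁.le)
  have h5 : sz x (-t) ^ (2 + |A|) =
      Real.exp (-(2 * (2 + |A|)) * ∑ v, t v) * (NS x)⁻¹ ^ (2 + |A|) := by
    rw [sz, div_eq_mul_inv, Real.mul_rpow (Real.exp_pos _).le (inv_pos.2 hS).le, ← Real.exp_mul]
    simp only [Pi.neg_apply, Finset.sum_neg_distrib]
    congr 2
    ring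
  rw [h5] at h4
  refine (mul_le_mul_of_nonneg_left (h3.trans (mul_le_mul_of_nonneg_left h4 (by positivity)))
    (Real.exp_pos _).le).trans (le_of_eq ?_)
  have h6 : Real.exp (-(2 * A + 2 * (2 + |A|) - 8 / 3) * ∑ v, t v) = Real.exp (8 / 3 * ∑ v, t v) *
      Real.exp (-(2 * A) * ∑ v, t v) * Real.exp (-(2 * (2 + |A|)) * ∑ v, t v) := by
    rw [← Real.exp_add, ← Real.exp_add]; congr 1; ring
  rw [h6]
  ring

/-- the conclusion of `cv_sum` -/
def cv_Good (β : R K → ℂ) (a C₀ : ℝ) : Prop := ∀ t : Pl K → ℝ,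
  Summable (fun c => ‖β c‖ * Real.exp (-2 * ∑ v, (t + lg (c : K)) v ^ 2)) ∧
    Real.exp (8 / 3 * ∑ v, t v) * ∑' c, ‖β c‖ * Real.exp (-2 * ∑ v, (t + lg (c : K)) v ^ 2) ≤
      C₀ * Real.exp (-a * ∑ v, t v)

theorem cv_Good.bound {β : R K → ℂ} {a C₀ : ℝ} (h : cv_Good β a C₀) {F : (Pl K → ℝ) → ℝ} {C : ℝ}
    (hC : 0 ≤ C) (hF0 : ∀ u, 0 ≤ F u) (hF : ∀ u, F u ≤ C * Real.exp (-2 * ∑ v, u v ^ 2))
    (t : Pl K → ℝ) : Summable (fun c => ‖β c * (F (t + lg (c : K)) : ℂ)‖) ∧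
      Real.exp (8 / 3 * ∑ v, t v) * ∑' c, ‖β c * (F (t + lg (c : K)) : ℂ)‖ ≤
        C * C₀ * Real.exp (-a * ∑ v, t v) := by
  have key : ∀ c, ‖β c * (F (t + lg (c : K)) : ℂ)‖ ≤
      C * (‖β c‖ * Real.exp (-2 * ∑ v, (t + lg (c : K)) v ^ 2)) := fun c => by
    rw [norm_mul, Complex.norm_real, Real.norm_of_nonneg (hF0 _), mul_left_comm]
    exact mul_le_mul_of_nonneg_left (hF _) (norm_nonneg _)
  have hs := (h t).1.mul_left C
  have hs' := Summable.of_nonneg_of_le (fun c => norm_nonneg _) key hs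
  refine ⟨hs', ?_⟩
  have h3 := hs'.tsum_le_tsum key hs
  rw [tsum_mul_left] at h3
  refine (mul_le_mul_of_nonneg_left h3 (Real.exp_pos _).le).trans ?_
  rw [mul_left_comm, mul_assoc]
  exact mul_le_mul_of_nonneg_left (h t).2 hC

theorem cv_Good.norm_le {β : R K → ℂ} {a C₀ : ℝ} (h : cv_Good β a C₀) {F : (Pl K → ℝ) → ℝ}
    {C : ℝ} (hC : 0 ≤ C) (hF0 : ∀ u, 0 ≤ F u)
    (hF : ∀ u, F u ≤ C * Real.exp (-2 * ∑ v, u v ^ 2)) (t : Pl K → ℝ) :
    ‖Dt β F t‖ ≤ C * C₀ * Real.exp (-a * ∑ v, t v) := by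
  obtain ⟨h1, h2⟩ := h.bound hC hF0 hF t
  rw [Dt, norm_mul, Complex.norm_real, Real.norm_of_nonneg (Real.exp_pos _).le]
  exact (mul_le_mul_of_nonneg_left (norm_tsum_le_tsum_norm h1) (Real.exp_pos _).le).trans h2

theorem cv_Good.cont {β : R K → ℂ} {a C₀ : ℝ} (h : cv_Good β a C₀) {ρ : Pl K → ℝ}
    (hρ : ∀ v, 0 < ρ v) : Continuous (Function.uncurry fun y t => Dt β (ff ρ y) t) := by
  unfold Dt Function.uncurry
  refine Continuous.mul (by fun_prop) (continuous_iff_continuousAt.2 fun p₀ => ?_)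
  obtain ⟨C, hC, hb⟩ := cv_ff_le hρ 4 (‖p₀‖ + 1)
  refine (continuousOn_tsum (s := Metric.ball p₀ 1) (fun c => Continuous.continuousOn ?_)
    ((h 0).1.mul_left (C * Real.exp (∑ _v : Pl K, 4 * (‖p₀‖ + 1) ^ 2))) fun c p hp => ?_).continuousAt
    (Metric.ball_mem_nhds p₀ one_pos)
  · exact continuous_const.mul (continuous_ofReal.comp
      ((cv_ff_cont ρ).comp (continuous_fst.prodMk (continuous_snd.add continuous_const))))
  · have h1 : ‖p‖ ≤ ‖p₀‖ + 1 := norm_le_norm_add_const_of_dist_le (Metric.mem_ball.1 hp).le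
    rw [norm_mul, Complex.norm_real, Real.norm_of_nonneg (cv_ff_pos _ _ _).le, mul_left_comm]
    refine mul_le_mul_of_nonneg_left
      ((hb _ (cv_mem_cube_norm ((norm_fst_le p).trans h1)) _).trans ?_) (norm_nonneg _)
    rw [mul_assoc]
    refine mul_le_mul_of_nonneg_left ?_ hC.le
    simp only [← Real.exp_add, Real.exp_le_exp, Finset.mul_sum, ← Finset.sum_add_distrib,
      Pi.add_apply, Pi.zero_apply]
    refine Finset.sum_le_sum fun v _ => ?_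
    have h2 : |p.2 v| ≤ ‖p₀‖ + 1 := (norm_le_pi_norm p.2 v).trans ((norm_snd_le p).trans h1)
    have h3 := pow_le_pow_left₀ (abs_nonneg _) h2 2
    rw [sq_abs] at h3
    nlinarith [sq_nonneg (2 * p.2 v + lg (c : K) v)]

theorem cv_wt_le {ρ : Pl K → ℝ} (hρ : ∀ v, 0 < ρ v) (b Y : ℝ) : ∃ C : ℝ, 0 < C ∧
    ∀ y ∈ cube K Y, ∀ s, Real.exp (b * ∑ v, s v) * ff ρ y s ≤ C * cv_E b s := by
  obtain ⟨C, hC, h⟩ := cv_ff_le hρ 1 Y
  refine ⟨C, hC, fun y hy s => (mul_le_mul_of_nonneg_left (h y hy s) (Real.exp_pos _).le).trans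
    (le_of_eq ?_)⟩
  rw [mul_left_comm, ← Real.exp_add, cv_E]
  congr 2
  ring

theorem cv_Good.conv {β : R K → ℂ} {a C₀ : ℝ} (h : cv_Good β a C₀) {ρ : Pl K → ℝ}
    (hρ : ∀ v, 0 < ρ v) (y y' t : Pl K → ℝ) :
    ∫ s, Dt β (ff ρ y) (t - s) * ((Real.exp (8 / 3 * ∑ v, s v) * ff ρ y' s : ℝ) : ℂ) =
      (Real.exp (8 / 3 * ∑ v, t v) : ℂ) *
        ∑' c : R K, β c * ((∫ s, ff ρ y (t + lg (c : K) - s) * ff ρ y' s : ℝ) : ℂ) := by
  obtain ⟨C, hC, hb⟩ := cv_ff_le hρ 2 ‖y‖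
  obtain ⟨C', hC', hb'⟩ := cv_wt_le hρ (8 / 3) ‖y'‖
  have hE : ∀ s : Pl K → ℝ, Real.exp (8 / 3 * ∑ v, (t - s) v) * Real.exp (8 / 3 * ∑ v, s v) =
      Real.exp (8 / 3 * ∑ v, t v) := fun s => by
    rw [← Real.exp_add]
    simp only [Pi.sub_apply, Finset.sum_sub_distrib]
    congr 1
    ring
  have e1 : ∀ s, Dt β (ff ρ y) (t - s) * ((Real.exp (8 / 3 * ∑ v, s v) * ff ρ y' s : ℝ) : ℂ) =
      (Real.exp (8 / 3 * ∑ v, t v) : ℂ) *
        ∑' c : R K, β c * (ff ρ y (t - s + lg (c : K)) : ℂ) * (ff ρ y' s : ℂ) := fun s => by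
    rw [Dt, tsum_mul_right, ← hE s]
    simp only [Complex.ofReal_mul]
    ring
  simp only [e1]
  rw [integral_const_mul, cv_int_tsum (k := fun s => (Real.exp (8 / 3 * ∑ v, t v))⁻¹ *
    (C * C₀ * Real.exp (-a * ∑ v, t v) * C') * cv_E (a + 8 / 3) s) (fun c => ?_)
    ((cv_E_int _).const_mul _) (Eventually.of_forall fun s => ?_)]
  · congr 2
    funext c
    rw [← integral_complex_ofReal, ← integral_const_mul]
    congr 1
    funext s
    rw [Complex.ofReal_mul, mul_assoc, sub_add_eq_add_sub]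
  · refine Continuous.aestronglyMeasurable ((continuous_const.mul (continuous_ofReal.comp ?_)).mul
      (continuous_ofReal.comp ((cv_ff_cont ρ).uncurry_left y')))
    exact ((cv_ff_cont ρ).uncurry_left y).comp (by fun_prop)
  · obtain ⟨h1, h2⟩ := h.bound hC.le (fun u => (cv_ff_pos ρ y u).le)
      (hb y (cv_mem_cube_norm le_rfl)) (t - s)
    simp only [norm_mul _ (ff ρ y' s : ℂ)]
    refine ⟨h1.mul_right _, ?_⟩
    rw [tsum_mul_right, mul_assoc, le_inv_mul_iff₀ (Real.exp_pos _), ← hE s, Complex.norm_real,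
      Real.norm_of_nonneg (cv_ff_pos _ _ _).le, mul_mul_mul_comm]
    have h3 := hb' y' (cv_mem_cube_norm le_rfl) s
    have h4 : (0 : ℝ) ≤ C * C₀ * Real.exp (-a * ∑ v, (t - s) v) :=
      le_trans (mul_nonneg (Real.exp_pos _).le (tsum_nonneg fun _ => norm_nonneg _)) h2
    refine (mul_le_mul h2 h3 (mul_pos (Real.exp_pos _) (cv_ff_pos _ _ _)).le h4).trans
      (le_of_eq ?_)
    have h5 : Real.exp (-a * ∑ v, (t - s) v) =
        Real.exp (-a * ∑ v, t v) * Real.exp (a * ∑ v, s v) := by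
      rw [← Real.exp_add]
      simp only [Pi.sub_apply, Finset.sum_sub_distrib]
      congr 1
      ring
    rw [← cv_E_mul, h5]
    ring

theorem cv_Good.sym {β : R K → ℂ} {a C₀ : ℝ} (h : cv_Good β a C₀) {ρ : Pl K → ℝ}
    (hρ : ∀ v, 0 < ρ v) (y y' t : Pl K → ℝ) :
    ∫ s, Dt β (ff ρ y) (t - s) * ((Real.exp (8 / 3 * ∑ v, s v) * ff ρ y' s : ℝ) : ℂ) =
      ∫ s, Dt β (ff ρ y') (t - s) * ((Real.exp (8 / 3 * ∑ v, s v) * ff ρ y s : ℝ) : ℂ) := by
  rw [h.conv hρ, h.conv hρ]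
  congr 2
  funext c
  congr 2
  rw [← integral_sub_left_eq_self _ _ (t + lg (c : K))]
  simp only [sub_sub_cancel, mul_comm]

theorem cv_Fstar_pos (u : Pl K → ℝ) : 0 < Fstar u :=
  cv_cube_pos ((cv_ff_cont _).uncurry_right u) fun y => cv_ff_pos _ y u

theorem cv_Fstar_le (lam : ℝ) : ∃ C : ℝ, 0 ≤ C ∧
    ∀ u : Pl K → ℝ, Fstar u ≤ C * Real.exp (-lam * ∑ v, u v ^ 2) := by
  obtain ⟨C, hC, h⟩ := cv_ff_le (K := K) (ρ := fun _ => 1) (fun _ => one_pos) lam 1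
  refine ⟨C * volume.real (cube K 1), mul_nonneg hC.le measureReal_nonneg, fun u => ?_⟩
  rw [mul_right_comm]
  exact (le_abs_self _).trans (cv_norm_cube_le (f := fun y => ff (fun _ => 1) y u) fun y hy => by
    rw [Real.norm_of_nonneg (cv_ff_pos _ _ _).le]; exact h y hy u)

theorem cv_wt_prod {ρ : Pl K → ℝ} (hρ : ∀ v, 0 < ρ v) (Y : ℝ) :
    Integrable (Function.uncurry fun y s : Pl K → ℝ => Real.exp (8 / 3 * ∑ v, s v) * ff ρ y s)
      ((volume.restrict (cube K Y)).prod volume) := by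
  obtain ⟨C, -, h⟩ := cv_wt_le hρ (8 / 3) Y
  have hc : Continuous fun p : (Pl K → ℝ) × (Pl K → ℝ) => Real.exp (8 / 3 * ∑ v, p.2 v) := by
    fun_prop
  refine cv_prod (by exact hc.mul (cv_ff_cont ρ)) ((cv_E_int (8 / 3)).const_mul C)
    fun y hy s => ?_
  rw [Real.norm_of_nonneg (mul_pos (Real.exp_pos _) (cv_ff_pos _ _ _)).le]
  exact h y hy s

theorem cv_MF_Fstar : MF (Fstar : (Pl K → ℝ) → ℝ) = ∫ y in cube K 1, MF (ff (fun _ => 1) y) := by
  unfold MF Fstar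
  rw [integral_integral_swap (cv_wt_prod (fun _ => one_pos) 1)]
  simp only [integral_const_mul]

theorem cv_Good.Dt_Fstar {β : R K → ℂ} {a C₀ : ℝ} (h : cv_Good β a C₀) (t : Pl K → ℝ) :
    Dt β Fstar t = ∫ y in cube K 1, Dt β (ff (fun _ => 1) y) t := by
  obtain ⟨C, hC, hb⟩ := cv_ff_le (K := K) (ρ := fun _ => 1) (fun _ => one_pos) 2 1
  unfold Dt Fstar
  rw [integral_const_mul, cv_int_tsum (k := fun _ => (Real.exp (8 / 3 * ∑ v, t v))⁻¹ *
    (C * C₀ * Real.exp (-a * ∑ v, t v))) (fun c => ?_) (integrable_const _)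
    ((ae_restrict_mem (cv_meas 1)).mono fun y hy => ?_)]
  · simp only [integral_const_mul, integral_complex_ofReal]
  · exact (continuous_const.mul (continuous_ofReal.comp
      ((cv_ff_cont _).uncurry_right _))).aestronglyMeasurable
  · obtain ⟨h1, h2⟩ := h.bound hC.le (fun u => (cv_ff_pos _ y u).le) (hb y hy) t
    exact ⟨h1, (le_inv_mul_iff₀ (Real.exp_pos _)).2 h2⟩

/-- scaling -/
theorem cv_ff_scale {ρ : Pl K → ℝ} (hρ : ∀ v, 0 < ρ v) (y u : Pl K → ℝ) :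
    ff (fun _ => 1) y u = (∏ v, ρ v ^ 2) *
      ff ρ (y + fun v => Real.log (ρ v)) (u + fun v => Real.log (ρ v) / 2) := by
  rw [ff, ff, ← Finset.prod_mul_distrib]
  refine Finset.prod_congr rfl fun v _ => ?_
  have h := hρ v
  have e0 := Real.exp_log h
  have e1 : Real.exp (-(y v + Real.log (ρ v)) - 2 * (u v + Real.log (ρ v) / 2)) =
      Real.exp (-y v - 2 * u v) / ρ v ^ 2 := by
    rw [eq_div_iff (by positivity), ← e0, ← Real.exp_nat_mul, ← Real.exp_add, e0]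
    congr 1; push_cast; ring
  have e2 : Real.exp (-(y v + Real.log (ρ v))) = Real.exp (-y v) / ρ v := by
    rw [neg_add, Real.exp_add, Real.exp_neg (Real.log _), e0, div_eq_mul_inv]
  have e3 : Real.exp (2 * (u v + Real.log (ρ v) / 2)) = Real.exp (2 * u v) * ρ v := by
    rw [show 2 * (u v + Real.log (ρ v) / 2) = 2 * u v + Real.log (ρ v) by ring, Real.exp_add, e0]
  have e4 : Real.exp (-2 * (u v + Real.log (ρ v) / 2)) = Real.exp (-2 * u v) / ρ v := by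
    rw [show -2 * (u v + Real.log (ρ v) / 2) = -2 * u v - Real.log (ρ v) by ring, Real.exp_sub, e0]
  simp only [Pi.add_apply]
  rw [e1, e2, e3, e4, ← mul_assoc, mul_div_cancel₀ _ (by positivity)]
  congr 2
  field_simp

end Crest.Agent.GQ
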