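import Crest.Agent.GQ.ThHyp
import Crest.Agent.GQ.ThConvAux3

/-! # GQ ThConv: the convolution trick -/

set_option autoImplicit false

noncomputable section

open NumberField Complex
open scoped ComplexConjugate

namespace Crest.Agent.GQ

variable {K : Type} [Field K] [NumberField K] [P : Pre K]

open MeasureTheory

/-- admissible coefficients -/
def Adm (β : R K → ℂ) : Prop := ∃ (x : K) (C A : ℝ), x ≠ 0 ∧
  (∀ c, β c ≠ 0 → c ≠ 0 ∧ c ∈ Lat x) ∧ ∀ c, ‖β c‖ ≤ C * Nm (c : K) ^ A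
/-- convergence in `L²_loc(dy)` -/
def Lim2 (β : R K → ℂ) (ρ : Pl K → ℝ) (τ : ℂ) : Prop := ∀ Y : ℝ,
  Filter.Tendsto (fun t => ∫ y in cube K Y, ‖Dt β (ff ρ y) t - τ * (MF (ff ρ y) : ℂ)‖ ^ 2)
    (tF K) (nhds 0)

theorem cv_one {ρ : ℝ} (hρ : 0 < ρ) (y : ℝ) :
    ∫ u : ℝ, Real.exp (8 / 3 * u) * (Real.exp (-y - 2 * u) * Real.exp (-Real.pi * Real.exp (-y) *
      (Real.exp (2 * u) + 4 * ρ ^ 2 * Real.exp (-2 * u)))) =
    (2 : ℝ) ^ (-(2 / 3) : ℝ) * ρ ^ (1 / 3 : ℝ) * (Real.exp (-y) * Kf (ρ * Real.exp (-y))) := by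
  set L := Real.log (2 * ρ) with hL
  have e0 : Real.exp L = 2 * ρ := Real.exp_log (by positivity)
  set g : ℝ → ℝ := fun s => Real.exp (s / 3 - 4 * Real.pi * (ρ * Real.exp (-y)) * Real.cosh s)
    with hg
  have h1 : ∀ u : ℝ, Real.exp (8 / 3 * u) * (Real.exp (-y - 2 * u) *
      Real.exp (-Real.pi * Real.exp (-y) * (Real.exp (2 * u) + 4 * ρ ^ 2 * Real.exp (-2 * u)))) =
      Real.exp (-y) * Real.exp (L / 3) * g (2 * u - L) := by
    intro u
    have a1 : Real.exp (2 * u) + 4 * ρ ^ 2 * Real.exp (-2 * u) = 4 * ρ * Real.cosh (2 * u - L) := by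
      rw [Real.cosh_eq, neg_sub, Real.exp_sub, Real.exp_sub, e0, neg_mul, Real.exp_neg]
      field_simp
      ring
    simp only [hg, a1, ← Real.exp_add]
    congr 1
    ring
  simp only [h1]
  rw [integral_const_mul, Measure.integral_comp_mul_left (fun s => g (s - L)) 2,
    integral_sub_right_eq_self g L]
  have h2 : Real.exp (L / 3) = 2 * (2 : ℝ) ^ (-(2 / 3) : ℝ) * ρ ^ (1 / 3 : ℝ) := by
    rw [div_eq_mul_one_div, Real.exp_mul, e0, Real.mul_rpow (by norm_num) hρ.le,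
      show (1 / 3 : ℝ) = -(2 / 3) + 1 by norm_num, Real.rpow_add_one (by norm_num)]
    ring
  rw [h2, abs_of_pos (by norm_num : (0 : ℝ) < 2⁻¹), smul_eq_mul, Kf]
  ring

theorem Adm.cv_good {β : R K → ℂ} (h : Adm β) : ∃ a C₀ : ℝ, 0 ≤ a ∧ 0 ≤ C₀ ∧ cv_Good β a C₀ := by
  obtain ⟨x, C, A, hx, h1, h2⟩ := h
  exact cv_sum hx h1 h2

theorem cv_raise {β : R K → ℂ} {x : K} {C A A' : ℝ} (hx : x ≠ 0)
    (h1 : ∀ c, β c ≠ 0 → c ≠ 0 ∧ c ∈ Lat x) (h2 : ∀ c, ‖β c‖ ≤ C * Nm (c : K) ^ A) (hA : A ≤ A')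
    (c : R K) : ‖β c‖ ≤ |C| * NS x ^ (A - A') * Nm (c : K) ^ A' := by
  have hS := NS_pos hx
  by_cases hc : β c = 0
  · have : 0 ≤ Nm (c : K) := Finset.prod_nonneg fun _ _ => sq_nonneg _
    rw [hc, norm_zero]
    positivity
  obtain ⟨a1, a2⟩ := h1 c hc
  have hN : 0 < Nm (c : K) := Nm_pos (by exact_mod_cast a1)
  calc ‖β c‖ ≤ |C| * Nm (c : K) ^ A := (h2 c).trans (by gcongr; exact le_abs_self C)
    _ = |C| * Nm (c : K) ^ (A - A') * Nm (c : K) ^ A' := by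
      rw [mul_assoc, ← Real.rpow_add hN, sub_add_cancel]
    _ ≤ _ := mul_le_mul_of_nonneg_right (mul_le_mul_of_nonneg_left
      (Real.rpow_le_rpow_of_nonpos hS (NS_le_Nm a1 a2) (by linarith)) (abs_nonneg _)) (by positivity)

theorem MF_ff {r : K} (hr : r ≠ 0) (y : Pl K → ℝ) : MF (ff (fun v => ‖emb r v‖) y) =
    ((2 : ℝ) ^ (-(2 / 3) : ℝ)) ^ rr K * Nm r ^ (1 / 6 : ℝ) * Wh r y := by
  have hn : ∀ v, 0 < ‖emb r v‖ := fun v => norm_pos_iff.2 (emb_ne_zero hr v)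
  unfold MF ff
  simp only [Finset.mul_sum, Real.exp_sum, ← Finset.prod_mul_distrib]
  rw [integral_fintype_prod_volume_eq_prod (fun v (u : ℝ) => Real.exp (8 / 3 * u) *
    (Real.exp (-y v - 2 * u) * Real.exp (-Real.pi * Real.exp (-y v) *
      (Real.exp (2 * u) + 4 * ‖emb r v‖ ^ 2 * Real.exp (-2 * u)))))]
  simp only [fun v => cv_one (hn v) (y v)]
  rw [Finset.prod_mul_distrib, Finset.prod_mul_distrib, Finset.prod_const, Finset.card_univ, Wh, Nm,
    ← Real.finset_prod_rpow _ _ fun v _ => sq_nonneg _]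
  congr 2
  refine Finset.prod_congr rfl fun v _ => ?_
  rw [← Real.rpow_natCast, ← Real.rpow_mul (hn v).le]
  norm_num
theorem MF_Fstar_pos : 0 < MF (Fstar : (Pl K → ℝ) → ℝ) := by
  have h := (cv_wt_prod (K := K) (ρ := fun _ => 1) (fun _ => one_pos) 1).integral_prod_right
  simp only [Function.uncurry_apply_pair, integral_const_mul] at h
  exact cv_int_pos h fun u => mul_pos (Real.exp_pos _) (cv_Fstar_pos u)
theorem continuous_Dt_ff {β : R K → ℂ} (hβ : Adm β) {ρ : Pl K → ℝ} (hρ : ∀ v, 0 < ρ v)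
    (t : Pl K → ℝ) : Continuous (fun y => Dt β (ff ρ y) t) := by
  obtain ⟨a, C₀, -, -, h⟩ := hβ.cv_good
  exact (h.cont hρ).uncurry_right t
theorem continuous_MF_ff {ρ : Pl K → ℝ} (hρ : ∀ v, 0 < ρ v) :
    Continuous (fun y => MF (ff ρ y)) := by
  refine cv_cont_of_cube fun Y => ?_
  obtain ⟨C, -, h⟩ := cv_wt_le hρ (8 / 3) Y
  refine continuousOn_of_dominated (fun y _ => Continuous.aestronglyMeasurable ?_)
    (fun y hy => Filter.Eventually.of_forall fun s => ?_) ((cv_E_int (8 / 3)).const_mul C)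
    (Filter.Eventually.of_forall fun s => Continuous.continuousOn ?_)
  · exact Continuous.mul (by fun_prop) ((cv_ff_cont ρ).uncurry_left y)
  · rw [Real.norm_of_nonneg (mul_pos (Real.exp_pos _) (cv_ff_pos _ _ _)).le]
    exact h y hy s
  · exact continuous_const.mul ((cv_ff_cont ρ).uncurry_right s)
theorem Lim.unique {β : R K → ℂ} {τ τ' : ℂ} (h : Lim β τ) (h' : Lim β τ') : τ = τ' :=
  mul_right_cancel₀ (by exact_mod_cast (MF_Fstar_pos (K := K)).ne') (tendsto_nhds_unique h h')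
theorem Lim.add {β β' : R K → ℂ} (hβ : Adm β) (hβ' : Adm β') {τ τ' : ℂ} (h : Lim β τ)
    (h' : Lim β' τ') : Lim (fun c => β c + β' c) (τ + τ') := by
  obtain ⟨a, C₀, -, -, g⟩ := hβ.cv_good
  obtain ⟨a', C₀', -, -, g'⟩ := hβ'.cv_good
  obtain ⟨C, hC, hb⟩ := cv_Fstar_le (K := K) 2
  rw [Lim, add_mul]
  refine (Filter.Tendsto.add h h').congr fun t => ?_
  simp only [Dt, add_mul]
  rw [(g.bound hC (fun u => (cv_Fstar_pos u).le) hb t).1.of_norm.tsum_add
    (g'.bound hC (fun u => (cv_Fstar_pos u).le) hb t).1.of_norm, mul_add]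
theorem Lim.const_mul {β : R K → ℂ} {τ : ℂ} (h : Lim β τ) (a : ℂ) :
    Lim (fun c => a * β c) (a * τ) := by
  rw [Lim, mul_assoc]
  refine (Filter.Tendsto.const_mul a h).congr fun t => ?_
  simp only [Dt, mul_assoc, tsum_mul_left]
  ring
theorem cv_adm_add {β β' : R K → ℂ} (h : Adm β) (h' : Adm β') : Adm (fun c => β c + β' c) := by
  obtain ⟨x, C, A, hx, h1, h2⟩ := h
  obtain ⟨x', C', A', hx', h1', h2'⟩ := h'
  obtain ⟨k, hk⟩ := exists_pow_mul_mem_T x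
  obtain ⟨k', hk'⟩ := exists_pow_mul_mem_T x'
  have hM : MK K ≠ 0 := MK_ne_zero
  have a1 : InT (MK K ^ k * MK K ^ k')⁻¹ x :=
    ⟨_, (T K).mul_mem hk ((T K).pow_mem MK_mem_T k'), by field_simp⟩
  have a2 : InT (MK K ^ k * MK K ^ k')⁻¹ x' :=
    ⟨_, (T K).mul_mem hk' ((T K).pow_mem MK_mem_T k), by field_simp⟩
  refine ⟨(MK K ^ k * MK K ^ k')⁻¹, _, max A A', inv_ne_zero (by positivity), fun c hc => ?_,
    fun c => (norm_add_le _ _).trans ((add_le_add (cv_raise hx h1 h2 (le_max_left A A') c)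
      (cv_raise hx' h1' h2' (le_max_right A A') c)).trans_eq (add_mul _ _ _).symm)⟩
  by_cases h0 : β c = 0
  · have := h1' c (by simpa [h0] using hc)
    exact ⟨this.1, a2.trans this.2⟩
  · exact ⟨(h1 c h0).1, a1.trans (h1 c h0).2⟩
theorem Lim.sum {ι : Type} (S : Finset ι) {β : ι → R K → ℂ} {τ : ι → ℂ} (hβ : ∀ i ∈ S, Adm (β i))
    (h : ∀ i ∈ S, Lim (β i) (τ i)) : Lim (fun c => ∑ i ∈ S, β i c) (∑ i ∈ S, τ i) := by
  classical
  suffices H : Adm (fun c => ∑ i ∈ S, β i c) ∧ Lim (fun c => ∑ i ∈ S, β i c) (∑ i ∈ S, τ i) from H.2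
  induction S using Finset.induction_on with
  | empty =>
    refine ⟨⟨1, 0, 0, one_ne_zero, by simp, by simp⟩, ?_⟩
    have : Dt (fun _ : R K => (0 : ℂ)) Fstar = fun _ => 0 := by
      funext t; simp [Dt]
    simp only [Finset.sum_empty, Lim, this, zero_mul]
    exact tendsto_const_nhds
  | insert i S hi ih =>
    obtain ⟨a1, a2⟩ := ih (fun j hj => hβ j (Finset.mem_insert_of_mem hj))
      fun j hj => h j (Finset.mem_insert_of_mem hj)
    simp only [Finset.sum_insert hi]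
    have b1 := hβ i (Finset.mem_insert_self _ _)
    exact ⟨cv_adm_add b1 a1, Lim.add b1 a1 (h i (Finset.mem_insert_self _ _)) a2⟩
open Classical in
theorem Lim.shift {β : R K → ℂ} (h0 : β 0 = 0) {τ : ℂ} (h : Lim β τ) {d : R K} (hd : d ≠ 0) :
    Lim (fun c => if d ∣ c then β (rdiv c d) else 0)
      (((Nm (d : K) ^ (-(4 / 3) : ℝ) : ℝ) : ℂ) * τ) := by
  have hdK : (d : K) ≠ 0 := by exact_mod_cast hd
  rw [Lim, mul_assoc]
  refine (Filter.Tendsto.const_mul _ (Filter.Tendsto.comp h (tendsto_add_tF (lg (d : K))))).congr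
    fun t => ?_
  simp only [Function.comp_apply, Dt]
  rw [← (mul_right_injective₀ hd).tsum_eq (f := fun c => (if d ∣ c then β (rdiv c d) else 0) *
    (Fstar (t + lg (c : K)) : ℂ)) (fun c hc => ?_), ← mul_assoc, ← Complex.ofReal_mul]
  · congr 1
    · rw [Nm_eq_exp hdK, ← Real.exp_mul, ← Real.exp_add]
      simp only [Pi.add_apply, Finset.sum_add_distrib]
      congr 2
      ring
    · refine tsum_congr fun c => ?_
      rw [if_pos (dvd_mul_right d c), rdiv_mul hd]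
      by_cases hc : c = 0
      · rw [hc, h0, zero_mul, zero_mul]
      · rw [Subring.coe_mul, lg_mul hdK (by exact_mod_cast hc), add_assoc]
  · by_contra hn
    refine hc ?_
    have : ¬ d ∣ c := fun ⟨e, he⟩ => hn ⟨e, he.symm⟩
    simp [this]
theorem Adm.add {β β' : R K → ℂ} (h : Adm β) (h' : Adm β') : Adm (fun c => β c + β' c) :=
  cv_adm_add h h'
theorem Adm.of_le {β β' : R K → ℂ} (h : Adm β) {a : ℝ} (hle : ∀ c, ‖β' c‖ ≤ a * ‖β c‖) : Adm β' := by
  obtain ⟨x, C, A, hx, h1, h2⟩ := h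
  refine ⟨x, |a| * C, A, hx, fun c hc => h1 c fun h0 => hc ?_, fun c => (hle c).trans ?_⟩
  · have := hle c
    rw [h0, norm_zero, mul_zero] at this
    exact norm_le_zero_iff.1 this
  · rw [mul_assoc]
    exact mul_le_mul (le_abs_self a) (h2 c) (norm_nonneg _) (abs_nonneg _)
open Classical in
theorem Adm.shift {β : R K → ℂ} (h : Adm β) {d : R K} (hd : d ≠ 0) :
    Adm (fun c => if d ∣ c then β (rdiv c d) else 0) := by
  obtain ⟨x, C, A, hx, h1, h2⟩ := h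
  have hdK : (d : K) ≠ 0 := by exact_mod_cast hd
  have hN := Nm_pos hdK
  have hN0 : ∀ y : K, 0 ≤ Nm y := fun y => Finset.prod_nonneg fun _ _ => sq_nonneg _
  refine ⟨d * x, |C| * Nm (d : K) ^ (-A), A, mul_ne_zero hdK hx, fun c hc => ?_, fun c => ?_⟩
  · by_cases hdc : d ∣ c
    · obtain ⟨e, rfl⟩ := hdc
      simp only [dvd_mul_right, if_true, rdiv_mul hd] at hc
      exact ⟨mul_ne_zero hd (h1 e hc).1, (mem_Lat_mul_iff hd).2 (h1 e hc).2⟩
    · simp [hdc] at hc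
  · by_cases hdc : d ∣ c
    · obtain ⟨e, rfl⟩ := hdc
      simp only [dvd_mul_right, if_true, rdiv_mul hd]
      rw [Subring.coe_mul, Nm_mul, Real.mul_rpow hN.le (hN0 _), mul_assoc, ← mul_assoc (_ ^ (-A)),
        ← Real.rpow_add hN, neg_add_cancel, Real.rpow_zero, one_mul]
      exact (h2 e).trans (mul_le_mul_of_nonneg_right (le_abs_self C) (Real.rpow_nonneg (hN0 _) _))
    · have := hN0 (c : K)
      simp only [hdc, if_false, norm_zero]
      positivity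
theorem Lim2.lim {β : R K → ℂ} (hβ : Adm β) {ρ : Pl K → ℝ} (hρ : ∀ v, 0 < ρ v) {τ : ℂ}
    (h : Lim2 β ρ τ) : Lim β τ := by
  obtain ⟨a, C₀, -, -, g⟩ := hβ.cv_good
  set L : Pl K → ℝ := fun v => Real.log (ρ v) with hL
  set L' : Pl K → ℝ := fun v => Real.log (ρ v) / 2 with hL'
  set κ : ℝ := (∏ v, ρ v ^ 2) * Real.exp (-(8 / 3 * ∑ v, L' v)) with hκ
  have hE : ∀ t : Pl K → ℝ, Real.exp (8 / 3 * ∑ v, t v) =
      Real.exp (-(8 / 3 * ∑ v, L' v)) * Real.exp (8 / 3 * ∑ v, (t + L') v) := fun t => by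
    rw [← Real.exp_add]
    simp only [Pi.add_apply, Finset.sum_add_distrib]
    congr 1
    ring
  have h1 : ∀ y t, Dt β (ff (fun _ => 1) y) t = κ * Dt β (ff ρ (y + L)) (t + L') := by
    intro y t
    simp only [Dt, cv_ff_scale hρ y, hκ, hE t, Complex.ofReal_mul, mul_left_comm (β _),
      tsum_mul_left, add_right_comm t L']
    ring
  have h2 : ∀ y, MF (ff (fun _ => 1) y) = κ * MF (ff ρ (y + L)) := by
    intro y
    rw [MF, MF, ← integral_add_right_eq_self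
      (fun u => Real.exp (8 / 3 * ∑ v, u v) * ff ρ (y + L) u) L', ← integral_const_mul]
    congr 1
    funext u
    rw [cv_ff_scale hρ y, hκ, hE u]
    ring
  have hc : ∀ t, Continuous fun y => Dt β (ff ρ y) t - τ * (MF (ff ρ y) : ℂ) := fun t =>
    (continuous_Dt_ff hβ hρ t).sub
      (continuous_const.mul (continuous_ofReal.comp (continuous_MF_ff hρ)))
  have h3 : ∀ t, ‖Dt β Fstar t - τ * (MF (Fstar : (Pl K → ℝ) → ℝ) : ℂ)‖ ^ 2 ≤
      volume.real (cube K 1) * (κ ^ 2 *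
        ∫ y in cube K (1 + ‖L‖), ‖Dt β (ff ρ y) (t + L') - τ * (MF (ff ρ y) : ℂ)‖ ^ 2) := by
    intro t
    have c1 := continuous_Dt_ff hβ (ρ := fun _ => 1) (fun _ => one_pos) t
    have c2 : Continuous fun y : Pl K → ℝ => τ * (MF (ff (fun _ => 1) y) : ℂ) :=
      continuous_const.mul (continuous_ofReal.comp (continuous_MF_ff fun _ => one_pos))
    rw [g.Dt_Fstar, cv_MF_Fstar, ← integral_complex_ofReal, ← integral_const_mul,
      ← integral_sub (cv_intOn c1 1) (cv_intOn c2 1)]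
    refine (cv_cs_cube (c1.sub c2) 1).trans (mul_le_mul_of_nonneg_left ?_ measureReal_nonneg)
    have e : ∀ y, ‖Dt β (ff (fun _ => 1) y) t - τ * (MF (ff (fun _ => 1) y) : ℂ)‖ ^ 2 = κ ^ 2 *
        ‖Dt β (ff ρ (y + L)) (t + L') - τ * (MF (ff ρ (y + L)) : ℂ)‖ ^ 2 := fun y => by
      rw [h1, h2, Complex.ofReal_mul κ, mul_left_comm τ, ← mul_sub, norm_mul, mul_pow,
        Complex.norm_real, Real.norm_eq_abs, sq_abs]
    simp only [Pi.sub_apply, e]
    rw [integral_const_mul]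
    refine mul_le_mul_of_nonneg_left ?_ (sq_nonneg _)
    have hi := cv_intOn ((hc (t + L')).norm.pow 2) (1 + ‖L‖)
    rw [← (measurePreserving_add_right volume L).setIntegral_preimage_emb
      (measurableEmbedding_addRight L)
      (fun y => ‖Dt β (ff ρ y) (t + L') - τ * (MF (ff ρ y) : ℂ)‖ ^ 2)]
    refine setIntegral_mono_set (((measurePreserving_add_right volume L).integrableOn_comp_preimage
      (measurableEmbedding_addRight L)).2 hi) (Filter.Eventually.of_forall fun y => sq_nonneg _)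
      (HasSubset.Subset.eventuallyLE fun y hy => cv_mem_cube.2 fun v => ?_)
    exact (abs_add_le _ _).trans (add_le_add (cv_mem_cube.1 hy v) (norm_le_pi_norm L v))
  have h4 := (((h (1 + ‖L‖)).comp (tendsto_add_tF L')).const_mul (κ ^ 2)).const_mul
    (volume.real (cube K 1))
  rw [mul_zero, mul_zero] at h4
  have h5 := (squeeze_zero (fun t => sq_nonneg _) h3 h4).sqrt
  simp only [Real.sqrt_sq (norm_nonneg _), Real.sqrt_zero] at h5
  exact tendsto_iff_norm_sub_tendsto_zero.2 h5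
/-- the convolution trick -/
theorem exists_lim2 {β : R K → ℂ} (hβ : Adm β) {ρ : Pl K → ℝ} (hρ : ∀ v, 0 < ρ v)
    (hc : ∀ Y ε : ℝ, 0 < ε → ∃ L : ℝ, ∀ t t' : Pl K → ℝ, ∑ v, t v ≤ L → ∑ v, t' v ≤ L →
      ∫ y in cube K Y, ‖Dt β (ff ρ y) t - Dt β (ff ρ y) t'‖ ^ 2 ≤ ε)
    (hb : ∀ Y : ℝ, ∃ B : ℝ, ∀ t : Pl K → ℝ, ∑ v, t v ≤ 0 →
      ∫ y in cube K Y, ‖Dt β (ff ρ y) t‖ ^ 2 ≤ B) : ∃ τ : ℂ, Lim2 β ρ τ := by
  obtain ⟨a, C₀, ha, hC₀, g⟩ := hβ.cv_good
  have h1 : Continuous fun p : (Pl K → ℝ) × (Pl K → ℝ) => Real.exp (8 / 3 * ∑ v, p.2 v) := by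
    fun_prop
  refine cv_abs (φ := fun y s => Real.exp (8 / 3 * ∑ v, s v) * ff ρ y s) (g.cont hρ)
    (by exact h1.mul (cv_ff_cont ρ)) (fun y s => mul_pos (Real.exp_pos _) (cv_ff_pos _ _ _)) ha
    (b := 8 / 3) (fun Y => ?_) (fun Y => ?_) (g.sym hρ) hc hb
  · obtain ⟨C, -, h⟩ := cv_wt_le hρ (8 / 3) Y
    exact ⟨C, h⟩
  · obtain ⟨C, hC, h⟩ := cv_ff_le hρ 2 Y
    exact ⟨C * C₀, by positivity, fun y hy t =>
      g.norm_le hC.le (fun u => (cv_ff_pos ρ y u).le) (h y hy) t⟩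

end Crest.Agent.GQ
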