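import Crest.Agent.GQ.ThHyp

/-! # GQ ThConvAux1: measure theoretic tools for the convolution trick -/

set_option autoImplicit false

noncomputable section

open NumberField Complex Filter Topology
open scoped ComplexConjugate

namespace Crest.Agent.GQ

open MeasureTheory

/-- weighted Cauchy–Schwarz inequality -/
theorem cv_cs {α : Type*} [MeasurableSpace α] {μ : Measure α} {f g : α → ℝ} (hg : ∀ a, 0 ≤ g a)
    (h0 : Integrable g μ) (h1 : Integrable (fun a => f a * g a) μ)
    (h2 : Integrable (fun a => f a ^ 2 * g a) μ) :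
    (∫ a, f a * g a ∂μ) ^ 2 ≤ (∫ a, g a ∂μ) * ∫ a, f a ^ 2 * g a ∂μ := by
  have h := discrim_le_zero (a := ∫ a, g a ∂μ) (b := -2 * ∫ a, f a * g a ∂μ)
    (c := ∫ a, f a ^ 2 * g a ∂μ) fun x => by
      have h3 : 0 ≤ ∫ a, (x * x * g a + (-2 * x) * (f a * g a)) + f a ^ 2 * g a ∂μ :=
        integral_nonneg fun a => by
          have := mul_nonneg (sq_nonneg (f a - x)) (hg a)
          simp only [Pi.zero_apply]
          linarith
      have h4 : Integrable (fun a => x * x * g a + (-2 * x) * (f a * g a)) μ :=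
        (h0.const_mul _).add (h1.const_mul _)
      rw [integral_add h4 h2,
        integral_add (h0.const_mul _) (h1.const_mul _), integral_const_mul, integral_const_mul] at h3
      linarith
  rw [discrim] at h
  linarith

theorem cv_int_tsum {α ι : Type*} [Countable ι] [MeasurableSpace α] {μ : Measure α}
    {f : ι → α → ℂ} (hf : ∀ i, AEStronglyMeasurable (f i) μ) {k : α → ℝ} (hk : Integrable k μ)
    (h : ∀ᵐ a ∂μ, Summable (fun i => ‖f i a‖) ∧ ∑' i, ‖f i a‖ ≤ k a) :
    ∫ a, ∑' i, f i a ∂μ = ∑' i, ∫ a, f i a ∂μ := by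
  refine integral_tsum hf ?_
  rw [← lintegral_tsum fun i => (hf i).enorm]
  refine ne_top_of_le_ne_top hk.2.ne (lintegral_mono_ae ?_)
  filter_upwards [h] with a ha
  simp only [← ofReal_norm_eq_enorm]
  rw [← ENNReal.ofReal_tsum_of_nonneg (fun _ => norm_nonneg _) ha.1]
  exact ENNReal.ofReal_le_ofReal (ha.2.trans (le_abs_self _))

variable {K : Type} [Field K] [NumberField K] [P : Pre K]

theorem cv_mem_cube {Y : ℝ} {y : Pl K → ℝ} : y ∈ cube K Y ↔ ∀ v, |y v| ≤ Y := by
  simp only [cube, Set.mem_Icc, Pi.le_def, abs_le, forall_and]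

theorem cv_compact (Y : ℝ) : IsCompact (cube K Y) := isCompact_Icc

theorem cv_meas (Y : ℝ) : MeasurableSet (cube K Y) := measurableSet_Icc

instance cv_fin (Y : ℝ) : IsFiniteMeasure (volume.restrict (cube K Y)) :=
  isFiniteMeasure_restrict.2 (cv_compact Y).measure_ne_top

theorem cv_mem_cube_norm {Y : ℝ} {y : Pl K → ℝ} (h : ‖y‖ ≤ Y) : y ∈ cube K Y :=
  cv_mem_cube.2 fun v => (norm_le_pi_norm y v).trans h

theorem cv_intOn {E : Type*} [NormedAddCommGroup E] {f : (Pl K → ℝ) → E} (hf : Continuous f)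
    (Y : ℝ) : Integrable f (volume.restrict (cube K Y)) :=
  hf.continuousOn.integrableOn_compact (cv_compact Y)

theorem cv_cs_cube {f : (Pl K → ℝ) → ℂ} (hf : Continuous f) (Y : ℝ) :
    ‖∫ y in cube K Y, f y‖ ^ 2 ≤ volume.real (cube K Y) * ∫ y in cube K Y, ‖f y‖ ^ 2 := by
  have h := cv_cs (μ := volume.restrict (cube K Y)) (f := fun y => ‖f y‖) (g := fun _ => 1)
    (fun _ => zero_le_one) (integrable_const _) (cv_intOn (by fun_prop) Y)
    (cv_intOn (by fun_prop) Y)
  simp only [mul_one, integral_const, MeasurableSet.univ, measureReal_restrict_apply,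
    Set.univ_inter, smul_eq_mul] at h
  exact (pow_le_pow_left₀ (norm_nonneg _) (norm_integral_le_integral_norm _) 2).trans h

theorem cv_norm_cube_le {E : Type*} [NormedAddCommGroup E] [NormedSpace ℝ E]
    {f : (Pl K → ℝ) → E} {Y C : ℝ} (h : ∀ y ∈ cube K Y, ‖f y‖ ≤ C) :
    ‖∫ y in cube K Y, f y‖ ≤ C * volume.real (cube K Y) :=
  norm_setIntegral_le_of_norm_le_const (cv_compact Y).measure_lt_top h

theorem cv_cube_pos {f : (Pl K → ℝ) → ℝ} (hf : Continuous f) (h : ∀ y, 0 < f y) :
    0 < ∫ y in cube K 1, f y := by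
  rw [setIntegral_pos_iff_support_of_nonneg_ae (Eventually.of_forall fun y => (h y).le)
    (cv_intOn hf 1)]
  have h1 : Function.support f = Set.univ := Set.eq_univ_of_forall fun y => (h y).ne'
  rw [h1, Set.univ_inter]
  exact (Metric.measure_ball_pos volume (0 : Pl K → ℝ) one_pos).trans_le
    (measure_mono fun y hy => cv_mem_cube_norm (mem_ball_zero_iff.1 hy).le)

theorem cv_int_pos {f : (Pl K → ℝ) → ℝ} (hf : Integrable f) (h : ∀ y, 0 < f y) :
    0 < ∫ y, f y := by
  rw [integral_pos_iff_support_of_nonneg (fun y => (h y).le) hf]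
  have h1 : Function.support f = Set.univ := Set.eq_univ_of_forall fun y => (h y).ne'
  rw [h1]
  exact isOpen_univ.measure_pos _ Set.univ_nonempty

theorem cv_cont_of_cube {X : Type*} [TopologicalSpace X] {f : (Pl K → ℝ) → X}
    (h : ∀ Y, ContinuousOn f (cube K Y)) : Continuous f := by
  refine continuous_iff_continuousAt.2 fun y => (h (‖y‖ + 1)).continuousAt ?_
  refine mem_of_superset (Metric.ball_mem_nhds y one_pos) fun z hz => cv_mem_cube_norm ?_
  have := norm_le_norm_add_const_of_dist_le (Metric.mem_ball.1 hz).le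
  linarith

theorem cv_prod {E : Type*} [NormedAddCommGroup E] [SecondCountableTopology E]
    {h : (Pl K → ℝ) → (Pl K → ℝ) → E}
    (hc : Continuous (Function.uncurry h)) {k : (Pl K → ℝ) → ℝ} (hk : Integrable k) {Y : ℝ}
    (hb : ∀ y ∈ cube K Y, ∀ s, ‖h y s‖ ≤ k s) :
    Integrable (Function.uncurry h) ((volume.restrict (cube K Y)).prod volume) := by
  refine (hk.comp_snd _).mono' hc.aestronglyMeasurable ?_
  have h1 : ∀ᵐ p : (Pl K → ℝ) × (Pl K → ℝ) ∂((volume.restrict (cube K Y)).prod volume),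
      p.1 ∈ cube K Y :=
    (Measure.quasiMeasurePreserving_fst).ae (ae_restrict_mem (cv_meas Y))
  filter_upwards [h1] with p hp using hb _ hp _

/-- the dominating function -/
def cv_E (b : ℝ) (s : Pl K → ℝ) : ℝ := Real.exp (b * ∑ v, s v - ∑ v, s v ^ 2)

theorem cv_E_pos (b : ℝ) (s : Pl K → ℝ) : 0 < cv_E b s := Real.exp_pos _

theorem cv_E_int (b : ℝ) : Integrable (cv_E b : (Pl K → ℝ) → ℝ) := by
  have h1 : Integrable fun x : ℝ => Real.exp (b * x - x ^ 2) := by
    refine ((integrable_exp_neg_mul_sq (b := 1 / 2) (by norm_num)).const_mul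
      (Real.exp (b ^ 2 / 2))).mono' (by fun_prop : Continuous _).aestronglyMeasurable
      (Eventually.of_forall fun x => ?_)
    rw [Real.norm_of_nonneg (Real.exp_pos _).le, ← Real.exp_add, Real.exp_le_exp]
    nlinarith [sq_nonneg (x - b)]
  have h2 := Integrable.fintype_prod (μ := fun _ : Pl K => (volume : Measure ℝ))
    (f := fun _ x => Real.exp (b * x - x ^ 2)) fun _ => h1
  refine h2.congr (Eventually.of_forall fun s => ?_)
  simp only [cv_E, ← Real.exp_sum, Finset.sum_sub_distrib, Finset.mul_sum]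

theorem cv_E_mul (a b : ℝ) (s : Pl K → ℝ) :
    Real.exp (a * ∑ v, s v) * cv_E b s = cv_E (a + b) s := by
  rw [cv_E, cv_E, ← Real.exp_add]; congr 1; ring

theorem cv_tF {L : ℝ} : ∀ᶠ t in tF K, ∑ v, t v ≤ L :=
  (tendsto_comap (f := fun t : Pl K → ℝ => ∑ v, t v)).eventually (eventually_le_atBot L)

instance cv_tF_cg : (tF K).IsCountablyGenerated := by
  unfold tF; infer_instance

theorem cv_sq_sub (a b : ℂ) : ‖a - b‖ ^ 2 ≤ 2 * ‖a‖ ^ 2 + 2 * ‖b‖ ^ 2 := by
  have := pow_le_pow_left₀ (norm_nonneg _) (norm_sub_le a b) 2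
  nlinarith [sq_nonneg (‖a‖ - ‖b‖)]

end Crest.Agent.GQ
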