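import Crest.Agent.GQ.ThConvAux1

/-! # GQ ThConvAux2: the abstract convolution trick -/

set_option autoImplicit false

noncomputable section

open NumberField Complex Filter Topology
open scoped ComplexConjugate

namespace Crest.Agent.GQ

open MeasureTheory

variable {K : Type} [Field K] [NumberField K] [P : Pre K]

theorem cv_growth {a C : ℝ} {z : ℂ} {t s : Pl K → ℝ}
    (h : ‖z‖ ≤ C * Real.exp (-a * ∑ v, (t - s) v)) :
    ‖z‖ ≤ C * Real.exp (-a * ∑ v, t v) * Real.exp (a * ∑ v, s v) := by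
  rw [mul_assoc, ← Real.exp_add]
  refine h.trans (le_of_eq ?_)
  simp only [Pi.sub_apply, Finset.sum_sub_distrib]
  congr 2
  ring

theorem cv_abs {D : (Pl K → ℝ) → (Pl K → ℝ) → ℂ} {φ : (Pl K → ℝ) → (Pl K → ℝ) → ℝ}
    (hD : Continuous (Function.uncurry D)) (hφ : Continuous (Function.uncurry φ))
    (hφ0 : ∀ y s, 0 < φ y s) {a b : ℝ} (ha : 0 ≤ a)
    (hφb : ∀ Y, ∃ C, ∀ y ∈ cube K Y, ∀ s, φ y s ≤ C * cv_E b s)
    (hDb : ∀ Y, ∃ C, 0 ≤ C ∧ ∀ y ∈ cube K Y, ∀ t, ‖D y t‖ ≤ C * Real.exp (-a * ∑ v, t v))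
    (hsym : ∀ y y' t, ∫ s, D y (t - s) * φ y' s = ∫ s, D y' (t - s) * φ y s)
    (hc : ∀ Y ε : ℝ, 0 < ε → ∃ L : ℝ, ∀ t t' : Pl K → ℝ, ∑ v, t v ≤ L → ∑ v, t' v ≤ L →
      ∫ y in cube K Y, ‖D y t - D y t'‖ ^ 2 ≤ ε)
    (hb : ∀ Y : ℝ, ∃ B : ℝ, ∀ t : Pl K → ℝ, ∑ v, t v ≤ 0 → ∫ y in cube K Y, ‖D y t‖ ^ 2 ≤ B) :
    ∃ τ : ℂ, ∀ Y : ℝ, Tendsto
      (fun t => ∫ y in cube K Y, ‖D y t - τ * ((∫ s, φ y s : ℝ) : ℂ)‖ ^ 2) (tF K) (𝓝 0) := by
  have hDy : ∀ t, Continuous fun y => D y t := fun t => hD.uncurry_right t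
  have hDs : ∀ y t, Continuous fun s => D y (t - s) := fun y t =>
    (hD.uncurry_left y).comp (by fun_prop)
  have hb' : ∀ Y : ℝ, ∃ B : ℝ, ∀ t : Pl K → ℝ, ∫ y in cube K Y, ‖D y t‖ ^ 2 ≤ B := by
    intro Y
    obtain ⟨B, hB⟩ := hb Y
    obtain ⟨C, hC0, hC⟩ := hDb Y
    refine ⟨max B (C ^ 2 * volume.real (cube K Y)), fun t => ?_⟩
    rcases le_total (∑ v, t v) 0 with h | h
    · exact (hB t h).trans (le_max_left _ _)
    · refine le_trans ((le_abs_self _).trans (cv_norm_cube_le (f := fun y => ‖D y t‖ ^ 2)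
        fun y hy => ?_)) (le_max_right _ _)
      rw [Real.norm_of_nonneg (sq_nonneg _)]
      refine pow_le_pow_left₀ (norm_nonneg _) ((hC y hy t).trans ?_) 2
      exact mul_le_of_le_one_right hC0 (Real.exp_le_one_iff.2 (by nlinarith))
  -- the averaged quantities
  set A : (Pl K → ℝ) → ℂ := fun t => ∫ y in cube K 1, D y t with hA
  have hAc : Continuous A :=
    continuous_parametric_integral_of_continuous (f := fun t y => D y t)
      (hD.comp continuous_swap) (cv_compact 1)
  obtain ⟨BA, hBA⟩ : ∃ B, ∀ t, ‖A t‖ ≤ B := by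
    obtain ⟨B, hB⟩ := hb' 1
    refine ⟨Real.sqrt (volume.real (cube K 1) * B), fun t => Real.le_sqrt_of_sq_le ?_⟩
    exact (cv_cs_cube (hDy t) 1).trans (mul_le_mul_of_nonneg_left (hB t) measureReal_nonneg)
  obtain ⟨Ai, hAi⟩ : ∃ z, Tendsto A (tF K) (𝓝 z) := by
    refine cauchy_map_iff_exists_tendsto.1 (Metric.cauchy_iff.2 ⟨inferInstance, fun ε hε => ?_⟩)
    have hv : 0 ≤ volume.real (cube K 1) := measureReal_nonneg
    obtain ⟨L, hL⟩ := hc 1 (ε ^ 2 / (volume.real (cube K 1) + 1)) (by positivity)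
    refine ⟨A '' {t | ∑ v, t v ≤ L}, image_mem_map cv_tF, ?_⟩
    rintro _ ⟨t, ht, rfl⟩ _ ⟨t', ht', rfl⟩
    rw [dist_eq_norm, hA, ← integral_sub (cv_intOn (hDy t) 1) (cv_intOn (hDy t') 1)]
    refine lt_of_pow_lt_pow_left₀ 2 hε.le ((cv_cs_cube ((hDy t).sub (hDy t')) 1).trans_lt ?_)
    refine (mul_le_mul_of_nonneg_left (hL t t' ht ht') hv).trans_lt ?_
    rw [← mul_div_assoc, div_lt_iff₀ (by positivity)]
    nlinarith [sq_pos_of_pos hε]
  set G : (Pl K → ℝ) → ℝ := fun s => ∫ y in cube K 1, φ y s with hG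
  have hGc : Continuous G :=
    continuous_parametric_integral_of_continuous (f := fun s y => φ y s)
      (hφ.comp continuous_swap) (cv_compact 1)
  have hG0 : ∀ s, 0 < G s := fun s => cv_cube_pos (hφ.uncurry_right s) fun y => hφ0 y s
  obtain ⟨C₁, hC₁⟩ := hφb 1
  obtain ⟨CG, hCG⟩ : ∃ C, ∀ s, G s ≤ C * cv_E b s := by
    refine ⟨C₁ * volume.real (cube K 1), fun s => ?_⟩
    rw [mul_right_comm]
    exact (le_abs_self _).trans (cv_norm_cube_le (f := fun y => φ y s) fun y hy => by
      rw [Real.norm_of_nonneg (hφ0 y s).le]; exact hC₁ y hy s)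
  have hGi : Integrable G := ((cv_E_int b).const_mul CG).mono' hGc.aestronglyMeasurable
    (Eventually.of_forall fun s => by rw [Real.norm_of_nonneg (hG0 s).le]; exact hCG s)
  set M : ℝ := ∫ s, G s with hM
  have hM0 : 0 < M := cv_int_pos hGi hG0
  have hMC : (M : ℂ) ≠ 0 := by exact_mod_cast hM0.ne'
  -- the key identity
  have hid : ∀ Y, ∀ y ∈ cube K Y, ∀ t, ∫ s, D y (t - s) * G s = ∫ s, A (t - s) * φ y s := by
    intro Y y hy t
    obtain ⟨C, hC0, hC⟩ := hDb Y
    obtain ⟨C', hC0', hC'⟩ := hDb 1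
    obtain ⟨C₂, hC₂⟩ := hφb Y
    have e1 := integral_integral_swap (cv_prod (h := fun y' s => D y (t - s) * φ y' s)
      (((hDs y t).comp continuous_snd).mul (continuous_ofReal.comp hφ))
      ((cv_E_int (a + b)).const_mul (C * Real.exp (-a * ∑ v, t v) * C₁)) (Y := 1) fun y' hy' s => by
        rw [norm_mul, Complex.norm_real, Real.norm_of_nonneg (hφ0 _ _).le, ← cv_E_mul]
        refine (mul_le_mul (cv_growth (hC y hy _)) (hC₁ y' hy' s) (hφ0 _ _).le
          (by positivity)).trans (le_of_eq (by ring)))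
    have e2 := integral_integral_swap (cv_prod (h := fun y' s => D y' (t - s) * φ y s)
      ((hD.comp (continuous_fst.prodMk (continuous_const.sub continuous_snd))).mul
        (continuous_ofReal.comp ((hφ.uncurry_left y).comp continuous_snd)))
      ((cv_E_int (a + b)).const_mul (C' * Real.exp (-a * ∑ v, t v) * C₂)) (Y := 1) fun y' hy' s => by
        rw [norm_mul, Complex.norm_real, Real.norm_of_nonneg (hφ0 _ _).le, ← cv_E_mul]
        refine (mul_le_mul (cv_growth (hC' y' hy' _)) (hC₂ y hy s) (hφ0 _ _).le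
          (by positivity)).trans (le_of_eq (by ring)))
    simp only [integral_const_mul, integral_mul_const, integral_complex_ofReal] at e1 e2
    simp only [hG, hA]
    rw [← e1, ← e2]
    simp only [hsym y]
  refine ⟨Ai / M, fun Y => ?_⟩
  obtain ⟨C, hC0, hC⟩ := hDb Y
  obtain ⟨C₂, hC₂⟩ := hφb Y
  obtain ⟨B, hB⟩ := hb' Y
  set E : (Pl K → ℝ) → (Pl K → ℝ) → ℝ :=
    fun t s => ∫ y in cube K Y, ‖D y t - D y (t - s)‖ ^ 2 with hE
  have hDD : ∀ t, Continuous fun p : (Pl K → ℝ) × (Pl K → ℝ) => ‖D p.1 t - D p.1 (t - p.2)‖ ^ 2 :=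
    fun t => (((hDy t).comp continuous_fst).sub
      (hD.comp (continuous_fst.prodMk (continuous_const.sub continuous_snd)))).norm.pow 2
  have hE0 : ∀ t s, 0 ≤ E t s := fun t s => integral_nonneg fun y => sq_nonneg _
  have hR1 : Tendsto (fun t => ∫ s, E t s * G s) (tF K) (𝓝 0) := by
    have h := tendsto_integral_filter_of_dominated_convergence (μ := volume) (l := tF K)
      (F := fun t s => E t s * G s) (f := fun _ => 0) (fun s => (2 * B + 2 * B) * G s)
      (Eventually.of_forall fun t => ((continuous_parametric_integral_of_continuous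
        (f := fun s y => ‖D y t - D y (t - s)‖ ^ 2) ((hDD t).comp continuous_swap)
        (cv_compact Y)).mul hGc).aestronglyMeasurable)
      (Eventually.of_forall fun t => Eventually.of_forall fun s => ?_) (hGi.const_mul _)
      (Eventually.of_forall fun s => ?_)
    · simpa using h
    · rw [Real.norm_of_nonneg (mul_nonneg (hE0 t s) (hG0 s).le)]
      refine mul_le_mul_of_nonneg_right ?_ (hG0 s).le
      have i1 : Integrable (fun y => 2 * ‖D y t‖ ^ 2) (volume.restrict (cube K Y)) :=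
        (cv_intOn ((hDy t).norm.pow 2) Y).const_mul 2
      have i2 : Integrable (fun y => 2 * ‖D y (t - s)‖ ^ 2) (volume.restrict (cube K Y)) :=
        (cv_intOn ((hDy (t - s)).norm.pow 2) Y).const_mul 2
      refine (integral_mono_of_nonneg (Eventually.of_forall fun y => sq_nonneg _) (i1.add i2)
        (Eventually.of_forall fun y => cv_sq_sub _ _)).trans ?_
      rw [integral_add' i1 i2, integral_const_mul, integral_const_mul]
      linarith [hB t, hB (t - s)]
    · rw [← zero_mul (G s)]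
      refine Tendsto.mul_const _ (Metric.tendsto_nhds.2 fun ε hε => ?_)
      obtain ⟨L, hL⟩ := hc Y (ε / 2) (by positivity)
      filter_upwards [cv_tF (L := L), cv_tF (L := L + ∑ v, s v)] with t h1 h2
      rw [Real.dist_0_eq_abs, abs_of_nonneg (hE0 t s)]
      refine (hL t (t - s) h1 ?_).trans_lt (by linarith)
      simp only [Pi.sub_apply, Finset.sum_sub_distrib]
      linarith
  have hR2 : Tendsto (fun t => ∫ s, ‖A (t - s) - Ai‖ * (|C₂| * cv_E b s)) (tF K) (𝓝 0) := by
    have h := tendsto_integral_filter_of_dominated_convergence (μ := volume) (l := tF K)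
      (F := fun t s => ‖A (t - s) - Ai‖ * (|C₂| * cv_E b s)) (f := fun _ => 0)
      (fun s => (BA + ‖Ai‖) * (|C₂| * cv_E b s))
      (Eventually.of_forall fun t => AEStronglyMeasurable.mul
        (by fun_prop : Continuous _).aestronglyMeasurable
        ((cv_E_int b).const_mul _).aestronglyMeasurable)
      (Eventually.of_forall fun t => Eventually.of_forall fun s => ?_)
      (((cv_E_int b).const_mul _).const_mul _) (Eventually.of_forall fun s => ?_)
    · simpa using h
    · have := cv_E_pos b s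
      rw [Real.norm_of_nonneg (by positivity)]
      gcongr
      exact (norm_sub_le _ _).trans (by linarith [hBA (t - s)])
    · rw [← zero_mul (|C₂| * cv_E b s)]
      refine Tendsto.mul_const _ (tendsto_iff_norm_sub_tendsto_zero.1 ?_)
      simpa only [sub_eq_add_neg, Function.comp_def] using hAi.comp (tendsto_add_tF (-s))
  have hlim : Tendsto (fun t => 2 / M * (∫ s, E t s * G s) + 2 / M ^ 2 *
      (∫ s, ‖A (t - s) - Ai‖ * (|C₂| * cv_E b s)) ^ 2 * volume.real (cube K Y)) (tF K) (𝓝 0) := by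
    simpa using (hR1.const_mul (2 / M)).add
      (((hR2.pow 2).const_mul (2 / M ^ 2)).mul_const (volume.real (cube K Y)))
  refine squeeze_zero (fun t => integral_nonneg fun y => sq_nonneg _) (fun t => ?_) hlim
  have hbd : ∀ y ∈ cube K Y, ∀ s, ‖‖D y t - D y (t - s)‖ ^ 2 * G s‖ ≤
      2 * (C * Real.exp (-a * ∑ v, t v)) ^ 2 * |CG| * (cv_E b s + cv_E (a + (a + b)) s) := by
    intro y hy s
    have h1 := pow_le_pow_left₀ (norm_nonneg _) (hC y hy t) 2
    have h2 := pow_le_pow_left₀ (norm_nonneg _) (cv_growth (hC y hy (t - s))) 2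
    have h3 : G s ≤ |CG| * cv_E b s :=
      (hCG s).trans (mul_le_mul_of_nonneg_right (le_abs_self _) (cv_E_pos _ _).le)
    rw [Real.norm_of_nonneg (mul_nonneg (sq_nonneg _) (hG0 s).le), ← cv_E_mul, ← cv_E_mul]
    refine (mul_le_mul ((cv_sq_sub _ _).trans (add_le_add (mul_le_mul_of_nonneg_left h1 zero_le_two)
      (mul_le_mul_of_nonneg_left h2 zero_le_two))) h3 (hG0 s).le (by positivity)).trans
      (le_of_eq (by ring))
  have hP := cv_prod (h := fun y s => ‖D y t - D y (t - s)‖ ^ 2 * G s)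
    (by exact (hDD t).mul (hGc.comp continuous_snd))
    (((cv_E_int b).add (cv_E_int (a + (a + b)))).const_mul _) hbd
  have e1 := integral_integral_swap hP
  simp only [integral_mul_const] at e1
  set R2 := ∫ s, ‖A (t - s) - Ai‖ * (|C₂| * cv_E b s) with hR2def
  have i1 : Integrable (fun y => 2 / M * ∫ s, ‖D y t - D y (t - s)‖ ^ 2 * G s)
      (volume.restrict (cube K Y)) := hP.integral_prod_left.const_mul _
  have i2 : Integrable (fun _ : Pl K → ℝ => 2 / M ^ 2 * R2 ^ 2) (volume.restrict (cube K Y)) :=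
    integrable_const _
  refine (integral_mono_of_nonneg (Eventually.of_forall fun y => sq_nonneg _) (i1.add i2)
    ((ae_restrict_mem (cv_meas Y)).mono fun y hy => ?_)).trans (le_of_eq ?_)
  swap
  · rw [integral_add' i1 i2, integral_const_mul, e1, setIntegral_const, smul_eq_mul,
      mul_comm (volume.real _)]
  -- the pointwise estimate
  have j2 : Integrable fun s => ‖D y t - D y (t - s)‖ ^ 2 * G s :=
    (((cv_E_int b).add (cv_E_int (a + (a + b)))).const_mul _).mono'
      (((continuous_const.sub (hDs y t)).norm.pow 2).mul hGc).aestronglyMeasurable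
      (Eventually.of_forall (hbd y hy))
  have j1 : Integrable fun s => ‖D y t - D y (t - s)‖ * G s :=
    (hGi.add j2).mono' (((continuous_const.sub (hDs y t)).norm).mul hGc).aestronglyMeasurable
      (Eventually.of_forall fun s => by
        rw [Real.norm_of_nonneg (mul_nonneg (norm_nonneg _) (hG0 s).le)]
        have := mul_nonneg (sq_nonneg (‖D y t - D y (t - s)‖ - 1)) (hG0 s).le
        have := mul_nonneg (norm_nonneg (D y t - D y (t - s))) (hG0 s).le
        simp only [Pi.add_apply]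
        nlinarith)
  have j3 : Integrable fun s => (D y t - D y (t - s)) * (G s : ℂ) :=
    j1.mono' ((continuous_const.sub (hDs y t)).mul
      (continuous_ofReal.comp hGc)).aestronglyMeasurable (Eventually.of_forall fun s => by
        rw [norm_mul, Complex.norm_real, Real.norm_of_nonneg (hG0 s).le])
  have hφC : ∀ s, φ y s ≤ |C₂| * cv_E b s := fun s =>
    (hC₂ y hy s).trans (mul_le_mul_of_nonneg_right (le_abs_self _) (cv_E_pos _ _).le)
  have j4 : Integrable (φ y) := ((cv_E_int b).const_mul _).mono'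
    (hφ.uncurry_left y).aestronglyMeasurable
    (Eventually.of_forall fun s => by rw [Real.norm_of_nonneg (hφ0 y s).le]; exact hφC s)
  have j5 : Integrable fun s => A (t - s) * (φ y s : ℂ) :=
    j4.ofReal.bdd_mul (c := BA) (by fun_prop : Continuous _).aestronglyMeasurable
      (Eventually.of_forall fun s => hBA _)
  have j6 : Integrable fun s => D y t * (G s : ℂ) := hGi.ofReal.const_mul _
  have j7 : Integrable fun s => D y (t - s) * (G s : ℂ) :=
    (j6.sub j3).congr (Eventually.of_forall fun s => by simp only [Pi.sub_apply]; ring)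
  have j8 : Integrable fun s => Ai * (φ y s : ℂ) := j4.ofReal.const_mul _
  have k1 : D y t - Ai / M * ((∫ s, φ y s : ℝ) : ℂ) = (M : ℂ)⁻¹ *
      ((∫ s, (D y t - D y (t - s)) * (G s : ℂ)) + ∫ s, (A (t - s) - Ai) * (φ y s : ℂ)) := by
    simp only [sub_mul]
    rw [integral_sub j6 j7, integral_sub j5 j8, hid Y y hy t, integral_const_mul,
      integral_const_mul, integral_complex_ofReal, integral_complex_ofReal]
    field_simp
    ring
  have k2 : ‖∫ s, (D y t - D y (t - s)) * (G s : ℂ)‖ ^ 2 ≤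
      M * ∫ s, ‖D y t - D y (t - s)‖ ^ 2 * G s := by
    refine le_trans (pow_le_pow_left₀ (norm_nonneg _) ?_ 2) (cv_cs (fun s => (hG0 s).le) hGi j1 j2)
    refine (norm_integral_le_integral_norm _).trans (le_of_eq ?_)
    simp only [norm_mul, Complex.norm_real, Real.norm_of_nonneg (hG0 _).le]
  have k3 : ‖∫ s, (A (t - s) - Ai) * (φ y s : ℂ)‖ ≤ R2 := by
    refine norm_integral_le_of_norm_le (((cv_E_int b).const_mul _).bdd_mul (c := BA + ‖Ai‖)
      (by fun_prop : Continuous _).aestronglyMeasurable (Eventually.of_forall fun s => ?_))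
      (Eventually.of_forall fun s => ?_)
    · rw [norm_norm]
      exact (norm_sub_le _ _).trans (by linarith [hBA (t - s)])
    · rw [norm_mul, Complex.norm_real, Real.norm_of_nonneg (hφ0 _ _).le]
      exact mul_le_mul_of_nonneg_left (hφC s) (norm_nonneg _)
  have k4 := pow_le_pow_left₀ (norm_nonneg _) k3 2
  have k5 := cv_sq_sub (∫ s, (D y t - D y (t - s)) * (G s : ℂ))
    (-∫ s, (A (t - s) - Ai) * (φ y s : ℂ))
  rw [sub_neg_eq_add, norm_neg] at k5
  simp only [Pi.add_apply]
  rw [k1, norm_mul, mul_pow, norm_inv, Complex.norm_real, Real.norm_of_nonneg hM0.le]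
  calc _ ≤ M⁻¹ ^ 2 * (2 * (M * ∫ s, ‖D y t - D y (t - s)‖ ^ 2 * G s) + 2 * R2 ^ 2) :=
        mul_le_mul_of_nonneg_left (by linarith) (by positivity)
    _ = _ := by field_simp

end Crest.Agent.GQ
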