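import Crest.Agent.GQ.Poisson

/-! # GQ ThCountAux: Riemann sums for the weight exp(-pi |z|^6) -/

set_option autoImplicit false

noncomputable section

open NumberField MeasureTheory

namespace Crest.Agent.GQ

/-- The one-variable weight. -/
def co_f (s : ℝ) : ℝ := Real.exp (-Real.pi * s ^ 6)

theorem co_maj {η p s : ℝ} (h : |s - p| ≤ η) :
    Real.exp (-2 * s ^ 6) ≤ Real.exp (7 + 8 * η ^ 2) * Real.exp (-Real.pi * p ^ 2) := by
  rw [← Real.exp_add, Real.exp_le_exp]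
  have h1 : (s - p) ^ 2 ≤ η ^ 2 := sq_le_sq' (abs_le.1 h).1 (abs_le.1 h).2
  have h2 : p ^ 2 ≤ 2 * s ^ 2 + 2 * η ^ 2 := by nlinarith [sq_nonneg (2 * s - p)]
  have h3 : Real.pi * p ^ 2 ≤ 4 * p ^ 2 := mul_le_mul_of_nonneg_right Real.pi_le_four (sq_nonneg p)
  have h4 : 8 * s ^ 2 ≤ 7 + 2 * (s ^ 2) ^ 3 := by
    have := sq_nonneg s
    generalize s ^ 2 = σ at this
    nlinarith [mul_nonneg this (sq_nonneg (σ - 7 / 6)), sq_nonneg (σ - 7 / 6)]
  nlinarith

theorem co_f_le (s : ℝ) : co_f s ≤ Real.exp (-2 * s ^ 6) :=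
  Real.exp_le_exp.2 (by
    have h : 0 ≤ s ^ 6 := by positivity
    linarith [mul_le_mul_of_nonneg_right Real.pi_gt_three.le h])

theorem co_lip {η p q : ℝ} (h : |q - p| ≤ η) :
    |co_f q - co_f p| ≤ 24 * (Real.exp (7 + 8 * η ^ 2) * Real.exp (-Real.pi * p ^ 2)) * |q - p| := by
  have hd : ∀ s : ℝ, HasDerivAt co_f (Real.exp (-Real.pi * s ^ 6) * (-Real.pi * (6 * s ^ 5))) s :=
    fun s => by
      have := ((hasDerivAt_pow 6 s).const_mul (-Real.pi)).exp
      rwa [Nat.cast_ofNat] at this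
  refine (convex_closedBall p η).norm_image_sub_le_of_norm_hasDerivWithin_le
    (fun s _ => (hd s).hasDerivWithinAt) (fun s hs => ?_)
    (Metric.mem_closedBall_self ((abs_nonneg _).trans h)) h
  refine le_trans ?_ (mul_le_mul_of_nonneg_left (co_maj hs) (by norm_num))
  have h1 : |s| ^ 5 ≤ Real.exp (s ^ 6) := by
    refine le_trans ?_ (Real.add_one_le_exp _)
    rw [← Even.pow_abs (by decide : Even 6)]
    rcases le_total |s| 1 with h | h
    · have := pow_le_one₀ (n := 5) (abs_nonneg s) h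
      have : 0 ≤ |s| ^ 6 := by positivity
      linarith
    · linarith [pow_le_pow_right₀ h (by norm_num : 5 ≤ 6)]
  have h2 : Real.exp (-Real.pi * s ^ 6) * Real.exp (s ^ 6) ≤ Real.exp (-2 * s ^ 6) := by
    rw [← Real.exp_add, Real.exp_le_exp]
    linarith [mul_le_mul_of_nonneg_right Real.pi_gt_three.le (by positivity : 0 ≤ s ^ 6)]
  rw [Real.norm_eq_abs, abs_mul, abs_mul, abs_mul, abs_pow, abs_neg, abs_of_pos Real.pi_pos,
    abs_of_pos (Real.exp_pos _), abs_of_pos (by norm_num : (0 : ℝ) < 6)]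
  calc Real.exp (-Real.pi * s ^ 6) * (Real.pi * (6 * |s| ^ 5))
      ≤ Real.exp (-Real.pi * s ^ 6) * (4 * (6 * Real.exp (s ^ 6))) := by
        gcongr
        exact Real.pi_le_four
    _ ≤ _ := by linarith

theorem co_prod {ι : Type} (s : Finset ι) {a b G : ι → ℝ} {η : ℝ} (hη : 0 ≤ η) (ha : ∀ i, |a i| ≤ G i)
    (hb : ∀ i, |b i| ≤ G i) (h : ∀ i, |a i - b i| ≤ η * G i) :
    |∏ i ∈ s, a i - ∏ i ∈ s, b i| ≤ s.card * η * ∏ i ∈ s, G i := by
  classical
  have hG : ∀ i, 0 ≤ G i := fun i => (abs_nonneg _).trans (ha i)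
  induction s using Finset.induction with
  | empty => simp
  | insert i s hi ih =>
    rw [Finset.prod_insert hi, Finset.prod_insert hi, Finset.prod_insert hi,
      Finset.card_insert_of_notMem hi,
      show a i * ∏ i ∈ s, a i - b i * ∏ i ∈ s, b i =
        a i * (∏ i ∈ s, a i - ∏ i ∈ s, b i) + (a i - b i) * ∏ i ∈ s, b i by ring]
    have h1 : |∏ i ∈ s, b i| ≤ ∏ i ∈ s, G i := by
      rw [Finset.abs_prod]
      exact Finset.prod_le_prod (fun _ _ => abs_nonneg _) fun j _ => hb j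
    refine (abs_add_le _ _).trans ?_
    rw [abs_mul, abs_mul]
    refine (add_le_add (mul_le_mul (ha i) ih (abs_nonneg _) (hG i))
      (mul_le_mul (h i) h1 (abs_nonneg _) (mul_nonneg hη (hG i)))).trans (le_of_eq ?_)
    push_cast
    ring

variable {K : Type} [Field K] [NumberField K] [P : Pre K]

/-- The weight. -/
def co_F (t : Pl K → ℝ) (z : Pl K → ℂ) : ℝ :=
  Real.exp (-Real.pi * ∑ v, Real.exp (-6 * t v) * ‖z v‖ ^ 6)

/-- The Gaussian majorant. -/
def co_G (t : Pl K → ℝ) (z : Pl K → ℂ) : ℝ := gau (fun v => Real.exp (2 * t v)) z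

theorem co_F_eq (t : Pl K → ℝ) (z : Pl K → ℂ) :
    co_F t z = ∏ v, co_f (Real.exp (-t v) * ‖z v‖) := by
  simp only [co_F, co_f, Finset.mul_sum, Real.exp_sum, mul_pow, ← Real.exp_nat_mul]
  norm_num

theorem co_G_eq (t : Pl K → ℝ) (z : Pl K → ℂ) :
    co_G t z = ∏ v, Real.exp (-Real.pi * (Real.exp (-t v) * ‖z v‖) ^ 2) := by
  simp only [co_G, gau, Finset.mul_sum, Real.exp_sum, mul_pow, ← Real.exp_nat_mul, div_eq_inv_mul,
    ← Real.exp_neg]
  norm_num

theorem co_F_pos (t : Pl K → ℝ) (z : Pl K → ℂ) : 0 < co_F t z := Real.exp_pos _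

theorem co_G_pos (t : Pl K → ℝ) (z : Pl K → ℂ) : 0 < co_G t z := Real.exp_pos _

theorem co_F_le (t : Pl K → ℝ) (z : Pl K → ℂ) : co_F t z ≤ Real.exp 7 ^ rr K * co_G t z := by
  rw [co_F_eq, co_G_eq, rr, ← Finset.card_univ, ← Finset.prod_const, ← Finset.prod_mul_distrib]
  refine Finset.prod_le_prod (fun _ _ => (Real.exp_pos _).le) fun v _ => (co_f_le _).trans ?_
  simpa using co_maj (η := 0) (p := Real.exp (-t v) * ‖z v‖) (s := Real.exp (-t v) * ‖z v‖) (by simp)

theorem co_diff {t : Pl K → ℝ} {z : Pl K → ℂ} {η η₀ : ℝ} (h0 : 0 ≤ η) (h1 : η ≤ η₀)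
    (h : ∀ v, Real.exp (-t v) * ‖z v‖ ≤ η) (m : Pl K → ℂ) :
    |co_F t (z + m) - co_F t m| ≤ rr K * (24 * η) * (Real.exp (7 + 8 * η₀ ^ 2) ^ rr K * co_G t m) := by
  have key : ∀ v, |Real.exp (-t v) * ‖(z + m) v‖ - Real.exp (-t v) * ‖m v‖| ≤ η := fun v => by
    rw [← mul_sub, abs_mul, abs_of_pos (Real.exp_pos _)]
    refine le_trans (mul_le_mul_of_nonneg_left ?_ (Real.exp_pos _).le) (h v)
    simpa using abs_norm_sub_norm_le ((z + m) v) (m v)
  rw [co_F_eq, co_F_eq, co_G_eq, rr, ← Finset.card_univ, ← Finset.prod_const, ← Finset.prod_mul_distrib]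
  refine co_prod _ (by positivity) (fun v => ?_) (fun v => ?_) fun v => ?_
  · exact (abs_of_pos (Real.exp_pos _)).le.trans ((co_f_le _).trans (co_maj ((key v).trans h1)))
  · exact (abs_of_pos (Real.exp_pos _)).le.trans
      ((co_f_le _).trans (co_maj (by simpa using h0.trans h1)))
  · refine (co_lip ((key v).trans h1)).trans ?_
    rw [mul_right_comm]
    gcongr
    exact key v

theorem co_cont (t : Pl K → ℝ) : Continuous (co_F t) := by
  unfold co_F
  fun_prop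

theorem co_int (t : Pl K → ℝ) : Integrable (co_F t) :=
  ((po_integrable fun v => Real.exp_pos (2 * t v)).const_mul (Real.exp 7 ^ rr K)).mono'
    (co_cont t).aestronglyMeasurable (.of_forall fun z => by
      rw [Real.norm_of_nonneg (co_F_pos t z).le]
      exact co_F_le t z)

theorem co_scale (t : Pl K → ℝ) :
    ∫ z, co_F t z = Real.exp (2 * ∑ v, t v) * ∫ z, co_F (0 : Pl K → ℝ) z := by
  have h : ∀ t : Pl K → ℝ, ∫ z, co_F t z = ∏ v, (Real.exp (2 * t v) * ∫ z : ℂ, co_f ‖z‖) := fun t => by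
    simp only [co_F_eq]
    rw [integral_fintype_prod_volume_eq_prod fun v (z : ℂ) => co_f (Real.exp (-t v) * ‖z‖)]
    refine Finset.prod_congr rfl fun v _ => ?_
    have := Measure.integral_comp_smul volume (fun z : ℂ => co_f ‖z‖) (Real.exp (-t v))
    simp only [norm_smul, Real.norm_of_nonneg (Real.exp_pos _).le] at this
    rw [this, Complex.finrank_real_complex, ← Real.exp_nat_mul, ← Real.exp_neg,
      abs_of_pos (Real.exp_pos _), smul_eq_mul]
    norm_num
  rw [h, h, Finset.prod_mul_distrib, Finset.prod_mul_distrib, Finset.mul_sum, Real.exp_sum]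
  simp

theorem co_I_pos : 0 < ∫ z, co_F (0 : Pl K → ℝ) z := integral_exp_pos (co_int 0)

theorem co_sz (x : K) (t : Pl K → ℝ) : (∏ v, Real.exp (2 * t v)) / NS x = sz x t := by
  rw [sz, Finset.mul_sum, Real.exp_sum]

theorem co_G_summable {x : K} (hx : x ≠ 0) (t : Pl K → ℝ) :
    Summable fun n : Lat x => co_G t (emb ((n : R K) : K)) := by
  simpa [co_G] using summable_gau hx (fun v => Real.exp_pos (2 * t v)) 0 0

theorem co_F_summable {x : K} (hx : x ≠ 0) (t : Pl K → ℝ) :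
    Summable fun n : Lat x => co_F t (emb ((n : R K) : K)) :=
  .of_nonneg_of_le (fun _ => (co_F_pos _ _).le) (fun _ => co_F_le _ _)
    ((co_G_summable hx t).mul_left _)

theorem co_riemann {x : K} (hx : x ≠ 0) (t : Pl K → ℝ) {A : ℝ}
    (h : ∀ z ∈ fd x, ∀ m, |co_F t (z + m) - co_F t m| ≤ A * co_G t m) :
    |∑' n : Lat x, co_F t (emb ((n : R K) : K)) - (∫ z, co_F (0 : Pl K → ℝ) z) / cov K * sz x t| ≤
      A * ∑' n : Lat x, co_G t (emb ((n : R K) : K)) := by
  have hV : 0 < cov K * NS x := mul_pos cov_pos (NS_pos hx)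
  have h1 : ∫ z, co_F t z = ∑' n : Lat x, ∫ z in fd x, co_F t (z + emb ((n : R K) : K)) := by
    rw [(isFund_fd hx).integral_eq_tsum'' _ (co_int t), ← (fd_equiv x).tsum_eq]
    refine tsum_congr fun n => integral_congr_ae (.of_forall fun z => ?_)
    simp only
    rw [add_comm]
    rfl
  have h2 : ∀ m, ‖(∫ z in fd x, co_F t (z + m)) - cov K * NS x * co_F t m‖ ≤
      cov K * NS x * (A * co_G t m) := fun m => by
    have := fd_finite hx
    have e := norm_setIntegral_le_of_norm_le_const (μ := volume)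
      (f := fun z => co_F t (z + m) - co_F t m) (isBounded_fd hx).measure_lt_top fun z hz => h z hz m
    rwa [integral_sub ((co_int t).comp_add_right m).integrableOn (integrable_const _), integral_const,
      measureReal_restrict_apply_univ, fd_volume_real hx, smul_eq_mul, mul_comm (A * _)] at e
  have s1 := ((co_G_summable hx t).mul_left A).mul_left (cov K * NS x)
  have s2 := (co_F_summable hx t).mul_left (cov K * NS x)
  have s3 := Summable.of_norm_bounded s1 fun n => h2 (emb ((n : R K) : K))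
  have h3 := tsum_of_norm_bounded s1.hasSum fun n => h2 (emb ((n : R K) : K))
  rw [Summable.tsum_sub (by simpa using s3.add s2) s2, ← h1, co_scale, tsum_mul_left, tsum_mul_left,
    tsum_mul_left, Real.norm_eq_abs, abs_sub_comm] at h3
  refine le_of_mul_le_mul_left (le_trans (le_of_eq ?_) h3) hV
  rw [← abs_of_pos hV, ← abs_mul, abs_of_pos hV, sz]
  have := (cov_pos (K := K)).ne'
  have := (NS_pos hx).ne'
  congr 1
  field_simp

theorem co_main {σ : K} (hσ : σ ≠ 0) (B : ℝ) : ∃ C : ℝ, ∀ t : Pl K → ℝ,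
    (∀ v, (∑ w, t w) / rr K - B ≤ t v) → 1 ≤ sz σ t →
    |∑' n : Lat σ, co_F t (emb ((n : R K) : K)) - (∫ z, co_F (0 : Pl K → ℝ) z) / cov K * sz σ t| ≤
      C * sz σ t ^ (1 - 1 / (2 * rr K : ℝ)) := by
  obtain ⟨D, hD0, hD⟩ := (isBounded_fd hσ).exists_pos_norm_le
  obtain ⟨C, hC⟩ := tsum_gau_le (K := K)
  have hr : (0 : ℝ) < rr K := Nat.cast_pos.2 rr_pos
  have hN := NS_pos hσ
  set δ : ℝ := 1 / (2 * rr K) with hδ
  set η₀ := D * Real.exp B * NS σ ^ (-δ)
  refine ⟨rr K * (24 * η₀) * Real.exp (7 + 8 * η₀ ^ 2) ^ rr K * (2 * |C|), fun t ht h1 => ?_⟩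
  have h0 := sz_pos hσ t
  have h2 : sz σ t ^ (-δ) ≤ 1 := Real.rpow_le_one_of_one_le_of_nonpos h1 (neg_nonpos.2 (by positivity))
  have h3 : NS σ ^ (-δ) * sz σ t ^ (-δ) = Real.exp (-((∑ w, t w) / rr K)) := by
    rw [← Real.mul_rpow hN.le h0.le, sz, mul_div_cancel₀ _ hN.ne', ← Real.exp_mul, hδ]
    congr 1
    field_simp
  refine (co_riemann hσ t (A := rr K * (24 * (η₀ * sz σ t ^ (-δ))) * Real.exp (7 + 8 * η₀ ^ 2) ^ rr K)
    fun z hz m => ?_).trans ?_
  · rw [mul_assoc (_ * _)]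
    refine co_diff (by positivity) (mul_le_of_le_one_right (by positivity) h2) (fun v => ?_) m
    rw [mul_assoc, h3, mul_assoc, ← Real.exp_add, mul_comm]
    exact mul_le_mul ((norm_le_pi_norm z v).trans (hD z hz))
      (Real.exp_le_exp.2 (by linarith [ht v])) (Real.exp_pos _).le hD0.le
  · have h4 := hC σ hσ _ (fun v => Real.exp_pos (2 * t v)) 0
    simp only [add_zero, co_sz] at h4
    have h5 : C * (1 + sz σ t) ≤ 2 * |C| * sz σ t :=
      (mul_le_mul (le_abs_self C) (by linarith : 1 + sz σ t ≤ 2 * sz σ t) (by positivity)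
        (abs_nonneg C)).trans (le_of_eq (by ring))
    refine (mul_le_mul_of_nonneg_left (h4.trans h5) (by positivity)).trans (le_of_eq ?_)
    rw [sub_eq_add_neg 1 δ, Real.rpow_add h0, Real.rpow_one]
    ring

theorem co_inv (u : (R K)ˣ) {x x' : K} (hx : x ≠ 0) (hx' : x' ≠ 0)
    (h1 : InT x (((u : R K) : K) * x')) (h2 : InT (((u : R K) : K) * x') x) (t : Pl K → ℝ) :
    ∑' n : Lat x, co_F t (emb ((n : R K) : K)) =
      ∑' n : Lat x', co_F (t - lg ((u : R K) : K)) (emb ((n : R K) : K)) ∧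
    sz x t = sz x' (t - lg ((u : R K) : K)) := by
  have hu : ((u : R K) : K) ≠ 0 := fun e => u.ne_zero (Subtype.ext e)
  constructor
  · rw [← (u.mulLeft.subtypeEquiv (p := (· ∈ Lat x')) (q := (· ∈ Lat x)) fun n => ?_).tsum_eq]
    · refine tsum_congr fun n => ?_
      simp only [co_F_eq]
      refine Finset.prod_congr rfl fun v _ => congrArg co_f ?_
      change _ * ‖emb (((u : R K) : K) * ((n : R K) : K)) v‖ = _
      rw [emb_mul, Pi.mul_apply, norm_mul, Pi.sub_apply, neg_sub, sub_eq_add_neg, Real.exp_add, lg,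
        Real.exp_log (norm_pos_iff.2 (emb_ne_zero hu v))]
      ring
    · rw [← mem_Lat_mul_iff u.ne_zero, mem_Lat, mem_Lat]
      exact ⟨h1.trans, h2.trans⟩
  · have e : NS x = NS (((u : R K) : K) * x') :=
      le_antisymm (NS_le_of_InT (mul_ne_zero hu hx') h1) (NS_le_of_InT hx h2)
    have := sz_div (mul_ne_zero hu hx') u.ne_zero t
    rw [mul_div_cancel_left₀ _ hu, Nr_eq_one.2 u.isUnit, div_one] at this
    rw [this, sz, sz, e]

theorem co_big : ∃ C : ℝ, ∀ x : K, x ≠ 0 → ∀ t : Pl K → ℝ, 1 ≤ sz x t →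
    |∑' n : Lat x, co_F t (emb ((n : R K) : K)) - (∫ z, co_F (0 : Pl K → ℝ) z) / cov K * sz x t| ≤
      C * sz x t ^ (1 - 1 / (2 * rr K : ℝ)) := by
  obtain ⟨𝒮, h0, h⟩ := cls_fin (K := K) 1 one_pos
  obtain ⟨B, hB⟩ := unit_bal (K := K) 0
  have hC : ∀ σ : 𝒮, _ := fun σ => co_main (h0 σ σ.2) (2 * B)
  choose C hC using hC
  refine ⟨∑ σ, |C σ|, fun x hx t ht => ?_⟩
  obtain ⟨σ, hσ, u, hu⟩ := h x hx
  have hu0 : ((u : R K) : K) ≠ 0 := fun e => u.ne_zero (Subtype.ext e)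
  have hs := mul_ne_zero hu0 (h0 σ hσ)
  rw [pow_one] at hu
  obtain ⟨a1, a2⟩ := co_inv u hx (h0 σ hσ)
    ((InT_iff_div hx).2 (by simpa using U_mem_T (U_inv le_rfl hu)))
    ((InT_iff_div hs).2 (U_mem_T hu)) t
  rw [a2] at ht
  rw [a1, a2]
  generalize t - lg ((u : R K) : K) = t' at ht ⊢
  obtain ⟨ε, e0, e1, e2, -, e3⟩ := hB t'
  let e : (R K)ˣ := Units.mkOfMulEqOne ⟨ε, mem_R_of_int e1⟩ ⟨ε⁻¹, mem_R_of_int e2⟩
    (Subtype.ext (mul_inv_cancel₀ e0))
  obtain ⟨b1, b2⟩ := co_inv e (h0 σ hσ) (h0 σ hσ) ⟨ε, mem_T_of_int e1, mul_comm _ _⟩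
    ⟨ε⁻¹, mem_T_of_int e2, by
      change σ = ε * σ * ε⁻¹
      field_simp⟩ t'
  rw [b2] at ht
  rw [b1, b2]
  refine (hC ⟨σ, hσ⟩ _ (fun v => ?_) ht).trans (mul_le_mul_of_nonneg_right ((le_abs_self _).trans
    (Finset.single_le_sum (f := fun σ => |C σ|) (fun _ _ => abs_nonneg _) (Finset.mem_univ _)))
    (by positivity))
  have hr : (0 : ℝ) < rr K := Nat.cast_pos.2 rr_pos
  have c1 : ∑ w, (t' - lg ε) w ≤ rr K * ((∑ w, t' w) / rr K + B) := by
    rw [← nsmul_eq_mul]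
    refine Finset.sum_le_card_nsmul Finset.univ _ _ fun w _ => ?_
    have := (abs_le.1 (e3 w)).1
    rw [Pi.sub_apply]
    linarith
  have c2 := (abs_le.1 (e3 v)).2
  change (∑ w, (t' - lg ε) w) / rr K - 2 * B ≤ t' v - lg ε v
  rw [← div_le_iff₀' hr] at c1
  linarith

open Classical in
theorem co_small : ∃ C : ℝ, ∀ x : K, x ≠ 0 → ∀ t : Pl K → ℝ,
    ∑' n : Lat x, (if n = 0 then 0 else co_F t (emb ((n : R K) : K))) ≤ C * sz x t := by
  obtain ⟨C, hC⟩ := tsum_gau_ne_zero_le (K := K) (A := 0) (B := 1) le_rfl (by norm_num)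
  refine ⟨Real.exp 7 ^ rr K * C, fun x hx t => ?_⟩
  have h := hC x hx _ fun v => Real.exp_pos (2 * t v)
  simp only [add_zero, Real.rpow_one, min_self, co_sz, Real.rpow_zero, one_mul] at h
  rw [mul_assoc]
  refine le_trans ?_ (mul_le_mul_of_nonneg_left h (by positivity))
  rw [← tsum_mul_left]
  have hle : ∀ n : Lat x, (if n = 0 then 0 else co_F t (emb ((n : R K) : K))) ≤ Real.exp 7 ^ rr K *
      if (n : R K) = 0 then 0 else gau (fun v => Real.exp (2 * t v)) (emb ((n : R K) : K)) := fun n => by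
    by_cases hn : n = 0
    · simp [hn]
    · rw [if_neg hn, if_neg (by simpa using hn)]
      exact co_F_le _ _
  have hs : Summable fun n : Lat x =>
      if (n : R K) = 0 then 0 else gau (fun v => Real.exp (2 * t v)) (emb ((n : R K) : K)) := by
    refine .of_nonneg_of_le (fun n => ?_) (fun n => ?_) (co_G_summable hx t) <;> split_ifs
    exacts [le_rfl, (co_G_pos _ _).le, (co_G_pos _ _).le, le_rfl]
  refine Summable.tsum_le_tsum hle (.of_nonneg_of_le (fun n => ?_) hle (hs.mul_left _)) (hs.mul_left _)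
  split_ifs
  exacts [le_rfl, (co_F_pos _ _).le]

end Crest.Agent.GQ
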