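import Crest.Agent.GQ.Poisson
import Crest.Agent.GQ.Arith
import Crest.Agent.GQ.ThCountAux

/-! # GQ ThCount: counting lattice points with the weight exp(-pi |z|^6) -/

set_option autoImplicit false

noncomputable section

open NumberField Complex
open scoped ComplexConjugate

namespace Crest.Agent.GQ

variable {K : Type} [Field K] [NumberField K] [P : Pre K]

/-- the inclusion of `𝓞` in `T` -/
def co_phi : 𝓞 K →+* T K where
  toFun x := ⟨(x : K), mem_T_of_int x.isIntegral_coe⟩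
  map_one' := Subtype.ext (by simp)
  map_mul' x y := Subtype.ext (by simp)
  map_zero' := Subtype.ext (by simp)
  map_add' x y := Subtype.ext (by simp)

/-- the denominators of `T` -/
def co_S : Submonoid (𝓞 K) where
  carrier := {x | ∃ b : ℕ, Nat.Coprime b P.M ∧ x = b}
  one_mem' := ⟨1, by simp, by simp⟩
  mul_mem' := by
    rintro _ _ ⟨a, ha, rfl⟩ ⟨b, hb, rfl⟩
    exact ⟨a * b, ha.mul_left hb, by simp⟩

theorem co_ded : IsDedekindDomain (T K) := by
  let _ : Algebra (𝓞 K) (T K) := co_phi.toAlgebra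
  have : IsLocalization (co_S (K := K)) (T K) := by
    rw [isLocalization_iff]
    refine ⟨?_, ?_, fun {x y} h => ⟨1, ?_⟩⟩
    · rintro ⟨_, b, hb, rfl⟩
      refine IsUnit.of_mul_eq_one ⟨_, inv_nat_mem_T hb⟩ (Subtype.ext ?_)
      exact mul_inv_cancel₀ (a := (b : K)) (Nat.cast_ne_zero.2 (b1_ne hb))
    · rintro ⟨z, b, hb, hz⟩
      refine ⟨(⟨_, hz⟩, ⟨_, b, hb, rfl⟩), Subtype.ext ?_⟩
      exact mul_comm z (b : K)
    · have h' : (x : K) = y := congrArg (fun z : T K => (z : K)) h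
      rw [RingOfIntegers.ext h']
  refine IsLocalization.isDedekindDomain (𝓞 K) (M := co_S) ?_ _
  rintro _ ⟨b, hb, rfl⟩
  exact mem_nonZeroDivisors_of_ne_zero (Nat.cast_ne_zero.2 (b1_ne hb))

theorem co_pid : IsPrincipalIdealRing (T K) := by
  have := co_ded (K := K)
  let m : T K := ⟨MK K, MK_mem_T⟩
  have hm : Ideal.span {m} ≠ 0 := by
    simpa using fun h : m = 0 => MK_ne_zero (congrArg Subtype.val h)
  have hf : {I : Ideal (T K) | I ∣ Ideal.span {m}}.Finite :=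
    (UniqueFactorizationMonoid.fintypeSubtypeDvd _ hm).finite
  refine .of_finite_maximals (hf.subset fun I hI => ?_)
  rw [Set.mem_ofPred_eq, Ideal.dvd_span_singleton]
  by_contra h
  obtain ⟨y, i, hi, e⟩ := Ideal.IsMaximal.exists_inv hI h
  have e' : (y : K) * MK K + i = 1 := congrArg Subtype.val e
  have hU : (i : K) ∈ U 1 := ⟨-y, (T K).neg_mem y.2, by linear_combination e'⟩
  refine Ideal.IsMaximal.ne_top hI (I.eq_top_of_isUnit_mem hi ?_)
  exact IsUnit.of_mul_eq_one ⟨_, U_mem_T (U_inv le_rfl hU)⟩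
    (Subtype.ext (mul_inv_cancel₀ (U_ne_zero le_rfl hU)))

theorem co_dvd {a b : T K} : a ∣ b ↔ InT (a : K) b :=
  ⟨fun ⟨c, h⟩ => ⟨c, c.2, congrArg Subtype.val h⟩, fun ⟨c, hc, h⟩ => ⟨⟨c, hc⟩, Subtype.ext h⟩⟩

theorem co_cube (a : T K) (ha : a ≠ 0) : ∃ y : T K, y ≠ 0 ∧ ∀ m : T K, a ∣ m ^ 3 ↔ y ∣ m := by
  have := co_pid (K := K)
  have key : ∀ m n : T K, a ∣ m ^ 3 → a ∣ n ^ 3 → a ∣ m ^ 2 * n := fun m n hm hn => by
    rw [← IsIntegrallyClosed.pow_dvd_pow_iff three_ne_zero,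
      show (m ^ 2 * n) ^ 3 = (m ^ 3) ^ 2 * n ^ 3 by ring, pow_succ a 2]
    exact mul_dvd_mul (pow_dvd_pow_of_dvd hm 2) hn
  let J : Ideal (T K) :=
    { carrier := {m | a ∣ m ^ 3}
      zero_mem' := by simp
      add_mem' := fun {m n} hm hn => by
        rw [Set.mem_ofPred_eq,
          show (m + n) ^ 3 = m ^ 3 + 3 * (m ^ 2 * n) + 3 * (n ^ 2 * m) + n ^ 3 by ring]
        exact dvd_add (dvd_add (dvd_add hm ((key m n hm hn).mul_left _))
          ((key n m hn hm).mul_left _)) hn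
      smul_mem' := fun c m hm => by
        rw [Set.mem_ofPred_eq, smul_eq_mul, mul_pow]
        exact Dvd.dvd.mul_left hm _ }
  obtain ⟨y, hy⟩ := (IsPrincipalIdealRing.principal J).principal
  have h : ∀ m : T K, a ∣ m ^ 3 ↔ y ∣ m := fun m =>
    (show m ∈ J ↔ m ∈ Ideal.span {y} by rw [hy, Ideal.submodule_span_eq]).trans
      Ideal.mem_span_singleton
  exact ⟨y, ne_zero_of_dvd_ne_zero ha ((h a).1 (dvd_pow_self a three_ne_zero)), h⟩

theorem co_fin : Finite ((R K)ˣ ⧸ (powMonoidHom (α := (R K)ˣ) 3).range) := by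
  classical
  obtain ⟨𝒮, h0, h⟩ := cls_fin (K := K) 1 three_pos
  have : Group.FG (𝓞 K)ˣ := Group.fg_iff_monoid_fg.2 inferInstance
  have := Subgroup.finiteIndex_range_powMonoidHom_of_fg (𝓞 K)ˣ three_ne_zero
  have hw : ∀ σ : K, ∃ w : (R K)ˣ, (∃ w' u : (R K)ˣ,
      ((w' : R K) : K) / (((u : R K) : K) ^ 3 * σ) ∈ U 1) → ((w : R K) : K) / σ ∈ U 1 := fun σ => by
    by_cases h : ∃ w' u : (R K)ˣ, ((w' : R K) : K) / (((u : R K) : K) ^ 3 * σ) ∈ U 1
    · obtain ⟨w', u, h⟩ := h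
      refine ⟨w' * u⁻¹ ^ 3, fun _ => ?_⟩
      convert h using 1
      have : ((u⁻¹ : (R K)ˣ) : R K).1 = ((u : R K) : K)⁻¹ :=
        eq_inv_of_mul_eq_one_left (congrArg Subtype.val u.inv_mul)
      push_cast
      rw [this]
      ring
    · exact ⟨1, fun h' => absurd h' h⟩
  choose w hw using hw
  refine Finite.of_surjective
    (fun p : 𝒮 × ((𝓞 K)ˣ ⧸ (powMonoidHom (α := (𝓞 K)ˣ) 3).range) =>
      (QuotientGroup.mk (w p.1 * Units.map (b2_phi (K := K)).toMonoidHom p.2.out) :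
        (R K)ˣ ⧸ (powMonoidHom (α := (R K)ˣ) 3).range)) fun c => ?_
  obtain ⟨a, rfl⟩ := QuotientGroup.mk_surjective c
  have hne : ∀ u : (R K)ˣ, ((u : R K) : K) ≠ 0 := fun u e => u.ne_zero (Subtype.ext e)
  obtain ⟨σ, hσ, u, hu⟩ := h _ (hne a)
  have h1 := U_mul hu (U_inv le_rfl (hw σ ⟨a, u, hu⟩))
  let e : (R K)ˣ := a * (u ^ 3 * w σ)⁻¹
  have he : ((e : R K) : K) * (((u : R K) : K) ^ 3 * ((w σ : R K) : K)) = (a : R K) := by
    have : e * (u ^ 3 * w σ) = a := inv_mul_cancel_right _ _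
    exact_mod_cast congrArg (fun z : (R K)ˣ => ((z : R K) : K)) this
  have h2 : ((e : R K) : K) ∈ U 1 := by
    convert h1 using 1
    have := hne u
    have := hne (w σ)
    have := h0 σ hσ
    rw [← he]
    field_simp
  have h3 : ((e⁻¹ : (R K)ˣ) : R K).1 = ((e : R K) : K)⁻¹ :=
    eq_inv_of_mul_eq_one_left (congrArg Subtype.val e.inv_mul)
  let ε : (𝓞 K)ˣ := Units.mkOfMulEqOne ⟨_, int_of_mem (e : R K).2 (U_mem_T h2)⟩
    ⟨_, int_of_mem ((e⁻¹ : (R K)ˣ) : R K).2 (h3 ▸ U_mem_T (U_inv le_rfl h2))⟩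
    (RingOfIntegers.ext (congrArg (fun z : R K => (z : K)) e.mul_inv))
  have h4 : Units.map (b2_phi (K := K)).toMonoidHom ε = e := Units.ext (Subtype.ext rfl)
  obtain ⟨⟨_, s, rfl⟩, hs⟩ := QuotientGroup.mk_out_eq_mul (powMonoidHom (α := (𝓞 K)ˣ) 3).range ε
  have hs' : (QuotientGroup.mk ε : (𝓞 K)ˣ ⧸ (powMonoidHom (α := (𝓞 K)ˣ) 3).range).out = ε * s ^ 3 := hs
  refine ⟨(⟨σ, hσ⟩, QuotientGroup.mk ε),
    QuotientGroup.eq.2 ⟨u * (Units.map (b2_phi (K := K)).toMonoidHom s)⁻¹, ?_⟩⟩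
  dsimp only
  rw [hs', map_mul (Units.map _), map_pow, h4, powMonoidHom_apply]
  generalize Units.map (b2_phi (K := K)).toMonoidHom s = s'
  apply Additive.ofMul.injective
  simp only [e, mul_pow, inv_pow, ofMul_mul, ofMul_inv, ofMul_pow]
  abel

open Classical in
theorem lat_count : ∃ I₆ δ C : ℝ, 0 < I₆ ∧ 0 < δ ∧ δ < 1 ∧ ∀ x : K, x ≠ 0 → ∀ t : Pl K → ℝ,
    Summable (fun m : R K => if m ∈ Lat x ∧ m ≠ 0 then
      Real.exp (-Real.pi * ∑ v, Real.exp (-6 * t v) * ‖emb (m : K) v‖ ^ 6) else 0) ∧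
    |∑' m : R K, (if m ∈ Lat x ∧ m ≠ 0 then
      Real.exp (-Real.pi * ∑ v, Real.exp (-6 * t v) * ‖emb (m : K) v‖ ^ 6) else 0) - I₆ * sz x t|
      ≤ C * sz x t ^ (1 - δ) := by
  obtain ⟨C₁, h₁⟩ := co_big (K := K)
  obtain ⟨C₂, h₂⟩ := co_small (K := K)
  have hr : (1 : ℝ) ≤ rr K := Nat.one_le_cast.2 rr_pos
  have hI := div_pos (co_I_pos (K := K)) (cov_pos (K := K))
  have hδ : (0 : ℝ) < 1 / (2 * rr K) := by positivity
  have hδ1 : (1 : ℝ) / (2 * rr K) < 1 := (div_lt_one (by positivity)).2 (by linarith)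
  generalize (∫ z, co_F (0 : Pl K → ℝ) z) / cov K = I₆ at h₁ hI
  generalize (1 : ℝ) / (2 * rr K) = δ at h₁ hδ hδ1
  refine ⟨I₆, δ, |C₁| + 1 + |C₂| + I₆, hI, hδ, hδ1, fun x hx t => ?_⟩
  have e : ∀ m : R K, (if m ∈ Lat x ∧ m ≠ 0 then
      Real.exp (-Real.pi * ∑ v, Real.exp (-6 * t v) * ‖emb (m : K) v‖ ^ 6) else 0) =
      (Lat x : Set (R K)).indicator (fun m => if m = 0 then 0 else co_F t (emb (m : K))) m := fun m => by
    by_cases h1 : m ∈ Lat x <;> by_cases h2 : m = 0 <;> simp [h1, h2, co_F]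
  have e2 : ∀ n : Lat x, (if (n : R K) = 0 then 0 else co_F t (emb ((n : R K) : K))) =
      if n = 0 then 0 else co_F t (emb ((n : R K) : K)) := fun n => by simp
  have h0 : ∀ n : Lat x, 0 ≤ if n = 0 then 0 else co_F t (emb ((n : R K) : K)) := fun n => by
    split_ifs
    exacts [le_rfl, (co_F_pos _ _).le]
  simp only [e]
  refine ⟨summable_subtype_iff_indicator.1 (((co_F_summable hx t).of_nonneg_of_le h0 fun n => ?_).congr
    fun n => (e2 n).symm), ?_⟩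
  · split_ifs
    exacts [(co_F_pos _ _).le, le_rfl]
  have e3 : ∑' m, (Lat x : Set (R K)).indicator (fun m => if m = 0 then 0 else co_F t (emb (m : K))) m =
      ∑' n : Lat x, if n = 0 then 0 else co_F t (emb ((n : R K) : K)) :=
    (tsum_subtype _ _).symm.trans (tsum_congr e2)
  rw [e3]
  have hs := sz_pos hx t
  have hp := Real.rpow_pos_of_pos hs (1 - δ)
  have a1 := mul_nonneg (abs_nonneg C₁) hp.le
  have a2 := mul_nonneg (abs_nonneg C₂) hp.le
  have a3 := mul_pos hI hp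
  have a4 := mul_pos hI hs
  rw [abs_le]
  rcases le_total 1 (sz x t) with h | h
  · have h3 : ∑' n : Lat x, co_F t (emb ((n : R K) : K)) = co_F t (emb (((0 : Lat x) : R K) : K)) +
        ∑' n : Lat x, if n = 0 then 0 else co_F t (emb ((n : R K) : K)) := by
      convert (co_F_summable hx t).tsum_eq_add_tsum_ite 0
    have h4 : co_F t (emb (((0 : Lat x) : R K) : K)) = 1 := by simp [co_F, emb]
    have h5 := abs_le.1 ((h₁ x hx t h).trans (mul_le_mul_of_nonneg_right (le_abs_self C₁) hp.le))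
    have h6 := Real.one_le_rpow h (sub_pos.2 hδ1).le
    rw [h3, h4] at h5
    constructor <;> linarith [h5.1, h5.2]
  · have h3 := (h₂ x hx t).trans (mul_le_mul_of_nonneg_right (le_abs_self C₂) hs.le)
    have h4 := tsum_nonneg (L := .unconditional _) h0
    have h5 : sz x t ≤ sz x t ^ (1 - δ) := by
      simpa using Real.rpow_le_rpow_of_exponent_ge hs h (sub_le_self 1 hδ.le)
    have h6 := mul_le_mul_of_nonneg_left h5 (abs_nonneg C₂)
    have h7 := mul_le_mul_of_nonneg_left h5 hI.le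
    constructor <;> linarith
/-- `T` is a principal ideal domain: the "cube root" of a fractional ideal -/
theorem exists_cube_lat {x : K} (hx : x ≠ 0) : ∃ y : K, y ≠ 0 ∧ ∀ m : K, InT x (m ^ 3) ↔ InT y m := by
  have := co_pid (K := K)
  have hM : ∀ k : ℕ, MK K ^ k ≠ 0 := fun k => pow_ne_zero k MK_ne_zero
  have hT : ∀ k : ℕ, MK K ^ k ∈ T K := fun k => (T K).pow_mem MK_mem_T k
  obtain ⟨k, hk⟩ := exists_pow_mul_mem_T x
  have ha : (MK K ^ k) ^ 3 * x ∈ T K := by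
    rw [pow_succ, mul_assoc]
    exact (T K).mul_mem ((T K).pow_mem (hT k) 2) hk
  obtain ⟨y, hy, h⟩ := co_cube ⟨_, ha⟩ fun h => mul_ne_zero (pow_ne_zero 3 (hM k)) hx
    (congrArg Subtype.val h)
  refine ⟨y / MK K ^ k, div_ne_zero (fun e => hy (Subtype.ext e)) (hM k), fun m => ?_⟩
  rw [← InT_mul_iff (pow_ne_zero 3 (hM k)), ← InT_mul_iff (x := (y : K) / MK K ^ k) (hM k),
    mul_div_cancel₀ _ (hM k), ← mul_pow]
  generalize MK K ^ k * m = n
  by_cases hn : n ∈ T K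
  · exact co_dvd.symm.trans ((h ⟨n, hn⟩).trans co_dvd)
  refine iff_of_false (fun h1 => hn ?_) fun h1 => hn (InT_one_iff.1 ((InT_one_iff.2 y.2).trans h1))
  have h2 : InT 1 (n ^ 3) := (InT_one_iff.2 ha).trans h1
  obtain ⟨l, hl⟩ := exists_pow_mul_mem_T n
  have h3 : (⟨_, hT l⟩ : T K) ^ 3 ∣ (⟨_, hl⟩ : T K) ^ 3 := co_dvd.2 (by
    simpa [mul_pow] using (InT_mul_iff (pow_ne_zero 3 (hM l))).2 h2)
  have h4 := co_dvd.1 ((IsIntegrallyClosed.pow_dvd_pow_iff three_ne_zero).1 h3)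
  rw [← InT_one_iff, ← InT_mul_iff (hM l), mul_one]
  exact h4
/-- units of `R` modulo cubes -/
theorem units_mod_cubes : ∃ 𝒰 : Finset (R K), (∀ u ∈ 𝒰, IsUnit u) ∧
    ∀ w : R K, IsUnit w → ∃! u, u ∈ 𝒰 ∧ ∃ s : R K, w = u * s ^ 3 := by
  classical
  have := co_fin (K := K)
  have := Fintype.ofFinite ((R K)ˣ ⧸ (powMonoidHom (α := (R K)ˣ) 3).range)
  refine ⟨Finset.univ.image fun c : (R K)ˣ ⧸ (powMonoidHom (α := (R K)ˣ) 3).range => (c.out : (R K)ˣ),
    fun u hu => ?_, ?_⟩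
  · obtain ⟨c, -, rfl⟩ := Finset.mem_image.1 hu
    exact Units.isUnit _
  · rintro _ ⟨w, rfl⟩
    obtain ⟨⟨_, s, rfl⟩, hs⟩ := QuotientGroup.mk_out_eq_mul (powMonoidHom (α := (R K)ˣ) 3).range w
    refine ⟨_, ⟨Finset.mem_image_of_mem _ (Finset.mem_univ (QuotientGroup.mk w)), (s⁻¹ : (R K)ˣ), ?_⟩, ?_⟩
    · rw [hs]
      norm_cast
      simp
    · rintro _ ⟨hu, s', h⟩
      obtain ⟨c, -, rfl⟩ := Finset.mem_image.1 hu
      obtain ⟨s', rfl⟩ : IsUnit s' :=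
        (isUnit_pow_iff three_ne_zero).1 (isUnit_of_mul_isUnit_right (h ▸ w.isUnit))
      have h' : w = c.out * s' ^ 3 := by exact_mod_cast h
      have : c = QuotientGroup.mk w := by
        rw [← QuotientGroup.out_eq' c]
        exact QuotientGroup.eq.2 ⟨s', by rw [h']; simp⟩
      rw [this]

end Crest.Agent.GQ
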