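import Crest.Agent.GQ.ThCount

/-! # GQ ThCube: the sum over cubes -/

set_option autoImplicit false

noncomputable section

open NumberField Complex
open scoped ComplexConjugate

namespace Crest.Agent.GQ

variable {K : Type} [Field K] [NumberField K] [P : Pre K]

open Classical in
/-- `∑ (φ/N)(c) exp (-π |t c|²)` over `c ∈ Lat x`, `q ∣ c`, generating the cube of an ideal -/
def cubeSum (x : K) (q : R K) (t : Pl K → ℝ) : ℝ :=
  ∑' c : R K, if c ≠ 0 ∧ c ∈ Lat x ∧ (∃ m : R K, Associated c (m ^ 3)) ∧ q ∣ c then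
    phiN c * Real.exp (-Real.pi * ∑ v, Real.exp (2 * t v) * ‖emb (c : K) v‖ ^ 2) else 0

theorem cu_congr {ι : Type*} {f g : ι → ℝ} {a : ℝ} (h : HasSum f a) (e : ∀ i, g i = f i) :
    HasSum g a := funext e ▸ h

/-- The real Möbius function on ideals. -/
def cuMu (J : Ideal (R K)) : ℝ := (muR J).re

theorem cu_mu_le (J : Ideal (R K)) : |cuMu J| ≤ 1 :=
  (Complex.abs_re_le_norm _).trans (norm_mu_le _)

theorem cu_mu_top : cuMu (⊤ : Ideal (R K)) = 1 := by
  have : IsUnit (gen (⊤ : Ideal (R K))) := Ideal.span_singleton_eq_top.1 (span_gen ⊤)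
  simp [cuMu, muR, mu_unit this]

theorem cu_mu_sqf {J : Ideal (R K)} (h : cuMu J ≠ 0) : Squarefree (gen J) := by
  by_contra hs
  exact h (by simp [cuMu, muR, mu_eq_zero.2 hs])

open Classical in
theorem cu_mu_mul {𝔮 : Ideal (R K)} (hq : Prime 𝔮) (J : Ideal (R K)) :
    cuMu (𝔮 * J) = if 𝔮 ∣ J then 0 else -cuMu J := by
  have hp := prime_gen.2 hq
  rw [cuMu, muR, mu_associated (associated_gen_mul _ _), mu_mul', mu_prime hp]
  by_cases h : 𝔮 ∣ J
  · rw [if_pos h, if_neg (by rw [hp.coprime_iff_not_dvd, gen_dvd_gen]; exact not_not.2 h)]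
    simp
  · rw [if_neg h, if_pos (by rw [hp.coprime_iff_not_dvd, gen_dvd_gen]; exact h)]
    simp [cuMu, muR]

open Classical in
theorem cu_split {𝔮 : Ideal (R K)} (hq : Prime 𝔮) {g : Ideal (R K) → ℝ} {a : ℝ}
    (hs : HasSum (fun J => cuMu J * g J) a) :
    HasSum (fun J => if 𝔮 ∣ J then 0 else cuMu J * (g J - g (𝔮 * J))) a := by
  have h1 := (hs.summable.indicator {J | ¬ 𝔮 ∣ J}).hasSum
  have h2 := (hs.summable.indicator {J | 𝔮 ∣ J}).hasSum
  have e : ∑' J, Set.indicator {J | ¬ 𝔮 ∣ J} (fun J => cuMu J * g J) J +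
      ∑' J, Set.indicator {J | 𝔮 ∣ J} (fun J => cuMu J * g J) J = a := by
    refine (h1.add h2).unique ?_
    refine cu_congr (hs) fun J => ?_
    by_cases h : 𝔮 ∣ J <;> simp [Set.indicator, h]
  have h3 := ((mul_right_injective₀ hq.ne_zero).hasSum_iff fun J hJ =>
    Set.indicator_of_notMem (s := {J | 𝔮 ∣ J})
      (fun h : 𝔮 ∣ J => h.elim fun J' e => hJ ⟨J', e.symm⟩) _).2 h2
  rw [← e]
  refine cu_congr (h1.add h3) fun J => ?_
  by_cases h : 𝔮 ∣ J <;> simp [Set.indicator, h, cu_mu_mul hq]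
  ring

open Classical in
theorem cu_phi {n : R K} (hn : n ≠ 0) :
    HasSum (fun J => cuMu J * if gen J ∣ n then (nmI J : ℝ)⁻¹ else 0) (phiN n) := by
  have hI : Ideal.span {n} ≠ ⊥ := by simpa using hn
  have e : phiN n = ∑ J ∈ divs (Ideal.span {n}),
      cuMu J * if gen J ∣ n then (nmI J : ℝ)⁻¹ else 0 := by
    have := congrArg Complex.re (phiN_eq hn)
    rw [Complex.ofReal_re, Complex.re_sum] at this
    rw [this]
    refine Finset.sum_congr rfl fun J hJ => ?_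
    rw [if_pos (gen_dvd_iff.2 ((mem_divs hI).1 hJ)), Complex.div_natCast_re, div_eq_mul_inv, cuMu]
  rw [e]
  exact hasSum_sum_of_ne_finset_zero fun J hJ => by
    rw [if_neg fun h => hJ ((mem_divs hI).2 (gen_dvd_iff.1 h)), mul_zero]

theorem cu_phi_cube {u m : R K} (hu : IsUnit u) (hm : m ≠ 0) : phiN (u * m ^ 3) = phiN m := by
  classical
  refine (cu_phi (mul_ne_zero hu.ne_zero (pow_ne_zero 3 hm))).unique ?_
  refine cu_congr (cu_phi hm) fun J => ?_
  by_cases h : cuMu J = 0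
  · rw [h, zero_mul, zero_mul]
  · have e : gen J ∣ u * m ^ 3 ↔ gen J ∣ m := by
      rw [hu.dvd_mul_left, (cu_mu_sqf h).dvd_pow_iff_dvd three_ne_zero]
    simp only [e]

open Classical in
theorem cu_phi_q {q m : R K} (hq : Prime q) (hm : m ≠ 0) :
    HasSum (fun J : Ideal (R K) => if q * gen J ∣ m then
      (if Ideal.span {q} ∣ J then 0 else cuMu J * (1 - (Nr q)⁻¹) * (nmI J : ℝ)⁻¹) else 0)
      (if q ∣ m then phiN m else 0) := by
  by_cases hqm : q ∣ m
  swap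
  · rw [if_neg hqm]
    refine cu_congr hasSum_zero fun J => ?_
    exact if_neg fun h => hqm ((dvd_mul_right _ _).trans h)
  rw [if_pos hqm]
  have hQ : Prime (Ideal.span {q}) := prime_gen.1 ((associated_gen_span q).symm.prime hq)
  refine cu_congr (cu_split hQ (cu_phi hm)) fun J => ?_
  by_cases h : Ideal.span {q} ∣ J
  · simp [h]
  have e1 : gen (Ideal.span {q} * J) ∣ m ↔ q * gen J ∣ m :=
    ((associated_gen_mul _ _).trans ((associated_gen_span q).mul_right _)).dvd_iff_dvd_left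
  have e2 : gen J ∣ m ↔ q * gen J ∣ m := by
    refine ⟨fun h' => IsCoprime.mul_dvd ?_ hqm h', fun h' => (dvd_mul_left _ _).trans h'⟩
    rw [hq.coprime_iff_not_dvd, ← (associated_gen_span q).dvd_iff_dvd_left, gen_dvd_gen]
    exact h
  simp only [if_neg h, e1, e2, nmI_mul]
  split_ifs
  · rw [Nr, nm]
    push_cast
    ring
  · simp

open Classical in
/-- `∑ μ(J) / N(J)²` over the ideals prime to `Ps`. -/
def cuS (Ps : Finset (Ideal (R K))) : ℝ :=
  ∑' J, cuMu J * if ∀ p ∈ Ps, ¬ p ∣ J then ((nmI J : ℝ) ^ 2)⁻¹ else 0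

theorem cu_rpow_two (x : ℝ) : x ^ (-(2 : ℝ)) = (x ^ 2)⁻¹ := by
  rw [Real.rpow_neg_ofNat, zpow_neg, zpow_ofNat]

open Classical in
theorem cu_S_hasSum (Ps : Finset (Ideal (R K))) :
    HasSum (fun J => cuMu J * if ∀ p ∈ Ps, ¬ p ∣ J then ((nmI J : ℝ) ^ 2)⁻¹ else 0) (cuS Ps) := by
  refine (Summable.of_norm_bounded (summable_nmI one_lt_two) fun J => ?_).hasSum
  rw [norm_mul, cu_rpow_two]
  refine (mul_le_of_le_one_left (norm_nonneg _) (cu_mu_le J)).trans ?_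
  split_ifs
  · exact (Real.norm_of_nonneg (by positivity)).le
  · rw [norm_zero]
    positivity

open Classical in
theorem cu_S_insert {Ps : Finset (Ideal (R K))} (hP : ∀ p ∈ Ps, Prime p) {𝔮 : Ideal (R K)}
    (hq : Prime 𝔮) (h : 𝔮 ∉ Ps) : cuS Ps = (1 - ((nmI 𝔮 : ℝ) ^ 2)⁻¹) * cuS (insert 𝔮 Ps) := by
  refine (cu_split hq (cu_S_hasSum Ps)).unique ?_
  refine cu_congr ((cu_S_hasSum (insert 𝔮 Ps)).mul_left (1 - ((nmI 𝔮 : ℝ) ^ 2)⁻¹)) fun J => ?_
  by_cases hJ : 𝔮 ∣ J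
  · simp [hJ]
  have e : (∀ p ∈ Ps, ¬ p ∣ 𝔮 * J) ↔ ∀ p ∈ Ps, ¬ p ∣ J := by
    refine forall₂_congr fun p hp => not_congr ⟨fun h' => ((hP p hp).dvd_or_dvd h').resolve_left
      fun h'' => h ?_, fun h' => h'.mul_left _⟩
    rwa [← associated_iff_eq.1 ((hP p hp).associated_of_dvd hq h'')]
  simp only [if_false, e, Finset.forall_mem_insert, hJ, not_false_eq_true, true_and, nmI_mul]
  split_ifs
  · push_cast
    ring
  · simp

theorem cu_two_le {𝔮 : Ideal (R K)} (hq : Prime 𝔮) : (2 : ℝ) ≤ nmI 𝔮 := by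
  have h1 := nmI_pos hq.ne_zero
  have h2 : nmI 𝔮 ≠ 1 := fun h => hq.not_isUnit (Ideal.isUnit_iff.2 (nmI_eq_one.1 h))
  exact_mod_cast (show 2 ≤ nmI 𝔮 by omega)

theorem cu_fac_pos {𝔮 : Ideal (R K)} (hq : Prime 𝔮) : 0 < 1 - ((nmI 𝔮 : ℝ) ^ 2)⁻¹ := by
  have := cu_two_le hq
  exact sub_pos.2 (inv_lt_one_of_one_lt₀ (by nlinarith))

theorem cu_S_pos : 0 < cuS (∅ : Finset (Ideal (R K))) := by
  classical
  have key : ∀ Ps : Finset (Ideal (R K)), (∀ p ∈ Ps, Prime p) → 0 < cuS Ps →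
      0 < cuS (∅ : Finset (Ideal (R K))) := by
    intro Ps
    induction Ps using Finset.induction_on with
    | empty => exact fun _ h => h
    | insert 𝔮 Ps h ih =>
      intro hP hS
      have hP' : ∀ p ∈ Ps, Prime p := fun p hp => hP p (Finset.mem_insert_of_mem hp)
      have hq := hP 𝔮 (Finset.mem_insert_self _ _)
      refine ih hP' ?_
      rw [cu_S_insert hP' hq h]
      convert mul_pos (cu_fac_pos hq) hS
  obtain ⟨C, hC⟩ := tsum_tail_le (K := K) one_lt_two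
  have hH : 1 ≤ |C| + 1 := by linarith [abs_nonneg C]
  have h1 := hC (|C| + 1) (by linarith)
  have h2 : C * (|C| + 1) ^ (1 - 2 : ℝ) < 1 := by
    rw [show (1 - 2 : ℝ) = -1 by norm_num, Real.rpow_neg_one, ← div_eq_mul_inv,
      div_lt_one (by linarith)]
    linarith [le_abs_self C]
  refine key ((rows K (|C| + 1)).filter Prime) (fun p hp => (Finset.mem_filter.1 hp).2) ?_
  have h3 : Summable fun I : Ideal (R K) =>
      if |C| + 1 < (nmI I : ℝ) then (nmI I : ℝ) ^ (-(2 : ℝ)) else 0 := by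
    refine Summable.of_nonneg_of_le (fun I => ?_) (fun I => ?_) (summable_nmI one_lt_two)
    · split_ifs <;> positivity
    · split_ifs
      · exact le_rfl
      · positivity
  have h4 := ((cu_S_hasSum ((rows K (|C| + 1)).filter Prime)).sub
    (hasSum_ite_eq (⊤ : Ideal (R K)) (1 : ℝ))).norm_le_of_bounded h3.hasSum fun J => ?_
  · linarith [(abs_le.1 h4).1]
  have h0 : 0 ≤ if |C| + 1 < (nmI J : ℝ) then (nmI J : ℝ) ^ (-(2 : ℝ)) else 0 := by
    split_ifs <;> positivity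
  by_cases hJ : J = ⊤
  · subst hJ
    rw [if_pos rfl, cu_mu_top, if_pos]
    · simpa [nmI_top] using h0
    · intro p hp h
      exact (Finset.mem_filter.1 hp).2.not_isUnit (isUnit_of_dvd_one (by simpa using h))
  rw [if_neg hJ, sub_zero]
  by_cases hb : J = ⊥
  · subst hb
    simp [nmI_bot]
  by_cases hc : ∀ p ∈ (rows K (|C| + 1)).filter Prime, ¬ p ∣ J
  swap
  · rw [if_neg hc, mul_zero, norm_zero]
    exact h0
  obtain ⟨p, hp, hpJ⟩ := WfDvdMonoid.exists_irreducible_factor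
    (fun h => hJ (Ideal.isUnit_iff.1 h)) hb
  have hlt : |C| + 1 < (nmI J : ℝ) := by
    by_contra hle
    refine hc p (Finset.mem_filter.2 ⟨mem_rows.2 ⟨hp.ne_zero, le_trans ?_ (not_lt.1 hle)⟩,
      hp.prime⟩) hpJ
    exact_mod_cast nmI_le_of_dvd hb hpJ
  rw [if_pos hc, if_pos hlt, norm_mul, cu_rpow_two]
  exact (mul_le_of_le_one_left (norm_nonneg _) (cu_mu_le J)).trans
    (Real.norm_of_nonneg (by positivity)).le

open Classical in
/-- The summand of `lat_count`. -/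
def cuL (y : K) (t : Pl K → ℝ) (m : R K) : ℝ :=
  if m ∈ Lat y ∧ m ≠ 0 then
    Real.exp (-Real.pi * ∑ v, Real.exp (-6 * t v) * ‖emb (m : K) v‖ ^ 6) else 0

theorem cu_L_nonneg (y : K) (t : Pl K → ℝ) (m : R K) : 0 ≤ cuL y t m := by
  unfold cuL
  split_ifs <;> positivity

theorem cu_L_mul {d : R K} (hd : d ≠ 0) (y : K) (t : Pl K → ℝ) (m : R K) :
    cuL y t (d * m) = cuL (y / d) (t - lg (d : K)) m := by
  have hd' : (d : K) ≠ 0 := by simpa using hd
  have e : d * m ∈ Lat y ↔ m ∈ Lat (y / d) := by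
    rw [← mem_Lat_mul_iff (x := y / d) hd, mul_div_cancel₀ _ hd']
  classical
  unfold cuL
  refine if_congr (and_congr e (mul_ne_zero_iff_left hd))
    (congrArg _ (congrArg _ (Finset.sum_congr rfl fun v _ => ?_))) rfl
  have h0 : 0 < ‖emb (d : K) v‖ := norm_pos_iff.2 (emb_ne_zero hd' v)
  rw [Subring.coe_mul, emb_mul, Pi.mul_apply, norm_mul, mul_pow, Pi.sub_apply, lg,
    show -6 * (t v - Real.log ‖emb (d : K) v‖) = -6 * t v + (6 : ℕ) * Real.log ‖emb (d : K) v‖ by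
      push_cast; ring, Real.exp_add, Real.exp_nat_mul, Real.exp_log h0, mul_assoc]

open Classical in
theorem cu_L_dvd {d : R K} (hd : d ≠ 0) {y : K} {t : Pl K → ℝ} {a : ℝ}
    (h : HasSum (cuL (y / d) (t - lg (d : K))) a) :
    HasSum (fun m => if d ∣ m then cuL y t m else 0) a := by
  refine ((mul_right_injective₀ hd).hasSum_iff fun m hm =>
    if_neg fun ⟨m', e⟩ => hm ⟨m', e.symm⟩).1 ?_
  refine cu_congr (h) fun m => ?_
  simp [cu_L_mul hd]

open Classical in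
theorem cu_main {I₆ δ C : ℝ} (hδ : δ < 1)
    (H : ∀ x : K, x ≠ 0 → ∀ t : Pl K → ℝ,
      Summable (cuL x t) ∧ |∑' m, cuL x t m - I₆ * sz x t| ≤ C * sz x t ^ (1 - δ))
    {q : R K} (hq : q ≠ 0) {b : Ideal (R K) → ℝ} (hb : ∀ J, |b J| ≤ (nmI J : ℝ)⁻¹) {h : R K → ℝ}
    (hh : ∀ m, m ≠ 0 → HasSum (fun J => if q * gen J ∣ m then b J else 0) (h m)) :
    ∃ C' : ℝ, ∀ y : K, y ≠ 0 → ∀ t : Pl K → ℝ, ∃ a, HasSum (fun m => h m * cuL y t m) a ∧
      |a - I₆ * ((∑' J, b J * (nmI J : ℝ)⁻¹) / Nr q) * sz y t| ≤ C' * sz y t ^ (1 - δ) := by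
  have hs := summable_nmI (K := K) (σ := 2 - δ) (by linarith)
  refine ⟨|C| * ∑' J : Ideal (R K), (nmI J : ℝ) ^ (-(2 - δ)), fun y hy t => ?_⟩
  have hz := sz_pos hy t
  have hb0 : b ⊥ = 0 := by simpa [nmI_bot] using hb ⊥
  have hd : ∀ J : Ideal (R K), J ≠ ⊥ → q * gen J ≠ 0 := fun J hJ => mul_ne_zero hq (gen_ne_zero hJ)
  have hd' : ∀ J : Ideal (R K), J ≠ ⊥ → y / (q * gen J : R K) ≠ 0 := fun J hJ =>
    div_ne_zero hy (by simpa only [ne_eq, ZeroMemClass.coe_eq_zero] using hd J hJ)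
  set L : Ideal (R K) → ℝ := fun J =>
    ∑' m, cuL (y / (q * gen J : R K)) (t - lg ((q * gen J : R K) : K)) m with hL
  have hrow : ∀ (β : ℝ) (J : Ideal (R K)), (J = ⊥ → β = 0) →
      HasSum (fun m => β * if q * gen J ∣ m then cuL y t m else 0) (β * L J) := by
    intro β J hβ
    by_cases hJ : J = ⊥
    · simp only [hβ hJ, zero_mul]
      exact hasSum_zero
    · exact (cu_L_dvd (hd J hJ) (H _ (hd' J hJ) _).1.hasSum).mul_left _
  have hbs : Summable fun J => b J * (nmI J : ℝ)⁻¹ := by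
    refine Summable.of_norm_bounded (summable_nmI one_lt_two) fun J => ?_
    rw [norm_mul, cu_rpow_two, Real.norm_of_nonneg (by positivity : 0 ≤ (nmI J : ℝ)⁻¹), sq, mul_inv]
    exact mul_le_mul_of_nonneg_right (hb J) (by positivity)
  have herr : ∀ J, ‖b J * L J - I₆ * (b J * (nmI J : ℝ)⁻¹ / Nr q) * sz y t‖ ≤
      |C| * (nmI J : ℝ) ^ (-(2 - δ)) * sz y t ^ (1 - δ) := by
    intro J
    by_cases hJ : J = ⊥
    · subst hJ
      rw [hb0, zero_mul, zero_mul, zero_div, mul_zero, zero_mul, sub_zero, norm_zero]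
      positivity
    have hN : (0 : ℝ) < nmI J := by exact_mod_cast nmI_pos hJ
    have hQ := one_le_Nr hq
    have h1 := (H _ (hd' J hJ) (t - lg ((q * gen J : R K) : K))).2
    rw [sz_div hy (hd J hJ), Nr_mul, Nr_gen] at h1
    have h2 : (sz y t / (Nr q * nmI J)) ^ (1 - δ) ≤ (sz y t / nmI J) ^ (1 - δ) := by
      gcongr
      exact le_mul_of_one_le_left hN.le hQ
    have h3 : |L J - I₆ * (sz y t / (Nr q * nmI J))| ≤ |C| * (sz y t / nmI J) ^ (1 - δ) :=
      h1.trans (mul_le_mul (le_abs_self C) h2 (by positivity) (abs_nonneg C))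
    rw [show b J * L J - I₆ * (b J * (nmI J : ℝ)⁻¹ / Nr q) * sz y t =
      b J * (L J - I₆ * (sz y t / (Nr q * nmI J))) by field_simp, Real.norm_eq_abs, abs_mul]
    refine (mul_le_mul (hb J) h3 (abs_nonneg _) (by positivity)).trans_eq ?_
    rw [Real.div_rpow hz.le hN.le, show -(2 - δ) = -1 + -(1 - δ) by ring, Real.rpow_add hN,
      Real.rpow_neg_one, Real.rpow_neg hN.le]
    ring
  have hmain := ((hbs.hasSum.div_const (Nr q)).mul_left I₆).mul_right (sz y t)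
  have hE := (hs.hasSum.mul_left |C|).mul_right (sz y t ^ (1 - δ))
  have hbL : Summable fun J => b J * L J := by
    simpa using (Summable.of_norm_bounded hE.summable herr).add hmain.summable
  have hf : Summable fun p : Ideal (R K) × R K =>
      b p.1 * if q * gen p.1 ∣ p.2 then cuL y t p.2 else 0 := by
    have hn : ∀ (J : Ideal (R K)) (m : R K), 0 ≤ if q * gen J ∣ m then cuL y t m else 0 := by
      intro J m
      split_ifs
      exacts [cu_L_nonneg _ _ _, le_rfl]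
    refine Summable.of_norm_bounded (g := fun p : Ideal (R K) × R K =>
      |b p.1| * if q * gen p.1 ∣ p.2 then cuL y t p.2 else 0) ?_ fun p => ?_
    · have hr := fun J => hrow |b J| J fun hJ => by rw [hJ, hb0, abs_zero]
      refine (summable_prod_of_nonneg fun p => mul_nonneg (abs_nonneg _) (hn _ _)).2
        ⟨fun J => (hr J).summable, ?_⟩
      refine hbL.abs.congr fun J => ?_
      rw [(hr J).tsum_eq, abs_mul, abs_of_nonneg (tsum_nonneg (cu_L_nonneg _ _))]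
    · rw [norm_mul, Real.norm_of_nonneg (hn _ _), Real.norm_eq_abs]
  have h1 := hf.hasSum.prod_fiberwise fun J => hrow (b J) J fun hJ => by rw [hJ, hb0]
  refine ⟨_, ((Equiv.prodComm _ _).hasSum_iff.2 hf.hasSum).prod_fiberwise fun m => ?_,
    (h1.sub hmain).norm_le_of_bounded hE herr⟩
  by_cases hm : m = 0
  · have : cuL y t m = 0 := by simp [cuL, hm]
    simp [this]
  · refine cu_congr ((hh m hm).mul_right (cuL y t m)) fun J => ?_
    simp

theorem cu_w : wR K ^ 2 + wR K + 1 = 0 := Subtype.ext (by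
  have := P.hw.geom_sum_eq_zero (by norm_num)
  simp only [Finset.sum_range_succ, Finset.range_zero, Finset.sum_empty] at this
  simp only [wR, Subring.coe_add, SubmonoidClass.coe_pow, Subring.coe_one, Subring.coe_zero]
  linear_combination this)

theorem cu_fiber {u m : R K} (hu : u ≠ 0) (hm : m ≠ 0) :
    Nat.card ((fun m : R K => u * m ^ 3) ⁻¹' {u * m ^ 3}) = 3 := by
  have hw := cu_w (K := K)
  have h1 : wR K ≠ 1 := fun h => isUnit_three (K := K).ne_zero (by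
    rw [h] at hw
    linear_combination hw)
  have h3 : wR K ^ 3 = 1 := by linear_combination (wR K - 1) * hw
  have h0 : wR K ≠ 0 := fun h => by simp [h] at h3
  have h2 : wR K ^ 2 ≠ 1 := fun h => h1 (by linear_combination h3 - wR K * h)
  rw [Nat.card_coe_set_eq, Set.ncard_eq_three]
  refine ⟨m, wR K * m, wR K ^ 2 * m, fun h => h1 (mul_right_cancel₀ hm (by linear_combination -h)),
    fun h => h2 (mul_right_cancel₀ hm (by linear_combination -h)),
    fun h => h1 (mul_right_cancel₀ (mul_ne_zero h0 hm) (by linear_combination -h)), ?_⟩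
  ext m'
  simp only [Set.mem_preimage, Set.mem_singleton_iff, Set.mem_insert_iff, mul_right_inj' hu]
  constructor
  · intro h
    have : (m' - m) * ((m' - wR K * m) * (m' - wR K ^ 2 * m)) = 0 := by
      linear_combination h + (m ^ 2 * m' - m ^ 3) * h3 - (m' - m) * m * m' * hw
    simpa only [mul_eq_zero, sub_eq_zero] using this
  · rintro (rfl | rfl | rfl)
    · rfl
    · linear_combination m ^ 3 * h3
    · linear_combination m ^ 3 * (wR K ^ 3 + 1) * h3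

theorem cu_cover {𝒰 : Finset (R K)} (h1 : ∀ u ∈ 𝒰, IsUnit u)
    (h2 : ∀ w : R K, IsUnit w → ∃! u, u ∈ 𝒰 ∧ ∃ s : R K, w = u * s ^ 3) {F : R K → ℝ}
    (hF : ∀ c, F c ≠ 0 → c ≠ 0 ∧ ∃ m : R K, Associated c (m ^ 3)) {a : R K → ℝ}
    (ha : ∀ u ∈ 𝒰, HasSum (fun m : R K => F (u * m ^ 3)) (a u)) :
    HasSum F (∑ u ∈ 𝒰, a u / 3) := by
  classical
  have key : ∀ u ∈ 𝒰, HasSum (fun c => if ∃ m : R K, c = u * m ^ 3 then F c else 0) (a u / 3) := by
    intro u hu
    refine cu_congr (((ha u hu).tsum_fiberwise fun m : R K => u * m ^ 3).div_const 3) fun c => ?_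
    rw [tsum_congr (g := fun _ => F c) fun m => by rw [show u * m.1 ^ 3 = c from m.2], tsum_const]
    split_ifs with h
    · obtain ⟨m, rfl⟩ := h
      by_cases h0 : F (u * m ^ 3) = 0
      · simp [h0]
      · rw [cu_fiber (h1 u hu).ne_zero fun hm => (hF _ h0).1 (by simp [hm])]
        simp
    · have : IsEmpty ((fun m : R K => u * m ^ 3) ⁻¹' {c}) := ⟨fun m => h ⟨m.1, m.2.symm⟩⟩
      simp
  refine cu_congr (hasSum_sum key) fun c => ?_
  by_cases h0 : F c = 0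
  · simp [h0]
  obtain ⟨hc, m, ε, hε⟩ := hF c h0
  obtain ⟨u, ⟨hu, s, hs⟩, huniq⟩ := h2 _ (ε⁻¹).isUnit
  have ec : c = (ε⁻¹ : (R K)ˣ) * m ^ 3 := by rw [← hε, mul_comm c, Units.inv_mul_cancel_left]
  rw [Finset.sum_eq_single_of_mem u hu, if_pos ⟨s * m, by rw [ec, hs]; ring⟩]
  intro u' hu' hne
  refine if_neg ?_
  rintro ⟨m', e⟩
  have hm : m ≠ 0 := fun h => hc (by simp [ec, h])
  have hA : Associated (m ^ 3) (m' ^ 3) :=
    (Associated.symm ⟨ε, hε⟩).trans (e ▸ associated_unit_mul_left _ _ (h1 u' hu'))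
  obtain ⟨η, hη⟩ := (Associated.pow_iff three_ne_zero).1 hA
  refine hne (huniq u' ⟨hu', η, mul_right_cancel₀ (pow_ne_zero 3 hm) ?_⟩)
  rw [← ec, e, ← hη]
  ring

open Classical in
theorem cu_final {x : K} {I₆ δ : ℝ} {𝒰 : Finset (R K)} (h1 : ∀ u ∈ 𝒰, IsUnit u)
    (h2 : ∀ w : R K, IsUnit w → ∃! u, u ∈ 𝒰 ∧ ∃ s : R K, w = u * s ^ 3) {y : R K → K}
    (hy : ∀ u ∈ 𝒰, y u ≠ 0 ∧ ∀ m : K, InT (x / u) (m ^ 3) ↔ InT (y u) m) {q : R K}
    (hq : ∀ m : R K, q ∣ m ^ 3 ↔ q ∣ m) {S C : ℝ}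
    (H : ∀ y : K, y ≠ 0 → ∀ t : Pl K → ℝ, ∃ a,
      HasSum (fun m => (if q ∣ m then phiN m else 0) * cuL y t m) a ∧
      |a - I₆ * S * sz y t| ≤ C * sz y t ^ (1 - δ)) :
    ∃ C' : ℝ, ∀ t : Pl K → ℝ, |cubeSum x q t -
      S * (∑ u ∈ 𝒰, I₆ * sz (y u) (-(1 / 3 : ℝ) • lg (u : K)) / 3) *
        Real.exp (-(2 / 3) * ∑ v, t v)| ≤ C' * Real.exp (-(2 / 3 - 2 / 3 * δ) * ∑ v, t v) := by
  refine ⟨∑ u ∈ 𝒰, C * sz (y u) (-(1 / 3 : ℝ) • lg (u : K)) ^ (1 - δ) / 3, fun t => ?_⟩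
  choose! a ha ha' using fun u (hu : u ∈ 𝒰) =>
    H (y u) (hy u hu).1 (-(1 / 3 : ℝ) • lg (u : K) + -(1 / 3 : ℝ) • t)
  have e : cubeSum x q t = ∑ u ∈ 𝒰, a u / 3 := by
    refine (cu_cover h1 h2 (fun c hc => ?_) fun u hu => ?_).tsum_eq
    · have := (ite_ne_right_iff.1 hc).1
      exact ⟨this.1, this.2.2.1⟩
    refine cu_congr (ha u hu) fun m => ?_
    have hu0 := (h1 u hu).ne_zero
    have hu' : (u : K) ≠ 0 := by simpa using hu0
    by_cases hm : m = 0
    · simp [hm, cuL]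
    have e1 : u * m ^ 3 ∈ Lat x ↔ m ∈ Lat (y u) := by
      rw [mem_Lat, mem_Lat, ← (hy u hu).2, ← InT_mul_iff (x := x / u) hu', mul_div_cancel₀ _ hu']
      rfl
    have e2 : ∃ m' : R K, Associated (u * m ^ 3) (m' ^ 3) :=
      ⟨m, associated_unit_mul_left _ _ (h1 u hu)⟩
    have e3 : ∀ v, Real.exp (2 * t v) * ‖emb ((u * m ^ 3 : R K) : K) v‖ ^ 2 =
        Real.exp (-6 * (-(1 / 3 : ℝ) • lg (u : K) + -(1 / 3 : ℝ) • t) v) * ‖emb (m : K) v‖ ^ 6 := by
      intro v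
      have h0 : 0 < ‖emb (u : K) v‖ := norm_pos_iff.2 (emb_ne_zero hu' v)
      rw [show -6 * (-(1 / 3 : ℝ) • lg (u : K) + -(1 / 3 : ℝ) • t) v =
        2 * t v + (2 : ℕ) * Real.log ‖emb (u : K) v‖ by simp [lg]; ring, Real.exp_add,
        Real.exp_nat_mul, Real.exp_log h0]
      simp only [emb, Subring.coe_mul, SubmonoidClass.coe_pow, map_mul, map_pow, norm_mul, norm_pow]
      ring
    simp only [cuL, e1, e2, e3, (h1 u hu).dvd_mul_left, hq, cu_phi_cube (h1 u hu) hm, ne_eq, hm,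
      mul_ne_zero hu0 (pow_ne_zero 3 hm), not_false_eq_true, true_and, and_true]
    by_cases h3 : m ∈ Lat (y u) <;> by_cases h4 : q ∣ m <;> simp [h3, h4]
  rw [e, Finset.mul_sum, Finset.sum_mul, Finset.sum_mul, ← Finset.sum_sub_distrib]
  refine (Finset.abs_sum_le_sum_abs _ _).trans (Finset.sum_le_sum fun u hu => ?_)
  have h3 := ha' u hu
  have e4 : 2 * ∑ v, (-(1 / 3 : ℝ) • t) v = -(2 / 3) * ∑ v, t v := by
    simp only [Pi.smul_apply, smul_eq_mul, ← Finset.mul_sum]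
    ring
  rw [sz_add, e4, Real.mul_rpow (sz_pos (hy u hu).1 _).le (Real.exp_pos _).le,
    ← Real.exp_mul, show -(2 / 3) * (∑ v, t v) * (1 - δ) = -(2 / 3 - 2 / 3 * δ) * ∑ v, t v by ring]
    at h3
  rw [abs_le] at h3 ⊢
  constructor <;> linarith [h3.1, h3.2]

theorem cube_sum {x : K} (hx : x ≠ 0) : ∃ ρ δ : ℝ, 0 < ρ ∧ 0 < δ ∧ δ < 2 / 3 ∧
    (∃ C : ℝ, ∀ t : Pl K → ℝ, |cubeSum x 1 t - ρ * Real.exp (-(2 / 3) * ∑ v, t v)| ≤
      C * Real.exp (-(2 / 3 - δ) * ∑ v, t v)) ∧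
    ∀ q : R K, Prime q → ∃ C : ℝ, ∀ t : Pl K → ℝ,
      |cubeSum x q t - ρ / (Nr q + 1) * Real.exp (-(2 / 3) * ∑ v, t v)| ≤
        C * Real.exp (-(2 / 3 - δ) * ∑ v, t v) := by
  classical
  obtain ⟨I₆, δ, C, hI, hδ, hδ1, H⟩ := lat_count (K := K)
  obtain ⟨𝒰, h1, h2⟩ := units_mod_cubes (K := K)
  have hy' : ∀ u ∈ 𝒰, ∃ y : K, y ≠ 0 ∧ ∀ m : K, InT (x / u) (m ^ 3) ↔ InT y m := fun u hu =>
    exists_cube_lat (div_ne_zero hx (by simpa using (h1 u hu).ne_zero))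
  choose! y hy using hy'
  have hne : 𝒰.Nonempty := by
    obtain ⟨u, hu, -⟩ := h2 1 isUnit_one
    exact ⟨u, hu.1⟩
  refine ⟨cuS (∅ : Finset (Ideal (R K))) *
    ∑ u ∈ 𝒰, I₆ * sz (y u) (-(1 / 3 : ℝ) • lg (u : K)) / 3, 2 / 3 * δ,
    mul_pos cu_S_pos (Finset.sum_pos (fun u hu => ?_) hne), by positivity, by linarith, ?_,
    fun q hq => ?_⟩
  · have := sz_pos (hy u hu).1 (-(1 / 3 : ℝ) • lg (u : K))
    positivity
  · obtain ⟨C', hC'⟩ := cu_main hδ1 H one_ne_zero (b := fun J => cuMu J * (nmI J : ℝ)⁻¹)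
      (h := fun m => if 1 ∣ m then phiN m else 0) (fun J => by
        rw [abs_mul, abs_of_nonneg (by positivity : 0 ≤ (nmI J : ℝ)⁻¹)]
        exact mul_le_of_le_one_left (by positivity) (cu_mu_le J))
      fun m hm => by simpa using cu_phi hm
    have e : (∑' J : Ideal (R K), cuMu J * (nmI J : ℝ)⁻¹ * (nmI J : ℝ)⁻¹) / Nr (1 : R K) =
        cuS (∅ : Finset (Ideal (R K))) := by
      rw [Nr_eq_one.2 isUnit_one, div_one, cuS]
      exact tsum_congr fun J => by simp [sq, mul_assoc]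
    rw [e] at hC'
    exact cu_final h1 h2 hy (fun m => by simp) hC'
  · have hQ : Prime (Ideal.span {q}) := prime_gen.1 ((associated_gen_span q).symm.prime hq)
    have hQ2 : 2 ≤ Nr q := cu_two_le hQ
    have hi : (Nr q)⁻¹ ≤ 1 := inv_le_one_of_one_le₀ (by linarith)
    have hi0 : 0 ≤ (Nr q)⁻¹ := by positivity
    obtain ⟨C', hC'⟩ := cu_main hδ1 H hq.ne_zero (b := fun J =>
      if Ideal.span {q} ∣ J then 0 else cuMu J * (1 - (Nr q)⁻¹) * (nmI J : ℝ)⁻¹)
      (h := fun m => if q ∣ m then phiN m else 0) (fun J => by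
        split_ifs
        · rw [abs_zero]
          positivity
        · rw [abs_mul, abs_mul, abs_of_nonneg (by positivity : 0 ≤ (nmI J : ℝ)⁻¹),
            abs_of_nonneg (sub_nonneg.2 hi)]
          exact mul_le_of_le_one_left (by positivity)
            (mul_le_one₀ (cu_mu_le J) (sub_nonneg.2 hi) (by linarith)))
      fun m hm => cu_phi_q hq hm
    have e : (∑' J : Ideal (R K), (if Ideal.span {q} ∣ J then 0 else
        cuMu J * (1 - (Nr q)⁻¹) * (nmI J : ℝ)⁻¹) * (nmI J : ℝ)⁻¹) / Nr q =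
        cuS (∅ : Finset (Ideal (R K))) / (Nr q + 1) := by
      have e1 : (∑' J : Ideal (R K), (if Ideal.span {q} ∣ J then 0 else
          cuMu J * (1 - (Nr q)⁻¹) * (nmI J : ℝ)⁻¹) * (nmI J : ℝ)⁻¹) =
          (1 - (Nr q)⁻¹) * cuS (insert (Ideal.span {q}) ∅) := by
        rw [cuS, ← tsum_mul_left]
        refine tsum_congr fun J => ?_
        by_cases h : Ideal.span {q} ∣ J <;> simp [h]
        ring
      rw [e1, cu_S_insert (by simp) hQ (Finset.notMem_empty _),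
        show (nmI (Ideal.span {q}) : ℝ) = Nr q from rfl]
      field_simp
      ring
    rw [e] at hC'
    obtain ⟨C'', h⟩ := cu_final h1 h2 hy
      (fun m => ⟨hq.dvd_of_dvd_pow, fun h => h.trans (dvd_pow_self _ three_ne_zero)⟩) hC'
    exact ⟨C'', fun t => by rw [mul_div_right_comm]; exact h t⟩

end Crest.Agent.GQ
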