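import Crest.Agent.GQ.Poisson
import Crest.Agent.GQ.Flip
import Crest.Agent.GQ.Gam

/-! # GQ ThDefs: hyperbolic space and the theta series -/

set_option autoImplicit false

noncomputable section

open NumberField Complex
open scoped ComplexConjugate

namespace Crest.Agent.GQ

variable {K : Type} [Field K] [NumberField K] [P : Pre K]

open MeasureTheory

/-- `H = (B, log D)`, with Lebesgue measure. -/
abbrev HH (K : Type) [Field K] [NumberField K] [Pre K] : Type := (Pl K → ℂ) × (Pl K → ℝ)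
/-- `SL₂` over `K_∞`. -/
abbrev SLC (K : Type) [Field K] [NumberField K] [Pre K] : Type :=
  Matrix.SpecialLinearGroup (Fin 2) (Pl K → ℂ)
/-- `SL₂(R)`. -/
abbrev SLR (K : Type) [Field K] [NumberField K] [Pre K] : Type :=
  Matrix.SpecialLinearGroup (Fin 2) (R K)

/-- The point with coordinates `z` and `v = exp (-y)`. -/
def pt (z : Pl K → ℂ) (y : Pl K → ℝ) : HH K := (fun v => z v * (Real.exp (y v) : ℂ), y)
/-- The coordinate `z = B / D`. -/
def zc (p : HH K) : Pl K → ℂ := fun v => p.1 v * (Real.exp (-p.2 v) : ℂ)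
/-- The Hermitian form `Q_p(c, d) = |c z + d|² / v + |c|² v`. -/
def Qh (p : HH K) (c d : Pl K → ℂ) (v : Pl K) : ℝ :=
  Real.exp (p.2 v) * ‖c v * zc p v + d v‖ ^ 2 + ‖c v‖ ^ 2 * Real.exp (-p.2 v)
/-- The associated sesquilinear form. -/
def hf (p : HH K) (a b c d : Pl K → ℂ) (v : Pl K) : ℂ :=
  (Real.exp (p.2 v) : ℂ) * (a v * zc p v + b v) * conj (c v * zc p v + d v) +
    a v * conj (c v) * (Real.exp (-p.2 v) : ℂ)
/-- The action of `SL₂(K_∞)`, characterised by `Q_{g p}(x) = Q_p(x g)`. -/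
def act (g : SLC K) (p : HH K) : HH K :=
  (hf p (g.1 0 0) (g.1 0 1) (g.1 1 0) (g.1 1 1), fun v => Real.log (Qh p (g.1 1 0) (g.1 1 1) v))

/-- `emb` as a ring homomorphism on `R`. -/
def embH : R K →+* (Pl K → ℂ) where
  toFun n := emb (n : K)
  map_zero' := by ext v; simp [emb]
  map_one' := by ext v; simp [emb]
  map_add' a b := by ext v; simp [emb]
  map_mul' a b := by ext v; simp [emb]
/-- The action of `SL₂(R)`. -/
def actR (g : SLR K) (p : HH K) : HH K := act (Matrix.SpecialLinearGroup.map embH g) p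

/-- The matrix with entries `a, b, c, d`. -/
def mk2 {A : Type*} [CommRing A] (a b c d : A) (h : a * d - b * c = 1) :
    Matrix.SpecialLinearGroup (Fin 2) A := ⟨!![a, b; c, d], by rw [Matrix.det_fin_two_of]; exact h⟩

/-- The filter `N(t) → 0`. -/
def tF (K : Type) [Field K] [NumberField K] [Pre K] : Filter (Pl K → ℝ) :=
  Filter.comap (fun t => ∑ v, t v) Filter.atBot

/-- The Gaussian `exp (-π t² Q_p(c, d))`. -/
def gQ (t : Pl K → ℝ) (p : HH K) (c d : R K) : ℝ :=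
  Real.exp (-Real.pi * ∑ v, Real.exp (2 * t v) * Qh p (emb (c : K)) (emb (d : K)) v)

/-- The test functions appearing in the Fourier coefficients (`v = exp (-y)`, `|t c| = exp u`). -/
def ff (ρ y u : Pl K → ℝ) : ℝ := ∏ v, (Real.exp (-y v - 2 * u v) *
  Real.exp (-Real.pi * Real.exp (-y v) * (Real.exp (2 * u v) + 4 * ρ v ^ 2 * Real.exp (-2 * u v))))
/-- `N(t)^{4/3} ∑ β(c) F(t c)`. -/
def Dt (β : R K → ℂ) (F : (Pl K → ℝ) → ℝ) (t : Pl K → ℝ) : ℂ :=
  (Real.exp (8 / 3 * ∑ v, t v) : ℂ) * ∑' c : R K, β c * (F (t + lg (c : K)) : ℂ)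
/-- The cube `[-Y, Y]^r`. -/
def cube (K : Type) [Field K] [NumberField K] [Pre K] (Y : ℝ) : Set (Pl K → ℝ) :=
  Set.Icc (fun _ => -Y) (fun _ => Y)
/-- The universal test function. -/
def Fstar (u : Pl K → ℝ) : ℝ := ∫ y in cube K 1, ff (fun _ => 1) y u
/-- `∫ N(u)^{4/3} F(u) d^×u`. -/
def MF (F : (Pl K → ℝ) → ℝ) : ℝ := ∫ u : Pl K → ℝ, Real.exp (8 / 3 * ∑ v, u v) * F u
/-- `τ` is the residue attached to the coefficients `β`. -/
def Lim (β : R K → ℂ) (τ : ℂ) : Prop :=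
  Filter.Tendsto (Dt β Fstar) (tF K) (nhds (τ * (MF (Fstar : (Pl K → ℝ) → ℝ) : ℂ)))
/-- The Whittaker function. -/
def Wh (r : K) (y : Pl K → ℝ) : ℝ := ∏ v, (Real.exp (-y v) * Kf (‖emb r v‖ * Real.exp (-y v)))
/-- The Fourier series with coefficients `τ`. -/
def thS (τ : R K → ℂ) (p : HH K) : ℂ :=
  ∑' r : R K, τ r * (Wh (r : K) p.2 : ℂ) * eC (emb (r : K) * zc p)

variable [Q : Rec K]

/-- The level `M^k`. -/
abbrev MM (K : Type) [Field K] [NumberField K] [Pre K] [Q : Rec K] : K := MK K ^ Q.k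

open Classical in
/-- The basic row function. -/
def phi0 (c d : R K) : ℂ :=
  if c ∈ Lat (MM K) ∧ d - 1 ∈ Lat (MM K) ∧ IsCoprime c d then kap c d else 0
/-- `φ^g (x) = φ₀ (x g⁻¹)`. -/
def phi (g : SLR K) (c d : R K) : ℂ :=
  phi0 (c * g.1 1 1 - d * g.1 1 0) (-(c * g.1 0 1) + d * g.1 0 0)
/-- The principal congruence subgroup. -/
def Gam (K : Type) [Field K] [NumberField K] [Pre K] [Rec K] : Set (SLR K) :=
  {γ | γ.1 0 0 - 1 ∈ Lat (MM K) ∧ γ.1 0 1 ∈ Lat (MM K) ∧ γ.1 1 0 ∈ Lat (MM K) ∧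
    γ.1 1 1 - 1 ∈ Lat (MM K)}
/-- `s(g) = (d / c)`. -/
def sg (g : SLR K) : ℂ := kap (g.1 1 0) (g.1 1 1)

open Classical in
/-- The normalised series over the rows with `q ∣ c` (`q = 1`: all rows). -/
def ThQ (q : R K) (g : SLR K) (t : Pl K → ℝ) (p : HH K) : ℂ :=
  (Real.exp (8 / 3 * ∑ v, t v) : ℂ) *
    ∑' x : R K × R K, (if q ∣ x.1 then phi g x.1 x.2 else 0) * (gQ t p x.1 x.2 : ℂ)
/-- The normalised series. -/
def Th (g : SLR K) (t : Pl K → ℝ) (p : HH K) : ℂ := ThQ 1 g t p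

/-- `x` is a period of `φ^g`. -/
def IsPer (g : SLR K) (x : K) : Prop :=
  x ≠ 0 ∧ ∀ n ∈ Lat x, ∀ c d : R K, phi g c (d + c * n) = phi g c d
/-- The lattice `c · Lat x`. -/
def cLat (c : R K) (x : K) : AddSubgroup (R K) := (Lat x).map (AddMonoidHom.mulLeft c)
open Classical in
/-- The complete exponential sum in the `r`-th Fourier coefficient (zero for `c = 0`). -/
def bet (g : SLR K) (x : K) (r c : R K) : ℂ :=
  if c = 0 then 0 else
    ∑ᶠ δ : R K ⧸ cLat c x, phi g c (Quotient.out δ) * eT ((r : K) * (Quotient.out δ : R K) / c)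
open Classical in
/-- The `r`-th Fourier coefficient of `ThQ q g t` (rows with `c ≠ 0`). -/
def fc (q : R K) (g : SLR K) (x : K) (r : R K) (t y : Pl K → ℝ) : ℂ :=
  ((cov K * NS x : ℝ) : ℂ)⁻¹ *
    Dt (fun c => if q ∣ c then bet g x r c else 0) (ff (fun v => ‖emb (r : K) v‖) y) t
/-- The contribution of the rows with `c = 0`. -/
def u0 (g : SLR K) (t y : Pl K → ℝ) : ℂ :=
  (Real.exp (8 / 3 * ∑ v, t v) : ℂ) * ∑' d : R K, phi g 0 d * (gQ t (pt 0 y) 0 d : ℂ)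

open Classical in
/-- The coefficients `g(r, c)` on a class. -/
def gcl (r : R K) (c₀ : K) (c : R K) : ℂ := if c ∈ cls Q.k c₀ then gs (kap c) c r else 0
/-- The residue `T(r; c₀)`. -/
def Tl (r : R K) (c₀ : K) : ℂ := Classical.epsilon (fun τ => Lim (gcl r c₀) τ)
/-- The normalised residue `t(c)`. -/
def tt (c : K) : ℂ := ((NS c ^ (4 / 3 : ℝ) : ℝ) : ℂ) * Tl 1 c

/-- The non-constant part of `Th g t` converges in `L²_loc` to `thS τ`. -/
def HasTheta (g : SLR K) (τ : R K → ℂ) : Prop :=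
  ∃ ct : (Pl K → ℝ) → (Pl K → ℝ) → ℂ, (∀ t, Continuous (ct t)) ∧ ∀ C : Set (HH K), IsCompact C →
    Filter.Tendsto (fun t => ∫ p in C, ‖Th g t p - ct t p.2 - thS τ p‖ ^ 2) (tF K) (nhds 0)

/-- `τ = κ · Gf` with `κ` a class function of level `j` supported in `M^{-j} T`. -/
def IsThCoef (j : ℕ) (C : ℝ) (κ : R K → ℂ) : Prop :=
  (∀ r r' : R K, r' ∈ cls j (r : K) → κ r' = κ r) ∧
  (∀ r : R K, κ r ≠ 0 → r ≠ 0 ∧ InT (MK K ^ j)⁻¹ r) ∧
  (∀ r : R K, ‖κ r‖ ≤ C * NS (r : K) ^ (1 / 6 : ℝ))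

end Crest.Agent.GQ
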