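import Mathlib

/-! # GQ ThGramAuxA: elementary integrals for the Gram asymptotics -/

set_option autoImplicit false

noncomputable section

namespace Crest.Agent.GQ

open MeasureTheory

theorem gr_int1 {a : ℝ} (ha : 0 < a) :
    Integrable fun s : ℝ => Real.exp (a * s) * Real.exp (-Real.pi * Real.exp s) := by
  have hc : Continuous fun s : ℝ => Real.exp (a * s) * Real.exp (-Real.pi * Real.exp s) := by
    fun_prop
  rw [← integrableOn_univ, ← Set.Iic_union_Ioi (a := (0 : ℝ)), integrableOn_union]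
  constructor
  · refine Integrable.mono' (integrableOn_exp_mul_Iic ha 0) hc.aestronglyMeasurable
      (Filter.Eventually.of_forall fun s => ?_)
    rw [Real.norm_of_nonneg (by positivity)]
    refine mul_le_of_le_one_right (Real.exp_pos _).le (Real.exp_le_one_iff.2 ?_)
    have := mul_pos Real.pi_pos (Real.exp_pos s)
    linarith
  · obtain ⟨N, hN⟩ := exists_nat_gt a
    refine Integrable.mono' ((integrableOn_exp_mul_Ioi (a := a - N) (by linarith) 0).const_mul
      (N.factorial : ℝ)) hc.aestronglyMeasurable (Filter.Eventually.of_forall fun s => ?_)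
    rw [Real.norm_of_nonneg (by positivity)]
    have h1 := Real.pow_div_factorial_le_exp (Real.exp s) (Real.exp_pos s).le N
    have h2 : Real.exp (Real.exp s) ≤ Real.exp (Real.pi * Real.exp s) :=
      Real.exp_le_exp.2 (le_mul_of_one_le_left (Real.exp_pos s).le (by linarith [Real.pi_gt_three]))
    have h3 : (0 : ℝ) < N.factorial := by positivity
    rw [← Real.exp_nat_mul, div_le_iff₀ h3] at h1
    rw [neg_mul, Real.exp_neg, sub_mul, Real.exp_sub, ← div_eq_mul_inv, ← mul_div_assoc,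
      div_le_div_iff₀ (Real.exp_pos _) (Real.exp_pos _)]
    have h4 := mul_le_mul_of_nonneg_right h2 h3.le
    have h5 := Real.exp_pos (a * s)
    nlinarith

variable {ι : Type} [Fintype ι]

/-- `exp (a ∑ y) exp (-π ∑ exp (s + y))` -/
def gr_G (a : ℝ) (s y : ι → ℝ) : ℝ :=
  Real.exp (a * ∑ v, y v) * Real.exp (-Real.pi * ∑ v, Real.exp (s v + y v))

theorem gr_G_pos (a : ℝ) (s y : ι → ℝ) : 0 < gr_G a s y := by
  unfold gr_G
  positivity

theorem gr_G_cont (a : ℝ) (s : ι → ℝ) : Continuous (gr_G a s) := by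
  unfold gr_G
  fun_prop

theorem gr_G_mul (a b : ℝ) (s y : ι → ℝ) :
    gr_G a s y * Real.exp (b * ∑ v, y v) = gr_G (a + b) s y := by
  rw [gr_G, gr_G, add_mul, Real.exp_add]
  ring

theorem gr_G_shift (a : ℝ) (s y : ι → ℝ) :
    gr_G a s y = Real.exp (-a * ∑ v, s v) * gr_G a 0 (s + y) := by
  simp only [gr_G, Pi.add_apply, Pi.zero_apply, zero_add, Finset.sum_add_distrib, ← mul_assoc,
    ← Real.exp_add]
  congr 1
  ring

theorem gr_G_int {a : ℝ} (ha : 0 < a) (s : ι → ℝ) : Integrable (gr_G a s) := by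
  have h0 : Integrable (gr_G a (0 : ι → ℝ)) := by
    have h := Integrable.fintype_prod (ι := ι) (μ := fun _ => volume) fun _ => gr_int1 ha
    refine h.congr (Filter.Eventually.of_forall fun y => ?_)
    simp only [gr_G, Finset.prod_mul_distrib, ← Real.exp_sum, ← Finset.mul_sum, Pi.zero_apply,
      zero_add]
  refine ((h0.comp_add_left s).const_mul (Real.exp (-a * ∑ v, s v))).congr
    (Filter.Eventually.of_forall fun y => ?_)
  exact (gr_G_shift a s y).symm

/-- the constant `∫ exp (a ∑ y) exp (-π ∑ exp y)` -/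
def gr_J (ι : Type) [Fintype ι] (a : ℝ) : ℝ := ∫ y : ι → ℝ, gr_G a 0 y

theorem gr_J_nonneg (a : ℝ) : 0 ≤ gr_J ι a := integral_nonneg fun y => (gr_G_pos a 0 y).le

theorem gr_G_integral (a : ℝ) (s : ι → ℝ) :
    ∫ y, gr_G a s y = Real.exp (-a * ∑ v, s v) * gr_J ι a := by
  simp only [gr_G_shift a s]
  rw [integral_const_mul, integral_add_left_eq_self (gr_G a 0) s, gr_J]

theorem gr_tsum_int {α κ : Type} [MeasurableSpace α] {μ : Measure α} [Countable κ] {f : α → ℝ}
    (hf : AEStronglyMeasurable f μ) (hf0 : ∀ y, 0 ≤ f y) {F : κ → α → ℝ}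
    (hF : ∀ i, Integrable (F i) μ) (hF0 : ∀ i y, 0 ≤ F i y) {w : κ → ℝ} (hw : Summable w)
    (hle : ∀ i, ∫ y, F i y ∂μ ≤ w i) (hs : ∀ y, Summable fun i => F i y)
    (h : ∀ y, f y ≤ ∑' i, F i y) : Integrable f μ ∧ ∫ y, f y ∂μ ≤ ∑' i, w i := by
  have hw0 : ∀ i, 0 ≤ w i := fun i => (integral_nonneg (hF0 i)).trans (hle i)
  have h1 : ∫⁻ y, ENNReal.ofReal (f y) ∂μ ≤ ENNReal.ofReal (∑' i, w i) := by
    calc ∫⁻ y, ENNReal.ofReal (f y) ∂μ ≤ ∫⁻ y, ∑' i, ENNReal.ofReal (F i y) ∂μ :=
          lintegral_mono fun y => by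
            rw [← ENNReal.ofReal_tsum_of_nonneg (fun i => hF0 i y) (hs y)]
            exact ENNReal.ofReal_le_ofReal (h y)
      _ = ∑' i, ∫⁻ y, ENNReal.ofReal (F i y) ∂μ :=
          lintegral_tsum fun i => (hF i).aemeasurable.ennreal_ofReal
      _ ≤ ∑' i, ENNReal.ofReal (w i) := ENNReal.tsum_le_tsum fun i => by
          rw [← ofReal_integral_eq_lintegral_ofReal (hF i) (Filter.Eventually.of_forall (hF0 i))]
          exact ENNReal.ofReal_le_ofReal (hle i)
      _ = _ := (ENNReal.ofReal_tsum_of_nonneg hw0 hw).symm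
  have h2 : Integrable f μ :=
    ⟨hf, (hasFiniteIntegral_iff_ofReal (Filter.Eventually.of_forall hf0)).2
      (h1.trans_lt ENNReal.ofReal_lt_top)⟩
  refine ⟨h2, ?_⟩
  rw [← ofReal_integral_eq_lintegral_ofReal h2 (Filter.Eventually.of_forall hf0)] at h1
  exact (ENNReal.ofReal_le_ofReal_iff (tsum_nonneg hw0)).1 h1

theorem gr_approx {α : Type} [MeasurableSpace α] {μ : Measure α} {f h : α → ℂ} {b : α → ℝ}
    (hf : AEStronglyMeasurable f μ) (hh : Integrable h μ) (hb : Integrable b μ)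
    (hle : ∀ y, ‖f y - h y‖ ≤ b y) : ‖∫ y, f y ∂μ - ∫ y, h y ∂μ‖ ≤ ∫ y, b y ∂μ := by
  have h1 : Integrable (fun y => f y - h y) μ :=
    hb.mono' (hf.sub hh.1) (Filter.Eventually.of_forall hle)
  have h2 : Integrable f μ := (h1.add hh).congr (Filter.Eventually.of_forall fun y => by simp)
  rw [← integral_sub h2 hh]
  exact norm_integral_le_of_norm_le hb (Filter.Eventually.of_forall hle)

end Crest.Agent.GQ
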