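import Crest.Agent.GQ.ThUnf
import Crest.Agent.GQ.ThCube
import Crest.Agent.GQ.ThGramAuxA

/-! # GQ ThGramAuxB: bounds for the basic series -/

set_option autoImplicit false

noncomputable section

open NumberField Complex
open scoped ComplexConjugate

namespace Crest.Agent.GQ

variable {K : Type} [Field K] [NumberField K] [P : Pre K]

open MeasureTheory

theorem gr_gQ_pos (t : Pl K → ℝ) (p : HH K) (c d : R K) : 0 < gQ t p c d := Real.exp_pos _

theorem gr_emb_zero : emb (0 : K) = 0 := by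
  ext v
  simp [emb]

theorem gr_gQ_pt (t : Pl K → ℝ) (z : Pl K → ℂ) (y : Pl K → ℝ) (c d : R K) : gQ t (pt z y) c d =
    gau (fun v => Real.exp (y v - 2 * t v)) (emb (c : K) + 0) *
      gau (fun v => Real.exp (-(2 * t v + y v))) (emb (d : K) + emb (c : K) * z) := by
  simp only [gQ, gau, Qh, zc_pt, pt_snd, ← Real.exp_add, ← mul_add, ← Finset.sum_add_distrib]
  congr 2
  refine Finset.sum_congr rfl fun v _ => ?_
  simp only [add_zero, Pi.zero_apply, Pi.add_apply, Pi.mul_apply, Real.exp_sub, Real.exp_neg, Real.exp_add,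
    add_comm (emb (d : K) v)]
  field_simp
  ring

theorem gr_gQ_zero (t : Pl K → ℝ) (z : Pl K → ℂ) (y : Pl K → ℝ) {d : R K} (hd : (d : K) ≠ 0) :
    gQ t (pt z y) 0 d = Real.exp (-Real.pi * ∑ v, Real.exp (2 * t v + 2 * lg (d : K) v + y v)) := by
  simp only [gQ, Qh, pt_snd, ZeroMemClass.coe_zero, gr_emb_zero, Pi.zero_apply, zero_mul, zero_add,
    norm_zero]
  congr 2
  refine Finset.sum_congr rfl fun v _ => ?_
  have h : Real.exp (2 * lg (d : K) v) = ‖emb (d : K) v‖ ^ 2 := by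
    rw [lg, ← Real.exp_log (pow_pos (norm_pos_iff.2 (emb_ne_zero hd v)) 2), Real.log_pow]
    norm_num
  rw [Real.exp_add, Real.exp_add, h]
  ring

theorem gr_gQ_one (t : Pl K → ℝ) (z : Pl K → ℂ) (y : Pl K → ℝ) :
    gQ t (pt z y) 0 1 = Real.exp (-Real.pi * ∑ v, Real.exp (2 * t v + y v)) := by
  rw [gr_gQ_zero t z y (by simp)]
  simp [lg, emb]

theorem gr_cont_gQ (t : Pl K → ℝ) (c d : R K) : Continuous fun p : HH K => gQ t p c d :=
  Real.continuous_exp.comp (continuous_const.mul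
    (continuous_finset_sum _ fun v _ => continuous_const.mul (continuous_Qh _ _ v)))

variable [Q : Rec K]

open Classical in
theorem gr_lat_sum {x : K} (hx : x ≠ 0) (t : Pl K → ℝ) : ∃ C : ℝ, ∀ (z : Pl K → ℂ) (y : Pl K → ℝ),
    ∑' w : R K × R K, (if w.1 ∈ Lat x ∧ w.2 ∈ Lat x then gQ t (pt z y) w.1 w.2 else 0) ≤
      C * (Real.exp (-∑ v, y v) + 1 + Real.exp (∑ v, y v)) := by
  obtain ⟨C, hC⟩ := tsum_gau_le (K := K)
  have hN := NS_pos hx
  have hg0 : ∀ (ρ : Pl K → ℝ) (z : Pl K → ℂ), 0 ≤ gau ρ z := fun _ _ => (Real.exp_pos _).le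
  have hC0 : 0 ≤ C := by
    have h := (tsum_nonneg fun n => hg0 _ _).trans (hC x hx (fun _ => 1) (fun _ => one_pos) 0)
    exact nonneg_of_mul_nonneg_left h (by positivity)
  set κ := Real.exp (-(2 * ∑ v, t v)) / NS x with hκ
  have hκ0 : 0 ≤ κ := by positivity
  refine ⟨C * C * (1 + κ + κ ^ 2), fun z y => ?_⟩
  have hi : Function.Injective fun n : Lat x × Lat x => ((n.1 : R K), (n.2 : R K)) :=
    fun n n' h => Prod.ext (Subtype.ext (congrArg Prod.fst h)) (Subtype.ext (congrArg Prod.snd h))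
  have hs := (summable_gQ hx t (pt z y)).comp_injective hi
  rw [← hi.tsum_eq fun w hw => ?_]
  swap
  · have h : w.1 ∈ Lat x ∧ w.2 ∈ Lat x := by
      by_contra hn
      exact hw (if_neg hn)
    exact ⟨(⟨w.1, h.1⟩, ⟨w.2, h.2⟩), rfl⟩
  simp only [Function.comp_def, SetLike.coe_mem, and_self, if_true, gr_gQ_pt] at hs ⊢
  rw [hs.tsum_prod]
  have h1 := hC x hx (fun v => Real.exp (y v - 2 * t v)) (fun _ => Real.exp_pos _) 0
  have h2 := fun c : Lat x => hC x hx (fun v => Real.exp (-(2 * t v + y v)))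
    (fun _ => Real.exp_pos _) (emb ((c : R K) : K) * z)
  have h3 := summable_gau hx (ρ := fun v => Real.exp (y v - 2 * t v)) (fun _ => Real.exp_pos _) 0 0
  simp only [pow_zero, one_mul] at h3
  have e1 : (∏ v, Real.exp (y v - 2 * t v)) / NS x = κ * Real.exp (∑ v, y v) := by
    rw [← Real.exp_sum, hκ, div_mul_eq_mul_div, ← Real.exp_add, Finset.sum_sub_distrib,
      ← Finset.mul_sum]
    congr 2
    ring
  have e2 : (∏ v, Real.exp (-(2 * t v + y v))) / NS x = κ * Real.exp (-∑ v, y v) := by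
    rw [← Real.exp_sum, hκ, div_mul_eq_mul_div, ← Real.exp_add, Finset.sum_neg_distrib,
      Finset.sum_add_distrib, ← Finset.mul_sum]
    congr 2
    ring
  rw [e1] at h1
  rw [e2] at h2
  have e3 : Real.exp (∑ v, y v) * Real.exp (-∑ v, y v) = 1 := by
    rw [← Real.exp_add, add_neg_cancel, Real.exp_zero]
  have p1 := Real.exp_pos (∑ v, y v)
  have p2 := Real.exp_pos (-∑ v, y v)
  refine le_trans (hs.prod.tsum_le_tsum (fun c => ?_)
    (h3.mul_right (C * (1 + κ * Real.exp (-∑ v, y v))))) ?_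
  · dsimp only
    rw [tsum_mul_left]
    exact mul_le_mul_of_nonneg_left (h2 c) (hg0 _ _)
  · rw [tsum_mul_right]
    refine (mul_le_mul_of_nonneg_right h1 (by positivity)).trans ?_
    rw [mul_mul_mul_comm, mul_assoc (C * C)]
    refine mul_le_mul_of_nonneg_left ?_ (mul_nonneg hC0 hC0)
    have e4 : (1 + κ * Real.exp (∑ v, y v)) * (1 + κ * Real.exp (-∑ v, y v)) =
        1 + κ * Real.exp (∑ v, y v) + κ * Real.exp (-∑ v, y v) + κ ^ 2 := by
      linear_combination κ ^ 2 * e3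
    rw [e4]
    nlinarith [mul_nonneg (sq_nonneg κ) p1.le, mul_nonneg (sq_nonneg κ) p2.le]

theorem gr_MM_ne : MM K ≠ 0 := pow_ne_zero _ MK_ne_zero

theorem gr_ThQ_le (g : SLR K) (t : Pl K → ℝ) : ∃ C : ℝ, ∀ (q : R K) (z : Pl K → ℂ) (y : Pl K → ℝ),
    ‖ThQ q g t (pt z y)‖ ≤ C * (Real.exp (-∑ v, y v) + 1 + Real.exp (∑ v, y v)) := by
  classical
  obtain ⟨x, hx, hs⟩ := phi_supp g
  obtain ⟨C, hC⟩ := gr_lat_sum hx t
  refine ⟨Real.exp (8 / 3 * ∑ v, t v) * C, fun q z y => ?_⟩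
  rw [ThQ, norm_mul, Complex.norm_real, Real.norm_of_nonneg (Real.exp_pos _).le, mul_assoc]
  refine mul_le_mul_of_nonneg_left (le_trans ?_ (hC z y)) (Real.exp_pos _).le
  refine tsum_of_norm_bounded (summable_gQ hx t (pt z y)).hasSum fun w => ?_
  have h0 := gr_gQ_pos t (pt z y) w.1 w.2
  rw [norm_mul, Complex.norm_real, Real.norm_of_nonneg h0.le]
  by_cases h : phi g w.1 w.2 = 0
  · rw [h, ite_self, norm_zero, zero_mul]
    split_ifs
    · exact h0.le
    · exact le_rfl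
  · rw [if_pos (show w.1 ∈ Lat x ∧ w.2 ∈ Lat x from ⟨(hs _ _ h).1, (hs _ _ h).2.1⟩)]
    refine mul_le_of_le_one_left h0.le ?_
    split_ifs
    · exact norm_phi_le g _ _
    · simp

theorem gr_ThQ_per (q : R K) (t : Pl K → ℝ) {n : R K} (hn : n ∈ Lat (MM K)) (z : Pl K → ℂ)
    (y : Pl K → ℝ) : ThQ q 1 t (pt (z + emb (n : K)) y) = ThQ q 1 t (pt z y) := by
  rw [ThQ_fourier isPer_one, ThQ_fourier isPer_one]
  congr 1
  refine tsum_congr fun r => ?_
  split_ifs with hr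
  · rw [mul_add, eC_add, ← emb_mul, eC_emb,
      (dual_Lat gr_MM_ne (r : K)).2 ⟨r.2, mem_Lat.1 hr⟩ n hn, mul_one]
  · rw [zero_mul, zero_mul]

theorem gr_ThQ_int (q : R K) (t y : Pl K → ℝ) : ∫ z in fd (MM K), ThQ q 1 t (pt z y) =
    ((cov K * NS (MM K) : ℝ) : ℂ) * (u0 1 t y + fc q 1 (MM K) 0 t y) := by
  classical
  haveI := fd_finite (gr_MM_ne (K := K))
  have h1 := coeff_fd gr_MM_ne
    (a := fun r : R K => if r ∈ Lat (MM K * dl K)⁻¹ then fc q 1 (MM K) r t y else 0)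
    (fun r hr => by
      by_contra hn
      exact hr (if_neg hn)) (summable_fc isPer_one q t y) (zero_mem _)
  have h0 : eC (0 : Pl K → ℂ) = 1 := by simp [eC]
  simp only [ZeroMemClass.coe_zero, gr_emb_zero, zero_mul, neg_zero, h0, mul_one, zero_mem,
    if_true] at h1
  have hc : Continuous fun z : Pl K → ℂ => ThQ q 1 t (pt z y) :=
    (continuous_ThQ q 1 t).comp (continuous_pt.comp (continuous_id.prodMk continuous_const))
  have hi : IntegrableOn (fun z : Pl K → ℂ => ThQ q 1 t (pt z y)) (fd (MM K)) :=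
    (hc.continuousOn.integrableOn_compact (isBounded_fd gr_MM_ne).isCompact_closure).mono_set
      subset_closure
  have h2 : ∫ z in fd (MM K), (ThQ q 1 t (pt z y) - u0 1 t y) =
      ((cov K * NS (MM K) : ℝ) : ℂ) * fc q 1 (MM K) 0 t y := by
    rw [← h1]
    congr 1
    funext z
    rw [ThQ_fourier isPer_one, add_sub_cancel_left]
  rw [integral_sub hi (integrable_const _), setIntegral_const, fd_volume_real gr_MM_ne,
    real_smul] at h2
  linear_combination h2

theorem gr_unit {d : R K} (h : phi 1 0 d ≠ 0) :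
    (d : K) ≠ 0 ∧ IsIntegral ℤ (d : K) ∧ IsIntegral ℤ (d : K)⁻¹ ∧ ∑ v, lg (d : K) v = 0 := by
  rw [phi_one, phi0_ne_zero_iff] at h
  have hu : IsUnit d := isCoprime_zero_left.1 h.2.2
  have hU : (d : K) ∈ U Q.k := by simpa [U, mem_Lat] using h.2.1
  have h0 := U_ne_zero Q.hk hU
  refine ⟨h0, int_of_mem d.2 (U_mem_T hU), int_of_mem ?_ (U_mem_T (U_inv Q.hk hU)), ?_⟩
  · obtain ⟨e, he⟩ := hu.exists_right_inv
    have h1 : (d : K) * e = 1 := by exact_mod_cast congrArg Subtype.val he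
    rw [inv_eq_of_mul_eq_one_right h1]
    exact e.2
  · have h1 := Nm_eq_exp h0
    rw [← NS_unit hu, NS_U Q.hk hU, eq_comm, Real.exp_eq_one_iff] at h1
    linarith

/-- the contribution of the rows with `c = 0` -/
theorem gr_u0 : ∃ C : ℝ, ∀ t t' : Pl K → ℝ,
    Integrable (fun y => gr_G 2 (fun v => 2 * t v) y * ‖u0 1 t' y‖) ∧
    Real.exp (8 / 3 * ∑ v, t v) * ∫ y, gr_G 2 (fun v => 2 * t v) y * ‖u0 1 t' y‖ ≤
      C * Real.exp (2 / 3 * (∑ v, t v + ∑ v, t' v)) := by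
  obtain ⟨C, hC⟩ := unit_sum_le (K := K) two_pos
  refine ⟨gr_J (Pl K) 2 * C, fun t t' => ?_⟩
  have hJ := gr_J_nonneg (ι := Pl K) 2
  let φ : {d : R K // phi 1 0 d ≠ 0} → {u : K // u ≠ 0 ∧ IsIntegral ℤ u ∧ IsIntegral ℤ u⁻¹} :=
    fun d => ⟨(d.1 : K), (gr_unit d.2).1, (gr_unit d.2).2.1, (gr_unit d.2).2.2.1⟩
  have hφ : Function.Injective φ := fun d d' h =>
    Subtype.ext (Subtype.ext (congrArg (fun u => u.1) h :))
  have hw := (hC (t - t')).1.comp_injective hφ
  have hw' := (tsum_comp_le_tsum_of_inj (hC (t - t')).1 (fun _ => (Real.exp_pos _).le) hφ).trans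
    (hC (t - t')).2
  set A := Real.exp (8 / 3 * ∑ v, t' v) * (Real.exp (-2 * (∑ v, t v + ∑ v, t' v)) * gr_J (Pl K) 2)
    with hA
  have hle : ∀ (d : {d : R K // phi 1 0 d ≠ 0}) (y : Pl K → ℝ),
      gr_G 2 (fun v => 2 * t v) y * (‖phi 1 0 d.1‖ * gQ t' (pt 0 y) 0 d.1) ≤
        gr_G 2 (fun v => max (2 * t v) (2 * t' v + 2 * lg (d.1 : K) v)) y := by
    intro d y
    refine (mul_le_mul_of_nonneg_left (mul_le_of_le_one_left (gr_gQ_pos _ _ _ _).le
      (norm_phi_le 1 _ _)) (gr_G_pos _ _ _).le).trans ?_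
    rw [gr_gQ_zero _ _ _ (gr_unit d.2).1, gr_G, gr_G, mul_assoc, ← Real.exp_add, ← mul_add,
      ← Finset.sum_add_distrib]
    refine mul_le_mul_of_nonneg_left (Real.exp_le_exp.2 (mul_le_mul_of_nonpos_left
      (Finset.sum_le_sum fun v _ => ?_) (neg_nonpos.2 Real.pi_pos.le))) (Real.exp_pos _).le
    rcases max_choice (2 * t v) (2 * t' v + 2 * lg (d.1 : K) v) with h | h <;> rw [h]
    · exact le_add_of_nonneg_right (Real.exp_pos _).le
    · exact le_add_of_nonneg_left (Real.exp_pos _).le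
  have hF0 : ∀ (d : {d : R K // phi 1 0 d ≠ 0}) (y : Pl K → ℝ),
      0 ≤ gr_G 2 (fun v => 2 * t v) y * (‖phi 1 0 d.1‖ * gQ t' (pt 0 y) 0 d.1) := fun d y =>
    mul_nonneg (gr_G_pos _ _ _).le (mul_nonneg (norm_nonneg _) (gr_gQ_pos _ _ _ _).le)
  have hF : ∀ d : {d : R K // phi 1 0 d ≠ 0}, Integrable fun y : Pl K → ℝ =>
      gr_G 2 (fun v => 2 * t v) y * (‖phi 1 0 d.1‖ * gQ t' (pt 0 y) 0 d.1) := fun d =>
    (gr_G_int two_pos _).mono' ((gr_G_cont _ _).mul (continuous_const.mul ((gr_cont_gQ t' 0 d.1).comp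
      (continuous_pt.comp (continuous_const.prodMk continuous_id))))).aestronglyMeasurable
      (Filter.Eventually.of_forall fun y => by
        rw [Real.norm_of_nonneg (hF0 d y)]
        exact hle d y)
  have hs : ∀ y : Pl K → ℝ, Summable fun d : {d : R K // phi 1 0 d ≠ 0} =>
      ‖phi 1 0 d.1‖ * gQ t' (pt 0 y) 0 d.1 := fun y =>
    (summable_phi_gQ 1 t' (pt 0 y)).comp_injective
      (i := fun d : {d : R K // phi 1 0 d ≠ 0} => ((0 : R K), d.1))
      fun d d' h => Subtype.ext (congrArg Prod.snd h)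
  have key := gr_tsum_int (μ := volume) (f := fun y => gr_G 2 (fun v => 2 * t v) y * ‖u0 1 t' y‖)
    ((gr_G_cont _ _).mul (continuous_u0 1 t').norm).aestronglyMeasurable
    (fun y => mul_nonneg (gr_G_pos _ _ _).le (norm_nonneg _))
    (F := fun (d : {d : R K // phi 1 0 d ≠ 0}) y => Real.exp (8 / 3 * ∑ v, t' v) *
      (gr_G 2 (fun v => 2 * t v) y * (‖phi 1 0 d.1‖ * gQ t' (pt 0 y) 0 d.1)))
    (fun d => (hF d).const_mul _) (fun d y => mul_nonneg (Real.exp_pos _).le (hF0 d y))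
    (hw.mul_left A) (fun d => ?_) (fun y => ((hs y).mul_left _).mul_left _) fun y => ?_
  · refine ⟨key.1, (mul_le_mul_of_nonneg_left key.2 (Real.exp_pos _).le).trans ?_⟩
    rw [tsum_mul_left]
    refine (mul_le_mul_of_nonneg_left (mul_le_mul_of_nonneg_left hw' (by positivity))
      (Real.exp_pos _).le).trans (le_of_eq ?_)
    rw [hA, show 2 / 3 * (∑ v, t v + ∑ v, t' v) = 8 / 3 * ∑ v, t v + (8 / 3 * ∑ v, t' v +
      -2 * (∑ v, t v + ∑ v, t' v)) by ring, Real.exp_add, Real.exp_add]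
    ring
  · rw [integral_const_mul, hA, mul_assoc]
    refine mul_le_mul_of_nonneg_left ((integral_mono (hF d) (gr_G_int two_pos _) (hle d)).trans ?_)
      (Real.exp_pos _).le
    rw [gr_G_integral, mul_right_comm, Function.comp_apply, ← Real.exp_add]
    refine mul_le_mul_of_nonneg_right (Real.exp_le_exp.2 ?_) hJ
    have h1 : ‖lg (d.1 : K) - (t - t')‖ ≤ ∑ v, |(lg (d.1 : K) - (t - t')) v| :=
      (pi_norm_le_iff_of_nonneg (Finset.sum_nonneg fun v _ => abs_nonneg _)).2 fun v =>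
        Finset.single_le_sum (f := fun v => |(lg (d.1 : K) - (t - t')) v|)
          (fun v _ => abs_nonneg _) (Finset.mem_univ v)
    have h2 : ∑ v, (t v + t' v + lg (d.1 : K) v + |(lg (d.1 : K) - (t - t')) v|) ≤
        ∑ v, max (2 * t v) (2 * t' v + 2 * lg (d.1 : K) v) := by
      refine Finset.sum_le_sum fun v _ => ?_
      have h3 := le_max_left (2 * t v) (2 * t' v + 2 * lg (d.1 : K) v)
      have h4 := le_max_right (2 * t v) (2 * t' v + 2 * lg (d.1 : K) v)
      rcases abs_choice ((lg (d.1 : K) - (t - t')) v) with h | h <;> rw [h] <;>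
        simp only [Pi.sub_apply] <;> linarith
    rw [Finset.sum_add_distrib, Finset.sum_add_distrib, Finset.sum_add_distrib,
      (gr_unit d.2).2.2.2] at h2
    change _ ≤ _ + -2 * ‖lg (d.1 : K) - (t - t')‖
    linarith
  · rw [tsum_mul_left, tsum_mul_left, mul_left_comm, u0, norm_mul, Complex.norm_real,
      Real.norm_of_nonneg (Real.exp_pos _).le]
    refine mul_le_mul_of_nonneg_left (mul_le_mul_of_nonneg_left ?_ (Real.exp_pos _).le)
      (gr_G_pos _ _ _).le
    rw [← tsum_subtype_eq_of_support_subset (s := {d : R K | phi 1 0 d ≠ 0})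
      fun d hd => left_ne_zero_of_mul hd]
    refine tsum_of_norm_bounded (hs y).hasSum fun d => ?_
    rw [norm_mul, Complex.norm_real, Real.norm_of_nonneg (gr_gQ_pos _ _ _ _).le]

end Crest.Agent.GQ
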