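import Crest.Agent.GQ.ThUnf
import Crest.Agent.GQ.ThCube
import Crest.Agent.GQ.ThGramAuxB

/-! # GQ ThGram: the Gram asymptotics -/

set_option autoImplicit false

noncomputable section

open NumberField Complex
open scoped ComplexConjugate

namespace Crest.Agent.GQ

variable {K : Type} [Field K] [NumberField K] [P : Pre K]

open MeasureTheory
variable [Q : Rec K]

open Classical in
/-- the sum over pairs of rows with `q ∣ det` -/
def Pair (q : R K) (t t' : Pl K → ℝ) (p : HH K) : ℂ :=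
  (Real.exp (8 / 3 * ∑ v, t v) : ℂ) * ∑' x : R K × R K, phi0 x.1 x.2 * (gQ t p x.1 x.2 : ℂ) *
    conj (ThL q x.1 x.2 t' p)

theorem fc_one_zero (q : R K) (t y : Pl K → ℝ) : fc q 1 (MM K) 0 t y =
    ((Real.exp (2 / 3 * ∑ v, t v - ∑ v, y v) / (cov K * NS (MM K)) *
      cubeSum (MM K) q (fun v => t v - y v / 2) : ℝ) : ℂ) := by
  classical
  have key : ∀ c : R K, (if q ∣ c then bet 1 (MM K) 0 c else 0) *
      (ff (fun v => ‖emb ((0 : R K) : K) v‖) y (t + lg (c : K)) : ℂ) =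
      ((Real.exp (-2 * ∑ v, t v - ∑ v, y v) *
        (if c ≠ 0 ∧ c ∈ Lat (MM K) ∧ (∃ m : R K, Associated c (m ^ 3)) ∧ q ∣ c then
          phiN c * Real.exp (-Real.pi * ∑ v, Real.exp (2 * (t v - y v / 2)) * ‖emb (c : K) v‖ ^ 2)
        else 0) : ℝ) : ℂ) := by
    intro c
    rw [bet_one_zero]
    by_cases h : c ≠ 0 ∧ c ∈ Lat (MM K) ∧ (∃ m : R K, Associated c (m ^ 3)) ∧ q ∣ c
    · have hc : (c : K) ≠ 0 := by exact_mod_cast h.1
      rw [if_pos h, if_pos h.2.2.2, if_pos ⟨h.1, h.2.1, h.2.2.1⟩, ← Complex.ofReal_mul]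
      congr 1
      have e1 : ∀ v, -Real.pi * Real.exp (-y v) * (Real.exp (2 * (t + lg (c : K)) v) +
          4 * ‖emb ((0 : R K) : K) v‖ ^ 2 * Real.exp (-2 * (t + lg (c : K)) v)) =
          -Real.pi * (Real.exp (2 * (t v - y v / 2)) * ‖emb (c : K) v‖ ^ 2) := fun v => by
        have h1 : Real.exp (2 * lg (c : K) v) = ‖emb (c : K) v‖ ^ 2 := by
          rw [lg, ← Real.exp_log (pow_pos (norm_pos_iff.2 (emb_ne_zero hc v)) 2), Real.log_pow]
          norm_num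
        rw [ZeroMemClass.coe_zero, gr_emb_zero, Pi.zero_apply, norm_zero, ← h1, mul_assoc,
          zero_pow two_ne_zero, mul_zero, zero_mul, add_zero, ← Real.exp_add, ← Real.exp_add]
        congr 2
        simp only [Pi.add_apply]
        ring
      simp only [ff, e1]
      rw [Finset.prod_mul_distrib, ← Real.exp_sum, ← Real.exp_sum, ← Finset.mul_sum, Nm_eq_exp hc]
      have e2 : Real.exp (2 * ∑ v, lg (c : K) v) * Real.exp (∑ v, (-y v - 2 * (t + lg (c : K)) v)) =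
          Real.exp (-2 * ∑ v, t v - ∑ v, y v) := by
        rw [← Real.exp_add]
        congr 1
        simp only [Pi.add_apply, mul_add, Finset.sum_sub_distrib, Finset.sum_add_distrib,
          Finset.sum_neg_distrib, ← Finset.mul_sum]
        ring
      rw [← e2]
      ring
    · rw [if_neg h, mul_zero, Complex.ofReal_zero]
      by_cases hq : q ∣ c
      · rw [if_pos hq, if_neg fun h' => h ⟨h'.1, h'.2.1, h'.2.2, hq⟩, zero_mul]
      · rw [if_neg hq, zero_mul]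
  rw [fc, Dt]
  simp only [key]
  rw [← Complex.ofReal_tsum, tsum_mul_left, ← Complex.ofReal_inv, ← Complex.ofReal_mul,
    ← Complex.ofReal_mul, cubeSum, show 2 / 3 * ∑ v, t v - ∑ v, y v =
      8 / 3 * ∑ v, t v + (-2 * ∑ v, t v - ∑ v, y v) by ring, Real.exp_add]
  congr 1
  ring

theorem gr_fc_approx {q : R K} {ρ δ C : ℝ} (h : ∀ s : Pl K → ℝ,
      |cubeSum (MM K) q s - ρ * Real.exp (-(2 / 3) * ∑ v, s v)| ≤
        C * Real.exp (-(2 / 3 - δ) * ∑ v, s v)) (t y : Pl K → ℝ) :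
    ‖((cov K * NS (MM K) : ℝ) : ℂ) * fc q 1 (MM K) 0 t y -
        ((ρ * Real.exp (-(2 / 3) * ∑ v, y v) : ℝ) : ℂ)‖ ≤
      C * Real.exp (δ * ∑ v, t v) * Real.exp (-(2 / 3 + δ / 2) * ∑ v, y v) := by
  have hV : 0 < cov K * NS (MM K) := mul_pos cov_pos (NS_pos gr_MM_ne)
  have h1 := mul_le_mul_of_nonneg_left (h fun v => t v - y v / 2)
    (Real.exp_pos (2 / 3 * ∑ v, t v - ∑ v, y v)).le
  have e0 : ∑ v, (t v - y v / 2) = ∑ v, t v - (∑ v, y v) / 2 := by
    rw [Finset.sum_sub_distrib, Finset.sum_div]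
  have e1 : Real.exp (2 / 3 * ∑ v, t v - ∑ v, y v) *
      Real.exp (-(2 / 3) * (∑ v, t v - (∑ v, y v) / 2)) = Real.exp (-(2 / 3) * ∑ v, y v) := by
    rw [← Real.exp_add]
    congr 1
    ring
  have e2 : Real.exp (2 / 3 * ∑ v, t v - ∑ v, y v) *
      Real.exp (-(2 / 3 - δ) * (∑ v, t v - (∑ v, y v) / 2)) =
      Real.exp (δ * ∑ v, t v) * Real.exp (-(2 / 3 + δ / 2) * ∑ v, y v) := by
    rw [← Real.exp_add, ← Real.exp_add]
    congr 1
    ring
  rw [e0, mul_left_comm, e2, ← mul_assoc, ← abs_of_pos (Real.exp_pos (2 / 3 * ∑ v, t v - ∑ v, y v)),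
    ← abs_mul, mul_sub, mul_left_comm, e1] at h1
  rw [fc_one_zero, ← Complex.ofReal_mul, ← Complex.ofReal_sub, Complex.norm_real, ← mul_assoc,
    mul_div_cancel₀ _ hV.ne']
  exact h1

/-- the constant term of the basic series -/
theorem const_term : ∃ ρ : ℝ, 0 < ρ ∧ ∀ Y : ℝ, TendstoUniformlyOn
    (fun t y => u0 1 t y + fc 1 1 (MM K) 0 t y)
    (fun y => ((ρ * Real.exp (-(2 / 3) * ∑ v, y v) : ℝ) : ℂ)) (tF K) (cube K Y) := by
  obtain ⟨ρ, δ, hρ, hδ, -, ⟨C, hC⟩, -⟩ := cube_sum (gr_MM_ne (K := K))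
  have hV : 0 < cov K * NS (MM K) := mul_pos cov_pos (NS_pos gr_MM_ne)
  have hC0 : 0 ≤ C := nonneg_of_mul_nonneg_left ((abs_nonneg _).trans (hC 0)) (Real.exp_pos _)
  refine ⟨ρ / (cov K * NS (MM K)), div_pos hρ hV, fun Y => ?_⟩
  obtain ⟨C₀, hC₀⟩ := u0_le (1 : SLR K) Y
  obtain ⟨B, hB⟩ := (isCompact_Icc : IsCompact (cube K Y)).exists_bound_of_continuousOn
    (f := fun y => Real.exp (-(2 / 3 + δ / 2) * ∑ v, y v)) (by fun_prop)
  have h1 := ((tendsto_exp_tF (K := K) (δ := 2 / 3) (by norm_num)).const_mul C₀).add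
    ((tendsto_exp_tF (K := K) hδ).const_mul (C * B / (cov K * NS (MM K))))
  rw [mul_zero, mul_zero, add_zero] at h1
  have h2 : ∀ᶠ t : Pl K → ℝ in tF K, ∑ v, t v ≤ 0 :=
    Filter.tendsto_comap.eventually (Filter.eventually_le_atBot 0)
  refine Metric.tendstoUniformlyOn_iff.2 fun ε hε => ?_
  filter_upwards [h2, h1.eventually (gt_mem_nhds hε)] with t ht ht' y hy
  refine lt_of_le_of_lt ?_ ht'
  rw [dist_comm, dist_eq_norm, add_sub_assoc]
  refine (norm_add_le _ _).trans (add_le_add (hC₀ t ht y hy) ?_)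
  have h3 := (gr_fc_approx hC t y).trans (mul_le_mul_of_nonneg_left
    ((le_abs_self _).trans (hB y hy)) (by positivity))
  have e : ((ρ * Real.exp (-(2 / 3) * ∑ v, y v) : ℝ) : ℂ) = ((cov K * NS (MM K) : ℝ) : ℂ) *
      ((ρ / (cov K * NS (MM K)) * Real.exp (-(2 / 3) * ∑ v, y v) : ℝ) : ℂ) := by
    rw [← Complex.ofReal_mul, ← mul_assoc, mul_div_cancel₀ _ hV.ne']
  rw [e, ← mul_sub, norm_mul, Complex.norm_real, Real.norm_of_nonneg hV.le] at h3
  rw [div_mul_eq_mul_div (C * B), le_div_iff₀ hV]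
  linarith

theorem gr_term {γ : SLR K} (hγ : γ ∈ Gam K) (q : R K) (t t' : Pl K → ℝ) (p : HH K) :
    phi0 (γ.1 1 0) (γ.1 1 1) * (gQ t p (γ.1 1 0) (γ.1 1 1) : ℂ) *
        conj (ThL q (γ.1 1 0) (γ.1 1 1) t' p) =
      (gQ t (actR γ p) 0 1 : ℂ) * conj (ThQ q 1 t' (actR γ p)) := by
  have hi := inv_mem_Gam hγ
  have h1 : ThL q (γ.1 1 0) (γ.1 1 1) t' p = ThQ q γ⁻¹ t' (actR γ p) := by
    rw [ThQ_eq_ThL, ← actR_mul, inv_mul_cancel, actR_one]
    simp [Matrix.SpecialLinearGroup.SL2_inv_expl]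
  have h2 : ThQ q γ⁻¹ t' (actR γ p) = conj (sg γ⁻¹) * ThQ q 1 t' (actR γ p) := by
    rw [ThQ, ThQ, mul_left_comm]
    congr 1
    rw [← tsum_mul_left]
    refine tsum_congr fun x => ?_
    have h3 := phi_gam_mul hi 1 x.1 x.2
    rw [mul_one] at h3
    split_ifs
    · rw [h3, mul_assoc]
    · rw [zero_mul, mul_zero]
  have h3 : sg (1 : SLR K) = 1 := by
    have h4 := sg_mul (one_mem_Gam (K := K)) one_mem_Gam
    rw [mul_one] at h4
    have h5 : sg (1 : SLR K) ≠ 0 := norm_ne_zero_iff.1 (by rw [norm_sg]; exact one_ne_zero)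
    exact (mul_eq_left₀ h5).1 h4.symm
  have h4 : sg γ * sg γ⁻¹ = 1 := by rw [← sg_mul hγ hi, mul_inv_cancel, h3]
  rw [h1, h2, phi0_gam hγ, gQ_actR, map_mul, conj_conj]
  simp only [zero_mul, one_mul, zero_add]
  linear_combination (gQ t p (γ.1 1 0) (γ.1 1 1) : ℂ) * conj (ThQ q 1 t' (actR γ p)) * h4

theorem gr_unfold (q : R K) (t t' : Pl K → ℝ) :
    Integrable (fun p : HH K => (wt p : ℂ) * Pair q t t' p) ∧
    ∫ p, (wt p : ℂ) * Pair q t t' p = ∫ y : Pl K → ℝ,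
      ((Real.exp (8 / 3 * ∑ v, t v) * gr_G 2 (fun v => 2 * t v) y : ℝ) : ℂ) *
        conj (((cov K * NS (MM K) : ℝ) : ℂ) * (u0 1 t' y + fc q 1 (MM K) 0 t' y)) := by
  choose sec h1 h2 h3 using fun x : {x : R K × R K // phi0 x.1 x.2 ≠ 0} => exists_gam_row x.2
  set ψ : HH K → ℂ := fun p =>
    (Real.exp (8 / 3 * ∑ v, t v) : ℂ) * ((gQ t p 0 1 : ℂ) * conj (ThQ q 1 t' p)) with hψ
  have hc : Continuous ψ := continuous_const.mul
    ((Complex.continuous_ofReal.comp (gr_cont_gQ t 0 1)).mul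
      (Complex.continuous_conj.comp (continuous_ThQ q 1 t')))
  have hP : ∀ p, Pair q t t' p = ∑' x, ψ (actR (sec x) p) := fun p => by
    rw [Pair, ← tsum_subtype_eq_of_support_subset (s := {x : R K × R K | phi0 x.1 x.2 ≠ 0})
      fun x hx => left_ne_zero_of_mul (left_ne_zero_of_mul hx), ← tsum_mul_left]
    refine tsum_congr fun x => ?_
    have h4 := gr_term (h1 x) q t t' p
    rw [h2 x, h3 x] at h4
    rw [h4]
  obtain ⟨C, hC⟩ := gr_ThQ_le (1 : SLR K) t'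
  have hu := unfold sec (fun x => ⟨h1 x, h2 x, h3 x⟩) hc (fun n hn z y => by
    simp only [hψ, gr_gQ_one, gr_ThQ_per q t' hn]) ?_
  · simp only [hP]
    refine ⟨hu.1, hu.2.trans ?_⟩
    congr 1
    funext y
    simp only [hψ, gr_gQ_one]
    rw [integral_const_mul, integral_const_mul, integral_conj, gr_ThQ_int, gr_G]
    push_cast
    ring
  · have hm : AEStronglyMeasurable (fun y : Pl K → ℝ =>
        Real.exp (2 * ∑ v, y v) * ∫ z in fd (MM K), ‖ψ (pt z y)‖) volume := by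
      refine (Continuous.aestronglyMeasurable (by fun_prop)).mul
        (StronglyMeasurable.aestronglyMeasurable ?_)
      exact (hc.comp continuous_pt).norm.stronglyMeasurable.integral_prod_left'
    refine Integrable.mono' ((((gr_G_int (a := 2 + -1) (by norm_num) fun v => 2 * t v).add
      (gr_G_int two_pos fun v => 2 * t v)).add
      (gr_G_int (a := 2 + 1) (by norm_num) fun v => 2 * t v)).const_mul
      (Real.exp (8 / 3 * ∑ v, t v) * C * (cov K * NS (MM K)))) hm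
      (Filter.Eventually.of_forall fun y => ?_)
    have h4 := norm_setIntegral_le_of_norm_le_const (μ := volume) (s := fd (MM K))
      (f := fun z => ‖ψ (pt z y)‖) (C := Real.exp (8 / 3 * ∑ v, t v) *
        (Real.exp (-Real.pi * ∑ v, Real.exp (2 * t v + y v)) *
          (C * (Real.exp (-∑ v, y v) + 1 + Real.exp (∑ v, y v)))))
      (by rw [volume_fd gr_MM_ne]; exact ENNReal.ofReal_lt_top) fun z _ => by
        rw [norm_norm, hψ]
        simp only [norm_mul, Complex.norm_real, gr_gQ_one, Real.norm_of_nonneg (Real.exp_pos _).le,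
          Complex.norm_conj]
        exact mul_le_mul_of_nonneg_left (mul_le_mul_of_nonneg_left (hC q z y) (Real.exp_pos _).le)
          (Real.exp_pos _).le
    rw [norm_mul, Real.norm_of_nonneg (Real.exp_pos _).le]
    refine (mul_le_mul_of_nonneg_left h4 (Real.exp_pos _).le).trans (le_of_eq ?_)
    simp only [Pi.add_apply, ← gr_G_mul, fd_volume_real gr_MM_ne, neg_mul, one_mul]
    rw [gr_G, neg_mul]
    ring

theorem gr_main {q : R K} {ρ δ C : ℝ} (hδ : δ < 2 / 3) (h : ∀ s : Pl K → ℝ,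
      |cubeSum (MM K) q s - ρ * Real.exp (-(2 / 3) * ∑ v, s v)| ≤
        C * Real.exp (-(2 / 3 - δ) * ∑ v, s v)) :
    ∃ C' : ℝ, ∀ t t' : Pl K → ℝ, ∑ v, t v ≤ 0 → ∑ v, t' v ≤ 0 →
      ‖(∫ p, (wt p : ℂ) * Pair q t t' p) - (ρ * gr_J (Pl K) (2 + -(2 / 3)) : ℝ)‖ ≤
        C' * Real.exp (δ * (∑ v, t v + ∑ v, t' v)) := by
  obtain ⟨C₀, hC₀⟩ := gr_u0 (K := K)
  have hV : 0 < cov K * NS (MM K) := mul_pos cov_pos (NS_pos gr_MM_ne)
  refine ⟨cov K * NS (MM K) * |C₀| + C * gr_J (Pl K) (2 + -(2 / 3 + δ / 2)), fun t t' ht ht' => ?_⟩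
  have e0 : ∑ v, 2 * t v = 2 * ∑ v, t v := (Finset.mul_sum _ _ _).symm
  have hi1 := gr_G_int (a := 2 + -(2 / 3)) (by norm_num) fun v => 2 * t v
  have hi2 := gr_G_int (a := 2 + -(2 / 3 + δ / 2)) (by linarith) fun v => 2 * t v
  have e1 : ((ρ * gr_J (Pl K) (2 + -(2 / 3)) : ℝ) : ℂ) = ∫ y : Pl K → ℝ,
      ((Real.exp (8 / 3 * ∑ v, t v) * ρ * gr_G (2 + -(2 / 3)) (fun v => 2 * t v) y : ℝ) : ℂ) := by
    rw [integral_complex_ofReal, integral_const_mul, gr_G_integral, e0, mul_mul_mul_comm,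
      ← Real.exp_add, show 8 / 3 * ∑ v, t v + -(2 + -(2 / 3)) * (2 * ∑ v, t v) = 0 by ring,
      Real.exp_zero, one_mul]
  rw [(gr_unfold q t t').2, e1]
  refine (gr_approx (b := fun y => cov K * NS (MM K) * (Real.exp (8 / 3 * ∑ v, t v) *
      (gr_G 2 (fun v => 2 * t v) y * ‖u0 1 t' y‖)) +
      Real.exp (8 / 3 * ∑ v, t v) * (C * Real.exp (δ * ∑ v, t' v)) *
        gr_G (2 + -(2 / 3 + δ / 2)) (fun v => 2 * t v) y)
      (h := fun y => ((Real.exp (8 / 3 * ∑ v, t v) * ρ *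
        gr_G (2 + -(2 / 3)) (fun v => 2 * t v) y : ℝ) : ℂ)) ?_ (hi1.const_mul _).ofReal
      ((((hC₀ t t').1.const_mul _).const_mul _).add (hi2.const_mul _)) fun y => ?_).trans ?_
  · exact ((Complex.continuous_ofReal.comp (continuous_const.mul (gr_G_cont _ _))).mul
      (Complex.continuous_conj.comp (continuous_const.mul ((continuous_u0 1 t').add
        (continuous_fc isPer_one q (zero_mem _) t'))))).aestronglyMeasurable
  · have e2 : ((Real.exp (8 / 3 * ∑ v, t v) * ρ * gr_G (2 + -(2 / 3)) (fun v => 2 * t v) y : ℝ) : ℂ) =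
        ((Real.exp (8 / 3 * ∑ v, t v) * gr_G 2 (fun v => 2 * t v) y : ℝ) : ℂ) *
          conj ((ρ * Real.exp (-(2 / 3) * ∑ v, y v) : ℝ) : ℂ) := by
      rw [conj_ofReal, ← Complex.ofReal_mul, ← gr_G_mul]
      congr 1
      ring
    have h0 : 0 ≤ Real.exp (8 / 3 * ∑ v, t v) * gr_G 2 (fun v => 2 * t v) y :=
      mul_nonneg (Real.exp_pos _).le (gr_G_pos _ _ _).le
    rw [e2, ← mul_sub, ← map_sub, norm_mul, Complex.norm_conj, Complex.norm_real,
      Real.norm_of_nonneg h0, mul_add, add_sub_assoc, ← gr_G_mul]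
    refine (mul_le_mul_of_nonneg_left ((norm_add_le _ _).trans
      (add_le_add le_rfl (gr_fc_approx h t' y))) h0).trans (le_of_eq ?_)
    rw [norm_mul, Complex.norm_real, Real.norm_of_nonneg hV.le]
    ring
  · rw [integral_add (((hC₀ t t').1.const_mul _).const_mul _) (hi2.const_mul _), integral_const_mul,
      integral_const_mul, integral_const_mul, gr_G_integral, e0, add_mul]
    refine add_le_add ?_ (le_of_eq ?_)
    · rw [mul_assoc _ |C₀|]
      refine mul_le_mul_of_nonneg_left ((hC₀ t t').2.trans (mul_le_mul (le_abs_self _)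
        (Real.exp_le_exp.2 ?_) (Real.exp_pos _).le (abs_nonneg _))) hV.le
      exact mul_le_mul_of_nonpos_right hδ.le (by linarith)
    · rw [show δ * (∑ v, t v + ∑ v, t' v) = 8 / 3 * ∑ v, t v + δ * ∑ v, t' v +
        -(2 + -(2 / 3 + δ / 2)) * (2 * ∑ v, t v) by ring, Real.exp_add, Real.exp_add]
      ring

theorem gram : ∃ ρ δ : ℝ, 0 < δ ∧
    (∀ q t t', Integrable (fun p : HH K => (wt p : ℂ) * Pair q t t' p)) ∧
    (∃ C : ℝ, ∀ t t' : Pl K → ℝ, ∑ v, t v ≤ 0 → ∑ v, t' v ≤ 0 →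
      ‖(∫ p, (wt p : ℂ) * Pair 1 t t' p) - ρ‖ ≤ C * Real.exp (δ * (∑ v, t v + ∑ v, t' v))) ∧
    ∀ q : R K, Prime q → ∃ C : ℝ, ∀ t t' : Pl K → ℝ, ∑ v, t v ≤ 0 → ∑ v, t' v ≤ 0 →
      ‖(∫ p, (wt p : ℂ) * Pair q t t' p) - (ρ / (Nr q + 1) : ℝ)‖ ≤
        C * Real.exp (δ * (∑ v, t v + ∑ v, t' v)) := by
  obtain ⟨ρ, δ, -, hδ, hδ', ⟨C, hC⟩, hq⟩ := cube_sum (gr_MM_ne (K := K))
  refine ⟨ρ * gr_J (Pl K) (2 + -(2 / 3)), δ, hδ, fun q t t' => (gr_unfold q t t').1,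
    gr_main hδ' hC, fun q hp => ?_⟩
  obtain ⟨C', hC'⟩ := hq q hp
  rw [mul_div_right_comm]
  exact gr_main hδ' hC'

end Crest.Agent.GQ
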