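import Crest.Agent.GQ.ThDefs

/-! # GQ ThHyp: the action on hyperbolic space -/

set_option autoImplicit false
set_option linter.unusedSectionVars false

noncomputable section

open NumberField Complex
open scoped ComplexConjugate

namespace Crest.Agent.GQ

variable {K : Type} [Field K] [NumberField K] [P : Pre K]

open MeasureTheory

theorem hy_E (y : ℝ) : (Real.exp y : ℂ) * (Real.exp (-y) : ℂ) = 1 := by
  rw [← Complex.ofReal_mul, ← Real.exp_add, add_neg_cancel, Real.exp_zero, Complex.ofReal_one]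

theorem hy_E0 (y : ℝ) : (Real.exp y : ℂ) ≠ 0 := Complex.ofReal_ne_zero.2 (Real.exp_pos y).ne'

theorem hy_Einv (y : ℝ) : (Real.exp (-y) : ℂ) = (Real.exp y : ℂ)⁻¹ := by
  rw [Real.exp_neg, Complex.ofReal_inv]

theorem zc_pt (z : Pl K → ℂ) (y : Pl K → ℝ) : zc (pt z y) = z := by
  funext v
  simp only [zc, pt]
  rw [mul_assoc, hy_E, mul_one]

theorem pt_zc (p : HH K) : pt (zc p) p.2 = p := by
  refine Prod.ext (funext fun v => ?_) rfl
  simp only [zc, pt]
  rw [mul_assoc, mul_comm (Real.exp (-p.2 v) : ℂ), hy_E, mul_one]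

theorem pt_snd (z : Pl K → ℂ) (y : Pl K → ℝ) : (pt z y).2 = y := rfl
theorem continuous_pt : Continuous (fun q : (Pl K → ℂ) × (Pl K → ℝ) => (pt q.1 q.2 : HH K)) := by
  unfold pt
  fun_prop

theorem continuous_zc : Continuous (zc : HH K → Pl K → ℂ) := by
  unfold zc
  fun_prop

theorem Qh_nonneg (p : HH K) (c d : Pl K → ℂ) (v : Pl K) : 0 ≤ Qh p c d v := by
  unfold Qh
  positivity

theorem Qh_pos (p : HH K) {c d : Pl K → ℂ} {v : Pl K} (h : c v ≠ 0 ∨ d v ≠ 0) : 0 < Qh p c d v := by
  unfold Qh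
  by_cases hc : c v = 0
  · have hd : d v ≠ 0 := h.resolve_left (not_not.2 hc)
    have : 0 < ‖c v * zc p v + d v‖ := by
      rw [hc, zero_mul, zero_add]
      exact norm_pos_iff.2 hd
    positivity
  · have : 0 < ‖c v‖ := norm_pos_iff.2 hc
    positivity

theorem continuous_Qh (c d : Pl K → ℂ) (v : Pl K) : Continuous (fun p : HH K => Qh p c d v) := by
  unfold Qh zc
  fun_prop

theorem hy_Qh_eq (p : HH K) (c d : Pl K → ℂ) (v : Pl K) : (Qh p c d v : ℂ) = hf p c d c d v := by
  unfold Qh hf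
  rw [mul_assoc, Complex.mul_conj, Complex.mul_conj, Complex.normSq_eq_norm_sq,
    Complex.normSq_eq_norm_sq]
  push_cast
  ring

theorem hy_det (g : SLC K) (v : Pl K) : g.1 0 0 v * g.1 1 1 v - g.1 0 1 v * g.1 1 0 v = 1 := by
  have h := g.2
  rw [Matrix.det_fin_two] at h
  exact congrFun h v

theorem hy_Q_pos (g : SLC K) (p : HH K) (v : Pl K) : 0 < Qh p (g.1 1 0) (g.1 1 1) v := by
  refine Qh_pos p ?_
  by_contra h
  push Not at h
  have := hy_det g v
  rw [h.1, h.2] at this
  simp at this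

theorem hy_hf_act (g : SLC K) (p : HH K) (a b c d : Pl K → ℂ) (v : Pl K) :
    hf (act g p) a b c d v = hf p (a * g.1 0 0 + b * g.1 1 0) (a * g.1 0 1 + b * g.1 1 1)
      (c * g.1 0 0 + d * g.1 1 0) (c * g.1 0 1 + d * g.1 1 1) v := by
  have hQ := hy_Q_pos g p v
  have hQ0 : (Qh p (g.1 1 0) (g.1 1 1) v : ℂ) ≠ 0 := Complex.ofReal_ne_zero.2 hQ.ne'
  have hQe := hy_Qh_eq p (g.1 1 0) (g.1 1 1) v
  have hdet := hy_det g v
  have hdet' := congrArg conj hdet
  have hE := hy_E (p.2 v)
  have e1 : hf (act g p) a b c d v =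
      (Qh p (g.1 1 0) (g.1 1 1) v : ℂ) *
        (a v * (hf p (g.1 0 0) (g.1 0 1) (g.1 1 0) (g.1 1 1) v *
          (Qh p (g.1 1 0) (g.1 1 1) v : ℂ)⁻¹) + b v) *
        (conj (c v) * (conj (hf p (g.1 0 0) (g.1 0 1) (g.1 1 0) (g.1 1 1) v) *
          (Qh p (g.1 1 0) (g.1 1 1) v : ℂ)⁻¹) + conj (d v)) +
        a v * conj (c v) * (Qh p (g.1 1 0) (g.1 1 1) v : ℂ)⁻¹ := by
    conv_lhs => unfold hf zc
    simp only [act, hy_Einv, Real.exp_log hQ, map_add, map_mul, map_inv₀, Complex.conj_ofReal]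
  rw [e1]
  have gram : hf p (g.1 0 0) (g.1 0 1) (g.1 1 0) (g.1 1 1) v *
      conj (hf p (g.1 0 0) (g.1 0 1) (g.1 1 0) (g.1 1 1) v) + 1 =
      hf p (g.1 0 0) (g.1 0 1) (g.1 0 0) (g.1 0 1) v * (Qh p (g.1 1 0) (g.1 1 1) v : ℂ) := by
    rw [hQe]
    simp only [hf, map_add, map_mul, map_sub, map_one, Complex.conj_ofReal,
      Complex.conj_conj] at hdet' ⊢
    generalize (Real.exp (p.2 v) : ℂ) = E at *
    generalize (Real.exp (-p.2 v) : ℂ) = F at *
    generalize zc p v = z at *
    generalize g.1 0 0 v = α at *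
    generalize g.1 0 1 v = β at *
    generalize g.1 1 0 v = γ at *
    generalize g.1 1 1 v = δ at *
    linear_combination
      (-((α * δ - β * γ) * (conj α * conj δ - conj β * conj γ))) * hE -
        (conj α * conj δ - conj β * conj γ) * hdet - hdet'
  have e2 : ∀ Q B B' A : ℂ, Q ≠ 0 → B * B' + 1 = A * Q →
      Q * (a v * (B * Q⁻¹) + b v) * (conj (c v) * (B' * Q⁻¹) + conj (d v)) +
        a v * conj (c v) * Q⁻¹ =
      a v * conj (c v) * A + a v * conj (d v) * B + b v * conj (c v) * B' +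
        b v * conj (d v) * Q := by
    intro Q B B' A h0 h
    have : A = (B * B' + 1) * Q⁻¹ := by rw [h, mul_inv_cancel_right₀ h0]
    rw [this]
    field_simp
    ring
  rw [e2 _ _ _ _ hQ0 gram, hQe]
  simp only [hf, map_add, map_mul, Complex.conj_ofReal, Complex.conj_conj, Pi.add_apply,
    Pi.mul_apply]
  ring

theorem Qh_act (g : SLC K) (p : HH K) (c d : Pl K → ℂ) :
    Qh (act g p) c d = Qh p (c * g.1 0 0 + d * g.1 1 0) (c * g.1 0 1 + d * g.1 1 1) := by
  funext v
  apply Complex.ofReal_injective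
  rw [hy_Qh_eq, hy_Qh_eq, hy_hf_act]

theorem HH_ext {p p' : HH K} (h : ∀ c d, Qh p c d = Qh p' c d) : p = p' := by
  have h2 : p.2 = p'.2 := by
    funext v
    have := congrFun (h 0 1) v
    simpa [Qh] using this
  have h1 : ∀ (d : ℂ) (v : Pl K), ‖zc p v + d‖ ^ 2 = ‖zc p' v + d‖ ^ 2 := by
    intro d v
    have := congrFun (h 1 (fun _ => d)) v
    simp only [Qh, h2, Pi.one_apply, one_mul, add_left_inj] at this
    exact mul_left_cancel₀ (Real.exp_pos _).ne' this
  have h3 : zc p = zc p' := by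
    funext v
    have := h1 (-zc p' v) v
    rw [add_neg_cancel, norm_zero, zero_pow two_ne_zero, pow_eq_zero_iff two_ne_zero,
      norm_eq_zero] at this
    exact add_neg_eq_zero.1 this
  rw [← pt_zc p, ← pt_zc p', h2, h3]

theorem act_one (p : HH K) : act 1 p = p := by
  refine HH_ext fun c d => ?_
  rw [Qh_act]
  simp

theorem act_mul (g g' : SLC K) (p : HH K) : act (g * g') p = act g (act g' p) := by
  refine HH_ext fun c d => ?_
  rw [Qh_act, Qh_act, Qh_act]
  simp only [Matrix.SpecialLinearGroup.coe_mul, Matrix.mul_apply, Fin.sum_univ_two]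
  congr 1 <;> ring

theorem continuous_act (g : SLC K) : Continuous (act g) := by
  unfold act
  refine Continuous.prodMk ?_ (continuous_pi fun v =>
    (continuous_Qh _ _ v).log fun p => (hy_Q_pos g p v).ne')
  unfold hf zc
  fun_prop

/-- upper unipotent -/
def hy_n (x : Pl K → ℂ) : SLC K := mk2 1 x 0 1 (by ring)
/-- lower unipotent -/
def hy_l (x : Pl K → ℂ) : SLC K := mk2 1 0 x 1 (by ring)
/-- Weyl element -/
def hy_w (K : Type) [Field K] [NumberField K] [Pre K] : SLC K := mk2 0 (-1) 1 0 (by ring)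

theorem hy_act_n (x : Pl K → ℂ) (p : HH K) :
    act (hy_n x) p = (p.1 + fun v => (Real.exp (p.2 v) : ℂ) * x v, p.2) := by
  refine Prod.ext (funext fun v => ?_) (funext fun v => ?_)
  · have hE := hy_E (p.2 v)
    simp only [act, hy_n, mk2, hf, zc, Matrix.of_apply, Matrix.cons_val', Matrix.cons_val_zero,
      Matrix.cons_val_one, Matrix.cons_val_fin_one, Pi.one_apply, Pi.zero_apply, Pi.add_apply,
      zero_mul, zero_add, map_one, map_zero, mul_zero, add_zero, one_mul, mul_one]
    linear_combination p.1 v * hE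
  · simp [act, hy_n, mk2, Qh]

theorem hy_act_w (p : HH K) :
    act (hy_w K) p = (fun v => -conj (p.1 v), fun v => Real.log (1 + ‖p.1 v‖ ^ 2) - p.2 v) := by
  refine Prod.ext (funext fun v => ?_) (funext fun v => ?_)
  · have hE := hy_E (p.2 v)
    simp only [act, hy_w, mk2, hf, zc, Matrix.of_apply, Matrix.cons_val', Matrix.cons_val_zero,
      Matrix.cons_val_one, Matrix.cons_val_fin_one, Pi.one_apply, Pi.zero_apply, Pi.neg_apply,
      zero_mul, zero_add, add_zero, one_mul, map_mul, Complex.conj_ofReal]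
    linear_combination (-conj (p.1 v)) * hE
  · have h1 : (0 : ℝ) < 1 + ‖p.1 v‖ ^ 2 := by positivity
    have h2 : Qh p 1 0 v = (1 + ‖p.1 v‖ ^ 2) * Real.exp (-p.2 v) := by
      have hE : Real.exp (p.2 v) * Real.exp (-p.2 v) = 1 := by rw [← Real.exp_add]; simp
      simp only [Qh, zc, Pi.one_apply, Pi.zero_apply, one_mul, add_zero, norm_mul, norm_one,
        Complex.norm_real, Real.norm_eq_abs, abs_of_pos (Real.exp_pos _)]
      linear_combination ‖p.1 v‖ ^ 2 * Real.exp (-p.2 v) * hE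
    simp only [act, hy_w, mk2, Matrix.of_apply, Matrix.cons_val', Matrix.cons_val_zero,
      Matrix.cons_val_one, Matrix.cons_val_fin_one]
    rw [h2, Real.log_mul h1.ne' (Real.exp_pos _).ne', Real.log_exp, sub_eq_add_neg]

theorem hy_mp_mul {g g' : SLC K} (h : MeasurePreserving (act g) volume volume)
    (h' : MeasurePreserving (act g') volume volume) :
    MeasurePreserving (act (g * g')) volume volume := by
  have : act (g * g') = act g ∘ act g' := funext fun p => act_mul g g' p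
  rw [this]
  exact h.comp h'

theorem hy_mp_n (x : Pl K → ℂ) : MeasurePreserving (act (hy_n x)) volume volume := by
  have h1 : MeasurePreserving
      (fun q : (Pl K → ℝ) × (Pl K → ℂ) => (id q.1, q.2 + fun v => (Real.exp (q.1 v) : ℂ) * x v))
      (volume.prod volume) (volume.prod volume) := by
    refine MeasurePreserving.skew_product (MeasurePreserving.id _)
      (g := fun (y : Pl K → ℝ) (B : Pl K → ℂ) => B + fun v => (Real.exp (y v) : ℂ) * x v) ?_
      (Filter.Eventually.of_forall fun y => map_add_right_eq_self _ _)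
    refine Continuous.measurable ?_
    unfold Function.uncurry
    fun_prop
  have h2 := (Measure.measurePreserving_swap.comp h1).comp Measure.measurePreserving_swap
  have e : act (hy_n x) = (Prod.swap ∘ fun q : (Pl K → ℝ) × (Pl K → ℂ) =>
      (id q.1, q.2 + fun v => (Real.exp (q.1 v) : ℂ) * x v)) ∘ Prod.swap :=
    funext fun p => hy_act_n x p
  rw [e]
  exact h2

theorem hy_mp_w : MeasurePreserving (act (hy_w K)) volume volume := by
  have h0 : MeasurePreserving (fun z : ℂ => -conj z) volume volume :=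
    (Measure.measurePreserving_neg _).comp Complex.conjLIE.measurePreserving
  have h1 : MeasurePreserving (fun (B : Pl K → ℂ) (v : Pl K) => -conj (B v)) volume volume :=
    volume_preserving_pi fun _ => h0
  have h2 := MeasurePreserving.skew_product (μc := (volume : Measure (Pl K → ℝ)))
    (μd := (volume : Measure (Pl K → ℝ))) h1
    (g := fun (B : Pl K → ℂ) (y : Pl K → ℝ) => (fun v => Real.log (1 + ‖B v‖ ^ 2)) - y) (by
      refine Continuous.measurable ?_
      refine Continuous.sub (continuous_pi fun v => Continuous.log (by fun_prop) fun q => ?_)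
        continuous_snd
      positivity)
    (Filter.Eventually.of_forall fun B => Measure.map_sub_left_eq_self _ _)
  have e : act (hy_w K) = fun p : HH K =>
      ((fun v => -conj (p.1 v)), (fun v => Real.log (1 + ‖p.1 v‖ ^ 2)) - p.2) :=
    funext fun p => hy_act_w p
  rw [e]
  exact h2

theorem hy_mp_l (x : Pl K → ℂ) : MeasurePreserving (act (hy_l x)) volume volume := by
  have e : hy_l x = hy_w K * (hy_n (-x) * (hy_w K * (hy_w K * hy_w K))) := by
    ext i j
    fin_cases i <;> fin_cases j <;>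
      simp [hy_l, hy_n, hy_w, mk2, Matrix.mul_apply, Fin.sum_univ_two]
  rw [e]
  exact hy_mp_mul hy_mp_w (hy_mp_mul (hy_mp_n _) (hy_mp_mul hy_mp_w (hy_mp_mul hy_mp_w hy_mp_w)))

theorem hy_mp_gen (g : SLC K) (hc : ∀ v, g.1 1 0 v ≠ 0) :
    MeasurePreserving (act g) volume volume := by
  have e : g = hy_n (fun v => (g.1 0 0 v - 1) / g.1 1 0 v) *
      (hy_l (g.1 1 0) * hy_n (fun v => (g.1 1 1 v - 1) / g.1 1 0 v)) := by
    ext i j v
    have h1 := hc v
    have h2 := hy_det g v
    fin_cases i <;> fin_cases j <;>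
      simp [hy_l, hy_n, mk2, Matrix.mul_apply, Fin.sum_univ_two] <;> field_simp
    all_goals first | ring1 | linear_combination -h2
  rw [e]
  exact hy_mp_mul (hy_mp_n _) (hy_mp_mul (hy_mp_l _) (hy_mp_n _))

theorem measurePreserving_act (g : SLC K) : MeasurePreserving (act g) volume volume := by
  classical
  -- make the lower left entry invertible
  set x : Pl K → ℂ := fun v => if g.1 1 0 v = 0 then 1 else 0 with hx
  have e : g = hy_l (-x) * (hy_l x * g) := by
    rw [← mul_assoc]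
    have : hy_l (-x) * hy_l x = 1 := by
      ext i j
      fin_cases i <;> fin_cases j <;> simp [hy_l, mk2, Matrix.mul_apply, Fin.sum_univ_two]
    rw [this, one_mul]
  rw [e]
  refine hy_mp_mul (hy_mp_l _) (hy_mp_gen _ fun v => ?_)
  have h1 : (hy_l x * g).1 1 0 v = x v * g.1 0 0 v + g.1 1 0 v := by
    simp [hy_l, mk2, Matrix.mul_apply, Fin.sum_univ_two]
  rw [h1, hx]
  by_cases hc : g.1 1 0 v = 0
  · have := hy_det g v
    simp only [hc, if_true, one_mul, add_zero]
    intro h0
    rw [h0, hc] at this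
    simp at this
  · simp [hc]

theorem actR_one (p : HH K) : actR 1 p = p := by
  rw [actR, map_one, act_one]

theorem actR_mul (g g' : SLR K) (p : HH K) : actR (g * g') p = actR g (actR g' p) := by
  rw [actR, map_mul, act_mul]
  rfl

theorem continuous_actR (g : SLR K) : Continuous (actR g) :=
  continuous_act _

theorem measurePreserving_actR (g : SLR K) : MeasurePreserving (actR g) volume volume :=
  measurePreserving_act _

theorem hy_map (g : SLR K) (i j : Fin 2) :
    (Matrix.SpecialLinearGroup.map embH g).1 i j = emb (g.1 i j : K) := rfl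

theorem gQ_actR (t : Pl K → ℝ) (g : SLR K) (p : HH K) (c d : R K) :
    gQ t (actR g p) c d = gQ t p (c * g.1 0 0 + d * g.1 1 0) (c * g.1 0 1 + d * g.1 1 1) := by
  unfold gQ actR
  rw [Qh_act]
  simp only [hy_map, Subring.coe_add, Subring.coe_mul, emb_add, emb_mul]

theorem actR_snd (g : SLR K) (p : HH K) (v : Pl K) :
    (actR g p).2 v = Real.log (Qh p (emb (g.1 1 0 : K)) (emb (g.1 1 1 : K)) v) :=
  rfl

theorem actR_unip (b : R K) (z : Pl K → ℂ) (y : Pl K → ℝ) :
    actR (mk2 1 b 0 1 (by ring)) (pt z y) = pt (z + emb (b : K)) y := by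
  have e : Matrix.SpecialLinearGroup.map embH (mk2 (1 : R K) b 0 1 (by ring)) =
      hy_n (emb (b : K)) := by
    ext i j v
    rw [hy_map]
    fin_cases i <;> fin_cases j <;> simp [hy_n, mk2, emb]
  rw [actR, e, hy_act_n]
  refine Prod.ext (funext fun v => ?_) rfl
  simp only [pt, Pi.add_apply]
  ring

/-- the inverse of a matrix near the cusp `a / h` -/
theorem actR_inv_cusp (g : SLR K) (hh : g.1 1 0 ≠ 0) (ζ : Pl K → ℂ) (y : Pl K → ℝ) :
    actR g⁻¹ (pt (emb ((g.1 0 0 : K) / g.1 1 0) + ζ) y) =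
      pt (fun v => -emb ((g.1 1 1 : K) / g.1 1 0) v -
          conj (ζ v) / (emb (g.1 1 0 : K) v ^ 2 * ((‖ζ v‖ ^ 2 + Real.exp (-2 * y v) : ℝ) : ℂ)))
        (fun v => Real.log (‖emb (g.1 1 0 : K) v‖ ^ 2 * (‖ζ v‖ ^ 2 + Real.exp (-2 * y v)) *
          Real.exp (y v))) := by
  have hc : ∀ v, emb (g.1 1 0 : K) v ≠ 0 := emb_ne_zero (by simpa using hh)
  have hdiv : ∀ (a b : K) (v : Pl K), emb (a / b) v = emb a v / emb b v := fun a b v =>
    map_div₀ v.1 a b
  have hneg : ∀ (a : K) (v : Pl K), emb (-a) v = -emb a v := fun a v => map_neg v.1 a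
  have hN : ∀ v, 0 < ‖ζ v‖ ^ 2 + Real.exp (-2 * y v) := fun v => by positivity
  have hE2 : ∀ v, Real.exp (-2 * y v) = Real.exp (-y v) ^ 2 := fun v => by
    rw [← Real.exp_nat_mul]; congr 1; push_cast; ring
  have i00 : (g⁻¹).1 0 0 = g.1 1 1 := by simp [Matrix.SpecialLinearGroup.SL2_inv_expl]
  have i01 : (g⁻¹).1 0 1 = -g.1 0 1 := by simp [Matrix.SpecialLinearGroup.SL2_inv_expl]
  have i10 : (g⁻¹).1 1 0 = -g.1 1 0 := by simp [Matrix.SpecialLinearGroup.SL2_inv_expl]
  have i11 : (g⁻¹).1 1 1 = g.1 0 0 := by simp [Matrix.SpecialLinearGroup.SL2_inv_expl]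
  refine Prod.ext (funext fun v => ?_) (funext fun v => ?_)
  · have h1 := hc v
    have hpos : 0 < ‖emb (g.1 1 0 : K) v‖ ^ 2 * (‖ζ v‖ ^ 2 + Real.exp (-2 * y v)) *
        Real.exp (y v) := by
      have := norm_pos_iff.2 h1
      have := hN v
      positivity
    have hdet := hy_det (Matrix.SpecialLinearGroup.map embH g) v
    simp only [hy_map] at hdet
    have hN0 : ((‖ζ v‖ ^ 2 + Real.exp (-2 * y v) : ℝ) : ℂ) ≠ 0 :=
      Complex.ofReal_ne_zero.2 (hN v).ne'
    have hNe : ((‖ζ v‖ ^ 2 + Real.exp (-2 * y v) : ℝ) : ℂ) =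
        ζ v * conj (ζ v) + (Real.exp (-y v) : ℂ) ^ 2 := by
      rw [Complex.mul_conj, Complex.normSq_eq_norm_sq, hE2]
      push_cast
      ring
    have hce : ((‖emb (g.1 1 0 : K) v‖ ^ 2 : ℝ) : ℂ) =
        emb (g.1 1 0 : K) v * conj (emb (g.1 1 0 : K) v) := by
      rw [Complex.mul_conj, Complex.normSq_eq_norm_sq]
    have hE := hy_E (y v)
    have e0 : -emb (g.1 1 0 : K) v * (emb (g.1 0 0 : K) v / emb (g.1 1 0 : K) v + ζ v) +
        emb (g.1 0 0 : K) v = -emb (g.1 1 0 : K) v * ζ v := by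
      field_simp
      ring
    simp only [actR, act, hf, hy_map, zc_pt, pt_snd, i00, i01, i10, i11, NegMemClass.coe_neg,
      hneg, hdiv, Pi.add_apply, e0]
    simp only [pt, Real.exp_log hpos, Complex.ofReal_mul, hce, map_mul, map_neg]
    generalize ((‖ζ v‖ ^ 2 + Real.exp (-2 * y v) : ℝ) : ℂ) = N at hN0 hNe ⊢
    generalize (Real.exp (y v) : ℂ) = E at *
    generalize (Real.exp (-y v) : ℂ) = F at *
    generalize emb (g.1 0 0 : K) v = a at *
    generalize emb (g.1 0 1 : K) v = b at *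
    generalize emb (g.1 1 0 : K) v = c at *
    generalize emb (g.1 1 1 : K) v = d at *
    field_simp
    linear_combination (-(E * conj c * conj (ζ v))) * hdet + (E * conj c * c * d) * hNe +
      (conj c * c * d * F) * hE
  · have h1 := hc v
    have e0 : -emb (g.1 1 0 : K) v * (emb (g.1 0 0 : K) v / emb (g.1 1 0 : K) v + ζ v) +
        emb (g.1 0 0 : K) v = -emb (g.1 1 0 : K) v * ζ v := by
      field_simp
      ring
    have hE : Real.exp (y v) * Real.exp (-y v) = 1 := by rw [← Real.exp_add]; simp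
    rw [actR_snd, pt_snd]
    congr 1
    simp only [Qh, zc_pt, pt_snd, i10, i11, NegMemClass.coe_neg, hneg, hdiv, Pi.add_apply, e0,
      norm_mul, norm_neg, hE2]
    linear_combination (-(‖emb (g.1 1 0 : K) v‖ ^ 2 * Real.exp (-y v))) * hE

theorem Qh_lower {C : Set (HH K)} (hC : IsCompact C) : ∃ c₀ : ℝ, 0 < c₀ ∧ ∀ p ∈ C,
    ∀ (c d : Pl K → ℂ) (v : Pl K), c₀ * (‖c v‖ ^ 2 + ‖d v‖ ^ 2) ≤ Qh p c d v := by
  obtain ⟨Z, hZ⟩ := (hC.image continuous_zc).isBounded.exists_norm_le
  obtain ⟨Y, hY⟩ := (hC.image continuous_snd).isBounded.exists_norm_le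
  refine ⟨((2 + 2 * Z ^ 2) * Real.exp Y)⁻¹, by positivity, fun p hp c d v => ?_⟩
  have hz : ‖zc p v‖ ≤ Z := (norm_le_pi_norm _ v).trans (hZ _ ⟨p, hp, rfl⟩)
  have hy : |p.2 v| ≤ Y := (norm_le_pi_norm p.2 v).trans (hY _ ⟨p, hp, rfl⟩)
  have h1 : 1 ≤ Real.exp Y * Real.exp (p.2 v) := by
    rw [← Real.exp_add]
    exact Real.one_le_exp (by linarith [(abs_le.1 hy).1])
  have h2 : 1 ≤ Real.exp Y * Real.exp (-p.2 v) := by
    rw [← Real.exp_add]
    exact Real.one_le_exp (by linarith [(abs_le.1 hy).2])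
  have h3 : ‖d v‖ ≤ ‖c v * zc p v + d v‖ + ‖c v‖ * Z := by
    have := norm_sub_le (c v * zc p v + d v) (c v * zc p v)
    rw [add_sub_cancel_left, norm_mul] at this
    have h4 := mul_le_mul_of_nonneg_left hz (norm_nonneg (c v))
    linarith
  rw [inv_mul_le_iff₀ (by positivity)]
  unfold Qh
  generalize ‖c v * zc p v + d v‖ = s at *
  have hc0 := norm_nonneg (c v)
  have hd0 := norm_nonneg (d v)
  generalize ‖c v‖ = a at *
  generalize ‖d v‖ = b at *
  have h5 : b ^ 2 ≤ 2 * s ^ 2 + 2 * (a * Z) ^ 2 := by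
    nlinarith [sq_nonneg (s - a * Z), pow_le_pow_left₀ hd0 h3 2]
  have h6 : s ^ 2 ≤ Real.exp Y * Real.exp (p.2 v) * s ^ 2 := le_mul_of_one_le_left (sq_nonneg _) h1
  have h7 : a ^ 2 ≤ Real.exp Y * Real.exp (-p.2 v) * a ^ 2 := le_mul_of_one_le_left (sq_nonneg _) h2
  have h8 : s ^ 2 + a ^ 2 ≤
      Real.exp Y * (Real.exp (p.2 v) * s ^ 2 + a ^ 2 * Real.exp (-p.2 v)) := by linarith
  have h9 := mul_le_mul_of_nonneg_left h8 (by positivity : (0 : ℝ) ≤ 2 + 2 * Z ^ 2)
  rw [mul_assoc]
  nlinarith [sq_nonneg (s * Z), sq_nonneg a]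

/-- scaling of the coordinates -/
def hy_sc (y : Pl K → ℝ) : (Pl K → ℂ) ≃ₜ (Pl K → ℂ) where
  toFun z := fun v => z v * (Real.exp (y v) : ℂ)
  invFun z := fun v => z v * (Real.exp (-y v) : ℂ)
  left_inv z := funext fun v => by simp only []; rw [mul_assoc, hy_E, mul_one]
  right_inv z := funext fun v => by
    simp only []; rw [mul_assoc, mul_comm (Real.exp (-y v) : ℂ), hy_E, mul_one]
  continuous_toFun := by fun_prop
  continuous_invFun := by fun_prop

theorem hy_scale (y : Pl K → ℝ) : (volume : Measure (Pl K → ℂ)) =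
    ENNReal.ofReal (Real.exp (2 * ∑ v, y v)) • Measure.map (hy_sc y).toMeasurableEquiv volume := by
  set L : (Pl K → ℂ) →ₗ[ℝ] (Pl K → ℂ) := LinearMap.pi fun v =>
    (Real.exp (y v) • (LinearMap.id : ℂ →ₗ[ℝ] ℂ)).comp (LinearMap.proj v) with hL
  have hdet : LinearMap.det L = Real.exp (2 * ∑ v, y v) := by
    rw [hL, LinearMap.det_pi, Finset.mul_sum, Real.exp_sum]
    refine Finset.prod_congr rfl fun v _ => ?_
    rw [LinearMap.det_smul, LinearMap.det_id, Complex.finrank_real_complex, mul_one,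
      ← Real.exp_nat_mul]
    norm_num
  have e : ((hy_sc y).toMeasurableEquiv : (Pl K → ℂ) → (Pl K → ℂ)) = L := by
    funext z v
    simp [hy_sc, hL, mul_comm]
  have hpos := Real.exp_pos (2 * ∑ v, y v)
  rw [e, Measure.map_linearMap_addHaar_eq_smul_addHaar _ (by rw [hdet]; exact hpos.ne'), hdet,
    smul_smul, abs_of_pos (inv_pos.2 hpos), ← ENNReal.ofReal_mul hpos.le,
    mul_inv_cancel₀ hpos.ne', ENNReal.ofReal_one, one_smul]

theorem hy_integral_pt {E : Type*} [NormedAddCommGroup E] [NormedSpace ℝ E] {f : HH K → E}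
    (hf : Integrable f) :
    ∫ p, f p = ∫ y : Pl K → ℝ, Real.exp (2 * ∑ v, y v) • ∫ z : Pl K → ℂ, f (pt z y) := by
  rw [Measure.volume_eq_prod] at hf ⊢
  rw [integral_prod_symm _ hf]
  refine integral_congr_ae (Filter.Eventually.of_forall fun y => ?_)
  simp only []
  conv_lhs => rw [hy_scale y]
  rw [integral_smul_measure, integral_map_equiv, ENNReal.toReal_ofReal (Real.exp_pos _).le]
  rfl

theorem lintegral_pt {f : HH K → ENNReal} (hf : Measurable f) :
    ∫⁻ p, f p = ∫⁻ y : Pl K → ℝ, ENNReal.ofReal (Real.exp (2 * ∑ v, y v)) *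
      ∫⁻ z : Pl K → ℂ, f (pt z y) := by
  rw [Measure.volume_eq_prod, lintegral_prod_symm' _ hf]
  refine lintegral_congr fun y => ?_
  conv_lhs => rw [hy_scale y]
  rw [lintegral_smul_measure, lintegral_map_equiv]
  rfl

theorem integral_pt {f : HH K → ℂ} (hf : Integrable f) :
    ∫ p, f p = ∫ y : Pl K → ℝ, (Real.exp (2 * ∑ v, y v) : ℂ) * ∫ z : Pl K → ℂ, f (pt z y) := by
  rw [hy_integral_pt hf]
  simp only [Complex.real_smul]

/-- the box `F × cube Y` in `H` -/
def hy_box (F : Set (Pl K → ℂ)) (Y : ℝ) : Set (HH K) := {p | zc p ∈ F ∧ p.2 ∈ cube K Y}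

theorem hy_box_meas {F : Set (Pl K → ℂ)} (hF : MeasurableSet F) (Y : ℝ) :
    MeasurableSet (hy_box F Y) :=
  (continuous_zc.measurable hF).inter (measurable_snd measurableSet_Icc)

theorem hy_box_sub {F : Set (Pl K → ℂ)} (hb : Bornology.IsBounded F) (Y : ℝ) :
    ∃ C : Set (HH K), IsCompact C ∧ hy_box F Y ⊆ C ∧ ∀ p ∈ C, p.2 ∈ cube K Y := by
  refine ⟨_, (hb.isCompact_closure.prod (isCompact_Icc (a := fun _ : Pl K => -Y)
    (b := fun _ => Y))).image continuous_pt, fun p hp => ?_, ?_⟩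
  · exact ⟨(zc p, p.2), ⟨subset_closure hp.1, hp.2⟩, pt_zc p⟩
  · rintro p ⟨q, hq, rfl⟩
    exact hq.2

theorem hy_cube_sum {Y : ℝ} {y : Pl K → ℝ} (hy : y ∈ cube K Y) :
    -(rr K * Y) ≤ ∑ v, y v ∧ ∑ v, y v ≤ rr K * Y := by
  constructor
  · have := Finset.sum_le_sum (s := Finset.univ) fun v _ => hy.1 v
    simpa using this
  · have := Finset.sum_le_sum (s := Finset.univ) fun v _ => hy.2 v
    simpa using this

theorem hy_box_int {F : Set (Pl K → ℂ)} (hF : MeasurableSet F) (hb : Bornology.IsBounded F)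
    (Y : ℝ) {f : HH K → ℝ} (hf : Continuous f) :
    ∫ y in cube K Y, ∫ z in F, f (pt z y) =
      ∫ p in hy_box F Y, Real.exp (-(2 * ∑ v, p.2 v)) * f p := by
  obtain ⟨C, hC, hsub, -⟩ := hy_box_sub hb Y
  have hcont : Continuous fun p : HH K => Real.exp (-(2 * ∑ v, p.2 v)) * f p := by fun_prop
  have hint : IntegrableOn (fun p : HH K => Real.exp (-(2 * ∑ v, p.2 v)) * f p) (hy_box F Y) :=
    (hcont.continuousOn.integrableOn_compact hC).mono_set hsub
  have hm : MeasurableSet (cube K Y) := measurableSet_Icc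
  rw [← integral_indicator (hy_box_meas hF Y),
    hy_integral_pt ((integrable_indicator_iff (hy_box_meas hF Y)).2 hint),
    ← integral_indicator hm]
  refine integral_congr_ae (Filter.Eventually.of_forall fun y => ?_)
  simp only []
  by_cases hy : y ∈ cube K Y
  · rw [Set.indicator_of_mem hy, ← integral_indicator hF, smul_eq_mul, ← integral_const_mul]
    refine integral_congr_ae (Filter.Eventually.of_forall fun z => ?_)
    simp only []
    by_cases hz : z ∈ F
    · have : pt z y ∈ hy_box F Y := ⟨by rwa [zc_pt], hy⟩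
      rw [Set.indicator_of_mem hz, Set.indicator_of_mem this, pt_snd, ← mul_assoc, ← Real.exp_add,
        add_neg_cancel, Real.exp_zero, one_mul]
    · have : pt z y ∉ hy_box F Y := fun h => hz (by have := h.1; rwa [zc_pt] at this)
      rw [Set.indicator_of_notMem hz, Set.indicator_of_notMem this, mul_zero]
  · have : ∀ z, pt z y ∉ hy_box F Y := fun z h => hy h.2
    simp only [Set.indicator_of_notMem hy, Set.indicator_of_notMem (this _), integral_zero,
      smul_zero]

/-- comparison of `L¹` norms on boxes `F × cube Y` and on compact subsets of `H` -/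
theorem box_le_compact {F : Set (Pl K → ℂ)} (hF : MeasurableSet F) (hb : Bornology.IsBounded F)
    (Y : ℝ) : ∃ (C : Set (HH K)) (c : ℝ), IsCompact C ∧ 0 < c ∧ ∀ f : HH K → ℝ, Continuous f →
      (∀ p, 0 ≤ f p) → ∫ y in cube K Y, ∫ z in F, f (pt z y) ≤ c * ∫ p in C, f p := by
  obtain ⟨C, hC, hsub, hCy⟩ := hy_box_sub hb Y
  refine ⟨C, Real.exp (2 * (rr K * Y)), hC, Real.exp_pos _, fun f hf h0 => ?_⟩
  have hcont : Continuous fun p : HH K => Real.exp (-(2 * ∑ v, p.2 v)) * f p := by fun_prop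
  rw [hy_box_int hF hb Y hf, ← integral_const_mul]
  refine (setIntegral_mono_set (hcont.continuousOn.integrableOn_compact hC)
    (Filter.Eventually.of_forall fun p => mul_nonneg (Real.exp_pos _).le (h0 p))
    (LE.le.eventuallyLE hsub)).trans ?_
  refine setIntegral_mono_on (hcont.continuousOn.integrableOn_compact hC)
    ((continuous_const.mul hf).continuousOn.integrableOn_compact hC) hC.measurableSet
    fun p hp => mul_le_mul_of_nonneg_right (Real.exp_le_exp.2 ?_) (h0 p)
  linarith [(hy_cube_sum (hCy p hp)).1]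

theorem compact_le_box {x : K} (hx : x ≠ 0) {C : Set (HH K)} (hC : IsCompact C) :
    ∃ Y c : ℝ, 0 < Y ∧ 0 < c ∧ ∀ f : HH K → ℝ, Continuous f → (∀ p, 0 ≤ f p) →
      (∀ n ∈ Lat x, ∀ z y, f (pt (z + emb (n : K)) y) = f (pt z y)) →
      ∫ p in C, f p ≤ c * ∫ y in cube K Y, ∫ z in fd x, f (pt z y) := by
  classical
  obtain ⟨Z, hZ⟩ := (hC.image continuous_zc).isBounded.exists_norm_le
  obtain ⟨Y, hY0, hY⟩ := (hC.image continuous_snd).isBounded.exists_pos_norm_le
  obtain ⟨W, hW0, hW⟩ := (isBounded_fd hx).exists_pos_norm_le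
  obtain ⟨_, -, hbox⟩ := box_count (K := K)
  have hfin := (hbox x hx 0 (fun _ => |Z| + W) fun _ => by positivity).1
  set N := hfin.toFinset with hN
  set Fn : R K → Set (Pl K → ℂ) := fun n => (fun z => z + emb (n : K)) ⁻¹' fd x with hFn
  have hFm : ∀ n, MeasurableSet (Fn n) := fun n =>
    measurable_add_const _ (measurableSet_fd hx)
  have hFb : ∀ n, Bornology.IsBounded (Fn n) := fun n =>
    (isometry_add_right (emb (n : K))).antilipschitz.isBounded_preimage (isBounded_fd hx)
  have hcov : ∀ p ∈ C, ∃ n ∈ N, p ∈ hy_box (Fn n) Y := by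
    intro p hp
    obtain ⟨n, hn, h⟩ := exists_add_mem_fd hx (zc p)
    refine ⟨n, (Set.Finite.mem_toFinset _).2 ⟨hn, fun v => ?_⟩, h, ?_⟩
    · have h1 := hW _ h
      have h2 := hZ _ ⟨p, hp, rfl⟩
      have h3 := norm_sub_le (zc p + emb (n : K)) (zc p)
      rw [add_sub_cancel_left] at h3
      have h4 := norm_le_pi_norm (emb (n : K)) v
      rw [Pi.zero_apply, sub_zero]
      linarith [le_abs_self Z]
    · have h2 := hY _ ⟨p, hp, rfl⟩
      exact ⟨fun v => (abs_le.1 ((norm_le_pi_norm p.2 v).trans h2)).1,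
        fun v => (abs_le.1 ((norm_le_pi_norm p.2 v).trans h2)).2⟩
  refine ⟨Y, (N.card + 1) * Real.exp (2 * (rr K * Y)), hY0, by positivity,
    fun f hf h0 hper => ?_⟩
  have hint : ∀ n, IntegrableOn f (hy_box (Fn n) Y) := fun n => by
    obtain ⟨C', hC', hsub, -⟩ := hy_box_sub (hFb n) Y
    exact (hf.continuousOn.integrableOn_compact hC').mono_set hsub
  have hI0 : 0 ≤ ∫ y in cube K Y, ∫ z in fd x, f (pt z y) :=
    integral_nonneg fun y => integral_nonneg fun z => h0 _
  have h1 : ∫ p in C, f p ≤ ∑ n ∈ N, ∫ p in hy_box (Fn n) Y, f p := by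
    rw [← integral_indicator hC.measurableSet]
    simp_rw [← integral_indicator (hy_box_meas (hFm _) Y)]
    have hi : ∀ n ∈ N, Integrable ((hy_box (Fn n) Y).indicator f) := fun n _ =>
      (integrable_indicator_iff (hy_box_meas (hFm n) Y)).2 (hint n)
    rw [← integral_finsetSum _ hi]
    refine integral_mono ((integrable_indicator_iff hC.measurableSet).2
      (hf.continuousOn.integrableOn_compact hC)) (integrable_finsetSum _ hi) fun p => ?_
    have hnn : ∀ n ∈ N, 0 ≤ (hy_box (Fn n) Y).indicator f p := fun n _ =>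
      Set.indicator_nonneg (fun q _ => h0 q) p
    simp only []
    by_cases hp : p ∈ C
    · obtain ⟨n, hn, h⟩ := hcov p hp
      rw [Set.indicator_of_mem hp, ← Set.indicator_of_mem h f]
      exact Finset.single_le_sum hnn hn
    · rw [Set.indicator_of_notMem hp]
      exact Finset.sum_nonneg hnn
  have h2 : ∀ n ∈ N, ∫ p in hy_box (Fn n) Y, f p ≤
      Real.exp (2 * (rr K * Y)) * ∫ y in cube K Y, ∫ z in fd x, f (pt z y) := by
    intro n hn
    have hn' : n ∈ Lat x := ((Set.Finite.mem_toFinset _).1 hn).1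
    have e : ∀ y, ∫ z in fd x, f (pt z y) = ∫ z in Fn n, f (pt z y) := by
      intro y
      rw [← (measurePreserving_add_right volume (emb (n : K))).setIntegral_preimage_emb
        (measurableEmbedding_addRight _) (fun z => f (pt z y)) (fd x)]
      simp only [hper n hn', hFn]
    simp only [e]
    have hcont : Continuous fun p : HH K => Real.exp (-(2 * ∑ v, p.2 v)) * f p := by fun_prop
    obtain ⟨C', hC', hsub, -⟩ := hy_box_sub (hFb n) Y
    rw [hy_box_int (hFm n) (hFb n) Y hf, ← integral_const_mul]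
    refine setIntegral_mono_on (hint n)
      (((continuous_const.mul hcont).continuousOn.integrableOn_compact hC').mono_set hsub)
      (hy_box_meas (hFm n) Y) fun p hp => ?_
    rw [← mul_assoc, ← Real.exp_add]
    exact le_mul_of_one_le_left (h0 p) (Real.one_le_exp (by linarith [(hy_cube_sum hp.2).2]))
  have h3 := Finset.sum_le_sum h2
  rw [Finset.sum_const, nsmul_eq_mul] at h3
  have h4 := mul_nonneg (Real.exp_pos (2 * (rr K * Y))).le hI0
  nlinarith

/-- two continuous functions that are `L²_loc` limits of the same family agree -/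
theorem eq_zero_of_L2 {f : HH K → ℂ} (hf : Continuous f)
    (h : ∀ C : Set (HH K), IsCompact C → ∫ p in C, ‖f p‖ ^ 2 = 0) (p : HH K) : f p = 0 := by
  have hc : Continuous fun q => ‖f q‖ ^ 2 := by fun_prop
  have hK := isCompact_closedBall p 1
  have h1 := (setIntegral_eq_zero_iff_of_nonneg_ae
    (Filter.Eventually.of_forall fun q => by positivity)
    (hc.continuousOn.integrableOn_compact hK)).1 (h _ hK)
  have h2 : (fun q => ‖f q‖ ^ 2) =ᵐ[volume.restrict (Metric.ball p 1)] 0 :=
    ae_restrict_of_ae_restrict_of_subset Metric.ball_subset_closedBall h1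
  have h3 := Measure.eqOn_open_of_ae_eq h2 Metric.isOpen_ball hc.continuousOn
    continuousOn_const (Metric.mem_ball_self one_pos)
  simpa using h3

instance tF_neBot : (tF K).NeBot := by
  refine Filter.NeBot.comap_of_surj inferInstance fun s => ⟨fun _ => s / rr K, ?_⟩
  have : (rr K : ℝ) ≠ 0 := Nat.cast_ne_zero.2 rr_pos.ne'
  simp only [Finset.sum_const, Finset.card_univ, nsmul_eq_mul]
  field_simp

theorem tendsto_exp_tF {δ : ℝ} (hδ : 0 < δ) :
    Filter.Tendsto (fun t : Pl K → ℝ => Real.exp (δ * ∑ v, t v)) (tF K) (nhds 0) :=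
  Real.tendsto_exp_atBot.comp (Filter.tendsto_comap.const_mul_atBot hδ)

theorem tendsto_add_tF (s : Pl K → ℝ) : Filter.Tendsto (fun t => t + s) (tF K) (tF K) := by
  unfold tF
  rw [Filter.tendsto_comap_iff]
  have e : ((fun t : Pl K → ℝ => ∑ v, t v) ∘ fun t => t + s) =
      fun t => (∑ v, t v) + ∑ v, s v := by
    funext t
    simp [Finset.sum_add_distrib]
  rw [e]
  exact Filter.tendsto_atBot_add_const_right _ _ Filter.tendsto_comap


end Crest.Agent.GQ
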