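import Crest.Agent.GQ.ThGram

/-! # GQ ThL2: local L2 convergence and the null vector -/

set_option autoImplicit false

noncomputable section

open NumberField Complex
open scoped ComplexConjugate

namespace Crest.Agent.GQ

variable {K : Type} [Field K] [NumberField K] [P : Pre K]

open MeasureTheory
variable [Q : Rec K]

theorem l2_compact (g : SLR K) {C : Set (HH K)} (hC : IsCompact C) : ∃ m : ℝ, 0 < m ∧
    ∀ (f F : HH K → ℝ) (G : HH K → ℂ), Continuous f → (∀ p, 0 ≤ f p) → (∀ p, f p ≤ F p) →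
      Integrable G → (∀ p, ((wt p * F p : ℝ) : ℂ) = G p) →
      ∫ p in C, f (actR g p) ≤ m * ‖∫ p, G p‖ := by
  have hc : Continuous fun p => wt (actR g p) := continuous_wt.comp (continuous_actR g)
  obtain ⟨δ, hδ, hle⟩ := hC.exists_forall_le' hc.continuousOn (a := 0) fun p _ => wt_pos _
  refine ⟨δ⁻¹, inv_pos.2 hδ, fun f F G hf h0 hF hG hFG => ?_⟩
  have e : G = fun p => ((wt p * F p : ℝ) : ℂ) := funext fun p => (hFG p).symm
  have h1 : Integrable (fun p => wt p * F p) := by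
    have := hG.re
    rw [e] at this
    simpa using this
  have hwf : Continuous fun p => wt p * f p := continuous_wt.mul hf
  have h2 : Integrable (fun p => wt p * f p) :=
    h1.mono' hwf.aestronglyMeasurable (Filter.Eventually.of_forall fun p => by
      rw [Real.norm_of_nonneg (mul_nonneg (wt_pos p).le (h0 p))]
      exact mul_le_mul_of_nonneg_left (hF p) (wt_pos p).le)
  have h3 : Integrable (fun p => wt (actR g p) * f (actR g p)) :=
    (measurePreserving_actR g).integrable_comp_of_integrable h2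
  have h4 : ∫ p, wt (actR g p) * f (actR g p) = ∫ p, wt p * f p := by
    conv_rhs => rw [← (measurePreserving_actR g).map_eq]
    rw [integral_map (continuous_actR g).aemeasurable hwf.aestronglyMeasurable]
  have h5 : ∫ p, wt p * f p ≤ ‖∫ p, G p‖ := by
    simp only [← hFG]
    rw [integral_complex_ofReal, Complex.norm_real]
    exact (integral_mono h2 h1 fun p => mul_le_mul_of_nonneg_left (hF p) (wt_pos p).le).trans
      (le_abs_self _)
  have h6 : ∫ p in C, f (actR g p) ≤ ∫ p in C, δ⁻¹ * (wt (actR g p) * f (actR g p)) := by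
    refine setIntegral_mono_on ((hf.comp (continuous_actR g)).continuousOn.integrableOn_compact hC)
      (h3.const_mul _).integrableOn hC.measurableSet fun p hp => ?_
    rw [← mul_assoc]
    refine le_mul_of_one_le_left (h0 _) ?_
    rw [← div_eq_inv_mul, one_le_div hδ]
    exact hle p hp
  refine h6.trans ?_
  rw [integral_const_mul]
  refine mul_le_mul_of_nonneg_left ?_ (inv_pos.2 hδ).le
  refine (setIntegral_le_integral h3 (Filter.Eventually.of_forall fun p =>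
    mul_nonneg (wt_pos _).le (h0 _))).trans ?_
  rw [h4]; exact h5

theorem l2_ThL_one (l₁ l₂ : R K) (t : Pl K → ℝ) (p : HH K) : ThL 1 l₁ l₂ t p = Th 1 t p := by
  simp only [ThL, Th, ThQ, one_dvd, if_true, phi_one]

theorem l2_Pair_one (t t' : Pl K → ℝ) (p : HH K) :
    Pair 1 t t' p = Th 1 t p * conj (Th 1 t' p) := by
  simp only [Pair, l2_ThL_one]
  rw [tsum_mul_right, ← mul_assoc]
  simp only [Th, ThQ, one_dvd, if_true, phi_one]

theorem l2_Th (g : SLR K) (t : Pl K → ℝ) (p : HH K) : Th g t p = Th 1 t (actR g p) := by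
  rw [Th_actR, one_mul]

theorem l2_sq (z : ℂ) : ((‖z‖ ^ 2 : ℝ) : ℂ) = z * conj z := by
  rw [Complex.mul_conj, Complex.normSq_eq_norm_sq]

theorem l2_cont (t : Pl K → ℝ) : Continuous (Th (1 : SLR K) t) := continuous_ThQ 1 1 t

theorem th_cauchy (g : SLR K) {C : Set (HH K)} (hC : IsCompact C) {ε : ℝ} (hε : 0 < ε) :
    ∃ L : ℝ, ∀ t t' : Pl K → ℝ, ∑ v, t v ≤ L → ∑ v, t' v ≤ L →
      ∫ p in C, ‖Th g t p - Th g t' p‖ ^ 2 ≤ ε := by
  obtain ⟨m, hm, H⟩ := l2_compact g hC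
  obtain ⟨ρ, δ, hδ, hint, ⟨C₀, hC₀⟩, -⟩ := gram (K := K)
  obtain ⟨L, hL⟩ : ∃ L : ℝ, L ≤ 0 ∧ m * (4 * (|C₀| * Real.exp (δ * (L + L)))) ≤ ε := by
    have h1 : Filter.Tendsto (fun L : ℝ => m * (4 * (|C₀| * Real.exp (δ * (L + L)))))
        Filter.atBot (nhds (m * (4 * (|C₀| * 0)))) :=
      (((Real.tendsto_exp_atBot.comp ((Filter.Tendsto.atBot_add_atBot Filter.tendsto_id
        Filter.tendsto_id).const_mul_atBot hδ)).const_mul _).const_mul _).const_mul _
    rw [mul_zero, mul_zero, mul_zero] at h1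
    exact ((Filter.eventually_le_atBot 0).and (h1.eventually (ge_mem_nhds hε))).exists
  refine ⟨L, fun t t' ht ht' => ?_⟩
  have hb : ∀ s s' : Pl K → ℝ, ∑ v, s v ≤ L → ∑ v, s' v ≤ L →
      ‖(∫ p, (wt p : ℂ) * Pair 1 s s' p) - ρ‖ ≤ |C₀| * Real.exp (δ * (L + L)) := by
    intro s s' hs hs'
    refine (hC₀ s s' (hs.trans hL.1) (hs'.trans hL.1)).trans ?_
    exact mul_le_mul (le_abs_self _) (Real.exp_le_exp.2 (mul_le_mul_of_nonneg_left
      (add_le_add hs hs') hδ.le)) (Real.exp_pos _).le (abs_nonneg _)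
  have h1 := H (fun p => ‖Th 1 t p - Th 1 t' p‖ ^ 2) (fun p => ‖Th 1 t p - Th 1 t' p‖ ^ 2)
    (fun p => ((wt p : ℂ) * Pair 1 t t p - (wt p : ℂ) * Pair 1 t t' p) -
      ((wt p : ℂ) * Pair 1 t' t p - (wt p : ℂ) * Pair 1 t' t' p))
    (((l2_cont t).sub (l2_cont t')).norm.pow 2) (fun _ => by positivity) (fun _ => le_rfl)
    (((hint 1 t t).sub (hint 1 t t')).sub ((hint 1 t' t).sub (hint 1 t' t'))) (fun p => by
      rw [Complex.ofReal_mul, l2_sq, map_sub]
      simp only [l2_Pair_one]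
      ring)
  simp only [← l2_Th] at h1
  refine h1.trans (le_trans (mul_le_mul_of_nonneg_left ?_ hm.le) hL.2)
  rw [integral_sub (by exact (hint 1 t t).sub (hint 1 t t'))
    (by exact (hint 1 t' t).sub (hint 1 t' t')), integral_sub (hint 1 t t) (hint 1 t t'), integral_sub (hint 1 t' t) (hint 1 t' t')]
  have e : ∀ a b c d : ℂ, a - b - (c - d) = ((a - ρ) - (b - ρ)) - ((c - ρ) - (d - ρ)) :=
    fun a b c d => by ring
  rw [e]
  refine (norm_sub_le _ _).trans ((add_le_add (norm_sub_le _ _) (norm_sub_le _ _)).trans ?_)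
  linarith [hb t t ht ht, hb t t' ht ht', hb t' t ht' ht, hb t' t' ht' ht']

theorem th_bdd (g : SLR K) {C : Set (HH K)} (hC : IsCompact C) :
    ∃ B : ℝ, ∀ t : Pl K → ℝ, ∑ v, t v ≤ 0 → ∫ p in C, ‖Th g t p‖ ^ 2 ≤ B := by
  obtain ⟨m, hm, H⟩ := l2_compact g hC
  obtain ⟨ρ, δ, hδ, hint, ⟨C₀, hC₀⟩, -⟩ := gram (K := K)
  refine ⟨m * (|C₀| + ‖(ρ : ℂ)‖), fun t ht => ?_⟩
  have h1 := H (fun p => ‖Th 1 t p‖ ^ 2) (fun p => ‖Th 1 t p‖ ^ 2)
    (fun p => (wt p : ℂ) * Pair 1 t t p) ((l2_cont t).norm.pow 2) (fun _ => by positivity)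
    (fun _ => le_rfl) (hint 1 t t) (fun p => by rw [Complex.ofReal_mul, l2_sq, l2_Pair_one])
  simp only [← l2_Th] at h1
  refine h1.trans (mul_le_mul_of_nonneg_left ?_ hm.le)
  have h2 := hC₀ t t ht ht
  have h3 : C₀ * Real.exp (δ * (∑ v, t v + ∑ v, t v)) ≤ |C₀| * 1 :=
    mul_le_mul (le_abs_self _) (Real.exp_le_one_iff.2 (mul_nonpos_of_nonneg_of_nonpos hδ.le
      (by linarith))) (Real.exp_pos _).le (abs_nonneg _)
  have h4 := norm_add_le ((∫ p, (wt p : ℂ) * Pair 1 t t p) - ρ) ρ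
  rw [sub_add_cancel] at h4
  linarith

omit Q in
theorem l2_line {q : R K} (hq : Prime q) {l m x : R K × R K} (hl : ¬ (q ∣ l.1 ∧ q ∣ l.2))
    (h1 : q ∣ l.1 * m.2 - l.2 * m.1) (h2 : q ∣ x.1 * l.2 - x.2 * l.1) :
    q ∣ x.1 * m.2 - x.2 * m.1 := by
  by_contra hn
  apply hl
  constructor
  · refine (hq.dvd_or_dvd ?_).resolve_right hn
    rw [show l.1 * (x.1 * m.2 - x.2 * m.1) =
      x.1 * (l.1 * m.2 - l.2 * m.1) + m.1 * (x.1 * l.2 - x.2 * l.1) by ring]
    exact (h1.mul_left _).add (h2.mul_left _)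
  · refine (hq.dvd_or_dvd ?_).resolve_right hn
    rw [show l.2 * (x.1 * m.2 - x.2 * m.1) =
      x.2 * (l.1 * m.2 - l.2 * m.1) + m.2 * (x.1 * l.2 - x.2 * l.1) by ring]
    exact (h1.mul_left _).add (h2.mul_left _)

theorem l2_ThL_congr {q : R K} (hq : Prime q) {l m : R K × R K} (hl : ¬ (q ∣ l.1 ∧ q ∣ l.2))
    (hm : ¬ (q ∣ m.1 ∧ q ∣ m.2)) (h : q ∣ l.1 * m.2 - l.2 * m.1) (t : Pl K → ℝ) (p : HH K) :
    ThL q l.1 l.2 t p = ThL q m.1 m.2 t p := by
  have h' : q ∣ m.1 * l.2 - m.2 * l.1 := by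
    rw [show m.1 * l.2 - m.2 * l.1 = -(l.1 * m.2 - l.2 * m.1) by ring]
    exact h.neg_right
  classical
  unfold ThL
  congr 1
  refine tsum_congr fun x => ?_
  congr 1
  exact if_congr ⟨l2_line hq hl h, l2_line hq hm h'⟩ rfl rfl

omit Q in
theorem l2_lines {q : R K} (hq : Prime q) : ∃ 𝓛 : Finset (R K × R K),
    (𝓛.card : ℝ) = Nr q + 1 ∧ (∀ l ∈ 𝓛, ¬ (q ∣ l.1 ∧ q ∣ l.2)) ∧
    ∀ x : R K × R K, ¬ (q ∣ x.1 ∧ q ∣ x.2) → ∃! l, l ∈ 𝓛 ∧ q ∣ x.1 * l.2 - x.2 * l.1 := by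
  classical
  have h1 : ¬ q ∣ 1 := hq.not_dvd_one
  refine ⟨insert (0, 1) ((reps q).image fun a => (1, a)), ?_, ?_, ?_⟩
  · rw [Finset.card_insert_of_notMem (by simp),
      Finset.card_image_of_injective _ (fun a b h => (Prod.ext_iff.1 h).2), card_reps hq.ne_zero]
    simp [Nr]
  · intro l hl
    rcases Finset.mem_insert.1 hl with rfl | hl
    · exact fun h => h1 h.2
    · obtain ⟨a, -, rfl⟩ := Finset.mem_image.1 hl
      exact fun h => h1 h.1
  · intro x hx
    by_cases hc : q ∣ x.1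
    · refine ⟨(0, 1), ⟨Finset.mem_insert_self _ _, by simpa using hc⟩, fun l hl => ?_⟩
      rcases Finset.mem_insert.1 hl.1 with h | h
      · exact h
      · obtain ⟨a, -, rfl⟩ := Finset.mem_image.1 h
        have h2 := (hc.mul_right a).sub hl.2
        exact absurd ⟨hc, by simpa using h2⟩ hx
    · obtain ⟨u, v, huv⟩ := (hq.irreducible.coprime_iff_not_dvd.2 hc)
      obtain ⟨a, ⟨ha, ha'⟩, huniq⟩ := reps_existsUnique hq.ne_zero (v * x.2)
      refine ⟨(1, a), ⟨Finset.mem_insert_of_mem (Finset.mem_image_of_mem _ ha), ?_⟩,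
        fun l hl => ?_⟩
      · have e : x.1 * a - x.2 * 1 = x.1 * (a - v * x.2) - q * (u * x.2) := by
          linear_combination x.2 * huv
        simp only []
        rw [e]
        exact (ha'.mul_left _).sub (dvd_mul_right _ _)
      · rcases Finset.mem_insert.1 hl.1 with h | h
        · rw [h] at hl
          exact absurd (by simpa using hl.2) hc
        · obtain ⟨b, hb, rfl⟩ := Finset.mem_image.1 h
          have e : b - v * x.2 = v * (x.1 * b - x.2 * 1) + q * (u * b) := by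
            linear_combination (-b) * huv
          rw [huniq b ⟨hb, by rw [e]; exact (hl.2.mul_left _).add (dvd_mul_right _ _)⟩]

theorem l2_split {q : R K} (hq : Prime q) {𝓛 : Finset (R K × R K)}
    (h : ∀ x : R K × R K, ¬ (q ∣ x.1 ∧ q ∣ x.2) → ∃! l, l ∈ 𝓛 ∧ q ∣ x.1 * l.2 - x.2 * l.1)
    (Φ : R K × R K → ℂ) (hΦ : ∀ x : R K × R K, ¬ (q ∣ x.1 ∧ q ∣ x.2) → ∀ l ∈ 𝓛,
      q ∣ x.1 * l.2 - x.2 * l.1 → Φ x = Φ l) (t : Pl K → ℝ) (p : HH K) :
    (Real.exp (8 / 3 * ∑ v, t v) : ℂ) *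
      ∑' x : R K × R K, phi0 x.1 x.2 * (gQ t p x.1 x.2 : ℂ) * Φ x =
      ∑ l ∈ 𝓛, ThL q l.1 l.2 t p * Φ l := by
  classical
  have hs : ∀ l : R K × R K, Summable fun x : R K × R K =>
      (if q ∣ x.1 * l.2 - x.2 * l.1 then phi0 x.1 x.2 else 0) * (gQ t p x.1 x.2 : ℂ) := by
    intro l
    refine (summable_phi_gQ 1 t p).of_norm_bounded fun x => ?_
    have h0 : 0 ≤ gQ t p x.1 x.2 := (Real.exp_pos _).le
    rw [norm_mul, Complex.norm_real, Real.norm_of_nonneg h0, phi_one]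
    refine mul_le_mul_of_nonneg_right ?_ h0
    split_ifs
    · exact le_rfl
    · simp
  simp only [ThL, mul_assoc]
  rw [← Finset.mul_sum]
  congr 1
  simp only [← tsum_mul_right]
  rw [← Summable.tsum_finsetSum fun l _ => (hs l).mul_right _]
  refine tsum_congr fun x => ?_
  by_cases h0 : phi0 x.1 x.2 = 0
  · simp [h0]
  have hx : ¬ (q ∣ x.1 ∧ q ∣ x.2) := fun hh =>
    hq.not_isUnit ((phi0_ne_zero_iff.1 h0).2.2.isUnit_of_dvd' hh.1 hh.2)
  obtain ⟨l, ⟨hl, hl'⟩, huniq⟩ := h x hx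
  rw [Finset.sum_eq_single l]
  · rw [if_pos hl', hΦ x hx l hl hl', mul_assoc]
  · intro b hb hbl
    rw [if_neg fun h' => hbl (huniq b ⟨hb, h'⟩), zero_mul, zero_mul]
  · exact fun h' => absurd hl h'

theorem th_null (g : SLR K) {q : R K} (hq : Prime q) {C : Set (HH K)} (hC : IsCompact C) :
    Filter.Tendsto (fun t => ∫ p in C, ‖ThQ q g t p - ((Nr q + 1 : ℝ) : ℂ)⁻¹ * Th g t p‖ ^ 2)
      (tF K) (nhds 0) := by
  obtain ⟨m, hm, H⟩ := l2_compact g hC
  obtain ⟨ρ, δ, hδ, hint, ⟨C₀, hC₀⟩, hC₁⟩ := gram (K := K)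
  obtain ⟨C₁, hC₁⟩ := hC₁ q hq
  obtain ⟨𝓛, hcard, hL, huniq⟩ := l2_lines hq
  have hn : (0 : ℝ) < Nr q + 1 := by linarith [Nr_nonneg q]
  have hn' : ((Nr q + 1 : ℝ) : ℂ) ≠ 0 := Complex.ofReal_ne_zero.2 hn.ne'
  have hg : ¬ (q ∣ (-g.1 1 0, g.1 0 0).1 ∧ q ∣ (-g.1 1 0, g.1 0 0).2) := by
    rintro ⟨h1, h2⟩
    have hd := g.2
    rw [Matrix.det_fin_two] at hd
    apply hq.not_dvd_one
    rw [← hd, show g.1 0 0 * g.1 1 1 - g.1 0 1 * g.1 1 0 =
      g.1 0 0 * g.1 1 1 + -g.1 1 0 * g.1 0 1 by ring]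
    exact (h2.mul_right _).add (h1.mul_right _)
  obtain ⟨l₀, ⟨hl₀, hl₀'⟩, -⟩ := huniq _ hg
  have e1 : ∀ t p, ThQ q g t p = ThL q l₀.1 l₀.2 t (actR g p) := fun t p => by
    rw [ThQ_eq_ThL]
    exact l2_ThL_congr hq hg (hL _ hl₀) hl₀' t _
  have e2 : ∀ t p, ∑ l ∈ 𝓛, ThL q l.1 l.2 t p = Th 1 t p := fun t p => by
    have := l2_split hq huniq (fun _ => 1) (fun _ _ _ _ _ => rfl) t p
    simp only [mul_one] at this
    rw [← this]
    simp only [Th, ThQ, one_dvd, if_true, phi_one]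
  have e3 : ∀ t p, Pair q t t p = ∑ l ∈ 𝓛, ThL q l.1 l.2 t p * conj (ThL q l.1 l.2 t p) :=
    fun t p => l2_split hq huniq (fun x => conj (ThL q x.1 x.2 t p))
      (fun x hx l hl h => by rw [l2_ThL_congr hq hx (hL l hl) h]) t p
  have hc : (𝓛.card : ℂ) = ((Nr q + 1 : ℝ) : ℂ) := by rw [← hcard]; simp
  have key : ∀ t : Pl K → ℝ, ∑ v, t v ≤ 0 →
      ∫ p in C, ‖ThQ q g t p - ((Nr q + 1 : ℝ) : ℂ)⁻¹ * Th g t p‖ ^ 2 ≤
        m * ((C₁ + (Nr q + 1)⁻¹ * C₀) * Real.exp (2 * δ * ∑ v, t v)) := by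
    intro t ht
    have h1 := H (fun p => ‖ThL q l₀.1 l₀.2 t p - ((Nr q + 1 : ℝ) : ℂ)⁻¹ * Th 1 t p‖ ^ 2)
      (fun p => ∑ l ∈ 𝓛, ‖ThL q l.1 l.2 t p - ((Nr q + 1 : ℝ) : ℂ)⁻¹ * Th 1 t p‖ ^ 2)
      (fun p => (wt p : ℂ) * Pair q t t p - ((Nr q + 1 : ℝ) : ℂ)⁻¹ * ((wt p : ℂ) * Pair 1 t t p))
      (((continuous_ThL _ _ _ _).sub (continuous_const.mul (l2_cont t))).norm.pow 2)
      (fun _ => by positivity)
      (fun p => Finset.single_le_sum (f := fun l : R K × R K =>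
        ‖ThL q l.1 l.2 t p - ((Nr q + 1 : ℝ) : ℂ)⁻¹ * Th 1 t p‖ ^ 2) (fun _ _ => by positivity) hl₀)
      ((hint q t t).sub ((hint 1 t t).const_mul _)) (fun p => by
        rw [Complex.ofReal_mul, Complex.ofReal_sum, e3, l2_Pair_one]
        simp only [l2_sq, map_sub, map_mul, map_inv₀, Complex.conj_ofReal]
        have e4 : ∑ l ∈ 𝓛, conj (ThL q l.1 l.2 t p) = conj (Th 1 t p) := by
          rw [← e2, map_sum]
        simp only [sub_mul, mul_sub, Finset.sum_sub_distrib, ← Finset.sum_mul, ← Finset.mul_sum,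
          e2, e4, Finset.sum_const, nsmul_eq_mul, hc]
        field_simp
        ring)
    simp only [← l2_Th, ← e1] at h1
    refine h1.trans (mul_le_mul_of_nonneg_left ?_ hm.le)
    rw [integral_sub (hint q t t) ((hint 1 t t).const_mul _), integral_const_mul]
    have e : ∀ a b : ℂ, a - ((Nr q + 1 : ℝ) : ℂ)⁻¹ * b =
        (a - (ρ / (Nr q + 1) : ℝ)) - ((Nr q + 1 : ℝ) : ℂ)⁻¹ * (b - ρ) := fun a b => by
      rw [Complex.ofReal_div]; ring
    rw [e]
    refine (norm_sub_le _ _).trans ?_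
    rw [norm_mul, norm_inv, Complex.norm_real, Real.norm_of_nonneg hn.le, add_mul,
      show 2 * δ * ∑ v, t v = δ * (∑ v, t v + ∑ v, t v) by ring, mul_assoc]
    exact add_le_add (hC₁ t t ht ht) (mul_le_mul_of_nonneg_left (hC₀ t t ht ht) (inv_pos.2 hn).le)
  have hlim := ((tendsto_exp_tF (K := K) (δ := 2 * δ) (by linarith)).const_mul
    (C₁ + (Nr q + 1)⁻¹ * C₀)).const_mul m
  rw [mul_zero, mul_zero] at hlim
  refine squeeze_zero' (Filter.Eventually.of_forall fun t => integral_nonneg fun _ => by positivity)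
    ?_ hlim
  filter_upwards [Filter.tendsto_comap.eventually (Filter.eventually_le_atBot (0 : ℝ))] with t ht
    using key t ht


/-- Bessel's inequality -/
theorem bessel {g : SLR K} {x : K} (hx : IsPer g x) (Y : ℝ) : ∃ (C : Set (HH K)) (c : ℝ),
    IsCompact C ∧ ∀ (q : R K) (t t' : Pl K → ℝ) (μ : ℂ) (S : Finset (R K)),
      (∀ r ∈ S, r ≠ 0 ∧ r ∈ Lat (x * dl K)⁻¹) →
      ∑ r ∈ S, ∫ y in cube K Y, ‖fc q g x r t y - μ * fc 1 g x r t' y‖ ^ 2 ≤
        c * ∫ p in C, ‖ThQ q g t p - μ * Th g t' p‖ ^ 2 := by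
  classical
  obtain ⟨C, c, hC, hc, H⟩ := box_le_compact (measurableSet_fd hx.1) (isBounded_fd hx.1) Y
  have hV : 0 < cov K * NS x := mul_pos cov_pos (NS_pos hx.1)
  refine ⟨C, (cov K * NS x)⁻¹ * c, hC, fun q t t' μ S hS => ?_⟩
  have hf : Continuous fun p => ‖ThQ q g t p - μ * Th g t' p‖ ^ 2 :=
    ((continuous_ThQ q g t).sub (continuous_const.mul (continuous_ThQ 1 g t'))).norm.pow 2
  have h1 := H _ hf fun _ => by positivity
  have hcube : IsCompact (cube K Y) := isCompact_Icc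
  have hcont : ∀ r ∈ S, Continuous fun y => ‖fc q g x r t y - μ * fc 1 g x r t' y‖ ^ 2 :=
    fun r hr => ((continuous_fc hx q (hS r hr).2 t).sub
      (continuous_const.mul (continuous_fc hx 1 (hS r hr).2 t'))).norm.pow 2
  have hpt : ∀ y : Pl K → ℝ, ∑ r ∈ S, ‖fc q g x r t y - μ * fc 1 g x r t' y‖ ^ 2 ≤
      (cov K * NS x)⁻¹ * ∫ z in fd x, ‖ThQ q g t (pt z y) - μ * Th g t' (pt z y)‖ ^ 2 := by
    intro y
    set b : R K → ℂ := fun r => if r ∈ Lat (x * dl K)⁻¹ then fc q g x r t y else 0 with hb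
    set b' : R K → ℂ := fun r => if r ∈ Lat (x * dl K)⁻¹ then fc 1 g x r t' y else 0 with hb'
    set a : R K → ℂ := fun r => (if r = 0 then u0 g t y - μ * u0 g t' y else 0) +
      (b r - μ * b' r) with ha
    have sb : Summable fun r => ‖b r‖ := summable_fc hx q t y
    have sb' : Summable fun r => ‖b' r‖ := summable_fc hx 1 t' y
    have s0 : Summable fun r : R K => if r = 0 then u0 g t y - μ * u0 g t' y else 0 :=
      (hasSum_ite_eq 0 _).summable
    have sa : Summable fun r => ‖a r‖ :=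
      (s0.add (sb.of_norm.sub (sb'.of_norm.mul_left μ))).norm
    have se : ∀ (f : R K → ℂ) (z : Pl K → ℂ), Summable (fun r => ‖f r‖) →
        Summable fun r => f r * eC (emb (r : K) * z) := fun f z hf =>
      hf.of_norm_bounded fun r => by rw [norm_mul, norm_eC, mul_one]
    have e : ∀ z, ThQ q g t (pt z y) - μ * Th g t' (pt z y) =
        ∑' r : R K, a r * eC (emb (r : K) * z) := by
      intro z
      have e0 : ∑' r : R K, (if r = 0 then u0 g t y - μ * u0 g t' y else 0) *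
          eC (emb (r : K) * z) = u0 g t y - μ * u0 g t' y := by
        rw [tsum_eq_single 0 fun r hr => by rw [if_neg hr, zero_mul], if_pos rfl]
        have : emb ((0 : R K) : K) * z = 0 := by ext v; simp [emb]
        rw [this, po_eC_zero, mul_one]
      rw [Th, ThQ_fourier hx, ThQ_fourier hx]
      simp only [ha, add_mul, sub_mul, mul_assoc μ]
      rw [(se _ z s0.norm).tsum_add ((se _ z sb).sub ((se _ z sb').mul_left μ)), e0,
        (se _ z sb).tsum_sub ((se _ z sb').mul_left μ), tsum_mul_left]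
      ring
    simp only [e]
    rw [parseval_fd hx.1 (fun r hr => ?_) sa, ← mul_assoc, inv_mul_cancel₀ hV.ne', one_mul]
    · have s2 : Summable fun r => ‖a r‖ ^ 2 := by
        simp only [sq]
        exact Summable.of_nonneg_of_le (fun _ => by positivity)
          (fun r => mul_le_mul_of_nonneg_left (sa.le_tsum r fun _ _ => norm_nonneg _)
            (norm_nonneg _)) (sa.mul_right _)
      refine le_trans (le_of_eq (Finset.sum_congr rfl fun r hr => ?_))
        (s2.sum_le_tsum S fun _ _ => by positivity)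
      simp only [ha, hb, hb', if_neg (hS r hr).1, if_pos (hS r hr).2, zero_add]
    · by_contra hn
      have h0 : r ≠ 0 := fun h => hn (h ▸ (Lat _).zero_mem)
      apply hr
      simp only [ha, hb, hb', if_neg h0, if_neg hn, mul_zero, sub_zero, add_zero]
  have hI : IntegrableOn (fun y : Pl K → ℝ =>
      ∫ z in fd x, ‖ThQ q g t (pt z y) - μ * Th g t' (pt z y)‖ ^ 2) (cube K Y) := by
    have h2 : Continuous fun w : (Pl K → ℝ) × (Pl K → ℂ) =>
        ‖ThQ q g t (pt w.2 w.1) - μ * Th g t' (pt w.2 w.1)‖ ^ 2 :=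
      hf.comp (continuous_pt.comp continuous_swap)
    have h3 := (h2.continuousOn.integrableOn_compact (μ := volume.prod volume)
      (hcube.prod (isBounded_fd hx.1).isCompact_closure)).mono_set
      (Set.prod_mono subset_rfl subset_closure)
    rw [IntegrableOn, ← Measure.prod_restrict] at h3
    exact h3.integral_prod_left
  rw [← integral_finsetSum S fun r hr => (hcont r hr).continuousOn.integrableOn_compact hcube,
    mul_assoc]
  refine le_trans ?_ (mul_le_mul_of_nonneg_left h1 (inv_pos.2 hV).le)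
  rw [← integral_const_mul]
  exact integral_mono_of_nonneg (Filter.Eventually.of_forall fun y => by positivity)
    (hI.const_mul _) (Filter.Eventually.of_forall hpt)

end Crest.Agent.GQ
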