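import Crest.Agent.GQ.ThT

/-! # GQ ThLim: from the residues to the theta series -/

set_option autoImplicit false

noncomputable section

open NumberField Complex
open scoped ComplexConjugate

namespace Crest.Agent.GQ

variable {K : Type} [Field K] [NumberField K] [P : Pre K]

open MeasureTheory

theorem li_summable {x : K} (hx : x ≠ 0) : ∃ N : ℕ,
    Summable ((Lat x : Set (R K)).indicator fun n : R K => ‖emb (n : K)‖⁻¹ ^ N) := by
  have := fd_discrete hx
  refine ⟨Module.finrank ℤ (fd_LatZ x) + 1, summable_subtype_iff_indicator.1 ?_⟩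
  have h := ZLattice.summable_norm_pow_inv (fd_LatZ x) _ (Nat.lt_succ_self _)
  exact (fd_equiv x).summable_iff.2 h

theorem li_pow_exp {δ : ℝ} (hδ : 0 < δ) (m N : ℕ) : ∃ D : ℝ, 0 ≤ D ∧ ∀ s : ℝ, 0 < s →
    s ^ m * Real.exp (-(δ * s)) ≤ D * s⁻¹ ^ N := by
  refine ⟨(m + N).factorial / δ ^ (m + N), by positivity, fun s hs => ?_⟩
  have h := Real.pow_div_factorial_le_exp (δ * s) (by positivity) (m + N)
  have hf : (0 : ℝ) < (m + N).factorial := by positivity
  rw [div_le_iff₀ hf, mul_pow] at h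
  rw [Real.exp_neg, inv_pow, ← div_eq_mul_inv, ← div_eq_mul_inv, div_div,
    div_le_div_iff₀ (Real.exp_pos _) (by positivity)]
  calc s ^ m * (δ ^ (m + N) * s ^ N) = δ ^ (m + N) * s ^ (m + N) := by rw [pow_add s]; ring
    _ ≤ _ := h
    _ = _ := mul_comm _ _

theorem li_Nm_le (r : K) : Nm r ≤ ‖emb r‖ ^ (2 * rr K) := by
  unfold Nm
  calc ∏ v : Pl K, ‖emb r v‖ ^ 2 ≤ ∏ _v : Pl K, ‖emb r‖ ^ 2 :=
        Finset.prod_le_prod (fun v _ => by positivity) fun v _ =>
          pow_le_pow_left₀ (norm_nonneg _) (norm_le_pi_norm _ v) 2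
    _ = _ := by rw [Finset.prod_const, Finset.card_univ, ← pow_mul]

theorem li_norm_le_sum (z : Pl K → ℂ) : ‖z‖ ≤ ∑ v, ‖z v‖ :=
  (pi_norm_le_iff_of_nonneg (Finset.sum_nonneg fun _ _ => norm_nonneg _)).2 fun v =>
    Finset.single_le_sum (f := fun v => ‖z v‖) (fun _ _ => norm_nonneg _) (Finset.mem_univ v)

theorem li_Wh_nonneg {r : K} (hr : r ≠ 0) (y : Pl K → ℝ) : 0 ≤ Wh r y :=
  Finset.prod_nonneg fun v _ => mul_nonneg (Real.exp_pos _).le
    (Kf_pos (mul_pos (norm_pos_iff.2 (emb_ne_zero hr v)) (Real.exp_pos _))).le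

theorem li_Wh_le {n₀ : ℝ} (hn₀ : 0 < n₀) (Y : ℝ) : ∃ D δ : ℝ, 0 ≤ D ∧ 0 < δ ∧ ∀ r : K, r ≠ 0 →
    n₀ ≤ Nm r → ∀ y ∈ cube K Y, Wh r y ≤ D * Real.exp (-(δ * ‖emb r‖)) := by
  obtain ⟨C, hC⟩ := Kf_le
  have hC0 : 0 ≤ C := by
    have h1 := (Kf_pos one_pos).le.trans (hC 1 one_pos)
    rw [Real.one_rpow, mul_one] at h1
    exact nonneg_of_mul_nonneg_left h1 (Real.exp_pos _)
  set δ := Real.exp (-Y) with hδ
  have hδ0 : 0 < δ := Real.exp_pos _
  refine ⟨(Real.exp Y * C) ^ rr K * (Real.sqrt n₀ * δ ^ rr K) ^ (-(1 / 3) : ℝ), δ, by positivity,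
    hδ0, fun r hr hn y hy => ?_⟩
  have ha : ∀ v, 0 < ‖emb r v‖ := fun v => norm_pos_iff.2 (emb_ne_zero hr v)
  have h1 : Wh r y ≤ ∏ v, (Real.exp Y * C * ((‖emb r v‖ * δ) ^ (-(1 / 3) : ℝ) *
      Real.exp (-(‖emb r v‖ * δ)))) := by
    refine Finset.prod_le_prod (fun v _ => mul_nonneg (Real.exp_pos _).le
      (Kf_pos (mul_pos (ha v) (Real.exp_pos _))).le) fun v _ => ?_
    have e1 : Real.exp (-y v) ≤ Real.exp Y := Real.exp_le_exp.2 (by linarith [hy.1 v])
    have e2 : δ ≤ Real.exp (-y v) := Real.exp_le_exp.2 (by linarith [hy.2 v])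
    have e3 : Kf (‖emb r v‖ * Real.exp (-y v)) ≤ Kf (‖emb r v‖ * δ) :=
      Kf_anti (mul_pos (ha v) hδ0) (mul_le_mul_of_nonneg_left e2 (ha v).le)
    rw [mul_assoc, ← mul_assoc C]
    exact mul_le_mul e1 (e3.trans (hC _ (mul_pos (ha v) hδ0)))
      (Kf_pos (mul_pos (ha v) (Real.exp_pos _))).le (Real.exp_pos _).le
  refine h1.trans ?_
  rw [Finset.prod_mul_distrib, Finset.prod_const, Finset.card_univ, Finset.prod_mul_distrib,
    Real.finsetProd_rpow _ _ (fun v _ => (mul_pos (ha v) hδ0).le), ← Real.exp_sum, mul_assoc]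
  refine mul_le_mul_of_nonneg_left (mul_le_mul ?_ ?_ (Real.exp_pos _).le (by positivity))
    (by positivity)
  · refine Real.rpow_le_rpow_of_nonpos (by positivity) ?_ (by norm_num)
    rw [Finset.prod_mul_distrib, Finset.prod_const, Finset.card_univ]
    refine mul_le_mul_of_nonneg_right ?_ (by positivity)
    rw [Real.sqrt_le_left (Finset.prod_nonneg fun v _ => (ha v).le), ← Finset.prod_pow]
    exact hn
  · rw [Real.exp_le_exp, Finset.sum_neg_distrib, ← Finset.sum_mul, neg_le_neg_iff, mul_comm]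
    exact mul_le_mul_of_nonneg_right (li_norm_le_sum _) hδ0.le

theorem li_maj {τ : R K → ℂ} (hτ : Adm τ) (Y : ℝ) : ∃ b : R K → ℝ, Summable b ∧
    ∀ r : R K, ∀ y ∈ cube K Y, ‖τ r * (Wh (r : K) y : ℂ)‖ ≤ b r := by
  obtain ⟨x, C, A, hx, h1, h2⟩ := hτ
  have hN := NS_pos hx
  obtain ⟨N, hs⟩ := li_summable hx
  obtain ⟨D, δ, hD, hδ, hW⟩ := li_Wh_le (K := K) hN Y
  obtain ⟨D', hD', hp⟩ := li_pow_exp hδ (2 * rr K * ⌈A⌉₊) N
  refine ⟨_, hs.mul_left (|C| * (NS x ^ A / NS x ^ ⌈A⌉₊) * D * D'), fun r y hy => ?_⟩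
  by_cases h0 : τ r = 0
  · rw [h0, zero_mul, norm_zero]
    exact mul_nonneg (by positivity) (Set.indicator_nonneg (fun _ _ => by positivity) _)
  obtain ⟨hr, hrx⟩ := h1 r h0
  have hrK : (r : K) ≠ 0 := by simpa using hr
  have hle := NS_le_Nm hr hrx
  have hs0 : 0 < ‖emb (r : K)‖ :=
    (norm_pos_iff.2 (emb_ne_zero hrK (Classical.arbitrary _))).trans_le (norm_le_pi_norm _ _)
  rw [Set.indicator_of_mem (show r ∈ (Lat x : Set (R K)) from hrx), norm_mul, norm_real,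
    Real.norm_of_nonneg (li_Wh_nonneg hrK y)]
  have h3 : Nm (r : K) ^ A ≤ NS x ^ A / NS x ^ ⌈A⌉₊ * ‖emb (r : K)‖ ^ (2 * rr K * ⌈A⌉₊) := by
    have e : Nm (r : K) = NS x * (Nm (r : K) / NS x) := by field_simp
    have hq : 1 ≤ Nm (r : K) / NS x := (one_le_div hN).2 hle
    calc Nm (r : K) ^ A = NS x ^ A * (Nm (r : K) / NS x) ^ A := by
          rw [← Real.mul_rpow hN.le (by linarith), ← e]
      _ ≤ NS x ^ A * (Nm (r : K) / NS x) ^ ⌈A⌉₊ := by
          refine mul_le_mul_of_nonneg_left ?_ (by positivity)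
          rw [← Real.rpow_natCast]
          exact Real.rpow_le_rpow_of_exponent_le hq (Nat.le_ceil A)
      _ = NS x ^ A / NS x ^ ⌈A⌉₊ * Nm (r : K) ^ ⌈A⌉₊ := by rw [div_pow]; ring
      _ ≤ _ := by
          refine mul_le_mul_of_nonneg_left ?_ (by positivity)
          rw [pow_mul]
          exact pow_le_pow_left₀ (by linarith) (li_Nm_le _) _
  have h4 : ‖τ r‖ ≤ |C| * (NS x ^ A / NS x ^ ⌈A⌉₊ * ‖emb (r : K)‖ ^ (2 * rr K * ⌈A⌉₊)) :=
    (h2 r).trans (mul_le_mul (le_abs_self C) h3 (Real.rpow_nonneg (by linarith) _) (abs_nonneg C))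
  calc ‖τ r‖ * Wh (r : K) y
      ≤ |C| * (NS x ^ A / NS x ^ ⌈A⌉₊ * ‖emb (r : K)‖ ^ (2 * rr K * ⌈A⌉₊)) *
        (D * Real.exp (-(δ * ‖emb (r : K)‖))) :=
        mul_le_mul h4 (hW _ hrK hle y hy) (li_Wh_nonneg hrK y) (by positivity)
    _ = |C| * (NS x ^ A / NS x ^ ⌈A⌉₊) * D *
        (‖emb (r : K)‖ ^ (2 * rr K * ⌈A⌉₊) * Real.exp (-(δ * ‖emb (r : K)‖))) := by ring
    _ ≤ |C| * (NS x ^ A / NS x ^ ⌈A⌉₊) * D * (D' * ‖emb (r : K)‖⁻¹ ^ N) :=
        mul_le_mul_of_nonneg_left (hp _ hs0) (by positivity)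
    _ = _ := by ring

theorem li_cont_Wh {r : K} (hr : r ≠ 0) : Continuous (Wh r) := by
  refine continuous_finsetProd _ fun v _ => Continuous.mul (by fun_prop) ?_
  exact continuousOn_Kf.comp_continuous (by fun_prop) fun y =>
    mul_pos (norm_pos_iff.2 (emb_ne_zero hr v)) (Real.exp_pos _)

theorem li_cont_term {τ : R K → ℂ} (hτ : Adm τ) (r : R K) :
    Continuous fun y : Pl K → ℝ => τ r * (Wh (r : K) y : ℂ) := by
  obtain ⟨x, C, A, hx, h1, h2⟩ := hτ
  by_cases h0 : τ r = 0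
  · simp only [h0, zero_mul]
    exact continuous_const
  have hrK : (r : K) ≠ 0 := by simpa using (h1 r h0).1
  exact continuous_const.mul (continuous_ofReal.comp (li_cont_Wh hrK))

theorem li_mem_cube (y : Pl K → ℝ) : y ∈ cube K ‖y‖ :=
  ⟨fun v => (abs_le.1 ((norm_le_pi_norm y v :))).1, fun v => (abs_le.1 ((norm_le_pi_norm y v :))).2⟩

theorem li_summable_term {τ : R K → ℂ} (hτ : Adm τ) (y : Pl K → ℝ) :
    Summable fun r : R K => ‖τ r * (Wh (r : K) y : ℂ)‖ := by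
  obtain ⟨b, hb, h⟩ := li_maj hτ ‖y‖
  exact Summable.of_nonneg_of_le (fun _ => norm_nonneg _) (fun r => h r y (li_mem_cube y)) hb

theorem li_sq (a b c : ℂ) : ‖a - c‖ ^ 2 ≤ 2 * ‖a - b‖ ^ 2 + 2 * ‖b - c‖ ^ 2 := by
  have h := norm_sub_le_norm_sub_add_norm_sub a b c
  have h2 := pow_le_pow_left₀ (norm_nonneg _) h 2
  nlinarith [sq_nonneg (‖a - b‖ - ‖b - c‖)]

theorem li_int {f : (Pl K → ℝ) → ℝ} (hf : Continuous f) (Y : ℝ) : IntegrableOn f (cube K Y) :=
  hf.continuousOn.integrableOn_compact isCompact_Icc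

/-- the action as a homeomorphism -/
def li_homeo (γ : SLR K) : HH K ≃ₜ HH K where
  toFun := actR γ
  invFun := actR γ⁻¹
  left_inv p := by rw [← actR_mul, inv_mul_cancel, actR_one]
  right_inv p := by rw [← actR_mul, mul_inv_cancel, actR_one]
  continuous_toFun := continuous_actR γ
  continuous_invFun := continuous_actR γ⁻¹

theorem li_int_act (γ : SLR K) (F : HH K → ℝ) (C : Set (HH K)) :
    ∫ p in C, F (actR γ p) = ∫ p in actR γ '' C, F p :=
  ((measurePreserving_actR γ).setIntegral_image_emb (li_homeo γ).measurableEmbedding F C).symm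

variable [Q : Rec K]

omit Q in
theorem continuous_thS {τ : R K → ℂ} (hτ : Adm τ) : Continuous (thS τ) := by
  refine continuous_iff_continuousAt.2 fun p => ?_
  obtain ⟨b, hb, h⟩ := li_maj hτ (‖p.2‖ + 1)
  have hs : {q : HH K | q.2 ∈ cube K (‖p.2‖ + 1)} ∈ nhds p := by
    refine continuous_snd.continuousAt.preimage_mem_nhds (pi_Icc_mem_nhds (fun v => ?_) fun v => ?_)
    · linarith [(li_mem_cube p.2).1 v]
    · linarith [(li_mem_cube p.2).2 v]
  refine (continuousOn_tsum (fun r => Continuous.continuousOn ?_) hb fun r q hq => ?_).continuousAt hs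
  · exact ((li_cont_term hτ r).comp continuous_snd).mul
      (continuous_eC.comp (continuous_const.mul continuous_zc))
  · rw [norm_mul, norm_eC, mul_one]
    exact h r q.2 hq

open Classical in
/-- the Fourier coefficients of the difference -/
def li_a (g : SLR K) (x : K) (τ : R K → ℂ) (t y : Pl K → ℝ) (r : R K) : ℂ :=
  (if r ∈ Lat (x * dl K)⁻¹ then fc 1 g x r t y else 0) - (if r = 0 then fc 1 g x 0 t y else 0) -
    τ r * (Wh (r : K) y : ℂ)

theorem li_a_summable {g : SLR K} {x : K} (hx : IsPer g x) {τ : R K → ℂ} (hτ : Adm τ)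
    (t y : Pl K → ℝ) : Summable fun r => ‖li_a g x τ t y r‖ := by
  classical
  have h1 := summable_fc hx 1 t y
  have h2 : Summable fun r : R K => ‖if r = 0 then fc 1 g x 0 t y else 0‖ :=
    summable_of_ne_finset_zero (s := {0}) fun r hr => by
      rw [if_neg (by simpa using hr), norm_zero]
  have h3 := li_summable_term hτ y
  refine Summable.of_nonneg_of_le (fun _ => norm_nonneg _) (fun r => ?_) ((h1.add h2).add h3)
  unfold li_a
  refine (norm_sub_le _ _).trans (add_le_add ((norm_sub_le _ _).trans (le_of_eq ?_)) le_rfl)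
  congr

theorem li_fourier {g : SLR K} {x : K} (hx : IsPer g x) {τ : R K → ℂ} (hτ : Adm τ)
    (t y : Pl K → ℝ) (z : Pl K → ℂ) :
    Th g t (pt z y) - (u0 g t y + fc 1 g x 0 t y) - thS τ (pt z y) =
      ∑' r : R K, li_a g x τ t y r * eC (emb (r : K) * z) := by
  classical
  have hm : ∀ {a : R K → ℂ}, Summable (fun r => ‖a r‖) →
      Summable fun r : R K => a r * eC (emb (r : K) * z) := fun h =>
    Summable.of_norm (h.congr fun r => by rw [norm_mul, norm_eC, mul_one])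
  have h1 := hm (summable_fc hx 1 t y)
  have h2 : HasSum (fun r : R K => (if r = 0 then fc 1 g x 0 t y else 0) * eC (emb (r : K) * z))
      (fc 1 g x 0 t y) := by
    have e : emb (((0 : R K) : K)) * z = 0 := by
      funext v
      simp [emb]
    have := hasSum_single (f := fun r : R K =>
      (if r = 0 then fc 1 g x 0 t y else 0) * eC (emb (r : K) * z)) 0 fun r hr => by
        rw [if_neg hr, zero_mul]
    rwa [if_pos rfl, e, po_eC_zero, mul_one] at this
  have h3 := hm (li_summable_term hτ y)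
  have h4 := ((h1.hasSum.sub h2).sub h3.hasSum).tsum_eq
  rw [Th, ThQ_fourier hx, thS, zc_pt, pt_snd]
  rw [show ∀ a b c d : ℂ, a + b - (a + c) - d = b - c - d from fun a b c d => by ring, ← h4]
  refine tsum_congr fun r => ?_
  unfold li_a
  rw [sub_mul, sub_mul]

theorem li_fc_eq (g : SLR K) (x : K) (r : R K) (t y : Pl K → ℝ) : fc 1 g x r t y =
    ((cov K * NS x : ℝ) : ℂ)⁻¹ * Dt (bet g x r) (ff (fun v => ‖emb (r : K) v‖) y) t := by
  simp only [fc, one_dvd, if_true]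

theorem li_lim {g : SLR K} {x : K} (hx : IsPer g x) {r : R K} (hr0 : r ≠ 0)
    (hr : r ∈ Lat (x * dl K)⁻¹) {τ₀ : ℂ} (h₀ : Lim (bet g x r) τ₀) (Y : ℝ) :
    Filter.Tendsto (fun t => ∫ y in cube K Y, ‖fc 1 g x r t y -
      ((((2 : ℝ) ^ (-(2 / 3) : ℝ)) ^ rr K * Nm (r : K) ^ (1 / 6 : ℝ) / (cov K * NS x) : ℝ) : ℂ) * τ₀ *
        (Wh (r : K) y : ℂ)‖ ^ 2) (tF K) (nhds 0) := by
  have hrK : (r : K) ≠ 0 := by simpa using hr0
  obtain ⟨τ', h2, -⟩ := exists_lim2_bet hx hr0 hr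
  have e : τ' = τ₀ := (Lim2.lim (adm_bet hx hr)
    (fun v => norm_pos_iff.2 (emb_ne_zero hrK v)) h2).unique h₀
  subst e
  have h3 := (h2 Y).const_mul (‖((cov K * NS x : ℝ) : ℂ)⁻¹‖ ^ 2)
  rw [mul_zero] at h3
  refine h3.congr fun t => ?_
  rw [← integral_const_mul]
  congr 1
  funext y
  rw [← mul_pow, ← norm_mul, li_fc_eq, MF_ff hrK]
  congr 2
  push_cast
  ring

open Classical in
theorem tendsto_thS {g : SLR K} {x : K} (hx : IsPer g x) {τ₀ τ : R K → ℂ}
    (h₀ : ∀ r ∈ Lat (x * dl K)⁻¹, r ≠ 0 → Lim (bet g x r) (τ₀ r))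
    (hτ : ∀ r, τ r = if r ≠ 0 ∧ r ∈ Lat (x * dl K)⁻¹ then
      ((((2 : ℝ) ^ (-(2 / 3) : ℝ)) ^ rr K * Nm (r : K) ^ (1 / 6 : ℝ) / (cov K * NS x) : ℝ) : ℂ) * τ₀ r
      else 0) (hadm : Adm τ) {C : Set (HH K)} (hC : IsCompact C) :
    Filter.Tendsto (fun t => ∫ p in C,
      ‖Th g t p - (u0 g t p.2 + fc 1 g x 0 t p.2) - thS τ p‖ ^ 2) (tF K) (nhds 0) := by
  obtain ⟨Y, c, hY, hc, hbox⟩ := compact_le_box hx.1 hC
  obtain ⟨C', c', hC', hbes⟩ := bessel hx Y
  have hv : 0 < cov K * NS x := mul_pos cov_pos (NS_pos hx.1)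
  -- description of the coefficients
  have ha1 : ∀ t y (r : R K), r ≠ 0 ∧ r ∈ Lat (x * dl K)⁻¹ →
      li_a g x τ t y r = fc 1 g x r t y - τ r * (Wh (r : K) y : ℂ) := fun t y r hr => by
    rw [li_a, if_pos hr.2, if_neg hr.1, sub_zero]
  have ha0 : ∀ t y (r : R K), ¬ (r ≠ 0 ∧ r ∈ Lat (x * dl K)⁻¹) → li_a g x τ t y r = 0 :=
    fun t y r hr => by
      rw [li_a, hτ r, if_neg hr, zero_mul, sub_zero]
      by_cases h : r = 0
      · subst h
        rw [if_pos (AddSubgroup.zero_mem _), if_pos rfl, sub_self]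
      · rw [if_neg fun h' => hr ⟨h, h'⟩, if_neg h, sub_self]
  have hac : ∀ t (r : R K), Continuous fun y => ‖li_a g x τ t y r‖ ^ 2 := fun t r => by
    by_cases hr : r ≠ 0 ∧ r ∈ Lat (x * dl K)⁻¹
    · simp only [ha1 t _ r hr]
      exact ((continuous_fc hx 1 hr.2 t).sub (li_cont_term hadm r)).norm.pow 2
    · simp only [ha0 t _ r hr]
      exact continuous_const
  -- reduction to the coefficients
  have hred : ∀ t, ∫ p in C, ‖Th g t p - (u0 g t p.2 + fc 1 g x 0 t p.2) - thS τ p‖ ^ 2 ≤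
      c * (cov K * NS x) * ∫ y in cube K Y, ∑' r, ‖li_a g x τ t y r‖ ^ 2 := fun t => by
    refine (hbox _ ?_ (fun p => by positivity) fun n hn z y => ?_).trans (le_of_eq ?_)
    · exact ((((continuous_ThQ 1 g t).sub (((continuous_u0 g t).comp continuous_snd).add
        ((continuous_fc hx 1 (AddSubgroup.zero_mem _) t).comp continuous_snd))).sub
          (continuous_thS hadm)).norm.pow 2)
    · simp only [pt_snd]
      rw [li_fourier hx hadm, li_fourier hx hadm]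
      congr 2
      refine tsum_congr fun r => ?_
      by_cases hr : r ≠ 0 ∧ r ∈ Lat (x * dl K)⁻¹
      · rw [po_eC_dual hx.1 hr.2 hn]
      · rw [ha0 t y r hr, zero_mul, zero_mul]
    · rw [mul_assoc, ← integral_const_mul (cov K * NS x)]
      congr 2
      funext y
      simp only [pt_snd]
      simp only [li_fourier hx hadm]
      exact parseval_fd hx.1 (fun r hr => by
        by_contra h
        exact hr (ha0 t y r fun h' => h h'.2)) (li_a_summable hx hadm t y)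
  -- the finite sums
  have hfin : ∀ ε : ℝ, 0 < ε → ∃ L : ℝ, ∀ t : Pl K → ℝ, ∑ v, t v ≤ L → ∀ S : Finset (R K),
      ∑ r ∈ S, ∫ y in cube K Y, ‖li_a g x τ t y r‖ ^ 2 ≤ 2 * (|c'| * ε) := fun ε hε => by
    obtain ⟨L, hL⟩ := th_cauchy g hC' hε
    refine ⟨L, fun t ht S => ?_⟩
    set S' := S.filter fun r => r ≠ 0 ∧ r ∈ Lat (x * dl K)⁻¹ with hS'
    have hS : ∀ r ∈ S', r ≠ 0 ∧ r ∈ Lat (x * dl K)⁻¹ := fun r hr => (Finset.mem_filter.1 hr).2
    have e : ∑ r ∈ S, ∫ y in cube K Y, ‖li_a g x τ t y r‖ ^ 2 =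
        ∑ r ∈ S', ∫ y in cube K Y, ‖li_a g x τ t y r‖ ^ 2 := by
      refine (Finset.sum_filter_of_ne fun r _ h => ?_).symm
      by_contra hr
      exact h (by simp only [ha0 t _ r hr]; simp)
    rw [e]
    have hlim : Filter.Tendsto (fun t' => 2 * (|c'| * ε) +
        2 * ∑ r ∈ S', ∫ y in cube K Y, ‖li_a g x τ t' y r‖ ^ 2) (tF K)
        (nhds (2 * (|c'| * ε) + 2 * ∑ _r ∈ S', 0)) := by
      refine Filter.Tendsto.const_add _ (Filter.Tendsto.const_mul _
        (tendsto_finsetSum _ fun r hr => ?_))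
      simp only [ha1 _ _ r (hS r hr), hτ r, if_pos (hS r hr)]
      exact li_lim hx (hS r hr).1 (hS r hr).2 (h₀ r (hS r hr).2 (hS r hr).1) Y
    rw [Finset.sum_const_zero, mul_zero, add_zero] at hlim
    refine ge_of_tendsto hlim ?_
    have hev : ∀ᶠ t' in tF K, ∑ v, t' v ≤ L :=
      Filter.tendsto_comap.eventually (Filter.eventually_le_atBot L)
    filter_upwards [hev] with t' ht'
    have h1 := hbes 1 t t' 1 S' hS
    simp only [one_mul] at h1
    have h2 : c' * ∫ p in C', ‖ThQ 1 g t p - Th g t' p‖ ^ 2 ≤ |c'| * ε :=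
      mul_le_mul (le_abs_self _) (hL t t' ht ht') (integral_nonneg fun p => by positivity)
        (abs_nonneg _)
    refine le_trans ?_ (add_le_add (mul_le_mul_of_nonneg_left (h1.trans h2) zero_le_two) le_rfl)
    rw [Finset.mul_sum, Finset.mul_sum, ← Finset.sum_add_distrib]
    refine Finset.sum_le_sum fun r hr => ?_
    have hc1 : Continuous fun y => ‖fc 1 g x r t y - fc 1 g x r t' y‖ ^ 2 :=
      ((continuous_fc hx 1 (hS r hr).2 t).sub (continuous_fc hx 1 (hS r hr).2 t')).norm.pow 2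
    rw [← integral_const_mul, ← integral_const_mul,
      ← integral_add ((li_int hc1 Y).const_mul 2) ((li_int (hac t' r) Y).const_mul 2)]
    refine integral_mono (li_int (hac t r) Y)
      (((li_int hc1 Y).const_mul 2).add ((li_int (hac t' r) Y).const_mul 2)) fun y => ?_
    simp only [ha1 _ _ r (hS r hr)]
    exact li_sq _ _ _
  -- conclusion
  refine Metric.tendsto_nhds.2 fun ε hε => ?_
  set M := c * (cov K * NS x) * (2 * |c'|) + 1 with hM
  have hM0 : 0 < M := by positivity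
  obtain ⟨L, hL⟩ := hfin (ε / M) (div_pos hε hM0)
  have hev : ∀ᶠ t in tF K, ∑ v, t v ≤ L :=
    Filter.tendsto_comap.eventually (Filter.eventually_le_atBot L)
  filter_upwards [hev] with t ht
  rw [Real.dist_eq, sub_zero, abs_of_nonneg (integral_nonneg fun p => by positivity)]
  refine (hred t).trans_lt ?_
  have hnn : ∀ r, 0 ≤ ∫ y in cube K Y, ‖li_a g x τ t y r‖ ^ 2 := fun r =>
    integral_nonneg fun y => by positivity
  have hsum : Summable fun r => ∫ y in cube K Y, ‖li_a g x τ t y r‖ ^ 2 :=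
    summable_of_sum_le hnn (hL t ht)
  rw [← integral_tsum_of_summable_integral_norm (fun r => li_int (hac t r) Y)
    (hsum.congr fun r => by simp only [norm_pow, norm_norm])]
  calc c * (cov K * NS x) * ∑' r, ∫ y in cube K Y, ‖li_a g x τ t y r‖ ^ 2
      ≤ c * (cov K * NS x) * (2 * (|c'| * (ε / M))) :=
        mul_le_mul_of_nonneg_left (hsum.tsum_le_of_sum_le (hL t ht)) (by positivity)
    _ = (M - 1) * (ε / M) := by rw [hM]; ring
    _ < M * (ε / M) := mul_lt_mul_of_pos_right (by linarith) (div_pos hε hM0)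
    _ = ε := by field_simp
theorem HasTheta.of_phi {g g' : SLR K} {η : ℂ} (h : ∀ c d, phi g' c d = η * phi g c d)
    {τ : R K → ℂ} (H : HasTheta g τ) : HasTheta g' (fun r => η * τ r) := by
  obtain ⟨ct, hct, H⟩ := H
  refine ⟨fun t y => η * ct t y, fun t => continuous_const.mul (hct t), fun C hC => ?_⟩
  have h1 := (H C hC).const_mul (‖η‖ ^ 2)
  rw [mul_zero] at h1
  refine h1.congr fun t => ?_
  rw [← integral_const_mul]
  congr 1
  funext p
  have e : thS (fun r => η * τ r) p = η * thS τ p := by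
    rw [thS, thS, ← tsum_mul_left]
    exact tsum_congr fun r => by ring
  rw [Th_of_phi h, e, ← mul_pow, ← norm_mul, mul_sub, mul_sub]
theorem HasTheta.unip {g : SLR K} {τ : R K → ℂ} (H : HasTheta g τ) (b : R K) :
    HasTheta (g * mk2 1 b 0 1 (by ring)) (fun r => τ r * eT ((r : K) * b)) := by
  obtain ⟨ct, hct, H⟩ := H
  refine ⟨ct, hct, fun C hC => ?_⟩
  refine (H _ (hC.image (continuous_actR (mk2 1 b 0 1 (by ring))))).congr fun t => ?_
  rw [← li_int_act]
  congr 1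
  funext p
  rw [Th_actR, ← pt_zc p, actR_unip, pt_snd, pt_snd]
  congr 3
  rw [thS, thS]
  refine tsum_congr fun r => ?_
  rw [zc_pt, zc_pt, pt_snd, pt_snd, mul_add, eC_add, ← emb_mul, eC_emb]
  ring

end Crest.Agent.GQ
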