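import Crest.Agent.GQ.ThDefs

/-! # GQ ThRow: the row functions -/

set_option autoImplicit false
set_option linter.unusedSectionVars false

noncomputable section

open NumberField Complex
open scoped ComplexConjugate

namespace Crest.Agent.GQ

variable {K : Type} [Field K] [NumberField K] [P : Pre K]

theorem ro_mul (g h : SLR K) (i j : Fin 2) :
    (g * h).1 i j = g.1 i 0 * h.1 0 j + g.1 i 1 * h.1 1 j := by
  simp only [Matrix.SpecialLinearGroup.coe_mul, Matrix.mul_apply, Fin.sum_univ_two]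

theorem ro_i00 (g : SLR K) : (g⁻¹).1 0 0 = g.1 1 1 := by
  simp [Matrix.SpecialLinearGroup.SL2_inv_expl]
theorem ro_i01 (g : SLR K) : (g⁻¹).1 0 1 = -g.1 0 1 := by
  simp [Matrix.SpecialLinearGroup.SL2_inv_expl]
theorem ro_i10 (g : SLR K) : (g⁻¹).1 1 0 = -g.1 1 0 := by
  simp [Matrix.SpecialLinearGroup.SL2_inv_expl]
theorem ro_i11 (g : SLR K) : (g⁻¹).1 1 1 = g.1 0 0 := by
  simp [Matrix.SpecialLinearGroup.SL2_inv_expl]

theorem ro_det (g : SLR K) : g.1 0 0 * g.1 1 1 - g.1 0 1 * g.1 1 0 = 1 := by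
  have h := g.2
  rwa [Matrix.det_fin_two] at h

theorem ro_cop (g : SLR K) : IsCoprime (g.1 1 0) (g.1 1 1) :=
  ⟨-g.1 0 1, g.1 0 0, by linear_combination ro_det g⟩

/-- `x ∈ M ^ n T` -/
def ro_V (n : ℤ) (x : K) : Prop := InT (MK K ^ n) x

theorem ro_V.mul {i j : ℤ} {x y : K} (h : ro_V i x) (h' : ro_V j y) : ro_V (i + j) (x * y) := by
  unfold ro_V
  rw [zpow_add₀ MK_ne_zero]
  exact InT.mul h h'

theorem ro_V.add {i : ℤ} {x y : K} (h : ro_V i x) (h' : ro_V i y) : ro_V i (x + y) := InT.add h h'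
theorem ro_V.sub {i : ℤ} {x y : K} (h : ro_V i x) (h' : ro_V i y) : ro_V i (x - y) := InT.sub h h'
theorem ro_V.neg {i : ℤ} {x : K} (h : ro_V i x) : ro_V i (-x) := InT.neg h

theorem ro_V.mono {i j : ℤ} {x : K} (h : ro_V j x) (hij : i ≤ j) : ro_V i x := by
  refine InT.trans ⟨MK K ^ (j - i).toNat, (T K).pow_mem MK_mem_T _, ?_⟩ h
  rw [← zpow_natCast, ← zpow_add₀ MK_ne_zero, Int.toNat_of_nonneg (by omega)]
  congr 1
  ring

theorem ro_V.congr {i : ℤ} {x y : K} (h : ro_V i x) (e : y = x) : ro_V i y := e ▸ h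

theorem ro_V_zero {x : K} : ro_V 0 x ↔ x ∈ T K := by
  unfold ro_V
  rw [zpow_zero, InT_one_iff]

theorem ro_V_nat {n : ℕ} {x : K} : ro_V n x ↔ InT (MK K ^ n) x := by
  unfold ro_V
  rw [zpow_natCast]

theorem ro_V_lat {n : ℕ} {x : R K} : x ∈ Lat (MK K ^ n) ↔ ro_V n (x : K) := ro_V_nat.symm

theorem ro_V_U {n : ℕ} {u : K} : u ∈ U n ↔ ro_V n (u - 1) := ro_V_nat.symm

theorem ro_V_ex (x : K) : ∃ n : ℕ, ro_V (-n) x := by
  obtain ⟨n, hn⟩ := exists_pow_mul_mem_T x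
  refine ⟨n, _, hn, ?_⟩
  have : MK K ≠ 0 := MK_ne_zero
  rw [zpow_neg, zpow_natCast, inv_mul_cancel_left₀ (pow_ne_zero _ this)]

theorem ro_V_mat (g : SLR K) : ∃ n : ℕ, ∀ i j, ro_V (-n) (g.1 i j : K) := by
  choose n hn using fun q : Fin 2 × Fin 2 => ro_V_ex (g.1 q.1 q.2 : K)
  refine ⟨∑ q, n q, fun i j => (hn (i, j)).mono ?_⟩
  have := Finset.single_le_sum (f := n) (fun q _ => Nat.zero_le _) (Finset.mem_univ (i, j))
  omega

theorem ro_sg_cop {c d : R K} (h : IsCoprime c d) : kap c d ≠ 0 := by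
  by_cases hc : c = 0
  · rw [hc, kap_zero_left]
    exact one_ne_zero
  · rw [Ne, kap_eq_zero hc, not_not]
    exact h

variable [Q : Rec K]

theorem ro_mem_Gam {γ : SLR K} : γ ∈ Gam K ↔ ro_V Q.k ((γ.1 0 0 : K) - 1) ∧
    ro_V Q.k (γ.1 0 1 : K) ∧ ro_V Q.k (γ.1 1 0 : K) ∧ ro_V Q.k ((γ.1 1 1 : K) - 1) := by
  simp only [Gam, Set.mem_ofPred_eq, MM, ro_V_lat, AddSubgroupClass.coe_sub, OneMemClass.coe_one]

theorem ro_U00 {γ : SLR K} (h : γ ∈ Gam K) : (γ.1 0 0 : K) ∈ U Q.k := ro_V_U.2 (ro_mem_Gam.1 h).1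
theorem ro_U11 {γ : SLR K} (h : γ ∈ Gam K) : (γ.1 1 1 : K) ∈ U Q.k :=
  ro_V_U.2 (ro_mem_Gam.1 h).2.2.2

theorem one_mem_Gam : (1 : SLR K) ∈ Gam K := by
  simp [Gam]

theorem mul_mem_Gam {γ γ' : SLR K} (h : γ ∈ Gam K) (h' : γ' ∈ Gam K) : γ * γ' ∈ Gam K := by
  obtain ⟨a1, b1, c1, d1⟩ := ro_mem_Gam.1 h
  obtain ⟨a2, b2, c2, d2⟩ := ro_mem_Gam.1 h'
  have m : ∀ {x y : K}, ro_V Q.k x → ro_V Q.k y → ro_V Q.k (x * y) := fun hx hy =>
    (hx.mul hy).mono (by omega)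
  rw [ro_mem_Gam]
  simp only [ro_mul, Subring.coe_add, Subring.coe_mul]
  exact ⟨((((m a1 a2).add a1).add a2).add (m b1 c2)).congr (by ring),
    ((((m a1 b2).add b2).add (m b1 d2)).add b1).congr (by ring),
    ((((m c1 a2).add c1).add (m d1 c2)).add c2).congr (by ring),
    ((((m d1 d2).add d1).add d2).add (m c1 b2)).congr (by ring)⟩

theorem inv_mem_Gam {γ : SLR K} (h : γ ∈ Gam K) : γ⁻¹ ∈ Gam K := by
  obtain ⟨a1, b1, c1, d1⟩ := h
  refine ⟨?_, ?_, ?_, ?_⟩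
  · rwa [ro_i00]
  · rw [ro_i01]
    exact neg_mem b1
  · rw [ro_i10]
    exact neg_mem c1
  · rwa [ro_i11]

theorem norm_sg (g : SLR K) : ‖sg g‖ = 1 :=
  norm_kap (ro_sg_cop (ro_cop g))

theorem ro_kap_a (g : SLR K) : kap (g.1 1 0) (g.1 0 0) = conj (sg g) := by
  refine fl_conj_of_mul (norm_sg g) ?_
  rw [sg, ← kap_mul_right, kap_congr' (y := 1) ⟨g.1 0 1, by linear_combination ro_det g⟩,
    kap_one_right]

theorem ro_sg_inv (g : SLR K) : sg g⁻¹ = conj (sg g) := by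
  rw [sg, ro_i10, ro_i11, kap_associated (Associated.neg_left (Associated.refl _)), ro_kap_a]

theorem ro_upper_right (g : SLR K) {γ : SLR K} (h : γ ∈ Gam K) (h2 : γ.1 1 0 = 0) :
    sg g * sg γ = sg (g * γ) := by
  have hdet := ro_det γ
  rw [h2, mul_zero, sub_zero] at hdet
  have hu : IsUnit (γ.1 0 0) := IsUnit.of_mul_eq_one _ hdet
  have hu' : IsUnit (γ.1 1 1) := IsUnit.of_mul_eq_one_right _ hdet
  simp only [sg, ro_mul, h2, mul_zero, add_zero, kap_zero_left, mul_one]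
  by_cases h1 : g.1 1 0 = 0
  · simp only [h1, zero_mul, kap_zero_left]
  · rw [kap_mul_left h1 hu.ne_zero, kap_unit_left hu, mul_one,
      kap_congr' (x := g.1 1 0 * γ.1 0 1 + g.1 1 1 * γ.1 1 1) (y := g.1 1 1 * γ.1 1 1)
        ⟨γ.1 0 1, by ring⟩, kap_mul_right, B_unit hu' h1, Q.B_U _ _ (ro_U11 h) (fl_coe_ne h1),
      mul_one]

theorem ro_upper_left {γ : SLR K} (h : γ ∈ Gam K) (h1 : γ.1 1 0 = 0) (g : SLR K) :
    sg γ * sg g = sg (γ * g) := by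
  have hdet := ro_det γ
  rw [h1, mul_zero, sub_zero] at hdet
  have hu' : IsUnit (γ.1 1 1) := IsUnit.of_mul_eq_one_right _ hdet
  simp only [sg, ro_mul, h1, zero_mul, zero_add, kap_zero_left, one_mul]
  by_cases h2 : g.1 1 0 = 0
  · simp only [h2, mul_zero, kap_zero_left]
  · rw [kap_mul_left hu'.ne_zero h2, kap_unit_left hu', one_mul, kap_mul_right, B_unit hu' h2,
      Q.B_U _ _ (ro_U11 h) (fl_coe_ne h2), one_mul]

theorem ro_coc {g g' : SLR K} (h1 : g.1 1 0 ≠ 0) (h2 : g'.1 1 0 ≠ 0) (hc : (g * g').1 1 0 ≠ 0) :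
    sg g * sg g' = sg (g * g') *
      Q.B (((g * g').1 1 0 : K) / g.1 1 0) (((g * g').1 1 0 : K) / g'.1 1 0) := by
  rw [ro_mul] at hc
  simp only [sg, ro_mul]
  exact kap_cocycle (ro_det g) (ro_det g') h1 h2 hc

theorem ro_cocA {γ g : SLR K} (h : γ ∈ Gam K) (ha : g.1 0 0 ≠ 0) (h2 : g.1 1 0 ≠ 0)
    (hc : (γ * g).1 1 0 ≠ 0) :
    sg γ * sg g = sg (γ * g) * Q.B (g.1 0 0 : K) (((γ * g).1 1 0 : K) / g.1 1 0) := by
  have haK := fl_coe_ne ha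
  have h2K := fl_coe_ne h2
  have hcK := fl_coe_ne hc
  have hd := ro_U11 h
  have hdK := U_ne_zero Q.hk hd
  have e : ((γ * g).1 1 0 : K) = γ.1 1 0 * g.1 0 0 + γ.1 1 1 * g.1 1 0 := by
    rw [ro_mul]
    rfl
  by_cases h1 : γ.1 1 0 = 0
  · rw [ro_upper_left h h1, e, h1, ZeroMemClass.coe_zero, zero_mul, zero_add,
      mul_div_cancel_right₀ _ h2K, B_U_right haK hd, mul_one]
  have h1K := fl_coe_ne h1
  rw [ro_coc h1 h2 hc]
  congr 1
  generalize ((γ * g).1 1 0 : K) = c at *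
  have hx : (g.1 0 0 : K) * (c / γ.1 1 0)⁻¹ ≠ 0 :=
    mul_ne_zero haK (inv_ne_zero (div_ne_zero hcK h1K))
  have hy : 1 - (g.1 0 0 : K) * (c / γ.1 1 0)⁻¹ = γ.1 1 1 * (c / g.1 1 0)⁻¹ := by
    field_simp
    linear_combination e
  have hx1 : (g.1 0 0 : K) * (c / γ.1 1 0)⁻¹ ≠ 1 := by
    intro h0
    rw [h0, sub_self] at hy
    exact mul_ne_zero hdK (inv_ne_zero (div_ne_zero hcK h2K)) hy.symm
  have hs := Q.B_stein _ hx hx1
  rw [hy, Q.B_mul_right _ _ _ hx hdK (inv_ne_zero (div_ne_zero hcK h2K)), B_U_right hx hd, one_mul,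
    B_inv_right hx (div_ne_zero hcK h2K),
    Q.B_mul_left _ _ _ haK (inv_ne_zero (div_ne_zero hcK h1K)) (div_ne_zero hcK h2K),
    B_inv_left (div_ne_zero hcK h1K) (div_ne_zero hcK h2K), map_mul, Complex.conj_conj,
    mul_comm] at hs
  have := fl_conj_of_mul (by rw [Complex.norm_conj]; exact norm_B haK (div_ne_zero hcK h2K)) hs
  rwa [Complex.conj_conj] at this

theorem ro_cocL {γ g : SLR K} (h : γ ∈ Gam K) (h2 : g.1 1 0 ≠ 0)
    (hU : ((γ * g).1 1 0 : K) / g.1 1 0 ∈ U Q.k) : sg γ * sg g = sg (γ * g) := by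
  by_cases h1 : γ.1 1 0 = 0
  · exact ro_upper_left h h1 g
  have hcK : ((γ * g).1 1 0 : K) ≠ 0 := fun e => U_ne_zero Q.hk hU (by rw [e, zero_div])
  have hc : (γ * g).1 1 0 ≠ 0 := fun e => hcK (by rw [e]; rfl)
  rw [ro_coc h1 h2 hc, B_U_right (div_ne_zero hcK (fl_coe_ne h1)) hU, mul_one]

theorem ro_cocR {γ g : SLR K} (h : γ ∈ Gam K) (h1 : g.1 1 0 ≠ 0)
    (hU : ((g * γ).1 1 0 : K) / g.1 1 0 ∈ U Q.k) : sg g * sg γ = sg (g * γ) := by
  by_cases h2 : γ.1 1 0 = 0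
  · exact ro_upper_right g h h2
  have hcK : ((g * γ).1 1 0 : K) ≠ 0 := fun e => U_ne_zero Q.hk hU (by rw [e, zero_div])
  have hc : (g * γ).1 1 0 ≠ 0 := fun e => hcK (by rw [e]; rfl)
  rw [ro_coc h1 h2 hc, Q.B_U _ _ hU (div_ne_zero hcK (fl_coe_ne h2)), mul_one]

theorem sg_mul {γ γ' : SLR K} (h : γ ∈ Gam K) (h' : γ' ∈ Gam K) : sg (γ * γ') = sg γ * sg γ' := by
  by_cases h2 : γ'.1 1 0 = 0
  · exact (ro_upper_right γ h' h2).symm
  have ha : γ'.1 0 0 ≠ 0 := fun e => U_ne_zero Q.hk (ro_U00 h') (by rw [e]; rfl)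
  by_cases hc : (γ * γ').1 1 0 = 0
  · have h3 := ro_upper_right (γ⁻¹) (mul_mem_Gam h h') hc
    rw [inv_mul_cancel_left, ro_sg_inv] at h3
    rw [← h3, ← mul_assoc, fl_mul_conj (norm_sg γ), one_mul]
  · rw [ro_cocA h ha h2 hc, Q.B_U _ _ (ro_U00 h') (div_ne_zero (fl_coe_ne hc) (fl_coe_ne h2)),
      mul_one]

theorem phi0_gam {γ : SLR K} (h : γ ∈ Gam K) : phi0 (γ.1 1 0) (γ.1 1 1) = sg γ := by
  rw [phi0, if_pos ⟨h.2.2.1, h.2.2.2, ro_cop γ⟩, sg]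

theorem exists_gam_row {c d : R K} (h : phi0 c d ≠ 0) :
    ∃ γ ∈ Gam K, γ.1 1 0 = c ∧ γ.1 1 1 = d := by
  obtain ⟨hc, hd, u, v, e⟩ : c ∈ Lat (MM K) ∧ d - 1 ∈ Lat (MM K) ∧ IsCoprime c d := by
    by_contra h0
    exact h (if_neg h0)
  have hdU : (d : K) ∈ U Q.k := hd
  have hd0 := U_ne_zero Q.hk hdU
  obtain ⟨ρ, hρ⟩ := exists_decomp (pow_ne_zero Q.k (MK_ne_zero (K := K))) ((u : K) / d)
  have hb : ro_V Q.k ((-u + ρ * d : R K) : K) :=
    ro_V_nat.2 ((hρ.mul_T (U_mem_T hdU)).neg) |>.congr (by push_cast; field_simp; ring)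
  have hc' : ro_V Q.k (c : K) := ro_V_lat.1 hc
  have e' : (u : K) * c + v * d = 1 := by
    have := congrArg (fun a : R K => (a : K)) e
    simpa using this
  have ha : ((v + ρ * c : R K) : K) ∈ U Q.k := by
    have h1 : ((v + ρ * c : R K) : K) * d ∈ U Q.k :=
      ro_V_U.2 (((hb.mul hc').mono (by omega)).congr (by push_cast; linear_combination e'))
    have := U_mul h1 (U_inv Q.hk hdU)
    rwa [mul_inv_cancel_right₀ hd0] at this
  exact ⟨mk2 (v + ρ * c) (-u + ρ * d) c d (by linear_combination e),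
    ⟨ha, ro_V_lat.2 hb, hc, hd⟩, rfl, rfl⟩

theorem phi0_ne_zero_iff {c d : R K} :
    phi0 c d ≠ 0 ↔ c ∈ Lat (MM K) ∧ d - 1 ∈ Lat (MM K) ∧ IsCoprime c d := by
  constructor
  · intro h
    by_contra h0
    exact h (if_neg h0)
  · intro h
    rw [phi0, if_pos h]
    exact ro_sg_cop h.2.2

theorem phi0_mul_gam {γ : SLR K} (h : γ ∈ Gam K) (c d : R K) :
    phi0 (c * γ.1 0 0 + d * γ.1 1 0) (c * γ.1 0 1 + d * γ.1 1 1) = sg γ * phi0 c d := by
  by_cases h0 : phi0 c d = 0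
  · rw [h0, mul_zero]
    by_contra h1
    obtain ⟨γ₁, hγ₁, e1, e2⟩ := exists_gam_row h1
    have h2 := phi0_gam (mul_mem_Gam hγ₁ (inv_mem_Gam h))
    have hdet := ro_det γ
    rw [ro_mul, ro_mul, ro_i00, ro_i01, ro_i10, ro_i11, e1, e2,
      show (c * γ.1 0 0 + d * γ.1 1 0) * γ.1 1 1 + (c * γ.1 0 1 + d * γ.1 1 1) * -γ.1 1 0 = c by
        linear_combination c * hdet,
      show (c * γ.1 0 0 + d * γ.1 1 0) * -γ.1 0 1 + (c * γ.1 0 1 + d * γ.1 1 1) * γ.1 0 0 = d by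
        linear_combination d * hdet, h0] at h2
    have := norm_sg (γ₁ * γ⁻¹)
    rw [← h2] at this
    simp at this
  · obtain ⟨γ₁, hγ₁, rfl, rfl⟩ := exists_gam_row h0
    rw [← ro_mul, ← ro_mul, phi0_gam (mul_mem_Gam hγ₁ h), sg_mul hγ₁ h, phi0_gam hγ₁, mul_comm]

theorem phi_one (c d : R K) : phi 1 c d = phi0 c d := by
  simp [phi]

theorem phi_mul (g γ : SLR K) (c d : R K) :
    phi (g * γ) (c * γ.1 0 0 + d * γ.1 1 0) (c * γ.1 0 1 + d * γ.1 1 1) = phi g c d := by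
  have hdet := ro_det γ
  unfold phi
  simp only [ro_mul]
  congr 1
  · linear_combination (c * g.1 1 1 - d * g.1 1 0) * hdet
  · linear_combination (-(c * g.1 0 1) + d * g.1 0 0) * hdet

theorem phi_gam_mul {γ : SLR K} (h : γ ∈ Gam K) (g : SLR K) (c d : R K) :
    phi (γ * g) c d = conj (sg γ) * phi g c d := by
  rw [← ro_sg_inv, phi, phi, ← phi0_mul_gam (inv_mem_Gam h), ro_i00, ro_i01, ro_i10, ro_i11]
  simp only [ro_mul]
  congr 1 <;> ring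

theorem norm_phi_le (g : SLR K) (c d : R K) : ‖phi g c d‖ ≤ 1 := by
  unfold phi phi0
  split_ifs
  · exact norm_kap_le _ _
  · simp

theorem phi_supp (g : SLR K) : ∃ x : K, x ≠ 0 ∧ ∀ c d : R K, phi g c d ≠ 0 →
    c ∈ Lat x ∧ d ∈ Lat x ∧ IsCoprime c d := by
  obtain ⟨n, hn⟩ := ro_V_mat g
  refine ⟨MK K ^ (-n : ℤ), zpow_ne_zero _ MK_ne_zero, fun c d h => ?_⟩
  obtain ⟨h1, h2, u, v, e⟩ := phi0_ne_zero_iff.1 h
  have h1' : ro_V 0 ((c * g.1 1 1 - d * g.1 1 0 : R K) : K) := (ro_V_lat.1 h1).mono (by omega)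
  have h2' : ro_V 0 ((-(c * g.1 0 1) + d * g.1 0 0 : R K) : K) :=
    ro_V_zero.2 (U_mem_T (j := Q.k) h2)
  have hdet : (g.1 0 0 : K) * g.1 1 1 - g.1 0 1 * g.1 1 0 = 1 := by
    have := congrArg (fun a : R K => (a : K)) (ro_det g)
    simpa using this
  refine ⟨?_, ?_, u * g.1 1 1 - v * g.1 0 1, v * g.1 0 0 - u * g.1 1 0, by linear_combination e⟩
  · exact (((h1'.mul (hn 0 0)).add (h2'.mul (hn 1 0))).mono (by omega)).congr
      (by push_cast; linear_combination (-(c : K)) * hdet)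
  · exact (((h1'.mul (hn 0 1)).add (h2'.mul (hn 1 1))).mono (by omega)).congr
      (by push_cast; linear_combination (-(d : K)) * hdet)

open Classical in
theorem phi_formula {g : SLR K} (ha : g.1 0 0 ≠ 0) (hc : g.1 1 0 ≠ 0) {c : R K} (h : c ≠ 0)
    (d : R K) : phi g c d =
      if c * g.1 1 1 - d * g.1 1 0 ∈ Lat (MM K) ∧ -(c * g.1 0 1) + d * g.1 0 0 - 1 ∈ Lat (MM K)
      then kap c d * Q.B (g.1 0 0 : K) ((c : K) / g.1 1 0) * conj (sg g) else 0 := by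
  have hdet := ro_det g
  split_ifs with h1
  · by_cases h0 : phi g c d = 0
    · rw [h0]
      have : kap c d = 0 := by
        rw [kap_eq_zero h]
        rintro ⟨u, v, e⟩
        refine phi0_ne_zero_iff.2 ⟨h1.1, h1.2, u * g.1 0 0 + v * g.1 0 1,
          u * g.1 1 0 + v * g.1 1 1, ?_⟩ h0
        linear_combination (u * c + v * d) * hdet + e
      rw [this, zero_mul, zero_mul]
    · obtain ⟨γ, hγ, e1, e2⟩ := exists_gam_row h0
      have e3 : (γ * g).1 1 0 = c := by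
        rw [ro_mul, e1, e2]
        linear_combination c * hdet
      have e4 : (γ * g).1 1 1 = d := by
        rw [ro_mul, e1, e2]
        linear_combination d * hdet
      have h5 := ro_cocA hγ ha hc (by rwa [e3])
      rw [phi, ← e1, ← e2, phi0_gam hγ]
      conv_rhs => rw [← e4, ← e3]
      rw [show kap ((γ * g).1 1 0) ((γ * g).1 1 1) = sg (γ * g) from rfl, ← h5, mul_assoc,
        fl_mul_conj (norm_sg g), mul_one]
  · by_contra h0
    have := phi0_ne_zero_iff.1 h0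
    exact h1 ⟨this.1, this.2.1⟩

theorem ro_avoid {a b c d : R K} (h1 : a = 0 → c = 0 → False) (h2 : b = 0 → d = 0 → False) :
    ∃ t ∈ Lat (MM K), c + t * a ≠ 0 ∧ d + t * b ≠ 0 := by
  set m : R K := ⟨MM K, (R K).pow_mem MK_mem_R _⟩ with hm
  have hm0 : m ≠ 0 := fun e => pow_ne_zero Q.k (MK_ne_zero (K := K)) (congrArg Subtype.val e)
  have hsub : ∀ a c : R K, (a = 0 → c = 0 → False) →
      {n : ℕ | c + (n : R K) * m * a = 0}.Subsingleton := by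
    intro a c h i hi j hj
    simp only [Set.mem_ofPred_eq] at hi hj
    by_cases ha : a = 0
    · exact (h ha (by simpa [ha] using hi)).elim
    · have : ((i : R K) - j) * (m * a) = 0 := by linear_combination hi - hj
      have h3 := (mul_eq_zero.1 this).resolve_right (mul_ne_zero hm0 ha)
      exact Nat.cast_injective (sub_eq_zero.1 h3)
  obtain ⟨n, hn⟩ := ((hsub a c h1).finite.union (hsub b d h2).finite).exists_notMem
  refine ⟨n * m, ?_, fun h => hn (Or.inl h), fun h => hn (Or.inr h)⟩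
  rw [← nsmul_eq_mul]
  exact nsmul_mem (mem_Lat.2 (InT.refl _)) n

/-- all four entries can be made non-zero by left multiplication with `Γ` -/
theorem exists_gam_mul_ne_zero (g : SLR K) : ∃ γ ∈ Gam K, ∀ i j, (γ * g).1 i j ≠ 0 := by
  have hdet := ro_det g
  obtain ⟨t, ht, h1, h2⟩ := ro_avoid (a := g.1 0 0) (c := g.1 1 0) (b := g.1 0 1) (d := g.1 1 1)
    (fun h h' => by rw [h, h'] at hdet; simp at hdet)
    (fun h h' => by rw [h, h'] at hdet; simp at hdet)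
  obtain ⟨s, hs, h3, h4⟩ := ro_avoid (a := g.1 1 0 + t * g.1 0 0) (c := g.1 0 0)
    (b := g.1 1 1 + t * g.1 0 1) (d := g.1 0 1) (fun h _ => h1 h) (fun h _ => h2 h)
  refine ⟨mk2 1 s 0 1 (by ring) * mk2 1 0 t 1 (by ring), mul_mem_Gam ?_ ?_, fun i j => ?_⟩
  · exact ⟨by simp [mk2], hs, by simp [mk2], by simp [mk2]⟩
  · exact ⟨by simp [mk2], by simp [mk2], ht, by simp [mk2]⟩
  · rw [ro_mul, ro_mul, ro_mul]
    fin_cases i <;> fin_cases j
    · convert h3 using 1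
      simp [mk2]
      ring
    · convert h4 using 1
      simp [mk2]
      ring
    · convert h1 using 1
      simp [mk2]
      ring
    · convert h2 using 1
      simp [mk2]
      ring

theorem ro_per {g : SLR K} {x : K} (hx : x ≠ 0)
    (h : ∀ n ∈ Lat x, ∀ i j, ro_V Q.k ((g.1 i 0 : K) * g.1 j 0 * (n : K))) : IsPer g x := by
  refine ⟨hx, fun n hn c d => ?_⟩
  have hdet := ro_det g
  set γ : SLR K := mk2 (1 + g.1 0 0 * g.1 1 0 * n) (-(g.1 0 0 * g.1 0 0 * n))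
    (g.1 1 0 * g.1 1 0 * n) (1 - g.1 0 0 * g.1 1 0 * n) (by ring) with hγ
  have hG : γ ∈ Gam K := by
    rw [ro_mem_Gam]
    refine ⟨(h n hn 0 1).congr ?_, (h n hn 0 0).neg.congr ?_, (h n hn 1 1).congr ?_,
      (h n hn 0 1).neg.congr ?_⟩ <;> simp [hγ, mk2]
  have hs : sg γ = 1 := by
    change kap (g.1 1 0 * g.1 1 0 * n) (1 - g.1 0 0 * g.1 1 0 * n) = 1
    by_cases h0 : g.1 1 0 * g.1 1 0 * n = 0
    · rw [h0, kap_zero_left]
    · rw [kap_congr (y := 1) h0, kap_one_right]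
      intro p hp hd
      rw [sub_sub_cancel_left, dvd_neg]
      rcases hp.dvd_or_dvd hd with h1 | h1
      · exact (((hp.dvd_or_dvd h1).elim id id).mul_left _).mul_right _
      · exact h1.mul_left _
  have h1 := phi_gam_mul hG g c d
  rw [hs, map_one, one_mul] at h1
  rw [← h1]
  unfold phi
  simp only [ro_mul, hγ, mk2, Matrix.of_apply, Matrix.cons_val', Matrix.cons_val_zero,
    Matrix.cons_val_one, Matrix.cons_val_fin_one]
  congr 1
  · linear_combination (c * n * g.1 1 0) * hdet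
  · linear_combination (-(c * n * g.1 0 0)) * hdet

theorem exists_per (g : SLR K) : ∃ x : K, IsPer g x := by
  obtain ⟨N, hN⟩ := ro_V_mat g
  refine ⟨MK K ^ (Q.k + 2 * N), ro_per (pow_ne_zero _ MK_ne_zero) fun n hn i j => ?_⟩
  have := ro_V_lat.1 hn
  exact (((hN i 0).mul (hN j 0)).mul this).mono (by push_cast; omega)

theorem isPer_one : IsPer (1 : SLR K) (MM K) := by
  refine ro_per (pow_ne_zero _ MK_ne_zero) fun n hn i j => ?_
  have h0 : ∀ i : Fin 2, ro_V 0 (((1 : SLR K).1 i 0 : R K) : K) := by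
    intro i
    rw [ro_V_zero]
    fin_cases i
    · simp
    · simp
  exact (((h0 i).mul (h0 j)).mul (ro_V_lat.1 hn)).mono (by omega)

theorem ro_conj_mem {g δ : SLR K} {N : ℕ} (hg : ∀ i j, ro_V (-N) (g.1 i j : K))
    (h00 : ro_V (Q.k + 2 * N) ((δ.1 0 0 : K) - 1)) (h01 : ro_V (Q.k + 2 * N) (δ.1 0 1 : K))
    (h10 : ro_V (Q.k + 2 * N) (δ.1 1 0 : K)) (h11 : ro_V (Q.k + 2 * N) ((δ.1 1 1 : K) - 1)) :
    g * δ * g⁻¹ ∈ Gam K := by
  have hdet : (g.1 0 0 : K) * g.1 1 1 - g.1 0 1 * g.1 1 0 = 1 := by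
    have := congrArg (fun a : R K => (a : K)) (ro_det g)
    simpa using this
  have m : ∀ (i j i' j' : Fin 2) {x : K}, ro_V (Q.k + 2 * N) x →
      ro_V Q.k ((g.1 i j : K) * x * g.1 i' j') := fun i j i' j' x hx =>
    (((hg i j).mul hx).mul (hg i' j')).mono (by omega)
  rw [ro_mem_Gam]
  simp only [ro_mul, ro_i00, ro_i01, ro_i10, ro_i11, Subring.coe_add, Subring.coe_mul,
    NegMemClass.coe_neg]
  exact ⟨((((m 0 0 1 1 h00).add (m 0 1 1 1 h10)).sub (m 0 0 1 0 h01)).sub (m 0 1 1 0 h11)).congr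
      (by linear_combination hdet),
    ((((m 0 0 0 0 h01).add (m 0 1 0 0 h11)).sub (m 0 0 0 1 h00)).sub (m 0 1 0 1 h10)).congr
      (by ring),
    ((((m 1 0 1 1 h00).add (m 1 1 1 1 h10)).sub (m 1 0 1 0 h01)).sub (m 1 1 1 0 h11)).congr
      (by ring),
    ((((m 1 0 0 0 h01).add (m 1 1 0 0 h11)).sub (m 1 0 0 1 h00)).sub (m 1 1 0 1 h10)).congr
      (by linear_combination hdet)⟩

theorem ro_cusp (g : SLR K) (hg : g.1 1 0 ≠ 0) {h₀ : K} (hh : h₀ ≠ 0) :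
    ∃ L : ℕ, 1 ≤ L ∧ ∀ γ γ₀ : SLR K,
    γ₀.1 1 0 ∈ cls 1 h₀ → γ.1 1 0 ∈ cls L (γ₀.1 1 0 : K) →
    γ.1 0 0 ∈ Lat (MK K ^ L) → γ.1 1 1 ∈ Lat (MK K ^ L) →
    γ₀.1 0 0 ∈ Lat (MK K ^ L) → γ₀.1 1 1 ∈ Lat (MK K ^ L) → ∀ c d : R K,
    phi (g * γ) c d = kap (γ.1 1 0) (γ.1 0 0) * sg γ₀ * phi (g * γ₀) c d := by
  obtain ⟨N₁, hN₁⟩ := ro_V_mat g
  obtain ⟨N₂, hN₂⟩ := ro_V_ex ((g.1 1 0 : K))⁻¹
  obtain ⟨N₃, hN₃⟩ := ro_V_ex h₀
  obtain ⟨N₄, hN₄⟩ := ro_V_ex h₀⁻¹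
  have hk := Q.hk
  obtain ⟨N, hN⟩ : ∃ N : ℕ, N = N₁ + N₂ + N₃ + N₄ := ⟨_, rfl⟩
  have g1 : ∀ i j, ro_V (-N) (g.1 i j : K) := fun i j => (hN₁ i j).mono (by omega)
  have g2 : ro_V (-N) ((g.1 1 0 : K))⁻¹ := hN₂.mono (by omega)
  have g3 : ro_V (-N) h₀ := hN₃.mono (by omega)
  have g4 : ro_V (-N) h₀⁻¹ := hN₄.mono (by omega)
  obtain ⟨L, hL⟩ : ∃ L : ℕ, L = Q.k + 3 * N := ⟨_, rfl⟩
  have hL1 : 1 ≤ L := by omega
  refine ⟨L, hL1, fun γ γ₀ h1 h2 h3 h4 h5 h6 c d => ?_⟩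
  have hc₀ : γ₀.1 1 0 ≠ 0 := ne_zero_of_mem_cls le_rfl hh h1
  have hc₀K := fl_coe_ne hc₀
  have hc : γ.1 1 0 ≠ 0 := ne_zero_of_mem_cls hL1 hc₀K h2
  have hcK := fl_coe_ne hc
  have hgK := fl_coe_ne hg
  rw [mem_cls_iff hh] at h1
  rw [mem_cls_iff hc₀K] at h2
  rw [ro_V_lat] at h3 h4 h5 h6
  have hdet : (γ.1 0 0 : K) * γ.1 1 1 - γ.1 0 1 * γ.1 1 0 = 1 := by
    have := congrArg (fun a : R K => (a : K)) (ro_det γ)
    simpa using this
  have hdet₀ : (γ₀.1 0 0 : K) * γ₀.1 1 1 - γ₀.1 0 1 * γ₀.1 1 0 = 1 := by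
    have := congrArg (fun a : R K => (a : K)) (ro_det γ₀)
    simpa using this
  have u1 : ro_V 0 ((γ₀.1 1 0 : K) / h₀) := ro_V_zero.2 (U_mem_T h1)
  have u1' : ro_V 0 ((γ₀.1 1 0 : K) / h₀)⁻¹ := ro_V_zero.2 (U_mem_T (U_inv le_rfl h1))
  have u2 : ro_V 0 ((γ.1 1 0 : K) / γ₀.1 1 0) := ro_V_zero.2 (U_mem_T h2)
  have u2' : ro_V 0 ((γ.1 1 0 : K) / γ₀.1 1 0)⁻¹ := ro_V_zero.2 (U_mem_T (U_inv hL1 h2))
  have v2 : ro_V L ((γ.1 1 0 : K) / γ₀.1 1 0 - 1) := ro_V_U.1 h2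
  have v2' : ro_V L (((γ.1 1 0 : K) / γ₀.1 1 0)⁻¹ - 1) := ro_V_U.1 (U_inv hL1 h2)
  have one : ro_V 0 (1 : K) := ro_V_zero.2 (T K).one_mem
  have c0 : ro_V (-N) (γ₀.1 1 0 : K) := ((u1.mul g3).mono (by omega)).congr (by field_simp)
  have c0' : ro_V (-N) (γ₀.1 1 0 : K)⁻¹ := ((u1'.mul g4).mono (by omega)).congr (by field_simp)
  have c1 : ro_V (-N) (γ.1 1 0 : K) := ((u2.mul c0).mono (by omega)).congr (by field_simp)
  have c1' : ro_V (-N) (γ.1 1 0 : K)⁻¹ := ((u2'.mul c0').mono (by omega)).congr (by field_simp)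
  have b1 : ro_V (-N) (γ.1 0 1 : K) :=
    (((((h3.mul h4).mono (by omega)).sub one).mul c1').mono (by omega)).congr
      (by field_simp; linear_combination -hdet)
  have b0 : ro_V (-N) (γ₀.1 0 1 : K) :=
    (((((h5.mul h6).mono (by omega)).sub one).mul c0').mono (by omega)).congr
      (by field_simp; linear_combination -hdet₀)
  set δ : SLR K := γ * γ₀⁻¹ with hδ
  have d00 : ro_V (Q.k + 2 * N) ((δ.1 0 0 : K) - 1) := by
    refine ((((h3.mul h6).mono (i := Q.k + 2 * N) (by omega)).sub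
      (((h3.mul h4).mul u2').mono (by omega))).add (v2'.mono (by omega))).congr ?_
    simp only [hδ, ro_mul, ro_i00, ro_i10, Subring.coe_add, Subring.coe_mul, NegMemClass.coe_neg]
    field_simp
    linear_combination (γ₀.1 1 0 : K) * hdet
  have d01 : ro_V (Q.k + 2 * N) (δ.1 0 1 : K) := by
    refine (((b1.mul h5).mono (i := Q.k + 2 * N) (by omega)).sub
      ((h3.mul b0).mono (by omega))).congr ?_
    simp only [hδ, ro_mul, ro_i01, ro_i11, Subring.coe_add, Subring.coe_mul, NegMemClass.coe_neg]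
    ring
  have d10 : ro_V (Q.k + 2 * N) (δ.1 1 0 : K) := by
    refine (((c1.mul h6).mono (i := Q.k + 2 * N) (by omega)).sub
      ((h4.mul c0).mono (by omega))).congr ?_
    simp only [hδ, ro_mul, ro_i00, ro_i10, Subring.coe_add, Subring.coe_mul, NegMemClass.coe_neg]
    ring
  have d11 : ro_V (Q.k + 2 * N) ((δ.1 1 1 : K) - 1) := by
    refine ((((h4.mul h5).mono (i := Q.k + 2 * N) (by omega)).sub
      (((h5.mul h6).mul u2).mono (by omega))).add (v2.mono (by omega))).congr ?_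
    simp only [hδ, ro_mul, ro_i01, ro_i11, Subring.coe_add, Subring.coe_mul, NegMemClass.coe_neg]
    field_simp
    linear_combination (γ.1 1 0 : K) * hdet₀
  have hδG : δ ∈ Gam K := ro_mem_Gam.2 ⟨d00.mono (by omega), d01.mono (by omega),
    d10.mono (by omega), d11.mono (by omega)⟩
  have hγ' := ro_conj_mem g1 d00 d01 d10 d11
  have e1 : δ * γ₀ = γ := by rw [hδ, inv_mul_cancel_right]
  have s1 : sg δ * sg γ₀ = sg γ := by
    have := ro_cocL hδG hc₀ (by rw [e1]; exact U_mono (by omega) h2)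
    rwa [e1] at this
  have hU : ((g * δ).1 1 0 : K) / g.1 1 0 ∈ U Q.k := by
    refine ro_V_U.2 (((d00.mono (i := Q.k) (by omega)).add
      ((((g1 1 1).mul d10).mul g2).mono (by omega))).congr ?_)
    simp only [ro_mul, Subring.coe_add, Subring.coe_mul]
    field_simp
    ring
  have e2 : g * δ * g⁻¹ * g = g * δ := inv_mul_cancel_right _ _
  have s2 := ro_cocL hγ' hg (by rw [e2]; exact hU)
  rw [e2, ← ro_cocR hδG hg hU, mul_comm (sg g)] at s2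
  have hg0 : sg g ≠ 0 := ro_sg_cop (ro_cop g)
  have s3 : sg (g * δ * g⁻¹) = sg δ := mul_right_cancel₀ hg0 s2
  have e3 : g * γ = g * δ * g⁻¹ * (g * γ₀) := by
    rw [← mul_assoc, e2, mul_assoc, e1]
  rw [e3, phi_gam_mul hγ', s3, ro_kap_a, ← s1, map_mul, mul_assoc (conj (sg δ)),
    mul_comm (conj (sg γ₀)), fl_mul_conj (norm_sg γ₀), mul_one]

/-- dependence on the numerator for matrices with `M`-adically small diagonal -/
theorem phi_cusp (g : SLR K) {h₀ : K} (hh : h₀ ≠ 0) : ∃ L : ℕ, 1 ≤ L ∧ ∀ γ γ₀ : SLR K,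
    γ₀.1 1 0 ∈ cls 1 h₀ → γ.1 1 0 ∈ cls L (γ₀.1 1 0 : K) →
    γ.1 0 0 ∈ Lat (MK K ^ L) → γ.1 1 1 ∈ Lat (MK K ^ L) →
    γ₀.1 0 0 ∈ Lat (MK K ^ L) → γ₀.1 1 1 ∈ Lat (MK K ^ L) → ∀ c d : R K,
    phi (g * γ) c d = kap (γ.1 1 0) (γ.1 0 0) * sg γ₀ * phi (g * γ₀) c d := by
  obtain ⟨γ₁, hγ₁, hne⟩ := exists_gam_mul_ne_zero g
  obtain ⟨L, hL, H⟩ := ro_cusp (γ₁ * g) (hne 1 0) hh
  refine ⟨L, hL, fun γ γ₀ h1 h2 h3 h4 h5 h6 c d => ?_⟩
  have := H γ γ₀ h1 h2 h3 h4 h5 h6 c d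
  rw [mul_assoc γ₁, mul_assoc γ₁, phi_gam_mul hγ₁, phi_gam_mul hγ₁, mul_left_comm] at this
  refine mul_left_cancel₀ (fun e => ?_) this
  have h7 := norm_sg γ₁
  rw [← Complex.norm_conj, e] at h7
  simp at h7

/-- existence of cusp matrices -/
theorem exists_cusp {h a b : R K} (hh : h ≠ 0) (hab : h ∣ a * b - 1) (L : ℕ) : ∃ γ : SLR K,
    γ.1 1 0 = h ∧ h ∣ γ.1 0 0 - a ∧ h ∣ γ.1 1 1 - b ∧ γ.1 0 0 ∈ Lat (MK K ^ L) ∧
      γ.1 1 1 ∈ Lat (MK K ^ L) := by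
  have hM : MK K ^ L ≠ 0 := pow_ne_zero _ MK_ne_zero
  obtain ⟨a', ⟨s, hs⟩, ha⟩ := exists_crt hM 0 hh a
  obtain ⟨b', ⟨t, ht⟩, hb⟩ := exists_crt hM 0 hh b
  obtain ⟨u, hu⟩ := hab
  rw [sub_zero] at ha hb
  refine ⟨mk2 a' (u + s * b' + a * t) h b' ?_, rfl, ⟨s, hs⟩, ⟨t, ht⟩, ha, hb⟩
  linear_combination b' * hs + a * ht + hu


end Crest.Agent.GQ
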