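import Crest.Agent.GQ.ThSumAux1

/-! # GQ ThSumAux2: the Fourier expansion -/

set_option autoImplicit false

noncomputable section

open NumberField Complex
open scoped ComplexConjugate

namespace Crest.Agent.GQ

variable {K : Type} [Field K] [NumberField K] [P : Pre K]

/-- The width of the Gaussian in the row `c`. -/
def su_sig (t y : Pl K → ℝ) (c : K) : Pl K → ℝ :=
  fun v => Real.exp (-y v - 2 * (t + lg c) v)
/-- The width of the Gaussian in `c`. -/
def su_tau (t y : Pl K → ℝ) : Pl K → ℝ := fun v => Real.exp (y v - 2 * t v)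

theorem su_sig_pos (t y : Pl K → ℝ) (c : K) (v : Pl K) : 0 < su_sig t y c v := Real.exp_pos _
theorem su_tau_pos (t y : Pl K → ℝ) (v : Pl K) : 0 < su_tau t y v := Real.exp_pos _
theorem su_sig_pos' (t y : Pl K → ℝ) (c : K) (v : Pl K) : 0 < 1 / (4 * su_sig t y c v) := by
  have := su_sig_pos t y c v
  positivity

theorem su_exp_lg {c : K} (hc : c ≠ 0) (t : Pl K → ℝ) (v : Pl K) :
    Real.exp (2 * (t + lg c) v) = Real.exp (2 * t v) * ‖emb c v‖ ^ 2 := by
  have h : 0 < ‖emb c v‖ := norm_pos_iff.2 (emb_ne_zero hc v)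
  rw [Pi.add_apply, mul_add, Real.exp_add, lg, two_mul (Real.log _), Real.exp_add, Real.exp_log h,
    sq]

theorem su_ff {c : K} (hc : c ≠ 0) (w : Pl K → ℂ) (t y : Pl K → ℝ) :
    ff (fun v => ‖w v‖) y (t + lg c) = (∏ v, su_sig t y c v) * gau (su_tau t y) (emb c) *
      gau (fun v => 1 / (4 * su_sig t y c v)) w := by
  unfold ff gau
  rw [Finset.prod_mul_distrib, ← Real.exp_sum _ fun v => -Real.pi * _ * _, mul_assoc,
    ← Real.exp_add, ← mul_add, ← Finset.sum_add_distrib, Finset.mul_sum]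
  congr 2
  refine Finset.sum_congr rfl fun v _ => ?_
  have h : 0 < ‖emb c v‖ := norm_pos_iff.2 (emb_ne_zero hc v)
  simp only [su_sig, su_tau]
  rw [neg_mul (2 : ℝ), Real.exp_sub, Real.exp_sub, Real.exp_neg, Real.exp_neg, su_exp_lg hc]
  field_simp

theorem su_ff_pos (ρ y u : Pl K → ℝ) : 0 < ff ρ y u :=
  Finset.prod_pos fun _ _ => mul_pos (Real.exp_pos _) (Real.exp_pos _)

theorem su_ff_cont (ρ u : Pl K → ℝ) : Continuous fun y => ff ρ y u := by
  unfold ff
  fun_prop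

theorem su_Nm_sig {c : K} (hc : c ≠ 0) (t y : Pl K → ℝ) :
    Nm c * ∏ v, su_sig t y c v = Real.exp (-(∑ v, y v) - 2 * ∑ v, t v) := by
  unfold su_sig
  rw [Nm_eq_exp hc, ← Real.exp_sum, ← Real.exp_add, Finset.sum_sub_distrib, ← Finset.mul_sum,
    Finset.sum_neg_distrib]
  simp only [Pi.add_apply, Finset.sum_add_distrib]
  congr 1
  ring

theorem su_prod_le (c : K) (t y : Pl K → ℝ) : ∏ v, 1 / (4 * su_sig t y c v) ≤
    (∏ v, Real.exp (y v + 2 * t v)) * (1 + ‖emb c‖) ^ (2 * rr K) := by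
  rw [pow_mul, rr, ← Finset.card_univ, ← Finset.prod_const, ← Finset.prod_mul_distrib]
  refine Finset.prod_le_prod (fun v _ => (su_sig_pos' t y c v).le) fun v _ => ?_
  have h1 : Real.exp (lg c v) ≤ 1 + ‖emb c‖ := by
    have h2 := norm_le_pi_norm (emb c) v
    rcases (norm_nonneg (emb c v)).eq_or_lt with h | h
    · rw [lg, ← h, Real.log_zero, Real.exp_zero]
      linarith [norm_nonneg (emb c)]
    · rw [lg, Real.exp_log h]
      linarith
  have h3 : 1 / su_sig t y c v = Real.exp (y v + 2 * t v) * Real.exp (lg c v) ^ 2 := by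
    rw [su_sig, one_div, ← Real.exp_neg, sq, ← Real.exp_add, ← Real.exp_add, Pi.add_apply]
    congr 1
    ring
  have h4 := su_sig_pos t y c v
  calc 1 / (4 * su_sig t y c v) ≤ 1 / su_sig t y c v :=
        one_div_le_one_div_of_le h4 (by linarith)
    _ ≤ _ := by rw [h3]; gcongr

theorem su_gQ_row {c : R K} (hc : c ≠ 0) (s n : R K) (t : Pl K → ℝ) (z : Pl K → ℂ)
    (y : Pl K → ℝ) : gQ t (pt z y) c (s + c * n) = gau (su_tau t y) (emb (c : K)) *
      gau (su_sig t y c) (emb (n : K) + (z + emb ((s : K) / c))) := by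
  have hc' : (c : K) ≠ 0 := fun h => hc (Subtype.ext h)
  unfold gQ gau Qh
  rw [← Real.exp_add, ← mul_add, ← Finset.sum_add_distrib, zc_pt, pt_snd]
  congr 2
  refine Finset.sum_congr rfl fun v _ => ?_
  have h0 := emb_ne_zero hc' v
  have h : 0 < ‖emb (c : K) v‖ := norm_pos_iff.2 h0
  have e : emb (c : K) v * z v + emb ((s + c * n : R K) : K) v =
      emb (c : K) v * (emb (n : K) + (z + emb ((s : K) / c))) v := by
    simp only [emb, Pi.add_apply] at h0 ⊢
    push_cast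
    rw [map_add, map_mul, map_div₀]
    field_simp
    ring
  simp only [su_sig, su_tau]
  rw [e, norm_mul, Real.exp_sub, Real.exp_sub, Real.exp_neg, su_exp_lg hc']
  field_simp
  ring

theorem su_reps {x x₁ : K} (hx : x ≠ 0) {c : R K} (hc : c ≠ 0) (h : InT x₁ (c * x)) :
    ∃ S : Finset (R K), (∀ s ∈ S, s ∈ Lat x₁) ∧ ∀ d ∈ Lat x₁, ∃! s, s ∈ S ∧ d - s ∈ cLat c x := by
  classical
  have hc' : (c : K) ≠ 0 := fun h => hc (Subtype.ext h)
  obtain ⟨F, hF1, hF2, -⟩ := lat_reps (mul_ne_zero hc' hx) h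
  obtain ⟨A, hA1, hA2, -⟩ := po_coset hx hc
  refine ⟨(F ×ˢ A).image fun p => p.1 + p.2, fun s hs => ?_, fun d hd => ?_⟩
  · obtain ⟨p, hp, rfl⟩ := Finset.mem_image.1 hs
    exact add_mem (hF1 _ (Finset.mem_product.1 hp).1) (h.trans (hA1 _ (Finset.mem_product.1 hp).2))
  · obtain ⟨f, ⟨hf, hdf⟩, hfu⟩ := hF2 d hd
    obtain ⟨a, ⟨ha, m, hm⟩, hau⟩ := hA2 (d - f)
    refine ⟨f + a, ⟨Finset.mem_image.2 ⟨(f, a), Finset.mem_product.2 ⟨hf, ha⟩, rfl⟩, -m, ?_, ?_⟩, ?_⟩
    · refine neg_mem ((mem_Lat_mul_iff hc).1 ?_)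
      rw [← hm]
      exact sub_mem (hA1 a ha) hdf
    · show c * -m = _
      linear_combination hm
    · rintro _ ⟨hs, n, hn, hn'⟩
      obtain ⟨⟨f', a'⟩, hp, rfl⟩ := Finset.mem_image.1 hs
      have hn2 : c * n = d - (f' + a') := hn'
      obtain rfl : f' = f := hfu f' ⟨(Finset.mem_product.1 hp).1, by
        rw [show d - f' = c * n + a' by linear_combination -hn2]
        exact add_mem ((mem_Lat_mul_iff hc).2 hn) (hA1 _ (Finset.mem_product.1 hp).2)⟩
      obtain rfl : a' = a := hau a' ⟨(Finset.mem_product.1 hp).2, -n, by linear_combination hn2⟩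
      rfl

theorem su_split {x x₁ : K} {c : R K} (hc : c ≠ 0) {S : Finset (R K)}
    (h1 : ∀ s ∈ S, s ∈ Lat x₁) (h2 : ∀ d ∈ Lat x₁, ∃! s, s ∈ S ∧ d - s ∈ cLat c x)
    {f : R K → ℂ} (hf : Summable f) (h0 : ∀ d, f d ≠ 0 → d ∈ Lat x₁) :
    ∑' d, f d = ∑ s ∈ S, ∑' n : Lat x, f (s + c * n) := by
  let e : S × Lat x → R K := fun p => p.1 + c * p.2
  have he : Function.Injective e := by
    rintro ⟨⟨s, hs⟩, n⟩ ⟨⟨s', hs'⟩, n'⟩ h3
    have h4 : s + c * n = s' + c * n' := h3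
    obtain rfl : s = s' := (h2 s (h1 s hs)).unique ⟨hs, by simp⟩
      ⟨hs', n' - n, sub_mem n'.2 n.2, show c * _ = _ by linear_combination -h4⟩
    obtain rfl : n = n' := Subtype.ext (mul_left_cancel₀ hc (add_left_cancel h4))
    rfl
  have hr : Function.support f ⊆ Set.range e := fun d hd => by
    obtain ⟨s, ⟨hs, n, hn, hn'⟩, -⟩ := h2 d (h0 d hd)
    have h4 : c * n = d - s := hn'
    exact ⟨(⟨s, hs⟩, ⟨n, hn⟩), show s + c * n = d by linear_combination h4⟩
  rw [← he.tsum_eq hr, ← Finset.tsum_subtype]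
  exact (hf.comp_injective he).tsum_prod

variable [Q : Rec K]

open Classical in
theorem su_bet_le {g : SLR K} {x : K} (hx : IsPer g x) : ∃ (x₂ : K) (C : ℝ), x₂ ≠ 0 ∧ 0 ≤ C ∧
    ∀ r ∈ Lat (x * dl K)⁻¹, ∀ (c : R K) (t y : Pl K → ℝ),
      ‖bet g x r c‖ * ff (fun v => ‖emb (r : K) v‖) y (t + lg (c : K)) ≤
        C * Real.exp (-(∑ v, y v) - 2 * ∑ v, t v) *
          (if c ∈ Lat x₂ then gau (su_tau t y) (emb (c : K)) else 0) *
          gau (fun v => 1 / (4 * su_sig t y c v)) (emb (r : K)) := by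
  obtain ⟨j, C, Λ, -, h1, -, -, h2, h3⟩ := bet_struct hx
  refine ⟨(MK K ^ j)⁻¹, max C 0, inv_ne_zero (pow_ne_zero _ MK_ne_zero), le_max_right _ _,
    fun r hr c t y => ?_⟩
  have g1 := su_gau_pos (su_tau t y) (emb (c : K))
  have g2 := su_gau_pos (fun v => 1 / (4 * su_sig t y c v)) (emb (r : K))
  have g3 : 0 ≤ max C 0 := le_max_right _ _
  by_cases h0 : Λ r c = 0
  · rw [h1 r hr, h0, zero_mul, norm_zero, zero_mul]
    split_ifs <;> positivity
  · obtain ⟨hc, hc2, -⟩ := h3 r c h0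
    have hc' : (c : K) ≠ 0 := fun h => hc (Subtype.ext h)
    have h4 : ‖bet g x r c‖ ≤ max C 0 * Nm (c : K) := by
      rw [h1 r hr, norm_mul, Nm_coe, mul_comm (Nr c), ← mul_assoc]
      have := (NS_pos hc').le
      exact mul_le_mul ((h2 r c).trans (mul_le_mul_of_nonneg_right (le_max_left _ _) this))
        (norm_gs_le hc (norm_kap_le c) r) (norm_nonneg _) (by positivity)
    have h5 : 0 < ∏ v, su_sig t y c v := Finset.prod_pos fun v _ => su_sig_pos t y c v
    rw [if_pos (show c ∈ Lat _ from hc2), su_ff hc', ← su_Nm_sig hc']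
    calc _ ≤ max C 0 * Nm (c : K) * _ := mul_le_mul_of_nonneg_right h4 (by positivity)
      _ = _ := by ring

open Classical in
theorem su_cont_fc {g : SLR K} {x : K} (hx : IsPer g x) (q : R K) {r : R K}
    (hr : r ∈ Lat (x * dl K)⁻¹) (t : Pl K → ℝ) :
    Continuous fun y => ∑' c : R K, (if q ∣ c then bet g x r c else 0) *
      (ff (fun v => ‖emb (r : K) v‖) y (t + lg (c : K)) : ℂ) := by
  obtain ⟨x₂, C, hx₂, hC, h⟩ := su_bet_le hx
  refine continuous_iff_continuousAt.2 fun y₀ => ?_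
  have hs0 := su_summable_gau0 hx₂ (ρ := su_tau t (y₀ + 1)) (su_tau_pos t (y₀ + 1))
  have hs := ((su_summable_iff x₂ fun c => gau (su_tau t (y₀ + 1)) (emb (c : K))).2 hs0).mul_left
    (C * Real.exp (-(∑ v, (y₀ v - 1)) - 2 * ∑ v, t v))
  refine ContinuousOn.continuousAt ?_ (Metric.closedBall_mem_nhds y₀ one_pos)
  refine continuousOn_tsum (fun c => Continuous.continuousOn ?_) hs fun c y hy => ?_
  · have h0 := su_ff_cont (fun v => ‖emb (r : K) v‖) (t + lg (c : K))
    exact continuous_const.mul (continuous_ofReal.comp h0)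
  · have hy' : ∀ v, |y v - y₀ v| ≤ 1 := fun v =>
      (dist_le_pi_dist y y₀ v).trans (Metric.mem_closedBall.1 hy)
    have h1 : ‖if q ∣ c then bet g x r c else 0‖ ≤ ‖bet g x r c‖ := by
      split_ifs
      exacts [le_rfl, by rw [norm_zero]; exact norm_nonneg _]
    have h2 : ∑ v, (y₀ v - 1) ≤ ∑ v, y v := Finset.sum_le_sum fun v _ => by
      have := (abs_le.1 (hy' v)).1
      linarith
    have h3 : gau (su_tau t y) (emb (c : K)) ≤ gau (su_tau t (y₀ + 1)) (emb (c : K)) :=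
      su_gau_mono (su_tau_pos t y) (fun v => Real.exp_le_exp.2 (by
        have := (abs_le.1 (hy' v)).2
        rw [Pi.add_apply, Pi.one_apply]
        linarith)) _
    have h4 := su_gau_pos (su_tau t y) (emb (c : K))
    have h5 : Real.exp (-(∑ v, y v) - 2 * ∑ v, t v) ≤
        Real.exp (-(∑ v, (y₀ v - 1)) - 2 * ∑ v, t v) := Real.exp_le_exp.2 (by linarith)
    rw [norm_mul, Complex.norm_real, Real.norm_of_nonneg (su_ff_pos _ _ _).le]
    refine (mul_le_mul_of_nonneg_right h1 (su_ff_pos _ _ _).le).trans ((h r hr c t y).trans ?_)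
    by_cases hc : c ∈ Lat x₂
    · rw [if_pos hc, if_pos hc]
      refine (mul_le_of_le_one_right (by positivity) (su_gau_le_one (su_sig_pos' t y c) _)).trans ?_
      exact mul_le_mul (mul_le_mul_of_nonneg_left h5 hC) h3 h4.le (by positivity)
    · rw [if_neg hc, if_neg hc, mul_zero, mul_zero, zero_mul]

theorem su_double {g : SLR K} {x : K} (hx : IsPer g x) (t y : Pl K → ℝ) :
    Summable fun p : R K × Lat (x * dl K)⁻¹ =>
      ‖bet g x p.2 p.1‖ * ff (fun v => ‖emb ((p.2 : R K) : K) v‖) y (t + lg (p.1 : K)) := by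
  classical
  obtain ⟨x₂, C, hx₂, hC, h⟩ := su_bet_le hx
  obtain ⟨C', hC', h'⟩ := su_tsum_gau_le (K := K)
  have hx' : (x * dl K)⁻¹ ≠ 0 := inv_ne_zero (mul_ne_zero hx.1 dl_ne_zero)
  have hN := NS_pos hx'
  set E := C * Real.exp (-(∑ v, y v) - 2 * ∑ v, t v) with hE
  have hE0 : 0 ≤ E := by positivity
  set G : R K → ℝ := fun c => if c ∈ Lat x₂ then gau (su_tau t y) (emb (c : K)) else 0 with hG
  have hG0 : ∀ c, 0 ≤ G c := fun c => by
    simp only [hG]
    split_ifs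
    exacts [(su_gau_pos _ _).le, le_rfl]
  have s1 : ∀ c : R K, Summable fun r : Lat (x * dl K)⁻¹ =>
      E * G c * gau (fun v => 1 / (4 * su_sig t y c v)) (emb ((r : R K) : K)) := fun c =>
    (su_summable_gau0 hx' (su_sig_pos' t y c)).mul_left _
  refine Summable.of_nonneg_of_le (fun p => mul_nonneg (norm_nonneg _) (su_ff_pos _ _ _).le)
    (fun p => h p.2 p.2.2 p.1 t y) ((summable_prod_of_nonneg fun p =>
      mul_nonneg (mul_nonneg hE0 (hG0 _)) (su_gau_pos _ _).le).2 ⟨s1, ?_⟩)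
  set D := ∏ v, Real.exp (y v + 2 * t v) with hD
  have hD0 : 0 < D := Finset.prod_pos fun _ _ => Real.exp_pos _
  refine Summable.of_nonneg_of_le (fun c => tsum_nonneg fun r =>
      mul_nonneg (mul_nonneg hE0 (hG0 _)) (su_gau_pos _ _).le) (fun c => ?_)
    (((su_summable_iff x₂ fun c => (1 + ‖emb (c : K)‖) ^ (2 * rr K) *
      gau (su_tau t y) (emb (c : K) + 0)).2
        (summable_gau hx₂ (su_tau_pos t y) 0 (2 * rr K))).mul_left
      (E * (C' * (1 + D / NS (x * dl K)⁻¹))))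
  dsimp only [G]
  rw [tsum_mul_left]
  split_ifs with hc
  · have h1 : (1 : ℝ) ≤ (1 + ‖emb (c : K)‖) ^ (2 * rr K) :=
      one_le_pow₀ (by linarith [norm_nonneg (emb (c : K))])
    have h2 := su_prod_le (c : K) t y
    have h3 := su_gau_pos (su_tau t y) (emb (c : K))
    rw [add_zero]
    calc _ ≤ E * gau (su_tau t y) (emb (c : K)) * (C' * ((1 + ‖emb (c : K)‖) ^ (2 * rr K) +
          D * (1 + ‖emb (c : K)‖) ^ (2 * rr K) / NS (x * dl K)⁻¹)) := by
          refine mul_le_mul_of_nonneg_left ((h' _ hx' _ (su_sig_pos' t y c)).trans ?_)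
            (by positivity)
          gcongr
      _ = _ := by ring
  · simp

theorem su_row {g : SLR K} {x : K} (hx : IsPer g x) {c : R K} (hc : c ≠ 0) (t : Pl K → ℝ)
    (z : Pl K → ℂ) (y : Pl K → ℝ) :
    ∑' d : R K, phi g c d * (gQ t (pt z y) c d : ℂ) = ((cov K * NS x : ℝ) : ℂ)⁻¹ *
      ∑' r : Lat (x * dl K)⁻¹, bet g x r c *
        (ff (fun v => ‖emb ((r : R K) : K) v‖) y (t + lg (c : K)) : ℂ) *
          eC (emb ((r : R K) : K) * z) := by
  have hc' : (c : K) ≠ 0 := fun h => hc (Subtype.ext h)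
  have hx' : (x * dl K)⁻¹ ≠ 0 := inv_ne_zero (mul_ne_zero hx.1 dl_ne_zero)
  obtain ⟨x₀, hx₀, h₀⟩ := phi_supp g
  obtain ⟨k, hk⟩ := exists_pow_mul_mem_T (c * x / x₀ : K)
  have hM : MK K ^ k ≠ 0 := pow_ne_zero _ MK_ne_zero
  have i1 : InT (x₀ / MK K ^ k) (c * x) := ⟨_, hk, by field_simp⟩
  have i2 : InT (x₀ / MK K ^ k) x₀ := ⟨_, pow_mem MK_mem_T k, by field_simp⟩
  obtain ⟨S, hS1, hS2⟩ := su_reps hx.1 hc i1
  have hsupp : ∀ d, phi g c d ≠ 0 → d ∈ Lat (x₀ / MK K ^ k) := fun d hd =>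
    i2.trans (h₀ c d hd).2.1
  rw [su_split hc hS1 hS2 ((su_Bd_row g c).summable t (pt z y)).of_norm
    fun d hd => hsupp d (left_ne_zero_of_mul hd)]
  set G : R K → ℂ := fun r => (gau (fun v => 1 / (4 * su_sig t y c v)) (emb (r : K)) : ℂ) with hG
  set A : ℂ := (((∏ v, su_sig t y c v) * gau (su_tau t y) (emb (c : K)) : ℝ) : ℂ) with hA
  have e1 : ∀ s ∈ S, ∑' n : Lat x, phi g c (s + c * n) * (gQ t (pt z y) c (s + c * n) : ℂ) =
      ((cov K * NS x : ℝ) : ℂ)⁻¹ * ∑' r : Lat (x * dl K)⁻¹,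
        phi g c s * eT (((r : R K) : K) * s / c) * (A * G r) * eC (emb ((r : R K) : K) * z) := by
    intro s _
    have h1 := poisson_gau hx.1 (su_sig_pos t y c) (z + emb ((s : K) / c)) 0
    simp only [mul_zero, po_eC_zero, mul_one, sub_zero] at h1
    calc _ = ∑' n : Lat x, phi g c s * (gau (su_tau t y) (emb (c : K)) : ℂ) *
          (gau (su_sig t y c) (emb ((n : R K) : K) + (z + emb ((s : K) / c))) : ℂ) :=
          tsum_congr fun n => by rw [hx.2 n n.2, su_gQ_row hc, ofReal_mul, mul_assoc]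
      _ = _ := by
          rw [tsum_mul_left, h1, ← tsum_mul_left, ← tsum_mul_left, ← tsum_mul_left]
          refine tsum_congr fun r => ?_
          rw [mul_add, eC_add, ← emb_mul, eC_emb, ← mul_div_assoc, hA, hG]
          push_cast
          ring
  rw [Finset.sum_congr rfl e1, ← Finset.mul_sum, ← Summable.tsum_finsetSum]
  · congr 1
    refine tsum_congr fun r => ?_
    rw [← Finset.sum_mul, ← Finset.sum_mul, ← bet_eq_sum hx r.2 hc S fun d hd => hS2 d (hsupp d hd),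
      su_ff hc', ofReal_mul]
  · intro s _
    refine Summable.of_norm_bounded
      ((su_summable_gau0 hx' (su_sig_pos' t y c)).mul_left (‖phi g c s‖ * ‖A‖)) fun r => ?_
    rw [norm_mul, norm_mul, norm_mul, norm_mul, norm_eT, norm_eC, hG]
    dsimp only
    rw [Complex.norm_real (gau _ _), Real.norm_of_nonneg (su_gau_pos _ _).le]
    exact le_of_eq (by ring)

end Crest.Agent.GQ
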