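import Crest.Agent.GQ.ThHyp
import Crest.Agent.GQ.ThBet
import Crest.Agent.GQ.ThSumAux2

/-! # GQ ThSum: convergence, automorphy and Fourier expansion of the series -/

set_option autoImplicit false

noncomputable section

open NumberField Complex
open scoped ComplexConjugate

namespace Crest.Agent.GQ

variable {K : Type} [Field K] [NumberField K] [P : Pre K]

open MeasureTheory
variable [Q : Rec K]

open Classical in
theorem summable_gQ {x : K} (hx : x ≠ 0) (t : Pl K → ℝ) (p : HH K) :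
    Summable (fun z : R K × R K => if z.1 ∈ Lat x ∧ z.2 ∈ Lat x then gQ t p z.1 z.2 else 0) := by
  obtain ⟨u, hu, hu0, hle⟩ := su_dom hx t (isCompact_singleton (x := p))
  refine hu.of_nonneg_of_le (fun z => ?_) fun z => ?_
  · split_ifs
    exacts [(su_gQ_pos _ _ _ _).le, le_rfl]
  · split_ifs with h
    exacts [hle p rfl z h.1 h.2, hu0 z]
theorem summable_phi_gQ (g : SLR K) (t : Pl K → ℝ) (p : HH K) :
    Summable (fun z : R K × R K => ‖phi g z.1 z.2‖ * gQ t p z.1 z.2) :=
  ((su_Bd_phi g fun _ => True).summable t p).congr fun z => by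
    rw [if_pos trivial, norm_mul, Complex.norm_real, Real.norm_of_nonneg (su_gQ_pos _ _ _ _).le]
    rfl
theorem continuous_ThQ (q : R K) (g : SLR K) (t : Pl K → ℝ) : Continuous (ThQ q g t) := by
  classical
  exact continuous_const.mul ((su_Bd_phi g fun z => q ∣ z.1).cont t)
theorem Th_actR (g γ : SLR K) (t : Pl K → ℝ) (p : HH K) : Th g t (actR γ p) = Th (g * γ) t p := by
  unfold Th ThQ
  rw [← (su_ra γ).tsum_eq fun x => _ * (gQ t p x.1 x.2 : ℂ)]
  congr 1
  refine tsum_congr fun x => ?_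
  rw [if_pos (one_dvd _), if_pos (one_dvd _), gQ_actR, ← phi_mul g γ]
  rfl
theorem Th_of_phi {g g' : SLR K} {η : ℂ} (h : ∀ c d, phi g' c d = η * phi g c d) (t : Pl K → ℝ)
    (p : HH K) : Th g' t p = η * Th g t p := by
  unfold Th ThQ
  rw [mul_left_comm, ← tsum_mul_left (a := η)]
  congr 1
  refine tsum_congr fun x => ?_
  rw [if_pos (one_dvd _), if_pos (one_dvd _), h, mul_assoc]
open Classical in
/-- the series over the rows of `φ₀` on the line `ℓ` modulo `q` -/
def ThL (q l₁ l₂ : R K) (t : Pl K → ℝ) (p : HH K) : ℂ :=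
  (Real.exp (8 / 3 * ∑ v, t v) : ℂ) * ∑' x : R K × R K,
    (if q ∣ x.1 * l₂ - x.2 * l₁ then phi0 x.1 x.2 else 0) * (gQ t p x.1 x.2 : ℂ)
theorem continuous_ThL (q l₁ l₂ : R K) (t : Pl K → ℝ) : Continuous (ThL q l₁ l₂ t) := by
  classical
  have h := (su_Bd_phi (1 : SLR K) fun x => q ∣ x.1 * l₂ - x.2 * l₁).cont t
  simp only [phi_one] at h
  exact continuous_const.mul h
theorem ThQ_eq_ThL (q : R K) (g : SLR K) (t : Pl K → ℝ) (p : HH K) :
    ThQ q g t p = ThL q (-g.1 1 0) (g.1 0 0) t (actR g p) := by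
  unfold ThQ ThL
  rw [← (su_ra g).tsum_eq fun x => _ * (gQ t p x.1 x.2 : ℂ)]
  congr 1
  refine tsum_congr fun x => ?_
  have h := phi_mul 1 g x.1 x.2
  rw [one_mul] at h
  rw [gQ_actR, mul_neg, sub_neg_eq_add, ← phi_one, ← h]
  rfl
theorem continuous_u0 (g : SLR K) (t : Pl K → ℝ) : Continuous (u0 g t) :=
  continuous_const.mul (((su_Bd_row g 0).cont t).comp
    (continuous_pt.comp (continuous_const.prodMk continuous_id)))
/-- trivial bound for the rows with `c = 0` -/
theorem u0_le (g : SLR K) (Y : ℝ) : ∃ C : ℝ, ∀ t : Pl K → ℝ, ∑ v, t v ≤ 0 → ∀ y ∈ cube K Y,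
    ‖u0 g t y‖ ≤ C * Real.exp (2 / 3 * ∑ v, t v) := su_u0_le g Y
theorem continuous_fc {g : SLR K} {x : K} (hx : IsPer g x) (q : R K) {r : R K}
    (hr : r ∈ Lat (x * dl K)⁻¹) (t : Pl K → ℝ) : Continuous (fc q g x r t) := by
  unfold fc Dt
  exact continuous_const.mul (continuous_const.mul (su_cont_fc hx q hr t))
open Classical in
theorem summable_fc {g : SLR K} {x : K} (hx : IsPer g x) (q : R K) (t y : Pl K → ℝ) :
    Summable (fun r : R K => ‖if r ∈ Lat (x * dl K)⁻¹ then fc q g x r t y else 0‖) := by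
  have h := (su_double hx t y).prod_symm
  refine ((su_summable_iff (x * dl K)⁻¹ fun r => ‖fc q g x r t y‖).2 ?_).congr fun r => by
    split_ifs <;> simp
  refine Summable.of_nonneg_of_le (fun _ => norm_nonneg _) (fun r => ?_)
    (h.prod.mul_left (‖((cov K * NS x : ℝ) : ℂ)⁻¹‖ * ‖(Real.exp (8 / 3 * ∑ v, t v) : ℂ)‖))
  rw [fc, Dt, norm_mul, norm_mul, mul_assoc]
  refine mul_le_mul_of_nonneg_left (mul_le_mul_of_nonneg_left ?_ (norm_nonneg _)) (norm_nonneg _)
  refine tsum_of_norm_bounded (h.prod_factor r).hasSum fun c => ?_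
  rw [norm_mul, Complex.norm_real, Real.norm_of_nonneg (su_ff_pos _ _ _).le]
  refine mul_le_mul_of_nonneg_right ?_ (su_ff_pos _ _ _).le
  split_ifs
  exacts [le_rfl, by rw [norm_zero]; exact norm_nonneg _]
open Classical in
/-- Fourier expansion -/
theorem ThQ_fourier {g : SLR K} {x : K} (hx : IsPer g x) (q : R K) (t : Pl K → ℝ)
    (z : Pl K → ℂ) (y : Pl K → ℝ) :
    ThQ q g t (pt z y) = u0 g t y + ∑' r : R K,
      (if r ∈ Lat (x * dl K)⁻¹ then fc q g x r t y else 0) * eC (emb (r : K) * z) := by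
  have h1 : Summable fun w : R K × R K =>
      (if q ∣ w.1 then phi g w.1 w.2 else 0) * (gQ t (pt z y) w.1 w.2 : ℂ) :=
    ((su_Bd_phi g fun z => q ∣ z.1).summable t (pt z y)).of_norm
  let F : R K → Lat (x * dl K)⁻¹ → ℂ := fun c r => (if q ∣ c then bet g x r c else 0) *
    (ff (fun v => ‖emb ((r : R K) : K) v‖) y (t + lg (c : K)) : ℂ) * eC (emb ((r : R K) : K) * z)
  have h2 : Summable (Function.uncurry F) :=
    Summable.of_norm_bounded (su_double hx t y) fun p => by
      simp only [Function.uncurry, F]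
      rw [norm_mul, norm_mul, norm_eC, mul_one, Complex.norm_real,
        Real.norm_of_nonneg (su_ff_pos _ _ _).le]
      refine mul_le_mul_of_nonneg_right ?_ (su_ff_pos _ _ _).le
      split_ifs
      exacts [le_rfl, by rw [norm_zero]; exact norm_nonneg _]
  have h3 : ∀ c : R K, (if c = 0 then 0 else
      ∑' d : R K, (if q ∣ c then phi g c d else 0) * (gQ t (pt z y) c d : ℂ)) =
      ((cov K * NS x : ℝ) : ℂ)⁻¹ * ∑' r, F c r := fun c => by
    simp only [F]
    split_ifs with hc hq hq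
    · simp [bet, hc]
    · simp
    · exact su_row hx hc t z y
    · simp
  have h4 : ∀ r : R K,
      (if r ∈ Lat (x * dl K)⁻¹ then fc q g x r t y else 0) * eC (emb (r : K) * z) =
      if r ∈ Lat (x * dl K)⁻¹ then fc q g x r t y * eC (emb (r : K) * z) else 0 := fun r => by
    split_ifs <;> simp
  rw [ThQ, h1.tsum_prod, h1.prod.tsum_eq_add_tsum_ite 0, mul_add, tsum_congr h4, su_tsum]
  congr 1
  · simp only [u0, dvd_zero, if_true, su_gQ_zero]
  · rw [tsum_congr h3, tsum_mul_left, ← h2.tsum_comm, ← mul_assoc, ← tsum_mul_left]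
    refine tsum_congr fun r => ?_
    simp only [F]
    rw [tsum_mul_right, fc, Dt]
    ring

end Crest.Agent.GQ
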