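import Crest.Agent.GQ.ThHyp
import Crest.Agent.GQ.ThBet

/-! # GQ ThSumAux1: convergence of the Gaussian series -/

set_option autoImplicit false

noncomputable section

open NumberField Complex
open scoped ComplexConjugate

namespace Crest.Agent.GQ

variable {K : Type} [Field K] [NumberField K] [P : Pre K]

theorem su_gau_pos (ρ : Pl K → ℝ) (z : Pl K → ℂ) : 0 < gau ρ z := Real.exp_pos _

theorem su_gau_le_one {ρ : Pl K → ℝ} (hρ : ∀ v, 0 < ρ v) (z : Pl K → ℂ) : gau ρ z ≤ 1 := by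
  refine Real.exp_le_one_iff.2 (mul_nonpos_of_nonpos_of_nonneg (neg_nonpos.2 Real.pi_pos.le) ?_)
  exact Finset.sum_nonneg fun v _ => div_nonneg (sq_nonneg _) (hρ v).le

theorem su_gau_mono {ρ ρ' : Pl K → ℝ} (hρ : ∀ v, 0 < ρ v) (h : ∀ v, ρ v ≤ ρ' v) (z : Pl K → ℂ) :
    gau ρ z ≤ gau ρ' z := by
  refine Real.exp_le_exp.2 (mul_le_mul_of_nonpos_left ?_ (neg_nonpos.2 Real.pi_pos.le))
  exact Finset.sum_le_sum fun v _ => div_le_div_of_nonneg_left (sq_nonneg _) (hρ v) (h v)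

theorem su_gQ_pos (t : Pl K → ℝ) (p : HH K) (c d : R K) : 0 < gQ t p c d := Real.exp_pos _

theorem su_gQ_cont (t : Pl K → ℝ) (c d : R K) : Continuous fun p : HH K => gQ t p c d :=
  Real.continuous_exp.comp (continuous_const.mul (continuous_finsetSum _ fun v _ =>
    continuous_const.mul (continuous_Qh _ _ v)))

open Classical in
theorem su_ind {E : Type*} [AddCommMonoid E] (x : K) (f : R K → E) :
    (Lat x : Set (R K)).indicator f = fun n => if n ∈ Lat x then f n else 0 := by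
  funext n
  rw [Set.indicator_apply]
  rfl

open Classical in
theorem su_summable_iff {E : Type*} [AddCommMonoid E] [TopologicalSpace E] (x : K) (f : R K → E) :
    Summable (fun n => if n ∈ Lat x then f n else 0) ↔ Summable (fun n : Lat x => f n) := by
  rw [← su_ind]
  exact summable_subtype_iff_indicator.symm

open Classical in
theorem su_tsum {E : Type*} [AddCommMonoid E] [TopologicalSpace E] (x : K) (f : R K → E) :
    ∑' n, (if n ∈ Lat x then f n else 0) = ∑' n : Lat x, f n := by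
  rw [← su_ind]
  exact (tsum_subtype (Lat x : Set (R K)) f).symm

theorem su_summable_gau {x : K} (hx : x ≠ 0) {ρ : Pl K → ℝ} (hρ : ∀ v, 0 < ρ v) (z : Pl K → ℂ) :
    Summable (fun n : Lat x => gau ρ (emb ((n : R K) : K) + z)) := by
  simpa using summable_gau hx hρ z 0

theorem su_summable_gau0 {x : K} (hx : x ≠ 0) {ρ : Pl K → ℝ} (hρ : ∀ v, 0 < ρ v) :
    Summable (fun n : Lat x => gau ρ (emb ((n : R K) : K))) := by
  simpa using summable_gau hx hρ 0 0

theorem su_tsum_gau_le : ∃ C : ℝ, 0 ≤ C ∧ ∀ x : K, x ≠ 0 → ∀ ρ : Pl K → ℝ, (∀ v, 0 < ρ v) →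
    ∑' n : Lat x, gau ρ (emb ((n : R K) : K)) ≤ C * (1 + (∏ v, ρ v) / NS x) := by
  obtain ⟨C, hC⟩ := tsum_gau_le (K := K)
  refine ⟨max C 0, le_max_right _ _, fun x hx ρ hρ => ?_⟩
  have h1 := hC x hx ρ hρ 0
  simp only [add_zero] at h1
  refine h1.trans (mul_le_mul_of_nonneg_right (le_max_left _ _) ?_)
  have h2 := NS_pos hx
  have h3 : 0 < ∏ v, ρ v := Finset.prod_pos fun v _ => hρ v
  positivity

theorem su_dom {x : K} (hx : x ≠ 0) (t : Pl K → ℝ) {C : Set (HH K)} (hC : IsCompact C) :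
    ∃ u : R K × R K → ℝ, Summable u ∧ (∀ z, 0 ≤ u z) ∧ ∀ p ∈ C, ∀ z : R K × R K,
      z.1 ∈ Lat x → z.2 ∈ Lat x → gQ t p z.1 z.2 ≤ u z := by
  classical
  obtain ⟨c₀, hc₀, h⟩ := Qh_lower hC
  set ρ : Pl K → ℝ := fun v => (Real.exp (2 * t v) * c₀)⁻¹ with hρ
  have hρ0 : ∀ v, 0 < ρ v := fun v => by positivity
  set f : R K → ℝ := fun n => if n ∈ Lat x then gau ρ (emb (n : K)) else 0 with hf
  have hf0 : ∀ n, 0 ≤ f n := fun n => by
    simp only [hf]
    split_ifs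
    exacts [(su_gau_pos _ _).le, le_rfl]
  have hs : Summable f := (su_summable_iff x _).2 (su_summable_gau0 hx hρ0)
  refine ⟨fun z => f z.1 * f z.2, hs.mul_of_nonneg hs hf0 hf0,
    fun z => mul_nonneg (hf0 _) (hf0 _), fun p hp z h1 h2 => ?_⟩
  simp only [hf, if_pos h1, if_pos h2, gau, gQ]
  rw [← Real.exp_add, ← mul_add, ← Finset.sum_add_distrib]
  refine Real.exp_le_exp.2 (mul_le_mul_of_nonpos_left ?_ (neg_nonpos.2 Real.pi_pos.le))
  refine Finset.sum_le_sum fun v _ => ?_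
  rw [← add_div, hρ, div_inv_eq_mul, mul_comm, mul_assoc]
  exact mul_le_mul_of_nonneg_left (h p hp _ _ v) (Real.exp_pos _).le

/-- Bounded coefficients supported in a lattice. -/
def su_Bd {ι : Type} (e : ι → R K × R K) (a : ι → ℂ) : Prop :=
  Function.Injective e ∧ ∃ x : K, x ≠ 0 ∧
    ∀ i, ‖a i‖ ≤ 1 ∧ (a i ≠ 0 → (e i).1 ∈ Lat x ∧ (e i).2 ∈ Lat x)

theorem su_Bd.dom {ι : Type} {e : ι → R K × R K} {a : ι → ℂ} (h : su_Bd e a) (t : Pl K → ℝ)
    {C : Set (HH K)} (hC : IsCompact C) : ∃ u : ι → ℝ, Summable u ∧ ∀ i, ∀ p ∈ C,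
      ‖a i * (gQ t p (e i).1 (e i).2 : ℂ)‖ ≤ u i := by
  obtain ⟨he, x, hx, ha⟩ := h
  obtain ⟨u, hu, hu0, hle⟩ := su_dom hx t hC
  refine ⟨fun i => u (e i), hu.comp_injective he, fun i p hp => ?_⟩
  by_cases h0 : a i = 0
  · rw [h0, zero_mul, norm_zero]; exact hu0 _
  · rw [norm_mul, Complex.norm_real, Real.norm_of_nonneg (su_gQ_pos _ _ _ _).le]
    exact (mul_le_of_le_one_left (su_gQ_pos _ _ _ _).le (ha i).1).trans
      (hle p hp _ ((ha i).2 h0).1 ((ha i).2 h0).2)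

theorem su_Bd.summable {ι : Type} {e : ι → R K × R K} {a : ι → ℂ} (h : su_Bd e a) (t : Pl K → ℝ)
    (p : HH K) : Summable fun i => ‖a i * (gQ t p (e i).1 (e i).2 : ℂ)‖ := by
  obtain ⟨u, hu, hle⟩ := h.dom t (isCompact_singleton (x := p))
  exact hu.of_nonneg_of_le (fun _ => norm_nonneg _) fun i => hle i p rfl

theorem su_Bd.cont {ι : Type} {e : ι → R K × R K} {a : ι → ℂ} (h : su_Bd e a) (t : Pl K → ℝ) :
    Continuous fun p : HH K => ∑' i, a i * (gQ t p (e i).1 (e i).2 : ℂ) := by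
  refine continuous_iff_continuousAt.2 fun p => ?_
  obtain ⟨C, hC, hp⟩ := exists_compact_mem_nhds p
  obtain ⟨u, hu, hle⟩ := h.dom t hC
  exact (continuousOn_tsum (fun i => (continuous_const.mul
    (continuous_ofReal.comp (su_gQ_cont t _ _))).continuousOn) hu hle).continuousAt hp

/-- Right multiplication of rows by a matrix. -/
def su_ra (g : SLR K) : R K × R K ≃ R K × R K where
  toFun x := (x.1 * g.1 0 0 + x.2 * g.1 1 0, x.1 * g.1 0 1 + x.2 * g.1 1 1)
  invFun x := (x.1 * g.1 1 1 - x.2 * g.1 1 0, -(x.1 * g.1 0 1) + x.2 * g.1 0 0)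
  left_inv x := by
    have h := g.det_coe
    rw [Matrix.det_fin_two] at h
    exact Prod.ext (by linear_combination x.1 * h) (by linear_combination x.2 * h)
  right_inv x := by
    have h := g.det_coe
    rw [Matrix.det_fin_two] at h
    exact Prod.ext (by linear_combination x.1 * h) (by linear_combination x.2 * h)

theorem su_gQ_zero (t : Pl K → ℝ) (z : Pl K → ℂ) (y : Pl K → ℝ) (d : R K) :
    gQ t (pt z y) 0 d = gau (fun v => Real.exp (-y v - 2 * t v)) (emb (d : K)) := by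
  unfold gQ gau Qh
  congr 2
  refine Finset.sum_congr rfl fun v _ => ?_
  have h0 : emb ((0 : R K) : K) v = 0 := by simp [emb]
  dsimp only
  rw [h0, pt_snd, show -y v - 2 * t v = -(2 * t v + y v) by ring, Real.exp_neg (2 * t v + y v),
    Real.exp_add, div_inv_eq_mul, zero_mul, zero_add, norm_zero]
  ring

variable [Q : Rec K]

theorem su_Bd_phi (g : SLR K) (A : R K × R K → Prop) [DecidablePred A] :
    su_Bd id (fun z : R K × R K => if A z then phi g z.1 z.2 else 0) := by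
  obtain ⟨x, hx, h⟩ := phi_supp g
  refine ⟨Function.injective_id, x, hx, fun z => ?_⟩
  dsimp only
  split_ifs
  · exact ⟨norm_phi_le _ _ _, fun h0 => ⟨(h _ _ h0).1, (h _ _ h0).2.1⟩⟩
  · simp

theorem su_Bd_row (g : SLR K) (c : R K) : su_Bd (fun d : R K => (c, d)) (phi g c) := by
  obtain ⟨x, hx, h⟩ := phi_supp g
  exact ⟨Prod.mk_right_injective c, x, hx, fun d =>
    ⟨norm_phi_le _ _ _, fun h0 => ⟨(h _ _ h0).1, (h _ _ h0).2.1⟩⟩⟩

theorem su_u0_le (g : SLR K) (Y : ℝ) : ∃ C : ℝ, ∀ t : Pl K → ℝ, ∑ v, t v ≤ 0 → ∀ y ∈ cube K Y,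
    ‖u0 g t y‖ ≤ C * Real.exp (2 / 3 * ∑ v, t v) := by
  classical
  obtain ⟨x, hx, h⟩ := phi_supp g
  obtain ⟨C, hC0, hC⟩ := su_tsum_gau_le (K := K)
  refine ⟨C * (1 + Real.exp (rr K * Y) / NS x), fun t ht y hy => ?_⟩
  set ρ : Pl K → ℝ := fun v => Real.exp (-y v - 2 * t v) with hρ
  have hρ0 : ∀ v, 0 < ρ v := fun v => Real.exp_pos _
  have hN := NS_pos hx
  have h1 : ‖∑' d : R K, phi g 0 d * (gQ t (pt 0 y) 0 d : ℂ)‖ ≤
      ∑' n : Lat x, gau ρ (emb ((n : R K) : K)) := by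
    rw [← su_tsum x fun n => gau ρ (emb (n : K))]
    refine tsum_of_norm_bounded ((su_summable_iff x _).2 (su_summable_gau0 hx hρ0)).hasSum
      fun d => ?_
    rw [norm_mul, su_gQ_zero, Complex.norm_real, Real.norm_of_nonneg (su_gau_pos _ _).le]
    split_ifs with hd
    · exact mul_le_of_le_one_left (su_gau_pos _ _).le (norm_phi_le _ _ _)
    · rw [not_not.1 fun h0 => hd (h 0 d h0).2.1, norm_zero, zero_mul]
  have h2 : ∏ v, ρ v ≤ Real.exp (rr K * Y) * Real.exp (-(2 * ∑ v, t v)) := by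
    rw [hρ, ← Real.exp_sum, ← Real.exp_add, Finset.sum_sub_distrib, ← Finset.mul_sum]
    refine Real.exp_le_exp.2 ?_
    have : ∑ v, -y v ≤ ∑ _v : Pl K, Y := Finset.sum_le_sum fun v _ => neg_le.1 (hy.1 v)
    rw [Finset.sum_const, Finset.card_univ, nsmul_eq_mul] at this
    linarith
  have h3 : (1 : ℝ) ≤ Real.exp (-(2 * ∑ v, t v)) := Real.one_le_exp (by linarith)
  have h4 : Real.exp (8 / 3 * ∑ v, t v) * Real.exp (-(2 * ∑ v, t v)) =
      Real.exp (2 / 3 * ∑ v, t v) := by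
    rw [← Real.exp_add]; congr 1; ring
  rw [u0, norm_mul, Complex.norm_real, Real.norm_of_nonneg (Real.exp_pos _).le, ← h4]
  calc _ ≤ Real.exp (8 / 3 * ∑ v, t v) * (C * (Real.exp (-(2 * ∑ v, t v)) +
        Real.exp (rr K * Y) * Real.exp (-(2 * ∑ v, t v)) / NS x)) := by
        refine mul_le_mul_of_nonneg_left (h1.trans ((hC x hx ρ hρ0).trans ?_)) (Real.exp_pos _).le
        gcongr
    _ = _ := by ring

end Crest.Agent.GQ
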