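import Crest.Agent.GQ.ThL2
import Crest.Agent.GQ.ThConv

/-! # GQ ThT: existence of the residues -/

set_option autoImplicit false

noncomputable section

open NumberField Complex
open scoped ComplexConjugate

namespace Crest.Agent.GQ

variable {K : Type} [Field K] [NumberField K] [P : Pre K]

variable [Q : Rec K]

theorem adm_bet {g : SLR K} {x : K} (hx : IsPer g x) {r : R K} (hr : r ∈ Lat (x * dl K)⁻¹) :
    Adm (bet g x r) := by
  obtain ⟨j, C, Λ, -, h1, -, -, h2, h3⟩ := bet_struct hx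
  have hN : ∀ c : K, 0 ≤ Nm c := fun c => Finset.prod_nonneg fun _ _ => sq_nonneg _
  refine ⟨(MK K ^ j)⁻¹, |C|, 1, inv_ne_zero (pow_ne_zero _ MK_ne_zero), fun c hc => ?_, fun c => ?_⟩
  · rw [h1 r hr] at hc
    obtain ⟨h4, h5, -⟩ := h3 r c (left_ne_zero_of_mul hc)
    exact ⟨h4, h5⟩
  · rw [Real.rpow_one]
    by_cases hc : c = 0
    · rw [bet, if_pos hc, norm_zero]
      exact mul_nonneg (abs_nonneg _) (hN _)
    · have h4 := NS_pos (fl_coe_ne hc)
      rw [h1 r hr, norm_mul, Nm_coe, mul_comm (Nr c), ← mul_assoc]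
      exact mul_le_mul ((h2 r c).trans (mul_le_mul_of_nonneg_right (le_abs_self C) h4.le))
        (norm_gs_le hc (norm_kap_le c) r) (norm_nonneg _) (by positivity)

theorem adm_gcl (r : R K) {c₀ : K} (hc : c₀ ≠ 0) : Adm (gcl r c₀) := by
  have hN : ∀ c : K, 0 ≤ Nm c := fun c => Finset.prod_nonneg fun _ _ => sq_nonneg _
  have h0 := NS_pos hc
  refine ⟨c₀, (NS c₀)⁻¹, 1, hc, fun c h => ?_, fun c => ?_⟩
  · have h1 : c ∈ cls Q.k c₀ := by
      by_contra h1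
      exact h (by rw [gcl, if_neg h1])
    exact ⟨ne_zero_of_mem_cls Q.hk hc h1, mem_Lat_of_mem_cls h1⟩
  · rw [Real.rpow_one, gcl]
    split_ifs with h1
    · rw [Nm_coe, NS_cls Q.hk hc h1, mul_comm (Nr c), inv_mul_cancel_left₀ h0.ne']
      exact norm_gs_le (ne_zero_of_mem_cls Q.hk hc h1) (norm_kap_le c) r
    · rw [norm_zero]
      exact mul_nonneg (inv_nonneg.2 h0.le) (hN _)

open MeasureTheory in
open Classical in
theorem tt_bessel {g : SLR K} {x : K} (hx : IsPer g x) {r : R K} (hr0 : r ≠ 0)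
    (hr : r ∈ Lat (x * dl K)⁻¹) (Y : ℝ) : ∃ (C : Set (HH K)) (c : ℝ), IsCompact C ∧ 0 < c ∧
    ∀ (q : R K) (t t' : Pl K → ℝ) (μ : ℂ),
      ∫ y in cube K Y, ‖Dt (fun c => if q ∣ c then bet g x r c else 0)
          (ff (fun v => ‖emb (r : K) v‖) y) t -
        μ * Dt (bet g x r) (ff (fun v => ‖emb (r : K) v‖) y) t'‖ ^ 2 ≤
        c * ∫ p in C, ‖ThQ q g t p - μ * Th g t' p‖ ^ 2 := by
  obtain ⟨C, c, hC, h⟩ := bessel hx Y
  have hN : 0 < cov K * NS x := mul_pos cov_pos (NS_pos hx.1)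
  refine ⟨C, (cov K * NS x) ^ 2 * (|c| + 1), hC, by positivity, fun q t t' μ => ?_⟩
  have h1 := h q t t' μ {r} fun r' hr' => by
    rw [Finset.mem_singleton.1 hr']; exact ⟨hr0, hr⟩
  rw [Finset.sum_singleton] at h1
  have h2 : ∀ y, ‖Dt (fun c => if q ∣ c then bet g x r c else 0)
        (ff (fun v => ‖emb (r : K) v‖) y) t -
      μ * Dt (bet g x r) (ff (fun v => ‖emb (r : K) v‖) y) t'‖ ^ 2 =
      (cov K * NS x) ^ 2 * ‖fc q g x r t y - μ * fc 1 g x r t' y‖ ^ 2 := by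
    intro y
    have h3 : ((cov K * NS x : ℝ) : ℂ) ≠ 0 := ofReal_ne_zero.2 hN.ne'
    rw [← mul_pow]
    congr 1
    conv_rhs => rw [← Real.norm_of_nonneg hN.le, ← norm_real, ← norm_mul]
    congr 1
    simp only [fc, one_dvd, if_true]
    field_simp
  simp_rw [h2]
  rw [integral_const_mul, mul_assoc]
  refine mul_le_mul_of_nonneg_left (h1.trans ?_) (by positivity)
  exact mul_le_mul_of_nonneg_right (by linarith [le_abs_self c])
    (integral_nonneg fun _ => by positivity)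

omit Q in
open MeasureTheory in
theorem tt_lim2 {β β' : R K → ℂ} (hβ : Adm β) (hβ' : Adm β') {ρ : Pl K → ℝ} (hρ : ∀ v, 0 < ρ v)
    {τ μ : ℂ} (h : Lim2 β ρ τ) (h' : ∀ Y : ℝ, Filter.Tendsto (fun t => ∫ y in cube K Y,
      ‖Dt β' (ff ρ y) t - μ * Dt β (ff ρ y) t‖ ^ 2) (tF K) (nhds 0)) : Lim2 β' ρ (μ * τ) := by
  intro Y
  have hK : IsCompact (cube K Y) := isCompact_Icc
  have h1 := ((h' Y).const_mul 2).add ((h Y).const_mul (2 * ‖μ‖ ^ 2))
  rw [mul_zero, mul_zero, add_zero] at h1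
  refine squeeze_zero (fun t => integral_nonneg fun _ => by positivity) (fun t => ?_) h1
  have c1 := continuous_Dt_ff hβ hρ t
  have c2 := continuous_Dt_ff hβ' hρ t
  have c3 := continuous_MF_ff hρ
  have i1 : IntegrableOn (fun y => 2 * ‖Dt β' (ff ρ y) t - μ * Dt β (ff ρ y) t‖ ^ 2) (cube K Y) :=
    Continuous.continuousOn (by fun_prop) |>.integrableOn_compact hK
  have i2 : IntegrableOn (fun y => 2 * ‖μ‖ ^ 2 * ‖Dt β (ff ρ y) t - τ * (MF (ff ρ y) : ℂ)‖ ^ 2)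
      (cube K Y) := Continuous.continuousOn (by fun_prop) |>.integrableOn_compact hK
  rw [← integral_const_mul, ← integral_const_mul, ← integral_add i1 i2]
  refine integral_mono_of_nonneg (Filter.Eventually.of_forall fun _ => by positivity) (i1.add i2)
    (Filter.Eventually.of_forall fun y => ?_)
  dsimp only
  have h2 := norm_add_le (Dt β' (ff ρ y) t - μ * Dt β (ff ρ y) t)
    (μ * (Dt β (ff ρ y) t - τ * (MF (ff ρ y) : ℂ)))
  rw [norm_mul, show Dt β' (ff ρ y) t - μ * Dt β (ff ρ y) t +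
    μ * (Dt β (ff ρ y) t - τ * (MF (ff ρ y) : ℂ)) =
      Dt β' (ff ρ y) t - μ * τ * (MF (ff ρ y) : ℂ) by ring] at h2
  refine (pow_le_pow_left₀ (norm_nonneg _) h2 2).trans ?_
  nlinarith [sq_nonneg (‖Dt β' (ff ρ y) t - μ * Dt β (ff ρ y) t‖ -
    ‖μ‖ * ‖Dt β (ff ρ y) t - τ * (MF (ff ρ y) : ℂ)‖)]

open Classical in
theorem exists_lim2_bet {g : SLR K} {x : K} (hx : IsPer g x) {r : R K} (hr0 : r ≠ 0)
    (hr : r ∈ Lat (x * dl K)⁻¹) : ∃ τ : ℂ, Lim2 (bet g x r) (fun v => ‖emb (r : K) v‖) τ ∧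
      ∀ q : R K, Prime q → Lim (fun c => if q ∣ c then bet g x r c else 0)
        (((Nr q + 1 : ℝ) : ℂ)⁻¹ * τ) := by
  have hβ := adm_bet hx hr
  have hρ : ∀ v, 0 < ‖emb (r : K) v‖ := fun v => norm_pos_iff.2 (emb_ne_zero (fl_coe_ne hr0) v)
  obtain ⟨τ, hτ⟩ := exists_lim2 hβ hρ (fun Y ε hε => by
      obtain ⟨C, c, hC, hc, h⟩ := tt_bessel hx hr0 hr Y
      obtain ⟨L, hL⟩ := th_cauchy g hC (div_pos hε hc)
      refine ⟨L, fun t t' ht ht' => ?_⟩
      have h1 := h 1 t t' 1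
      simp only [one_dvd, if_true, one_mul] at h1
      refine h1.trans ((mul_le_mul_of_nonneg_left (hL t t' ht ht') hc.le).trans_eq ?_)
      field_simp)
    (fun Y => by
      obtain ⟨C, c, hC, hc, h⟩ := tt_bessel hx hr0 hr Y
      obtain ⟨B, hB⟩ := th_bdd g hC
      refine ⟨c * B, fun t ht => ?_⟩
      have h1 := h 1 t t 0
      simp only [one_dvd, if_true, zero_mul, sub_zero] at h1
      exact h1.trans (mul_le_mul_of_nonneg_left (hB t ht) hc.le))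
  refine ⟨τ, hτ, fun q hq => ?_⟩
  have hβ' : Adm (fun c => if q ∣ c then bet g x r c else 0) :=
    hβ.of_le (a := 1) fun c => by split_ifs <;> simp
  refine (tt_lim2 hβ hβ' hρ hτ fun Y => ?_).lim hβ' hρ
  obtain ⟨C, c, hC, hc, h⟩ := tt_bessel hx hr0 hr Y
  have h1 := (th_null g hq hC).const_mul c
  rw [mul_zero] at h1
  exact squeeze_zero (fun t => MeasureTheory.integral_nonneg fun _ => by positivity)
    (fun t => h q t t _) h1

open Classical in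
/-- existence of the residue, together with the relation for the multiples of a prime -/
def tt_P (r : R K) (c₀ : K) : Prop := ∃ τ : ℂ, Lim (gcl r c₀) τ ∧
  ∀ q : R K, Prime q → Lim (fun c => if q ∣ c then gcl r c₀ c else 0) (((Nr q + 1 : ℝ) : ℂ)⁻¹ * τ)

theorem tt_P_std {r c₀ : R K} (hr0 : r ≠ 0) (hc : c₀ ≠ 0)
    (hr : r ∈ Lat (MM K / (c₀ : K) ^ 2 * dl K)⁻¹) : tt_P r (c₀ : K) := by
  classical
  obtain ⟨g, κ, hκ, hx, h⟩ := bet_std hc
  obtain ⟨τ, h1, h2⟩ := exists_lim2_bet hx hr0 hr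
  have h3 := h1.lim (adm_bet hx hr) fun v => norm_pos_iff.2 (emb_ne_zero (fl_coe_ne hr0) v)
  have e : ∀ c, conj κ * bet g (MM K / (c₀ : K) ^ 2) r c = gcl r c₀ c := fun c => by
    rw [h r hr, ← mul_assoc, ga_conj_mul hκ, one_mul]
  refine ⟨conj κ * τ, by simpa only [e] using h3.const_mul (conj κ), fun q hq => ?_⟩
  have h4 := (h2 q hq).const_mul (conj κ)
  rw [mul_left_comm] at h4
  simpa only [mul_ite, mul_zero, e] using h4

theorem tt_P_unit {r : R K} {c : K} (hc : c ≠ 0) {u : R K} (hu : IsUnit u) (h : tt_P r c) :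
    tt_P r (c * u) := by
  classical
  obtain ⟨τ, h1, h2⟩ := h
  have hu0 : u ≠ 0 := hu.ne_zero
  have huK : (u : K) ≠ 0 := fl_coe_ne hu0
  have h0 : gcl r c 0 = 0 := if_neg fun h => ne_zero_of_mem_cls Q.hk hc h rfl
  have e : ∀ n, gcl r (c * u) (u * n) = Q.B (u : K) c * gcl r c n := by
    intro n
    rw [gcl, gcl, mul_mem_cls_iff hu0, mul_div_cancel_right₀ c huK]
    split_ifs with h'
    · have hn0 : n ≠ 0 := ne_zero_of_mem_cls Q.hk hc h'
      have e1 : kap (u * n) = kap n := by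
        funext x; rw [kap_mul_left hu0 hn0, kap_unit_left hu, one_mul]
      rw [e1, (homog_kap n).gs_unit hn0 hu, B_unit hu hn0, B_cls_right le_rfl hc huK h']
    · rw [mul_zero]
  refine ⟨Q.B (u : K) c * (((Nm (u : K) ^ (-(4 / 3) : ℝ) : ℝ) : ℂ) * τ), ?_, fun q hq => ?_⟩
  · convert (h1.shift h0 hu0).const_mul (Q.B (u : K) c) using 2 with n
    obtain ⟨n', rfl⟩ : u ∣ n := hu.dvd
    rw [if_pos (dvd_mul_right _ _), rdiv_mul hu0, e]
  · convert ((h2 q hq).shift (by simp [h0]) hu0).const_mul (Q.B (u : K) c) using 1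
    · funext n
      obtain ⟨n', rfl⟩ : u ∣ n := hu.dvd
      rw [if_pos (dvd_mul_right _ _), rdiv_mul hu0, e, hu.dvd_mul_left, mul_ite, mul_zero]
    · ring

theorem tt_P_all {r : R K} (hr : r ≠ 0) {c₀ : K} (hc : c₀ ≠ 0) : tt_P r c₀ := by
  have hM : MK K ≠ 0 := MK_ne_zero
  have hd : dl K ≠ 0 := dl_ne_zero
  obtain ⟨N, hN⟩ := exists_pow_mul_mem_T ((r : K) * MM K * dl K / c₀ ^ 2)
  have hc' : c₀ / MK K ^ N ≠ 0 := div_ne_zero hc (pow_ne_zero _ hM)
  obtain ⟨n, hn⟩ := cls_nonempty Q.k hc'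
  have hn0 : n ≠ 0 := ne_zero_of_mem_cls Q.hk hc' hn
  have hnK : (n : K) ≠ 0 := fl_coe_ne hn0
  have h1 : tt_P r (n : K) := by
    refine tt_P_std hr hn0 ?_
    have h2 := (InT_iff_div hnK).1 (InT_of_mem_cls Q.hk hc' hn)
    rw [mem_Lat, InT_iff_div (inv_ne_zero (mul_ne_zero (div_ne_zero (pow_ne_zero _ hM)
      (pow_ne_zero _ hnK)) hd))]
    convert (T K).mul_mem ((T K).mul_mem ((T K).pow_mem MK_mem_T N) hN) ((T K).pow_mem h2 2)
      using 1
    field_simp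
  have h3 : gcl r (n : K) = gcl r (c₀ / MK K ^ N) := by
    funext m
    rw [gcl, gcl, cls_eq_of_mem Q.hk hc' hn]
  have h4 : tt_P r (c₀ / MK K ^ N) := by
    unfold tt_P at h1 ⊢
    rwa [h3] at h1
  have hu : IsUnit (⟨MK K, MK_mem_R⟩ : R K) :=
    IsUnit.of_mul_eq_one ⟨(MK K)⁻¹, MK_inv_mem_R⟩ (Subtype.ext (mul_inv_cancel₀ hM))
  have h5 := tt_P_unit hc' (hu.pow N) h4
  rwa [SubmonoidClass.coe_pow, div_mul_cancel₀ _ (pow_ne_zero _ hM)] at h5

theorem lim_gcl {r : R K} (hr : r ≠ 0) {c₀ : K} (hc : c₀ ≠ 0) : Lim (gcl r c₀) (Tl r c₀) := by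
  obtain ⟨τ, h, -⟩ := tt_P_all hr hc
  exact Classical.epsilon_spec (p := fun τ => Lim (gcl r c₀) τ) ⟨τ, h⟩

open Classical in
theorem lim_gcl_dvd {r : R K} (hr : r ≠ 0) {c₀ : K} (hc : c₀ ≠ 0) {q : R K} (hq : Prime q) :
    Lim (fun c => if q ∣ c then gcl r c₀ c else 0) (((Nr q + 1 : ℝ) : ℂ)⁻¹ * Tl r c₀) := by
  obtain ⟨τ, h, h'⟩ := tt_P_all hr hc
  rw [(lim_gcl hr hc).unique h]
  exact h' q hq

end Crest.Agent.GQ
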