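import Crest.Agent.GQ.ThT2Aux

/-! # GQ ThT2: determination of the residues -/

set_option autoImplicit false

noncomputable section

open NumberField Complex
open scoped ComplexConjugate

namespace Crest.Agent.GQ

variable {K : Type} [Field K] [NumberField K] [P : Pre K]

variable [Q : Rec K]

theorem Tl_U (r : R K) {c u : K} (hu : u ∈ U Q.k) : Tl r (c * u) = Tl r c := t2_Tl_U r hu
theorem tt_U {c u : K} (hu : u ∈ U Q.k) : tt (c * u) = tt c := t2_F_U 1 hu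
theorem tt_unit {c : K} (hc : c ≠ 0) {u : R K} (hu : IsUnit u) :
    tt (c * u) = Q.B (u : K) c * tt c := t2_F_unit one_ne_zero hc hu
theorem tt_bdd : ∃ C : ℝ, ∀ c : K, c ≠ 0 → ‖tt c‖ ≤ C := t2_F_bdd one_ne_zero
theorem tt_cube {c x : K} (hc : c ≠ 0) (hx : x ≠ 0) : tt (c * x ^ 3) = tt c := t2_tt_cube hc hx
/-- the structure of the residues -/
theorem T_struct {r : R K} (hr : r ≠ 0) {c₀ : K} (hc : c₀ ≠ 0) :
    ((Nr r ^ (1 / 6 : ℝ) * NS c₀ ^ (4 / 3 : ℝ) : ℝ) : ℂ) * Tl r c₀ =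
      Gf r * Q.B (r : K) c₀ * tt (c₀ * r) := by
  rw [← t2_struct r hr c₀ hc, t2_F, Complex.ofReal_mul, mul_assoc]

end Crest.Agent.GQ
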