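import Crest.Agent.GQ.ThT

/-! # GQ ThT2Aux: local relations between the residues -/

set_option autoImplicit false

noncomputable section

open NumberField Complex
open scoped ComplexConjugate

namespace Crest.Agent.GQ

variable {K : Type} [Field K] [NumberField K] [P : Pre K]

theorem t2_g_neg (c r : R K) (hc : c ≠ 0) : gs (kap c) c (-r) = gs (kap c) c r := by
  have h := (homog_kap c).gs_mul hc (u := -1) (ga_unit_coprime isUnit_one.neg c) r
  rw [neg_one_mul, kap_neg_right, kap_one_right, map_one, one_mul] at h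
  exact h

theorem t2_g_sq {q : R K} (hq : q ≠ 0) (r : R K) :
    gs (fun x => kap q x ^ 2) q r = conj (gs (kap q) q r) := by
  rw [← t2_g_neg q r hq, conj_gs, neg_neg]
  simp only [conj_kap]

theorem t2_g_prime {q r : R K} (hq : Prime q) (hr : ¬ q ∣ r) :
    gs (kap q) q r = conj (kap q r) * (g3 q * (Real.sqrt (Nr q) : ℂ)) := by
  have h := (homog_kap q).gs_mul hq.ne_zero (u := r) (ga_coprime_prime hq hr).symm 1
  rw [mul_one] at h
  have hs : ((Real.sqrt (Nr q) : ℝ) : ℂ) ≠ 0 := by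
    have := Nr_pos hq.ne_zero
    exact_mod_cast (Real.sqrt_pos.2 this).ne'
  rw [h, g3, div_mul_cancel₀ _ hs]

theorem t2_g_norm {q r : R K} (hq : Prime q) (hr : ¬ q ∣ r) :
    gs (kap q) q r * conj (gs (kap q) q r) = (Nr q : ℂ) := by
  rw [← ga_normsq, t2_g_prime hq hr, norm_mul, norm_mul, Complex.norm_conj,
    fl_norm_kap hq.ne_zero (ga_coprime_prime hq hr), norm_g3 hq.squarefree, Complex.norm_real,
    Real.norm_of_nonneg (Real.sqrt_nonneg _), one_mul, one_mul, Real.sq_sqrt (Nr_nonneg q)]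

/-- twisted multiplicativity of `Gf` at a new prime -/
theorem t2_Gf_prime {q r : R K} (hq : Prime q) (hr : ¬ q ∣ r) :
    Gf (r * q) = Gf r * conj (g3 q) * conj (kap q r * kap r q) := by
  by_cases h : ∃ n m : R K, Squarefree n ∧ m ≠ 0 ∧ r = n * m ^ 3
  · obtain ⟨n, m, hn, hm, rfl⟩ := h
    have hqn : ¬ q ∣ n := fun e => hr (e.mul_right _)
    have hqm : ¬ q ∣ m := fun e => hr ((e.trans (dvd_pow_self m (by norm_num))).mul_left _)
    have hsq : Squarefree (n * q) :=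
      squarefree_mul_iff.2 ⟨(ga_coprime_prime hq hqn).symm.isRelPrime, hn, hq.squarefree⟩
    have h1 : kap q m ^ 3 = 1 := kap_cube (ga_kap_ne (ga_coprime_prime hq hqm).symm)
    have h2 : kap m q ^ 3 = 1 := kap_cube (ga_kap_ne (ga_coprime_prime hq hqm))
    have h3 : Gsf q = conj (g3 q) := by rw [Gsf, if_pos hq.squarefree]
    rw [show n * m ^ 3 * q = (n * q) * m ^ 3 by ring, Gf_eq hsq hm, Gf_eq hn hm,
      Gsf_mul hn.ne_zero hq.ne_zero, kap_mul_right, kap_pow_right,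
      kap_mul_left hn.ne_zero (pow_ne_zero 3 hm), kap_pow_left hm, h1, h2, h3]
    simp only [mul_one, map_mul]
    ring
  · rw [Gf_eq_zero h, zero_mul, zero_mul]
    refine Gf_eq_zero ?_
    rintro ⟨n, m, hn, hm, e⟩
    have hqm : ¬ q ∣ m := by
      rintro ⟨m', rfl⟩
      refine hr ⟨n * q * m' ^ 3, mul_right_cancel₀ hq.ne_zero ?_⟩
      rw [e]; ring
    have hqn : q ∣ n := by
      have : q ∣ n * m ^ 3 := e ▸ dvd_mul_left q r
      exact (hq.dvd_or_dvd this).resolve_right fun e' => hqm (hq.dvd_of_dvd_pow e')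
    obtain ⟨n', rfl⟩ := hqn
    refine h ⟨n', m, hn.of_mul_right, hm, mul_right_cancel₀ hq.ne_zero ?_⟩
    rw [e]; ring

theorem t2_Gf_sq {q r : R K} (hq : Prime q) (hr : ¬ q ∣ r) : Gf (r * q ^ 2) = 0 := by
  refine Gf_eq_zero ?_
  rintro ⟨n, m, hn, hm, e⟩
  have hqm : ¬ q ∣ m := by
    rintro ⟨m', rfl⟩
    refine hr ⟨n * m' ^ 3, mul_right_cancel₀ (pow_ne_zero 2 hq.ne_zero) ?_⟩
    rw [e]; ring
  have h2 : q ^ 2 ∣ n * m ^ 3 := e ▸ dvd_mul_left _ r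
  have h3 : q ^ 2 ∣ n := (ga_coprime_prime hq hqm).pow.dvd_of_dvd_mul_right h2
  exact hq.not_isUnit (hn q (by rwa [← sq]))

theorem t2_Gf_unit {u : R K} (hu : IsUnit u) : Gf u = 1 := by
  have h := Gf_eq hu.squarefree (m := 1) one_ne_zero
  rw [one_pow, mul_one, Nr_eq_one.2 isUnit_one, Real.sqrt_one, Gsf, if_pos hu.squarefree,
    ← g6_two, g6_unit hu] at h
  simpa using h

theorem t2_norm_shift {c₀ : K} (hc : c₀ ≠ 0) {d : R K} (hd : d ≠ 0) :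
    NS c₀ ^ (4 / 3 : ℝ) * Nm (d : K) ^ (-(4 / 3) : ℝ) =
      Nr d ^ (-(4 / 3) : ℝ) * NS (c₀ / d) ^ (4 / 3 : ℝ) := by
  have h1 := NS_pos hc
  have h2 := NS_pos (fl_coe_ne hd)
  have h3 := Nr_pos hd
  rw [Nm_coe, NS_div, Real.mul_rpow h3.le h2.le, Real.div_rpow h1.le h2.le, Real.rpow_neg h2.le]
  ring

variable [Q : Rec K]

/-- the normalised residue -/
def t2_F (r : R K) (c : K) : ℂ := ((NS c ^ (4 / 3 : ℝ) : ℝ) : ℂ) * Tl r c

open Classical in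
/-- the coefficients prime to `q` -/
def t2_D (q r : R K) (c₀ : K) (c : R K) : ℂ := if q ∣ c then 0 else gcl r c₀ c

theorem t2_gcl_zero (r : R K) {c₀ : K} (hc : c₀ ≠ 0) : gcl r c₀ 0 = 0 :=
  if_neg fun h => ne_zero_of_mem_cls Q.hk hc h rfl

theorem t2_gcl_U (r : R K) {c u : K} (hu : u ∈ U Q.k) : gcl r (c * u) = gcl r c := by
  funext n
  rw [gcl, gcl, cls_mul_U Q.hk hu]

theorem t2_Tl_U (r : R K) {c u : K} (hu : u ∈ U Q.k) : Tl r (c * u) = Tl r c := by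
  rw [Tl, Tl, t2_gcl_U r hu]

theorem t2_F_U (r : R K) {c u : K} (hu : u ∈ U Q.k) : t2_F r (c * u) = t2_F r c := by
  rw [t2_F, t2_F, t2_Tl_U r hu, NS_mul, NS_U Q.hk hu, mul_one]

theorem t2_lim_D {r : R K} (hr : r ≠ 0) {c₀ : K} (hc : c₀ ≠ 0) {q : R K} (hq : Prime q) :
    Lim (t2_D q r c₀) ((Nr q : ℂ) * (((Nr q + 1 : ℝ) : ℂ)⁻¹ * Tl r c₀)) := by
  classical
  have h1 := lim_gcl hr hc
  have h2 := (lim_gcl_dvd hr hc hq).const_mul (-1)
  have ha : Adm (fun c => (-1 : ℂ) * (if q ∣ c then gcl r c₀ c else 0)) :=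
    (adm_gcl r hc).of_le (a := 1) fun c => by
      split_ifs <;> simp
  have h3 := Lim.add (adm_gcl r hc) ha h1 h2
  have hne : ((Nr q + 1 : ℝ) : ℂ) ≠ 0 := by
    have := Nr_nonneg q
    exact_mod_cast (by linarith : Nr q + 1 ≠ 0)
  have e1 : t2_D q r c₀ = fun c => gcl r c₀ c + (-1 : ℂ) * (if q ∣ c then gcl r c₀ c else 0) := by
    funext c
    rw [t2_D]
    split_ifs <;> simp
  have e2 : (Nr q : ℂ) * (((Nr q + 1 : ℝ) : ℂ)⁻¹ * Tl r c₀) =
      Tl r c₀ + (-1 : ℂ) * (((Nr q + 1 : ℝ) : ℂ)⁻¹ * Tl r c₀) := by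
    have : (Nr q : ℂ) = ((Nr q + 1 : ℝ) : ℂ) - 1 := by push_cast; ring
    rw [this]
    field_simp
    ring
  rw [e1, e2]
  exact h3

/-- relation (3) -/
theorem t2_Tl_cube {r : R K} (hr : r ≠ 0) {c₀ : K} (hc : c₀ ≠ 0) {q : R K} (hq : Prime q) :
    Tl (r * q ^ 3) c₀ = Tl r c₀ := by
  have h1 := t2_lim_D (mul_ne_zero hr (pow_ne_zero 3 hq.ne_zero)) hc hq
  have h2 := t2_lim_D hr hc hq
  have e : t2_D q (r * q ^ 3) c₀ = t2_D q r c₀ := by
    funext c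
    rw [t2_D, t2_D]
    split_ifs with h
    · rfl
    · rw [gcl, gcl]
      split_ifs with h'
      · have hc0 : c ≠ 0 := ne_zero_of_mem_cls Q.hk hc h'
        have hco : IsCoprime q c := ga_coprime_prime hq h
        rw [mul_comm r, (homog_kap c).gs_mul hc0 hco.pow_left, kap_pow_right,
          kap_cube (ga_kap_ne hco), map_one, one_mul]
      · rfl
  rw [e] at h1
  have h3 := h1.unique h2
  have hne : ((Nr q + 1 : ℝ) : ℂ)⁻¹ ≠ 0 := by
    have := Nr_nonneg q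
    refine inv_ne_zero ?_
    exact_mod_cast (by linarith : Nr q + 1 ≠ 0)
  have hq0 : (Nr q : ℂ) ≠ 0 := by exact_mod_cast (Nr_pos hq.ne_zero).ne'
  exact mul_left_cancel₀ hne (mul_left_cancel₀ hq0 h3)

theorem t2_F_cube {r : R K} (hr : r ≠ 0) {c₀ : K} (hc : c₀ ≠ 0) {q : R K} (hq : Prime q) :
    t2_F (r * q ^ 3) c₀ = t2_F r c₀ := by
  rw [t2_F, t2_F, t2_Tl_cube hr hc hq]

/-- splitting off a prime power -/
theorem t2_gcl_split (r : R K) {c₀ : K} (hc : c₀ ≠ 0) {q c : R K} (hq : Prime q) (h : ¬ q ∣ c)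
    (i : ℕ) : gcl r c₀ (q ^ i * c) = Q.B c₀ q ^ i * gs (kap (q ^ i)) (q ^ i) r *
      gcl (q ^ i * r) (c₀ / ((q ^ i : R K) : K)) c := by
  have hqi : q ^ i ≠ 0 := pow_ne_zero i hq.ne_zero
  have hc0 : c ≠ 0 := fun e => h (e ▸ dvd_zero q)
  have hqK : (q : K) ≠ 0 := fl_coe_ne hq.ne_zero
  rw [gcl, gcl, mul_mem_cls_iff hqi]
  split_ifs with h'
  · have hco : IsCoprime q c := ga_coprime_prime hq h
    have hcd : c₀ / ((q ^ i : R K) : K) ≠ 0 := div_ne_zero hc (fl_coe_ne hqi)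
    have e : kap (q ^ i * c) = fun x => kap (q ^ i) x * kap c x := by
      funext x; exact kap_mul_left hqi hc0 x
    have hB : Q.B (c : K) q = Q.B c₀ q := by
      rw [B_cls_left le_rfl hcd hqK h', div_eq_mul_inv,
        Q.B_mul_left _ _ _ hc (inv_ne_zero (fl_coe_ne hqi)) hqK, B_inv_left (fl_coe_ne hqi) hqK]
      push_cast
      rw [B_pow_left hqK hqK, B_self hqK, one_pow, map_one, mul_one]
    rw [e, gs_mul_coprime hqi hc0 hco.pow_left (homog_kap _) (homog_kap _),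
      (homog_kap c).gs_mul hc0 hco.pow_left, kap_pow_left hq.ne_zero, kap_pow_right,
      kap_flip hc0 hq.ne_zero, hB, map_pow, conj_kap]
    ring
  · rw [mul_zero]

/-- only one layer `q^i ∥ c` contributes -/
theorem t2_layer {r : R K} (hr : r ≠ 0) {c₀ : K} (hc : c₀ ≠ 0) {q : R K} (hq : Prime q) {i : ℕ}
    (hi : i ≠ 0) (h0 : ∀ j : ℕ, j ≠ 0 → j ≠ i → gs (kap (q ^ j)) (q ^ j) r = 0) :
    t2_F r c₀ = ((Nr q ^ (-(4 / 3) : ℝ) : ℝ) : ℂ) ^ i * Q.B c₀ q ^ i * gs (kap (q ^ i)) (q ^ i) r *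
      (Nr q : ℂ) * t2_F (q ^ i * r) (c₀ / ((q ^ i : R K) : K)) := by
  classical
  have hqi : q ^ i ≠ 0 := pow_ne_zero i hq.ne_zero
  have hcd : c₀ / ((q ^ i : R K) : K) ≠ 0 := div_ne_zero hc (fl_coe_ne hqi)
  have h1 := lim_gcl_dvd hr hc hq
  have hD0 : t2_D q (q ^ i * r) (c₀ / ((q ^ i : R K) : K)) 0 = 0 := if_pos (dvd_zero q)
  have h2 := (Lim.shift hD0 (t2_lim_D (mul_ne_zero hqi hr) hcd hq) hqi).const_mul
    (Q.B c₀ q ^ i * gs (kap (q ^ i)) (q ^ i) r)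
  have e : (fun c => if q ∣ c then gcl r c₀ c else 0) = fun c =>
      Q.B c₀ q ^ i * gs (kap (q ^ i)) (q ^ i) r *
        (if q ^ i ∣ c then t2_D q (q ^ i * r) (c₀ / ((q ^ i : R K) : K)) (rdiv c (q ^ i)) else 0) := by
    funext c
    rcases eq_or_ne c 0 with rfl | hc0
    · have : rdiv (0 : R K) (q ^ i) = 0 := by
        have := rdiv_mul (a := 0) hqi
        rwa [mul_zero] at this
      rw [if_pos (dvd_zero _), if_pos (dvd_zero _), this, hD0, t2_gcl_zero r hc, mul_zero]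
    obtain ⟨j, c', hc', rfl⟩ := WfDvdMonoid.max_power_factor' hc0 hq.not_isUnit
    have hlt : j < i → ¬ q ^ i ∣ q ^ j * c' := fun hji hd => by
      obtain ⟨l, rfl⟩ := Nat.exists_eq_add_of_lt hji
      rw [add_assoc, pow_add, mul_dvd_mul_iff_left (pow_ne_zero j hq.ne_zero), pow_succ'] at hd
      exact hc' ((dvd_mul_right q _).trans hd)
    rcases lt_trichotomy j i with hji | rfl | hji
    · rw [if_neg (hlt hji), mul_zero]
      rcases eq_or_ne j 0 with rfl | hj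
      · rw [pow_zero, one_mul, if_neg hc']
      · rw [t2_gcl_split r hc hq hc', h0 j hj hji.ne]
        simp
    · rw [if_pos ((dvd_pow_self q hi).mul_right _), if_pos (dvd_mul_right _ _), rdiv_mul hqi,
        t2_gcl_split r hc hq hc', t2_D, if_neg hc']
    · obtain ⟨l, rfl⟩ := Nat.exists_eq_add_of_lt hji
      have e1 : q ^ (i + l + 1) * c' = q ^ i * (q * (q ^ l * c')) := by ring
      rw [t2_gcl_split r hc hq hc', h0 _ (by omega) (by omega), e1, if_pos (dvd_mul_right (q ^ i) _),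
        rdiv_mul hqi, t2_D, if_pos (dvd_mul_right q _)]
      simp
  rw [e] at h1
  have h3 := h1.unique h2
  have hne : ((Nr q + 1 : ℝ) : ℂ) ≠ 0 := by
    have := Nr_nonneg q
    exact_mod_cast (by linarith : Nr q + 1 ≠ 0)
  have h4 : Tl r c₀ = Q.B c₀ q ^ i * gs (kap (q ^ i)) (q ^ i) r *
      (((Nm ((q ^ i : R K) : K) ^ (-(4 / 3) : ℝ) : ℝ) : ℂ) *
        ((Nr q : ℂ) * Tl (q ^ i * r) (c₀ / ((q ^ i : R K) : K)))) := by
    refine mul_left_cancel₀ (inv_ne_zero hne) ?_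
    rw [h3]; ring
  have h5 := congrArg (fun x : ℝ => (x : ℂ)) (t2_norm_shift hc hqi)
  have h6 : Nr (q ^ i) ^ (-(4 / 3) : ℝ) = (Nr q ^ (-(4 / 3) : ℝ)) ^ i := by
    rw [Nr_pow, ← Real.rpow_natCast, ← Real.rpow_natCast, ← Real.rpow_mul (Nr_nonneg q),
      ← Real.rpow_mul (Nr_nonneg q), mul_comm]
  rw [h6] at h5
  simp only [Complex.ofReal_mul, Complex.ofReal_pow] at h5
  rw [t2_F, t2_F, h4]
  linear_combination (Q.B c₀ q ^ i * gs (kap (q ^ i)) (q ^ i) r * (Nr q : ℂ) *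
    Tl (q ^ i * r) (c₀ / ((q ^ i : R K) : K))) * h5

theorem t2_F_unit {r : R K} (hr : r ≠ 0) {c : K} (hc : c ≠ 0) {u : R K} (hu : IsUnit u) :
    t2_F r (c * u) = Q.B (u : K) c * t2_F r c := by
  classical
  have hu0 : u ≠ 0 := hu.ne_zero
  have huK : (u : K) ≠ 0 := fl_coe_ne hu0
  have h1 := lim_gcl hr (mul_ne_zero hc huK)
  have h2 := (Lim.shift (t2_gcl_zero r hc) (lim_gcl hr hc) hu0).const_mul (Q.B (u : K) c)
  have e : gcl r (c * u) = fun n => Q.B (u : K) c * (if u ∣ n then gcl r c (rdiv n u) else 0) := by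
    funext n
    obtain ⟨n', rfl⟩ : u ∣ n := hu.dvd
    rw [if_pos (dvd_mul_right _ _), rdiv_mul hu0, gcl, gcl, mul_mem_cls_iff hu0,
      mul_div_cancel_right₀ c huK]
    split_ifs with h'
    · have hn0 : n' ≠ 0 := ne_zero_of_mem_cls Q.hk hc h'
      have e1 : kap (u * n') = kap n' := by
        funext x; rw [kap_mul_left hu0 hn0, kap_unit_left hu, one_mul]
      rw [e1, (homog_kap n').gs_unit hn0 hu, B_unit hu hn0, B_cls_right le_rfl hc huK h']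
    · rw [mul_zero]
  rw [e] at h1
  have h3 := h1.unique h2
  have h5 := congrArg (fun x : ℝ => (x : ℂ)) (t2_norm_shift (mul_ne_zero hc huK) hu0)
  rw [Nr_eq_one.2 hu, Real.one_rpow, one_mul, mul_div_cancel_right₀ c huK] at h5
  simp only [Complex.ofReal_mul] at h5
  rw [t2_F, t2_F, h3]
  linear_combination (Q.B (u : K) c * Tl r c) * h5

theorem t2_F_unit_left {r : R K} (hr : r ≠ 0) {c : K} (hc : c ≠ 0) {u : R K} (hu : IsUnit u) :
    t2_F (u * r) c = conj (Q.B (u : K) c) * t2_F r c := by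
  have hu0 : u ≠ 0 := hu.ne_zero
  have huK : (u : K) ≠ 0 := fl_coe_ne hu0
  have h1 := lim_gcl (mul_ne_zero hu0 hr) hc
  have h2 := (lim_gcl hr hc).const_mul (conj (Q.B (u : K) c))
  have e : gcl (u * r) c = fun n => conj (Q.B (u : K) c) * gcl r c n := by
    funext n
    rw [gcl, gcl]
    split_ifs with h'
    · have hn0 : n ≠ 0 := ne_zero_of_mem_cls Q.hk hc h'
      rw [(homog_kap n).gs_mul hn0 (ga_unit_coprime hu n), B_unit hu hn0,
        B_cls_right le_rfl hc huK h']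
    · rw [mul_zero]
  rw [e] at h1
  rw [t2_F, t2_F, h1.unique h2]
  ring

theorem t2_F_bdd {r : R K} (hr : r ≠ 0) : ∃ C : ℝ, ∀ c : K, c ≠ 0 → ‖t2_F r c‖ ≤ C := by
  obtain ⟨S, hS0, hS⟩ := cls_fin (K := K) Q.k one_pos
  refine ⟨∑ σ ∈ S, ‖t2_F r σ‖, fun c hc => ?_⟩
  obtain ⟨σ, hσ, u, hu⟩ := hS c hc
  have huK : ((u : R K) : K) ≠ 0 := fl_coe_ne u.ne_zero
  have hσ0 := hS0 σ hσ
  have e : c = σ * (u : R K) * (c / (((u : R K) : K) ^ 1 * σ)) := by field_simp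
  rw [e, t2_F_U r hu, t2_F_unit hr hσ0 u.isUnit, norm_mul, norm_B huK hσ0, one_mul]
  exact Finset.single_le_sum (f := fun σ => ‖t2_F r σ‖) (fun _ _ => norm_nonneg _) hσ

/-- `a = (N q)^{1/6}` -/
theorem t2_root {q : R K} (hq : q ≠ 0) : ∃ a : ℂ, a ≠ 0 ∧ ((Nr q ^ (1 / 6 : ℝ) : ℝ) : ℂ) = a ∧
    (Nr q : ℂ) = a ^ 6 ∧ ((Real.sqrt (Nr q) : ℝ) : ℂ) = a ^ 3 ∧
    ((Nr q ^ (-(4 / 3) : ℝ) : ℝ) : ℂ) = (a ^ 8)⁻¹ := by
  have h := Nr_pos hq
  refine ⟨_, ?_, rfl, ?_, ?_, ?_⟩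
  · exact_mod_cast (Real.rpow_pos_of_pos h _).ne'
  · rw [← Complex.ofReal_pow, ← Real.rpow_natCast, ← Real.rpow_mul h.le]
    norm_num
  · rw [← Complex.ofReal_pow, ← Real.rpow_natCast, ← Real.rpow_mul h.le, Real.sqrt_eq_rpow]
    norm_num
  · rw [← Complex.ofReal_pow, ← Real.rpow_natCast, ← Real.rpow_mul h.le, ← Complex.ofReal_inv,
      Real.rpow_neg h.le]
    norm_num

/-- relation (0) -/
theorem t2_rel0 {r : R K} {c₀ : K} (hc : c₀ ≠ 0) {q : R K} (hq : Prime q) (hr : ¬ q ∣ r) :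
    t2_F r c₀ = ((Nr q ^ (-(4 / 3) : ℝ) : ℝ) : ℂ) * Q.B c₀ q * gs (kap q) q r *
      (Nr q : ℂ) * t2_F (r * q) (c₀ / q) := by
  have hr0 : r ≠ 0 := fun e => hr (e ▸ dvd_zero q)
  have h := t2_layer hr0 hc hq one_ne_zero fun j hj hj1 => by
    have := gs_kap_prime_pow hq hr 0 j
    rwa [pow_zero, mul_one, if_neg hj, if_neg (by omega), if_neg (by omega)] at this
  simpa only [pow_one, mul_comm q r] using h

/-- relation (1) -/
theorem t2_rel1 {r : R K} {c₀ : K} (hc : c₀ ≠ 0) {q : R K} (hq : Prime q) (hr : ¬ q ∣ r) :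
    t2_F (r * q) c₀ = ((Nr q ^ (-(4 / 3) : ℝ) : ℝ) : ℂ) ^ 2 * Q.B c₀ q ^ 2 *
      ((Nr q : ℂ) * conj (gs (kap q) q r)) * (Nr q : ℂ) * t2_F r (c₀ / (q : K) ^ 2) := by
  have hr0 : r ≠ 0 := fun e => hr (e ▸ dvd_zero q)
  have hqK : (q : K) ≠ 0 := fl_coe_ne hq.ne_zero
  have h := t2_layer (mul_ne_zero hr0 hq.ne_zero) hc hq two_ne_zero fun j hj hj1 => by
    have := gs_kap_prime_pow hq hr 1 j
    rw [pow_one, if_neg hj] at this
    rw [this]
    split_ifs <;> first | rfl | omega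
  have h2 := gs_kap_prime_pow hq hr 1 2
  rw [pow_one, if_neg (by omega), if_neg (by omega), if_pos rfl, pow_one] at h2
  simp only [show ¬ 3 ∣ 2 by omega, if_false] at h2
  rw [h2, t2_g_sq hq.ne_zero, show q ^ 2 * (r * q) = r * q ^ 3 by ring,
    t2_F_cube hr0 (div_ne_zero hc (fl_coe_ne (pow_ne_zero 2 hq.ne_zero))) hq] at h
  exact_mod_cast h

/-- relation (2) -/
theorem t2_rel2 {r : R K} {c₀ : K} (hc : c₀ ≠ 0) {q : R K} (hq : Prime q) (hr : ¬ q ∣ r) :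
    (Nr q : ℂ) * t2_F (r * q ^ 2) c₀ = - t2_F (r * q ^ 2) (c₀ / (q : K) ^ 3) := by
  have hr0 : r ≠ 0 := fun e => hr (e ▸ dvd_zero q)
  have hr2 : r * q ^ 2 ≠ 0 := mul_ne_zero hr0 (pow_ne_zero 2 hq.ne_zero)
  have hqK : (q : K) ≠ 0 := fl_coe_ne hq.ne_zero
  have h := t2_layer hr2 hc hq three_ne_zero fun j hj hj1 => by
    have := gs_kap_prime_pow hq hr 2 j
    rw [if_neg hj] at this
    rw [this]
    split_ifs <;> first | rfl | omega
  have h2 := gs_kap_prime_pow hq hr 2 3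
  rw [if_neg (by omega), if_neg (by omega), if_pos rfl] at h2
  simp only [dvd_refl, if_true] at h2
  rw [h2, gs_kap_cube_prime hq hr, mul_comm (q ^ 3),
    t2_F_cube hr2 (div_ne_zero hc (fl_coe_ne (pow_ne_zero 3 hq.ne_zero))) hq,
    Q.B_cube _ _ hc hqK] at h
  obtain ⟨a, ha, -, h6, -, h8⟩ := t2_root hq.ne_zero
  rw [h, h6, h8]
  push_cast
  field_simp

theorem t2_F_sq {r : R K} {c₀ : K} (hc : c₀ ≠ 0) {q : R K} (hq : Prime q) (hr : ¬ q ∣ r) :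
    t2_F (r * q ^ 2) c₀ = 0 := by
  have hr0 : r ≠ 0 := fun e => hr (e ▸ dvd_zero q)
  have hr2 : r * q ^ 2 ≠ 0 := mul_ne_zero hr0 (pow_ne_zero 2 hq.ne_zero)
  have hqK : (q : K) ≠ 0 := fl_coe_ne hq.ne_zero
  obtain ⟨C, hC⟩ := t2_F_bdd hr2
  have h7 : (7 : ℝ) ≤ Nr q := by rw [Nr]; exact_mod_cast seven_le_nm hq
  have key : ∀ n : ℕ, ∀ c : K, c ≠ 0 → ‖t2_F (r * q ^ 2) c‖ ≤ C * (1 / 2) ^ n := by
    intro n
    induction n with
    | zero => simpa using hC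
    | succ n ih =>
      intro c hc
      have h1 := congrArg norm (t2_rel2 hc hq hr)
      rw [norm_mul, norm_neg, Complex.norm_real, Real.norm_of_nonneg (Nr_nonneg q)] at h1
      have h2 := ih _ (div_ne_zero hc (pow_ne_zero 3 hqK))
      have h3 := norm_nonneg (t2_F (r * q ^ 2) c)
      have h4 := mul_le_mul_of_nonneg_right h7 h3
      rw [pow_succ (1 / 2 : ℝ) n, ← mul_assoc]
      linarith
  have hlim : Filter.Tendsto (fun n : ℕ => C * (1 / 2 : ℝ) ^ n) Filter.atTop (nhds (C * 0)) :=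
    (tendsto_pow_atTop_nhds_zero_of_lt_one (by norm_num) (by norm_num)).const_mul C
  rw [mul_zero] at hlim
  exact norm_le_zero_iff.1 (ge_of_tendsto' hlim fun n => key n c₀ hc)

/-- invariance under cubes of primes not dividing `r` -/
theorem t2_F_prime_cube {r : R K} {c₀ : K} (hc : c₀ ≠ 0) {q : R K} (hq : Prime q) (hr : ¬ q ∣ r) :
    t2_F r (c₀ * (q : K) ^ 3) = t2_F r c₀ := by
  have hqK : (q : K) ≠ 0 := fl_coe_ne hq.ne_zero
  have hc3 : c₀ * (q : K) ^ 3 ≠ 0 := mul_ne_zero hc (pow_ne_zero 3 hqK)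
  have h0 := t2_rel0 hc3 hq hr
  have h1 := t2_rel1 (div_ne_zero hc3 hqK) hq hr
  have e1 : c₀ * (q : K) ^ 3 / q / (q : K) ^ 2 = c₀ := by field_simp
  have e2 : Q.B (c₀ * (q : K) ^ 3) q = Q.B c₀ q := by
    rw [Q.B_mul_left _ _ _ hc (pow_ne_zero 3 hqK) hqK, B_pow_left hqK hqK, B_self hqK, one_pow,
      mul_one]
  have e3 : Q.B (c₀ * (q : K) ^ 3 / q) q = Q.B c₀ q := by
    rw [show c₀ * (q : K) ^ 3 / q = c₀ * (q : K) ^ 2 by field_simp,
      Q.B_mul_left _ _ _ hc (pow_ne_zero 2 hqK) hqK, B_pow_left hqK hqK, B_self hqK, one_pow,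
      mul_one]
  have hg := t2_g_norm hq hr
  have hB := Q.B_cube _ _ hc hqK
  obtain ⟨a, ha, -, h6, -, h8⟩ := t2_root hq.ne_zero
  rw [e1, e3] at h1
  rw [h0, h1, e2, h8]
  rw [h6] at hg ⊢
  have : (a ^ 8)⁻¹ * Q.B c₀ q * gs (kap q) q r * a ^ 6 *
      ((a ^ 8)⁻¹ ^ 2 * Q.B c₀ q ^ 2 * (a ^ 6 * conj (gs (kap q) q r)) * a ^ 6 * t2_F r c₀) =
      (a ^ 6)⁻¹ * Q.B c₀ q ^ 3 * (gs (kap q) q r * conj (gs (kap q) q r)) * t2_F r c₀ := by
    field_simp
  rw [this, hB, hg]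
  field_simp

theorem t2_tt_cube_R (x : R K) : x ≠ 0 → ∀ c : K, c ≠ 0 → tt (c * (x : K) ^ 3) = tt c := by
  induction x using UniqueFactorizationMonoid.induction_on_prime with
  | h₁ => intro h; exact absurd rfl h
  | h₂ u hu =>
    intro hu0 c hc
    have huK : (u : K) ≠ 0 := fl_coe_ne hu0
    have h := t2_F_unit (r := 1) one_ne_zero hc (hu.pow 3)
    push_cast at h
    rw [B_pow_left huK hc, Q.B_cube _ _ huK hc, one_mul] at h
    exact h
  | h₃ a p ha hp ih =>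
    intro _ c hc
    have haK : (a : K) ≠ 0 := fl_coe_ne ha
    have h := t2_F_prime_cube (r := 1) (mul_ne_zero hc (pow_ne_zero 3 haK)) hp hp.not_dvd_one
    rw [← ih ha c hc]
    push_cast
    rw [show c * ((p : K) * a) ^ 3 = c * (a : K) ^ 3 * (p : K) ^ 3 by ring]
    exact h

theorem t2_tt_cube {c x : K} (hc : c ≠ 0) (hx : x ≠ 0) : tt (c * x ^ 3) = tt c := by
  obtain ⟨a, b, hb, -, e⟩ := exists_frac x
  have hbK : (b : K) ≠ 0 := fl_coe_ne hb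
  have ha : a ≠ 0 := fun h => mul_ne_zero hx hbK (by rw [e, h]; rfl)
  rw [← t2_tt_cube_R b hb _ (mul_ne_zero hc (pow_ne_zero 3 hx)), ← t2_tt_cube_R a ha c hc, ← e]
  congr 1
  ring

theorem t2_struct (r : R K) : r ≠ 0 → ∀ c₀ : K, c₀ ≠ 0 →
    ((Nr r ^ (1 / 6 : ℝ) : ℝ) : ℂ) * t2_F r c₀ = Gf r * Q.B (r : K) c₀ * tt (c₀ * r) := by
  induction r using (wellFounded_dvdNotUnit (α := R K)).induction with
  | _ r ih =>
  intro hr c₀ hc
  by_cases hu : IsUnit r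
  · have hrK : (r : K) ≠ 0 := fl_coe_ne hr
    have h1 := t2_F_unit_left (r := 1) one_ne_zero hc hu
    have h2 : tt (c₀ * r) = Q.B (r : K) c₀ * t2_F 1 c₀ := t2_F_unit (r := 1) one_ne_zero hc hu
    rw [mul_one] at h1
    rw [h1, h2, t2_Gf_unit hu, Nr_eq_one.2 hu, Real.one_rpow, conj_B hrK hc]
    push_cast
    ring
  obtain ⟨q, hq', hqr⟩ := WfDvdMonoid.exists_irreducible_factor hu hr
  have hq : Prime q := hq'.prime
  have hqK : (q : K) ≠ 0 := fl_coe_ne hq.ne_zero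
  obtain ⟨a, ha, h1, h6, h3, h8⟩ := t2_root hq.ne_zero
  obtain ⟨k, s, hs, rfl⟩ := WfDvdMonoid.max_power_factor' hr hq.not_isUnit
  have hs0 : s ≠ 0 := fun e => hs (e ▸ dvd_zero q)
  have hsK : (s : K) ≠ 0 := fl_coe_ne hs0
  match k with
  | 0 => exact absurd (by simpa using hqr) hs
  | 1 =>
    have hc2 : c₀ / (q : K) ^ 2 ≠ 0 := div_ne_zero hc (pow_ne_zero 2 hqK)
    have ih' := ih s ⟨hs0, q, hq.not_isUnit, by ring⟩ hs0 _ hc2
    have e1 : tt (c₀ * ((s * q : R K) : K)) = tt (c₀ / (q : K) ^ 2 * s) := by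
      rw [← t2_tt_cube (mul_ne_zero hc2 hsK) hqK]
      congr 1
      push_cast
      field_simp
    have hco : IsCoprime q s := ga_coprime_prime hq hs
    have hsq : Q.B (s : K) q ^ 3 = 1 := Q.B_cube _ _ hsK hqK
    have e2 : Q.B (s : K) (c₀ / (q : K) ^ 2) = Q.B (s : K) c₀ * Q.B (s : K) q := by
      rw [div_eq_mul_inv, Q.B_mul_right _ _ _ hsK hc (inv_ne_zero (pow_ne_zero 2 hqK)),
        B_inv_right hsK (pow_ne_zero 2 hqK), B_pow_right hsK hqK, map_pow, conj_B hsK hqK]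
      linear_combination (Q.B (s : K) c₀ * Q.B (s : K) q) * hsq
    have e3 : Q.B ((s * q : R K) : K) c₀ = Q.B (s : K) c₀ * Q.B c₀ q ^ 2 := by
      push_cast
      rw [Q.B_mul_left _ _ _ hsK hqK hc, B_symm hc hqK, conj_B hc hqK]
    have e4 : Q.B (s : K) q = kap q s * conj (kap s q) := Q.B_coprime s q hs0 hq.ne_zero hco.symm
    rw [pow_one, mul_comm q s, t2_rel1 hc hq hs, e1, e3, t2_Gf_prime hq hs, Nr_mul,
      Real.mul_rpow (Nr_nonneg s) (Nr_nonneg q), Complex.ofReal_mul, h1, h8, h6, t2_g_prime hq hs, h3]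
    rw [e2, e4] at ih'
    have e5 : conj a = a := by rw [← h1, Complex.conj_ofReal]
    simp only [map_mul, map_pow, Complex.conj_conj, e5]
    rw [conj_kap q s]
    have : ((Nr s ^ (1 / 6 : ℝ) : ℝ) : ℂ) * a * ((a ^ 8)⁻¹ ^ 2 * Q.B c₀ q ^ 2 *
        (a ^ 6 * (kap q s * (conj (g3 q) * a ^ 3))) * a ^ 6 * t2_F s (c₀ / (q : K) ^ 2)) =
        Q.B c₀ q ^ 2 * kap q s * conj (g3 q) *
          (((Nr s ^ (1 / 6 : ℝ) : ℝ) : ℂ) * t2_F s (c₀ / (q : K) ^ 2)) := by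
      field_simp
    rw [this, ih']
    ring
  | 2 => rw [mul_comm (q ^ 2) s, t2_F_sq hc hq hs, t2_Gf_sq hq hs]; simp
  | k + 3 =>
    have hs' : q ^ k * s ≠ 0 := mul_ne_zero (pow_ne_zero k hq.ne_zero) hs0
    have hsK' : ((q ^ k * s : R K) : K) ≠ 0 := fl_coe_ne hs'
    have e0 : q ^ (k + 3) * s = q ^ k * s * q ^ 3 := by ring
    have ih' := ih (q ^ k * s) ⟨hs', q ^ 3, fun h => hq.not_isUnit (isUnit_of_dvd_unit
      (dvd_pow_self q three_ne_zero) h), e0⟩ hs' c₀ hc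
    rw [e0]
    generalize q ^ k * s = s' at *
    have e1 : tt (c₀ * ((s' * q ^ 3 : R K) : K)) = tt (c₀ * s') := by
      rw [← t2_tt_cube (mul_ne_zero hc hsK') hqK]
      congr 1
      push_cast
      ring
    have e2 : Q.B ((s' * q ^ 3 : R K) : K) c₀ = Q.B (s' : K) c₀ := by
      push_cast
      rw [Q.B_mul_left _ _ _ hsK' (pow_ne_zero 3 hqK) hc, B_pow_left hqK hc, Q.B_cube _ _ hqK hc,
        mul_one]
    have e3 : Nr (s' * q ^ 3) ^ (1 / 6 : ℝ) = Nr s' ^ (1 / 6 : ℝ) * (Nr q ^ (1 / 6 : ℝ)) ^ 3 := by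
      rw [Nr_mul, Nr_pow, Real.mul_rpow (Nr_nonneg s') (pow_nonneg (Nr_nonneg q) 3),
        ← Real.rpow_natCast, ← Real.rpow_natCast, ← Real.rpow_mul (Nr_nonneg q),
        ← Real.rpow_mul (Nr_nonneg q), mul_comm ((3 : ℕ) : ℝ)]
    rw [t2_F_cube hs' hc hq, e1, e2, e3, Gf_cube _ hq.ne_zero, Complex.ofReal_mul,
      Complex.ofReal_pow, h1, h3]
    linear_combination a ^ 3 * ih'

end Crest.Agent.GQ
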