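import Crest.Agent.GQ.ThT2
import Crest.Agent.GQ.ThLim

/-! # GQ ThTheta: the theta coefficients -/

set_option autoImplicit false

noncomputable section

open NumberField Complex
open scoped ComplexConjugate

namespace Crest.Agent.GQ

variable {K : Type} [Field K] [NumberField K] [P : Pre K]

variable [Q : Rec K]

omit Q in
theorem th_NS_nonneg (x : K) : 0 ≤ NS x :=
  div_nonneg (Finset.prod_nonneg fun _ _ => sq_nonneg _) (div_nonneg (Nr_nonneg _) (Nr_nonneg _))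

omit Q in
theorem th_adm {x : K} (hx : x ≠ 0) {C : ℝ} {κ : R K → ℂ}
    (h1 : ∀ r, κ r ≠ 0 → r ≠ 0 ∧ r ∈ Lat x) (h2 : ∀ r : R K, ‖κ r‖ ≤ C * NS (r : K) ^ (1 / 6 : ℝ)) :
    Adm (fun r => κ r * Gf r) := by
  refine ⟨x, C, 1 / 6, hx, fun r hr => h1 r (left_ne_zero_of_mul hr), fun r => ?_⟩
  rw [norm_mul, Nm_coe, Real.mul_rpow (Nr_nonneg _) (th_NS_nonneg _), mul_comm (Nr r ^ _),
    ← mul_assoc]
  exact mul_le_mul (h2 r) (norm_Gf_le r) (norm_nonneg _) ((norm_nonneg _).trans (h2 r))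

theorem th_Tl {r : R K} (hr : r ≠ 0) {c₀ : K} (hc : c₀ ≠ 0) :
    ((Nr r ^ (1 / 6 : ℝ) : ℝ) : ℂ) * Tl r c₀ =
      ((NS c₀ ^ (-(4 / 3) : ℝ) : ℝ) : ℂ) * Q.B (r : K) c₀ * tt (c₀ * r) * Gf r := by
  have h1 := T_struct hr hc
  have h2 : ((NS c₀ ^ (4 / 3 : ℝ) : ℝ) : ℂ) ≠ 0 :=
    Complex.ofReal_ne_zero.2 (Real.rpow_pos_of_pos (NS_pos hc) _).ne'
  rw [Real.rpow_neg (th_NS_nonneg _), Complex.ofReal_inv]
  rw [Complex.ofReal_mul] at h1
  field_simp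
  linear_combination h1

omit Q in
theorem th_coef (x : K) (r : R K) :
    ((((2 : ℝ) ^ (-(2 / 3) : ℝ)) ^ rr K * Nm (r : K) ^ (1 / 6 : ℝ) / (cov K * NS x) : ℝ) : ℂ) =
      ((((2 : ℝ) ^ (-(2 / 3) : ℝ)) ^ rr K / (cov K * NS x) : ℝ) : ℂ) *
        ((NS (r : K) ^ (1 / 6 : ℝ) : ℝ) : ℂ) * ((Nr r ^ (1 / 6 : ℝ) : ℝ) : ℂ) := by
  rw [Nm_coe, Real.mul_rpow (Nr_nonneg _) (th_NS_nonneg _)]
  push_cast
  ring

theorem th_main {g : SLR K} {x : K} (hx : IsPer g x) : ∃ (j : ℕ) (C : ℝ) (κ : R K → ℂ),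
    Q.k ≤ j ∧ IsThCoef j C κ ∧ ((∀ c : K, c ≠ 0 → tt c = 0) → ∀ r, κ r = 0) ∧
    ∀ C : Set (HH K), IsCompact C → Filter.Tendsto (fun t => ∫ p in C,
      ‖Th g t p - (u0 g t p.2 + fc 1 g x 0 t p.2) - thS (fun r => κ r * Gf r) p‖ ^ 2)
      (tF K) (nhds 0) := by
  classical
  obtain ⟨j, C, Λ, hj, hbet, hΛc, hΛr, hΛb, hΛs⟩ := bet_struct hx
  have hk := Q.hk
  have hM : ∀ i : ℕ, (MK K ^ i)⁻¹ ≠ 0 := fun i => inv_ne_zero (pow_ne_zero _ MK_ne_zero)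
  obtain ⟨Cf, hCf⟩ := class_reps (K := K) hk
  obtain ⟨𝒞, -, h𝒞, huniq, hsum⟩ := hCf _ (hM j)
  have hs := (hsum (1 / 3) (by norm_num)).1
  choose ρ hρ using fun c : 𝒞 => cls_nonempty Q.k (h𝒞 c.1 c.2).1
  have hΛρ : ∀ (r : R K) (c₀ : 𝒞) (c : R K), c ∈ cls Q.k c₀.1 → Λ r c = Λ r (ρ c₀) :=
    fun r c₀ c hc => hΛc r _ _ (by rwa [cls_eq_of_mem hk (h𝒞 _ c₀.2).1 (hρ c₀)])
  have hNρ : ∀ c₀ : 𝒞, NS (ρ c₀ : K) = NS c₀.1 := fun c₀ => NS_cls hk (h𝒞 _ c₀.2).1 (hρ c₀)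
  obtain ⟨Ct, hCt⟩ := tt_bdd (K := K)
  obtain ⟨j₁, hj₁⟩ := exists_pow_mul_mem_T (x * dl K)⁻¹
  obtain ⟨A, hA⟩ : ∃ A : ℝ, A = ((2 : ℝ) ^ (-(2 / 3) : ℝ)) ^ rr K / (cov K * NS x) := ⟨_, rfl⟩
  obtain ⟨F, hF⟩ : ∃ F : R K → 𝒞 → ℂ, ∀ r c₀, F r c₀ = Λ r (ρ c₀) *
      (((NS c₀.1 ^ (-(4 / 3) : ℝ) : ℝ) : ℂ) * Q.B (r : K) c₀.1 * tt (c₀.1 * r)) :=
    ⟨_, fun _ _ => rfl⟩
  obtain ⟨κ, hκ⟩ : ∃ κ : R K → ℂ, ∀ r, κ r = if r ≠ 0 ∧ r ∈ Lat (x * dl K)⁻¹ then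
      (A : ℂ) * ((NS (r : K) ^ (1 / 6 : ℝ) : ℝ) : ℂ) * ∑' c₀, F r c₀ else 0 := ⟨_, fun _ => rfl⟩
  have hκs : ∀ r, κ r ≠ 0 → r ≠ 0 ∧ r ∈ Lat (x * dl K)⁻¹ := fun r hr => by
    by_contra h
    exact hr (by rw [hκ, if_neg h])
  have hFb : ∀ r : R K, r ≠ 0 → ∀ c₀ : 𝒞, ‖F r c₀‖ ≤ |C| * Ct * NS (MK K ^ j)⁻¹ ^ (-(1 / 3) : ℝ) *
      (NS c₀.1 / NS (MK K ^ j)⁻¹) ^ (-(1 / 3) : ℝ) := by
    intro r hr c₀
    have hc := (h𝒞 _ c₀.2).1
    have hN := NS_pos hc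
    have hN' := NS_pos (hM j)
    have h1 := hCt _ (mul_ne_zero hc (fl_coe_ne hr))
    have h2 : ‖Λ r (ρ c₀)‖ ≤ |C| * NS c₀.1 := by
      rw [← hNρ]
      exact (hΛb _ _).trans (mul_le_mul_of_nonneg_right (le_abs_self _) (th_NS_nonneg _))
    rw [hF, norm_mul, norm_mul, norm_mul, norm_B (fl_coe_ne hr) hc, mul_one, Complex.norm_real,
      Real.norm_of_nonneg (by positivity), mul_assoc (|C| * Ct),
      ← Real.mul_rpow hN'.le (by positivity), mul_div_cancel₀ _ hN'.ne']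
    calc _ ≤ |C| * NS c₀.1 * (NS c₀.1 ^ (-(4 / 3) : ℝ) * Ct) := by gcongr
      _ = |C| * Ct * (NS c₀.1 ^ (1 : ℝ) * NS c₀.1 ^ (-(4 / 3) : ℝ)) := by
          rw [Real.rpow_one]; ring
      _ = _ := by rw [← Real.rpow_add hN]; norm_num
  have hcoef : IsThCoef (j + j₁) (|A| * ∑' c₀ : 𝒞, |C| * Ct * NS (MK K ^ j)⁻¹ ^ (-(1 / 3) : ℝ) *
      (NS c₀.1 / NS (MK K ^ j)⁻¹) ^ (-(1 / 3) : ℝ)) κ := by
    refine ⟨fun r r' h => ?_, fun r hr => ⟨(hκs r hr).1, ?_⟩, fun r => ?_⟩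
    · by_cases hr : r = 0
      · obtain ⟨t, -, ht⟩ := h
        rw [hr] at ht ⊢
        rw [show r' = 0 from Subtype.ext (by simpa using ht)]
      have hr0 := fl_coe_ne hr
      have h1 : 1 ≤ j + j₁ := by omega
      have hr' := ne_zero_of_mem_cls h1 hr0 h
      have h2 : r' ∈ Lat (x * dl K)⁻¹ ↔ r ∈ Lat (x * dl K)⁻¹ :=
        ⟨fun h3 => InT.trans h3 (InT_of_mem_cls h1 hr0 h),
          fun h3 => InT.trans h3 (mem_Lat_of_mem_cls h)⟩
      have h3 : ∀ c₀, F r' c₀ = F r c₀ := fun c₀ => by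
        have hc := (h𝒞 _ c₀.2).1
        rw [hF, hF, hΛr r r' _ (cls_mono (by omega) _ h), B_cls_left (by omega) hr0 hc h,
          show c₀.1 * (r' : K) = c₀.1 * r * (r' / r) by field_simp,
          tt_U (U_mono (by omega) ((mem_cls_iff hr0).1 h))]
      simp only [hκ, h2, h3, NS_cls h1 hr0 h, ne_eq, hr, hr', not_false_eq_true]
    · refine InT.trans ?_ (hκs r hr).2
      refine ⟨MK K ^ j * (MK K ^ j₁ * (x * dl K)⁻¹),
        (T K).mul_mem ((T K).pow_mem MK_mem_T _) hj₁, ?_⟩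
      rw [← mul_assoc (MK K ^ j), ← pow_add, inv_mul_cancel_left₀ (pow_ne_zero _ MK_ne_zero)]
    · have hCt0 : 0 ≤ Ct := (norm_nonneg _).trans (hCt 1 one_ne_zero)
      have hN := th_NS_nonneg (r : K)
      rw [hκ]
      split_ifs with h
      · rw [norm_mul, norm_mul, Complex.norm_real, Complex.norm_real, Real.norm_eq_abs,
          Real.norm_of_nonneg (by positivity), mul_right_comm]
        gcongr
        exact tsum_of_norm_bounded (hs.mul_left _).hasSum (hFb r h.1)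
      · rw [norm_zero]
        refine mul_nonneg (mul_nonneg (abs_nonneg _) (tsum_nonneg fun c₀ => ?_)) (by positivity)
        have := th_NS_nonneg c₀.1
        have := th_NS_nonneg (MK K ^ j)⁻¹
        positivity
  refine ⟨j + j₁, _, κ, by omega, hcoef, fun h0 r => ?_, fun C' hC' => ?_⟩
  · rw [hκ]
    split_ifs with h
    · rw [tsum_congr (g := fun _ => 0) fun c₀ => by
        rw [hF, h0 _ (mul_ne_zero (h𝒞 _ c₀.2).1 (fl_coe_ne h.1)), mul_zero, mul_zero],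
        tsum_zero, mul_zero]
    · rfl
  refine tendsto_thS hx (τ₀ := fun r => ∑' c₀ : 𝒞, Λ r (ρ c₀) * Tl r c₀.1) (fun r hr hr0 => ?_)
    (fun r => ?_) (th_adm (hM _) hcoef.2.1 hcoef.2.2) hC'
  · have hfin : {c₀ : 𝒞 | Λ r (ρ c₀) ≠ 0}.Finite := by
      have hN' := NS_pos (hM j)
      have hr' := NS_pos (fl_coe_ne hr0)
      have h1 := hs.tendsto_cofinite_zero.eventually (gt_mem_nhds (show (0 : ℝ) <
        (NS (r : K) / NS (MK K ^ j)⁻¹ / NS (MK K ^ j)⁻¹) ^ (-(1 / 3) : ℝ) by positivity))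
      refine (Filter.eventually_cofinite.1 h1).subset fun c₀ hc₀ => ?_
      have h2 := NS_le_of_InT (fl_coe_ne hr0) (hΛs _ _ hc₀).2.2
      rw [div_eq_mul_inv, NS_mul, hNρ] at h2
      have h3 := NS_pos (h𝒞 _ c₀.2).1
      refine not_lt.2 (Real.rpow_le_rpow_of_nonpos (by positivity) ?_ (by norm_num))
      gcongr
      rwa [le_div_iff₀ hN']
    have h1 : bet g x r = fun c => ∑ c₀ ∈ hfin.toFinset, Λ r (ρ c₀) * gcl r c₀.1 c := by
      funext c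
      rw [hbet r hr]
      by_cases hc : Λ r c = 0
      · rw [hc, zero_mul]
        refine (Finset.sum_eq_zero fun c₀ _ => ?_).symm
        unfold gcl
        split_ifs with h
        · rw [← hΛρ r c₀ c h, hc, zero_mul]
        · rw [mul_zero]
      · obtain ⟨c₁, ⟨h1, h2⟩, h3⟩ := huniq c (hΛs _ _ hc).1 (hΛs _ _ hc).2.1
        rw [Finset.sum_eq_single (⟨c₁, h1⟩ : 𝒞)]
        · rw [← hΛρ r ⟨c₁, h1⟩ c h2, gcl, if_pos h2]
        · intro c₀ _ hne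
          rw [gcl, if_neg fun h => hne (Subtype.ext (h3 _ ⟨c₀.2, h⟩)), mul_zero]
        · intro h
          refine absurd (hfin.mem_toFinset.2 ?_) h
          rwa [Set.mem_ofPred_eq, ← hΛρ r ⟨c₁, h1⟩ c h2]
    rw [h1, tsum_eq_sum (s := hfin.toFinset) fun c₀ h => by
      rw [not_not.1 fun h' => h (hfin.mem_toFinset.2 h'), zero_mul]]
    exact Lim.sum _ (fun c₀ _ => (adm_gcl r (h𝒞 _ c₀.2).1).of_le (a := ‖Λ r (ρ c₀)‖)
      fun c => (norm_mul _ _).le) fun c₀ _ => (lim_gcl hr0 (h𝒞 _ c₀.2).1).const_mul _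
  · rw [hκ]
    split_ifs with h
    · rw [th_coef, ← hA, mul_assoc, mul_assoc _ (_ : ℂ) (∑' _, _), ← tsum_mul_left,
        ← tsum_mul_right]
      congr 1
      refine tsum_congr fun c₀ => ?_
      rw [hF, mul_left_comm _ (Λ _ _) (Tl _ _), th_Tl h.1 (h𝒞 _ c₀.2).1, mul_assoc]
    · rw [zero_mul]

omit Q in
theorem th_L2 {a b : HH K → ℂ} (ha : Continuous a) (hb : Continuous b) {C : Set (HH K)}
    (hC : IsCompact C) :
    ∫ p in C, ‖a p - b p‖ ^ 2 ≤ 2 * (∫ p in C, ‖a p‖ ^ 2) + 2 * ∫ p in C, ‖b p‖ ^ 2 := by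
  have h1 : ∀ {f : HH K → ℂ}, Continuous f → MeasureTheory.IntegrableOn (fun p => ‖f p‖ ^ 2) C :=
    fun hf => (hf.norm.pow 2).continuousOn.integrableOn_compact hC
  rw [← MeasureTheory.integral_const_mul, ← MeasureTheory.integral_const_mul,
    ← MeasureTheory.integral_add ((h1 ha).const_mul 2) ((h1 hb).const_mul 2)]
  refine MeasureTheory.integral_mono (h1 (ha.sub hb))
    (((h1 ha).const_mul 2).add ((h1 hb).const_mul 2)) fun p => ?_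
  have h2 := pow_le_pow_left₀ (norm_nonneg _) (norm_sub_le (a p) (b p)) 2
  simp only
  nlinarith [sq_nonneg (‖a p‖ - ‖b p‖)]

omit Q in
theorem th_unif {F : (Pl K → ℝ) → (Pl K → ℝ) → ℂ} {f : (Pl K → ℝ) → ℂ}
    (h : ∀ Y, TendstoUniformlyOn F f (tF K) (cube K Y)) {C : Set (HH K)} (hC : IsCompact C) :
    Filter.Tendsto (fun t => ∫ p in C, ‖f p.2 - F t p.2‖ ^ 2) (tF K) (nhds 0) := by
  obtain ⟨Y, hY⟩ := hC.isBounded.exists_norm_le
  have hV : 0 ≤ MeasureTheory.volume.real C := MeasureTheory.measureReal_nonneg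
  rw [Metric.tendsto_nhds]
  intro ε hε
  obtain ⟨η, hη, h1, h2⟩ : ∃ η : ℝ, 0 < η ∧ η ≤ 1 ∧ η * MeasureTheory.volume.real C < ε := by
    refine ⟨min 1 (ε / (MeasureTheory.volume.real C + 1)), by positivity, min_le_left _ _, ?_⟩
    calc _ ≤ ε / (MeasureTheory.volume.real C + 1) * MeasureTheory.volume.real C := by
          gcongr; exact min_le_right _ _
      _ < ε := by rw [div_mul_eq_mul_div, div_lt_iff₀ (by positivity)]; nlinarith
  filter_upwards [Metric.tendstoUniformlyOn_iff.1 (h Y) η hη] with t ht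
  rw [dist_zero_right]
  refine lt_of_le_of_lt (MeasureTheory.norm_setIntegral_le_of_norm_le_const hC.measure_lt_top
    fun p hp => ?_) h2
  have h3 : ∀ v, |p.2 v| ≤ Y := fun v =>
    (norm_le_pi_norm p.2 v).trans ((norm_snd_le p).trans (hY p hp))
  have h4 := ht p.2 ⟨fun v => (abs_le.1 (h3 v)).1, fun v => (abs_le.1 (h3 v)).2⟩
  rw [dist_eq_norm] at h4
  rw [Real.norm_of_nonneg (sq_nonneg _)]
  nlinarith [norm_nonneg (f p.2 - F t p.2)]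

theorem IsThCoef.adm {j : ℕ} {C : ℝ} {κ : R K → ℂ} (h : IsThCoef j C κ) :
    Adm (fun r => κ r * Gf r) :=
  th_adm (inv_ne_zero (pow_ne_zero _ MK_ne_zero)) h.2.1 h.2.2

theorem exists_hasTheta (g : SLR K) : ∃ (j : ℕ) (C : ℝ) (κ : R K → ℂ), Q.k ≤ j ∧ IsThCoef j C κ ∧
    HasTheta g (fun r => κ r * Gf r) := by
  obtain ⟨x, hx⟩ := exists_per g
  obtain ⟨j, C, κ, hj, hκ, -, h⟩ := th_main hx
  exact ⟨j, C, κ, hj, hκ, fun t y => u0 g t y + fc 1 g x 0 t y,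
    fun t => (continuous_u0 g t).add (continuous_fc hx 1 (zero_mem _) t), h⟩

open Classical in
theorem hasTheta_std {c₀ : R K} (hc : c₀ ≠ 0) : ∃ (g : SLR K) (κ₀ : ℂ), κ₀ ≠ 0 ∧
    HasTheta g (fun r => if r ≠ 0 ∧ r ∈ Lat ((c₀ : K) ^ 2 / (MM K * dl K)) then
      κ₀ * ((NS (r : K) ^ (1 / 6 : ℝ) : ℝ) : ℂ) * Q.B (r : K) (c₀ : K) * tt ((c₀ : K) * (r : K)) * Gf r else 0) := by
  obtain ⟨g, κ₁, h1, hx, hb⟩ := bet_std hc
  have hc' := fl_coe_ne hc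
  have hM : MM K ≠ 0 := pow_ne_zero _ MK_ne_zero
  have hd := dl_ne_zero (K := K)
  have he : (MM K / (c₀ : K) ^ 2 * dl K)⁻¹ = (c₀ : K) ^ 2 / (MM K * dl K) := by field_simp
  obtain ⟨A, hA⟩ : ∃ A : ℝ,
    A = ((2 : ℝ) ^ (-(2 / 3) : ℝ)) ^ rr K / (cov K * NS (MM K / (c₀ : K) ^ 2)) := ⟨_, rfl⟩
  have hA0 : 0 < A := by
    have := cov_pos (K := K)
    have := NS_pos hx.1
    rw [hA]
    positivity
  have hN := Real.rpow_pos_of_pos (NS_pos hc') (-(4 / 3))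
  obtain ⟨κ₀, hκ₀⟩ : ∃ κ₀ : ℂ, κ₀ = (A : ℂ) * ((NS (c₀ : K) ^ (-(4 / 3) : ℝ) : ℝ) : ℂ) * κ₁ :=
    ⟨_, rfl⟩
  obtain ⟨Ct, hCt⟩ := tt_bdd (K := K)
  refine ⟨g, κ₀, ?_, fun t y => u0 g t y + fc 1 g _ 0 t y,
    fun t => (continuous_u0 g t).add (continuous_fc hx 1 (zero_mem _) t), fun C hC => ?_⟩
  · rw [hκ₀]
    exact mul_ne_zero (mul_ne_zero (Complex.ofReal_ne_zero.2 hA0.ne')
      (Complex.ofReal_ne_zero.2 hN.ne')) (norm_ne_zero_iff.1 (by rw [h1]; exact one_ne_zero))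
  refine tendsto_thS hx (τ₀ := fun r => κ₁ * Tl r c₀) (fun r hr hr0 => ?_) (fun r => ?_) ?_ hC
  · rw [show bet g _ r = fun c => κ₁ * gcl r c₀ c from funext (hb r hr)]
    exact (lim_gcl hr0 hc').const_mul _
  · rw [he]
    split_ifs with h
    · rw [th_coef, ← hA, hκ₀]
      linear_combination (-(A : ℂ) * ((NS (r : K) ^ (1 / 6 : ℝ) : ℝ) : ℂ) * κ₁) * th_Tl h.1 hc'
    · rfl
  · have h2 := th_adm (x := (c₀ : K) ^ 2 / (MM K * dl K)) (C := ‖κ₀‖ * Ct)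
      (κ := fun r => if r ≠ 0 ∧ r ∈ Lat ((c₀ : K) ^ 2 / (MM K * dl K)) then
        κ₀ * ((NS (r : K) ^ (1 / 6 : ℝ) : ℝ) : ℂ) * Q.B (r : K) (c₀ : K) * tt ((c₀ : K) * (r : K))
        else 0) (div_ne_zero (pow_ne_zero _ hc') (mul_ne_zero hM hd))
      (fun r hr => by by_contra h; exact hr (if_neg h)) fun r => ?_
    · simpa only [ite_mul, zero_mul] using h2
    · have hCt0 : 0 ≤ Ct := (norm_nonneg _).trans (hCt 1 one_ne_zero)
      have h3 := th_NS_nonneg (r : K)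
      split_ifs with h
      · rw [norm_mul, norm_mul, norm_mul, norm_B (fl_coe_ne h.1) hc', mul_one, Complex.norm_real,
          Real.norm_of_nonneg (by positivity), mul_right_comm]
        gcongr
        exact hCt _ (mul_ne_zero hc' (fl_coe_ne h.1))
      · rw [norm_zero]
        positivity

theorem exists_tt_ne_zero : ∃ c : K, c ≠ 0 ∧ tt c ≠ 0 := by
  by_contra h0
  push Not at h0
  obtain ⟨j, C, κ, -, -, hκ, hlim⟩ := th_main (isPer_one (K := K))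
  obtain ⟨ρ, hρ, hct⟩ := const_term (K := K)
  obtain ⟨f, hf⟩ : ∃ f : (Pl K → ℝ) → ℂ,
    f = fun y => ((ρ * Real.exp (-(2 / 3) * ∑ v, y v) : ℝ) : ℂ) := ⟨_, rfl⟩
  rw [← hf] at hct
  have hfc : Continuous fun p : HH K => f p.2 := by rw [hf]; fun_prop
  have hT : ∀ t, Continuous (Th (1 : SLR K) t) := fun t => continuous_ThQ 1 1 t
  have hcc : ∀ t, Continuous fun p : HH K => u0 1 t p.2 + fc 1 1 (MM K) 0 t p.2 := fun t =>
    ((continuous_u0 1 t).add (continuous_fc isPer_one 1 (zero_mem _) t)).comp continuous_snd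
  have h1 : ∀ C : Set (HH K), IsCompact C →
      Filter.Tendsto (fun t => ∫ p in C, ‖Th 1 t p - f p.2‖ ^ 2) (tF K) (nhds 0) := by
    intro C hC
    have h2 := hlim C hC
    simp only [hκ h0, zero_mul, thS, tsum_zero, sub_zero] at h2
    have h3 := (h2.const_mul 2).add ((th_unif hct hC).const_mul 2)
    rw [mul_zero, add_zero] at h3
    refine squeeze_zero (fun t => MeasureTheory.integral_nonneg fun p => sq_nonneg _)
      (fun t => ?_) h3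
    simpa only [Pi.sub_apply, sub_sub_sub_cancel_right] using
      th_L2 ((hT t).sub (hcc t)) (hfc.sub (hcc t)) hC
  obtain ⟨m, hm⟩ : ∃ m : R K, (m : K) = MM K := ⟨⟨MM K, (R K).pow_mem MK_mem_R _⟩, rfl⟩
  obtain ⟨γ, g1, g2, g3, g4⟩ : ∃ γ : SLR K, γ.1 0 0 = 1 ∧ γ.1 0 1 = 0 ∧ γ.1 1 0 = m ∧ γ.1 1 1 = 1 :=
    ⟨mk2 1 0 m 1 (by ring), rfl, rfl, rfl, rfl⟩
  have hγ : γ ∈ Gam K := by
    refine ⟨?_, ?_, ?_, ?_⟩
    · rw [g1, sub_self]; exact zero_mem _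
    · rw [g2]; exact zero_mem _
    · rw [g3, mem_Lat, hm]; exact InT.refl _
    · rw [g4, sub_self]; exact zero_mem _
  have hinv : ∀ t p, Th (1 : SLR K) t (actR γ p) = Th 1 t p := fun t p => by
    rw [Th_actR, one_mul, ← mul_one γ, Th_of_phi (phi_gam_mul hγ 1), sg, g4, kap_one_right,
      map_one, one_mul]
  have hemb : MeasurableEmbedding (actR γ) :=
    (continuous_actR γ).measurableEmbedding (Function.LeftInverse.injective (g := actR γ⁻¹)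
      fun p => by rw [← actR_mul, inv_mul_cancel, actR_one])
  have hfγ : Continuous fun p : HH K => f (actR γ p).2 := hfc.comp (continuous_actR γ)
  have h2 := eq_zero_of_L2 (hfγ.sub hfc) (fun C hC => ?_) (pt 0 0)
  · rw [Pi.sub_apply, sub_eq_zero, hf, Complex.ofReal_inj, mul_right_inj' hρ.ne', Real.exp_eq_exp, pt_snd,
      mul_right_inj' (by norm_num)] at h2
    refine absurd h2 (Finset.sum_lt_sum_of_nonempty Finset.univ_nonempty fun v _ => ?_).ne'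
    have h3 : 0 < ‖emb (m : K) v‖ :=
      norm_pos_iff.2 (emb_ne_zero (by rw [hm]; exact pow_ne_zero _ MK_ne_zero) v)
    rw [actR_snd, g3, g4, Qh, zc_pt, pt_snd]
    refine Real.log_pos ?_
    have h4 : emb ((1 : R K) : K) v = 1 := by simp [emb]
    simp only [Pi.zero_apply, mul_zero, zero_add, h4, norm_one, neg_zero, Real.exp_zero]
    nlinarith
  · have h3 := ((h1 C hC).const_mul 2).add ((h1 _ (hC.image (continuous_actR γ))).const_mul 2)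
    rw [mul_zero, add_zero] at h3
    refine le_antisymm (ge_of_tendsto' h3 fun t => ?_)
      (MeasureTheory.integral_nonneg fun p => sq_nonneg _)
    rw [(measurePreserving_actR γ).setIntegral_image_emb hemb]
    simpa only [Pi.sub_apply, hinv, sub_sub_sub_cancel_left] using
      th_L2 ((hT t).sub hfc) ((hT t).sub hfγ) hC

end Crest.Agent.GQ
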