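import Crest.Agent.GQ.ThSum

/-! # GQ ThUnf: a partition of unity for Gamma and unfolding -/

set_option autoImplicit false

noncomputable section

open NumberField Complex
open scoped ComplexConjugate

namespace Crest.Agent.GQ

variable {K : Type} [Field K] [NumberField K] [P : Pre K]

open MeasureTheory
variable [Q : Rec K]

/-- `exp (-tr Q_p)` -/
def w0 (p : HH K) : ℝ := Real.exp (-∑ v, (Qh p 1 0 v + Qh p 0 1 v))
/-- the weight with `∑_γ wt (γ p) = 1` -/
def wt (p : HH K) : ℝ := w0 p / ∑' γ : Gam K, w0 (actR γ.1 p)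

instance un_countable : Countable (SLR K) :=
  inferInstanceAs (Countable {A : Fin 2 → Fin 2 → R K // Matrix.det (n := Fin 2) A = 1})

theorem un_MM : MM K ≠ 0 := pow_ne_zero _ MK_ne_zero

theorem un_lat {n : R K} (h : n ∈ Lat (MM K)) : n ∈ Lat (1 : K) :=
  InT.trans (InT_one_iff.2 ((T K).pow_mem MK_mem_T _)) h

theorem un_lat' {n : R K} (h : n - 1 ∈ Lat (MM K)) : n ∈ Lat (1 : K) := by
  have h1 : (1 : R K) ∈ Lat (1 : K) := InT.refl (1 : K)
  simpa using (Lat (1 : K)).add_mem (un_lat h) h1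

omit Q in
theorem un_w0_pos (p : HH K) : 0 < w0 p := Real.exp_pos _

omit Q in
theorem un_continuous_w0 : Continuous (w0 : HH K → ℝ) :=
  Real.continuous_exp.comp (continuous_finsetSum _ fun v _ =>
    (continuous_Qh 1 0 v).add (continuous_Qh 0 1 v)).neg

omit Q in
theorem un_w0_act (γ : SLR K) (p : HH K) : w0 (actR γ p) =
    Real.exp (-∑ v, (Qh p (emb (γ.1 0 0 : K)) (emb (γ.1 0 1 : K)) v +
      Qh p (emb (γ.1 1 0 : K)) (emb (γ.1 1 1 : K)) v)) := by
  simp only [w0, actR, Qh_act, hy_map, one_mul, zero_mul, add_zero, zero_add]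

omit Q in
theorem un_gQ {c₀ : ℝ} (hc : 0 < c₀) (c d : R K) :
    gQ (fun _ => Real.log (c₀ / Real.pi) / 2) (pt 0 0) c d =
      Real.exp (-∑ v, c₀ * (‖emb (c : K) v‖ ^ 2 + ‖emb (d : K) v‖ ^ 2)) := by
  unfold gQ
  congr 1
  rw [neg_mul, Finset.mul_sum]
  congr 1
  refine Finset.sum_congr rfl fun v _ => ?_
  rw [mul_div_cancel₀ _ (two_ne_zero), Real.exp_log (by positivity), Qh, zc_pt, pt_snd]
  have := Real.pi_pos.ne'
  simp only [Pi.zero_apply, Real.exp_zero, mul_zero, zero_add, neg_zero]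
  field_simp
  ring

theorem un_bound {C : Set (HH K)} (hC : IsCompact C) : ∃ u : Gam K → ℝ, Summable u ∧
    ∀ (γ : Gam K) (p : HH K), p ∈ C → ‖w0 (actR γ.1 p)‖ ≤ u γ := by
  classical
  obtain ⟨c₀, hc, hQ⟩ := Qh_lower hC
  set f : R K × R K → ℝ := fun z => if z.1 ∈ Lat (1 : K) ∧ z.2 ∈ Lat (1 : K) then
    gQ (fun _ => Real.log (c₀ / Real.pi) / 2) (pt 0 0) z.1 z.2 else 0 with hf
  have hs : Summable f := summable_gQ one_ne_zero _ _
  have h0 : 0 ≤ f := fun z => by
    simp only [hf]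
    split_ifs
    · exact (Real.exp_pos _).le
    · exact le_rfl
  have hinj : Function.Injective fun γ : Gam K =>
      ((γ.1.1 0 0, γ.1.1 0 1), (γ.1.1 1 0, γ.1.1 1 1)) := by
    intro γ γ' h
    simp only [Prod.mk.injEq] at h
    refine Subtype.ext (Matrix.SpecialLinearGroup.ext _ _ fun i j => ?_)
    fin_cases i <;> fin_cases j
    exacts [h.1.1, h.1.2, h.2.1, h.2.2]
  refine ⟨_, (hs.mul_of_nonneg hs h0 h0).comp_injective hinj, fun γ p hp => ?_⟩
  obtain ⟨h1, h2, h3, h4⟩ := γ.2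
  simp only [Function.comp, hf]
  rw [if_pos ⟨un_lat' h1, un_lat h2⟩, if_pos ⟨un_lat h3, un_lat' h4⟩, un_gQ hc, un_gQ hc,
    Real.norm_of_nonneg (un_w0_pos _).le, un_w0_act, ← Real.exp_add, ← neg_add,
    ← Finset.sum_add_distrib]
  exact Real.exp_le_exp.2 (neg_le_neg (Finset.sum_le_sum fun v _ =>
    add_le_add (hQ p hp _ _ v) (hQ p hp _ _ v)))

theorem un_summable (p : HH K) : Summable fun γ : Gam K => w0 (actR γ.1 p) := by
  obtain ⟨u, hu, h⟩ := un_bound (isCompact_singleton (x := p))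
  exact Summable.of_norm_bounded hu fun γ => h γ p rfl

theorem un_S_pos (p : HH K) : 0 < ∑' γ : Gam K, w0 (actR γ.1 p) :=
  (un_summable p).tsum_pos (fun _ => (un_w0_pos _).le) ⟨1, one_mem_Gam⟩ (un_w0_pos _)

theorem un_S_cont : Continuous fun p : HH K => ∑' γ : Gam K, w0 (actR γ.1 p) := by
  refine continuous_iff_continuousAt.2 fun p => ?_
  obtain ⟨C, hC, hp⟩ := exists_compact_mem_nhds p
  obtain ⟨u, hu, h⟩ := un_bound hC
  have hc : ∀ γ : Gam K, Continuous fun p : HH K => w0 (actR γ.1 p) := fun γ =>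
    un_continuous_w0.comp (continuous_actR γ.1)
  exact (continuousOn_tsum (f := fun (γ : Gam K) (p : HH K) => w0 (actR γ.1 p))
    (fun γ => (hc γ).continuousOn) hu h).continuousAt hp

/-- right multiplication on `Γ` -/
def un_mulR (g : Gam K) : Gam K ≃ Gam K where
  toFun γ := ⟨γ.1 * g.1, mul_mem_Gam γ.2 g.2⟩
  invFun γ := ⟨γ.1 * g.1⁻¹, mul_mem_Gam γ.2 (inv_mem_Gam g.2)⟩
  left_inv _ := Subtype.ext (mul_inv_cancel_right _ _)
  right_inv _ := Subtype.ext (inv_mul_cancel_right _ _)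

theorem un_S_act (g : Gam K) (p : HH K) :
    ∑' γ : Gam K, w0 (actR γ.1 (actR g.1 p)) = ∑' γ : Gam K, w0 (actR γ.1 p) := by
  rw [← (un_mulR g).tsum_eq fun γ => w0 (actR γ.1 p)]
  exact tsum_congr fun γ => by rw [← actR_mul]; rfl

theorem wt_pos (p : HH K) : 0 < wt p := div_pos (un_w0_pos p) (un_S_pos p)
theorem continuous_wt : Continuous (wt : HH K → ℝ) :=
  un_continuous_w0.div un_S_cont fun p => (un_S_pos p).ne'
theorem hasSum_wt (p : HH K) : HasSum (fun γ : Gam K => wt (actR γ.1 p)) 1 := by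
  have h := (un_summable p).hasSum.div_const (∑' γ : Gam K, w0 (actR γ.1 p))
  rw [div_self (un_S_pos p).ne'] at h
  simpa only [wt, un_S_act] using h
theorem compact_le_wt {C : Set (HH K)} (hC : IsCompact C) : ∃ m : ℝ, 0 < m ∧ ∀ F : HH K → ℝ,
    Continuous F → (∀ p, 0 ≤ F p) → (∀ γ ∈ Gam K, ∀ p, F (actR γ p) = F p) →
    Integrable (fun p => wt p * F p) → ∫ p in C, F p ≤ m * ∫ p, wt p * F p := by
  obtain ⟨δ, hδ, h⟩ := hC.exists_forall_le' continuous_wt.continuousOn fun p _ => wt_pos p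
  refine ⟨δ⁻¹, inv_pos.2 hδ, fun F hF h0 _ hi => ?_⟩
  rw [le_inv_mul_iff₀ hδ, ← integral_const_mul]
  refine le_trans (setIntegral_mono_on ((continuous_const.mul hF).continuousOn.integrableOn_compact
    hC) hi.integrableOn hC.measurableSet fun p hp =>
      mul_le_mul_of_nonneg_right (h p hp) (h0 p)) ?_
  exact setIntegral_le_integral hi (ae_of_all _ fun p => mul_nonneg (wt_pos p).le (h0 p))

/-- the unipotent matrices -/
def un_n (b : R K) : SLR K := mk2 1 b 0 1 (by ring)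

omit Q in
theorem un_n_mul (b : R K) (g : SLR K) : (un_n b * g).1 0 0 = g.1 0 0 + b * g.1 1 0 ∧
    (un_n b * g).1 0 1 = g.1 0 1 + b * g.1 1 1 ∧ (un_n b * g).1 1 0 = g.1 1 0 ∧
    (un_n b * g).1 1 1 = g.1 1 1 := by
  simp [un_n, mk2, Matrix.mul_apply, Fin.sum_univ_two]

omit Q in
theorem un_n_add (a b : R K) : un_n a * un_n b = un_n (a + b) := by
  refine Matrix.SpecialLinearGroup.ext _ _ fun i j => ?_
  fin_cases i <;> fin_cases j <;> simp [un_n, mk2, Matrix.mul_apply, Fin.sum_univ_two, add_comm]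

omit Q in
theorem un_n_inv (a : R K) : (un_n a)⁻¹ = un_n (-a) := by
  refine inv_eq_of_mul_eq_one_right ?_
  rw [un_n_add, add_neg_cancel]
  refine Matrix.SpecialLinearGroup.ext _ _ fun i j => ?_
  fin_cases i <;> fin_cases j <;> simp [un_n, mk2]

theorem un_n_mem {b : R K} : un_n b ∈ Gam K ↔ b ∈ Lat (MM K) := by
  simp [un_n, mk2, Gam]

omit Q in
theorem un_exists {g s : SLR K} (h0 : g.1 1 0 = s.1 1 0) (h1 : g.1 1 1 = s.1 1 1) :
    ∃ b, g = un_n b * s := by
  have dg := g.2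
  have ds := s.2
  rw [Matrix.det_fin_two] at dg ds
  rw [h0, h1] at dg
  refine ⟨g.1 0 1 * s.1 0 0 - g.1 0 0 * s.1 0 1, Matrix.SpecialLinearGroup.ext _ _ fun i j => ?_⟩
  obtain ⟨e1, e2, e3, e4⟩ := un_n_mul (g.1 0 1 * s.1 0 0 - g.1 0 0 * s.1 0 1) s
  fin_cases i <;> fin_cases j
  · refine Eq.trans ?_ e1.symm
    change g.1 0 0 = _
    linear_combination s.1 0 0 * dg - g.1 0 0 * ds
  · refine Eq.trans ?_ e2.symm
    change g.1 0 1 = _
    linear_combination s.1 0 1 * dg - g.1 0 1 * ds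
  · exact h0.trans e3.symm
  · exact h1.trans e4.symm

section unf

variable (sec : {x : R K × R K // phi0 x.1 x.2 ≠ 0} → SLR K)
  (hsec : ∀ x, sec x ∈ Gam K ∧ (sec x).1 1 0 = x.1.1 ∧ (sec x).1 1 1 = x.1.2)

/-- the parametrisation of `Γ` -/
def un_par (q : Lat (MM K) × {x : R K × R K // phi0 x.1 x.2 ≠ 0}) : Gam K :=
  ⟨(sec q.2)⁻¹ * un_n q.1, mul_mem_Gam (inv_mem_Gam (hsec _).1) (un_n_mem.2 q.1.2)⟩

theorem un_bij : Function.Bijective (un_par sec hsec) := by
  constructor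
  · rintro ⟨n, x⟩ ⟨n', x'⟩ h
    have h1 : (sec x)⁻¹ * un_n n = (sec x')⁻¹ * un_n n' := congrArg Subtype.val h
    have h2 : sec x' = un_n ((n' : R K) + -(n : R K)) * sec x := by
      rw [← un_n_add, ← un_n_inv, mul_assoc, ← inv_inv (sec x), ← mul_inv_rev, h1]
      group
    obtain ⟨-, -, e3, e4⟩ := un_n_mul ((n' : R K) + -(n : R K)) (sec x)
    rw [← h2, (hsec x).2.1, (hsec x').2.1] at e3
    rw [← h2, (hsec x).2.2, (hsec x').2.2] at e4
    obtain rfl : x = x' := Subtype.ext (Prod.ext e3.symm e4.symm)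
    have h3 : (un_n (n : R K)).1 0 1 = (un_n (n' : R K)).1 0 1 := by rw [mul_left_cancel h1]
    exact Prod.ext (Subtype.ext (by simpa [un_n, mk2] using h3)) rfl
  · intro γ
    have hg := inv_mem_Gam γ.2
    have hx : phi0 (γ.1⁻¹.1 1 0) (γ.1⁻¹.1 1 1) ≠ 0 := by
      rw [phi0_gam hg, ← norm_ne_zero_iff, norm_sg]
      exact one_ne_zero
    set x : {x : R K × R K // phi0 x.1 x.2 ≠ 0} := ⟨(γ.1⁻¹.1 1 0, γ.1⁻¹.1 1 1), hx⟩ with hxd
    obtain ⟨b, hb⟩ := un_exists (g := γ.1⁻¹) (s := sec x) (hsec x).2.1.symm (hsec x).2.2.symm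
    have hb' : b ∈ Lat (MM K) := by
      rw [← un_n_mem, ← mul_inv_eq_iff_eq_mul.2 hb]
      exact mul_mem_Gam hg (inv_mem_Gam (hsec x).1)
    refine ⟨(⟨-b, neg_mem hb'⟩, x), Subtype.ext ?_⟩
    change (sec x)⁻¹ * un_n (-b) = γ.1
    rw [← un_n_inv, ← mul_inv_rev, ← hb, inv_inv]

/-- the weight after the first unfolding step -/
def un_A (p : HH K) : ENNReal := ∑' x, ENNReal.ofReal (wt (actR (sec x)⁻¹ p))

theorem un_A_meas : Measurable (un_A sec) :=
  Measurable.tsum fun x =>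
    (continuous_wt.comp (continuous_actR (sec x)⁻¹)).measurable.ennreal_ofReal

include hsec in
theorem un_A_sum (z : Pl K → ℂ) (y : Pl K → ℝ) :
    ∑' n : Lat (MM K), un_A sec (pt (z + emb ((n : R K) : K)) y) = 1 := by
  have h1 : ∑' γ : Gam K, ENNReal.ofReal (wt (actR γ.1 (pt z y))) = 1 := by
    rw [← ENNReal.ofReal_tsum_of_nonneg (fun _ => (wt_pos _).le) (hasSum_wt _).summable,
      (hasSum_wt _).tsum_eq, ENNReal.ofReal_one]
  rw [← h1, ← (Equiv.ofBijective _ (un_bij sec hsec)).tsum_eq, ENNReal.tsum_prod']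
  refine tsum_congr fun n => tsum_congr fun x => ?_
  rw [← actR_unip, ← actR_mul]
  rfl

include hsec in
theorem un_A_ne_top (p : HH K) : un_A sec p ≠ ⊤ := by
  have h := ENNReal.le_tsum (f := fun n : Lat (MM K) =>
    un_A sec (pt (zc p + emb ((n : R K) : K)) p.2)) 0
  rw [un_A_sum sec hsec] at h
  have e : emb (((0 : Lat (MM K)) : R K) : K) = 0 := by
    funext v; simp [emb]
  rw [e, add_zero, pt_zc] at h
  exact ne_top_of_le_ne_top ENNReal.one_ne_top h

theorem un_A_toReal (p : HH K) :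
    ∑' x, (wt (actR (sec x)⁻¹ p) : ℂ) = ((un_A sec p).toReal : ℂ) := by
  rw [un_A, ENNReal.tsum_toReal_eq fun _ => ENNReal.ofReal_ne_top, Complex.ofReal_tsum]
  exact tsum_congr fun x => by rw [ENNReal.toReal_ofReal (wt_pos _).le]

include hsec in
theorem un_inner {h : (Pl K → ℂ) → ENNReal} (hm : Measurable h)
    (hper : ∀ n ∈ Lat (MM K), ∀ z, h (z + emb (n : K)) = h z) (y : Pl K → ℝ) :
    (∑' n : Lat (MM K), ∫⁻ z in fd (MM K), un_A sec (pt (z + emb ((n : R K) : K)) y) * h z =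
      ∫⁻ z in fd (MM K), h z) ∧
    ∫⁻ z, un_A sec (pt z y) * h z = ∫⁻ z in fd (MM K), h z := by
  have h1 : ∑' n : Lat (MM K), ∫⁻ z in fd (MM K), un_A sec (pt (z + emb ((n : R K) : K)) y) * h z =
      ∫⁻ z in fd (MM K), h z := by
    rw [← lintegral_tsum]
    · simp only [ENNReal.tsum_mul_right, un_A_sum sec hsec, one_mul]
    · intro n
      have hc : Continuous fun z : Pl K → ℂ => (pt (z + emb ((n : R K) : K)) y : HH K) :=
        continuous_pt.comp ((continuous_id.add continuous_const).prodMk continuous_const)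
      exact (((un_A_meas sec).comp hc.measurable).mul hm).aemeasurable
  refine ⟨h1, ?_⟩
  rw [lintegral_eq_tsum_fd un_MM, ← h1]
  exact tsum_congr fun n => by simp only [hper _ n.2]

end unf

omit Q in
theorem un_emb (g : SLR K) : MeasurableEmbedding (actR g) :=
  (Homeomorph.mk ⟨actR g, actR g⁻¹, fun p => by rw [← actR_mul, inv_mul_cancel, actR_one],
    fun p => by rw [← actR_mul, mul_inv_cancel, actR_one]⟩ (continuous_actR g)
    (continuous_actR g⁻¹)).measurableEmbedding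

theorem un_enorm (p : HH K) : ‖(wt p : ℂ)‖ₑ = ENNReal.ofReal (wt p) := by
  rw [← ofReal_norm, Complex.norm_real, Real.norm_of_nonneg (wt_pos p).le]

/-- unfolding over `N \ Γ` -/
theorem unfold (sec : {x : R K × R K // phi0 x.1 x.2 ≠ 0} → SLR K)
    (hsec : ∀ x, sec x ∈ Gam K ∧ (sec x).1 1 0 = x.1.1 ∧ (sec x).1 1 1 = x.1.2)
    {ψ : HH K → ℂ} (hψ : Continuous ψ)
    (hper : ∀ n ∈ Lat (MM K), ∀ z y, ψ (pt (z + emb (n : K)) y) = ψ (pt z y))
    (hint : Integrable (fun y : Pl K → ℝ =>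
      Real.exp (2 * ∑ v, y v) * ∫ z in fd (MM K), ‖ψ (pt z y)‖)) :
    Integrable (fun p => (wt p : ℂ) * ∑' x, ψ (actR (sec x) p)) ∧
    ∫ p, (wt p : ℂ) * ∑' x, ψ (actR (sec x) p) =
      ∫ y : Pl K → ℝ, (Real.exp (2 * ∑ v, y v) : ℂ) * ∫ z in fd (MM K), ψ (pt z y) := by
  have hw : Continuous fun p : HH K => (wt p : ℂ) := Complex.continuous_ofReal.comp continuous_wt
  have hy : ∀ y : Pl K → ℝ, Continuous fun z : Pl K → ℂ => (pt z y : HH K) := fun y =>
    continuous_pt.comp (continuous_id.prodMk continuous_const)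
  have hfd : ∀ y, IntegrableOn (fun z => ψ (pt z y)) (fd (MM K)) := fun y =>
    ((hψ.comp (hy y)).continuousOn.integrableOn_compact
      (isBounded_fd un_MM).isCompact_closure).mono_set subset_closure
  have hin := fun y => un_inner sec hsec (h := fun z => ‖ψ (pt z y)‖ₑ)
    (hψ.comp (hy y)).enorm.measurable (fun n hn z => by rw [hper n hn]) y
  have ha : Measurable fun p => ((un_A sec p).toReal : ℂ) :=
    Complex.measurable_ofReal.comp (un_A_meas sec).ennreal_toReal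
  have hae : ∀ p, ‖((un_A sec p).toReal : ℂ)‖ₑ = un_A sec p := fun p => by
    rw [← ofReal_norm, Complex.norm_real, Real.norm_of_nonneg ENNReal.toReal_nonneg,
      ENNReal.ofReal_toReal (un_A_ne_top sec hsec p)]
  have hA : ∫⁻ p, un_A sec p * ‖ψ p‖ₑ < ⊤ := by
    rw [lintegral_pt (f := fun p => un_A sec p * ‖ψ p‖ₑ)
      ((un_A_meas sec).mul hψ.enorm.measurable)]
    refine lt_of_eq_of_lt (lintegral_congr fun y => ?_) hint.lintegral_lt_top
    rw [ENNReal.ofReal_mul (Real.exp_pos _).le, ofReal_integral_norm_eq_lintegral_enorm (hfd y),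
      ← (hin y).2]
  have m₁ : ∀ x, Continuous fun p => (wt p : ℂ) * ψ (actR (sec x) p) := fun x =>
    hw.mul (hψ.comp (continuous_actR _))
  have m₂ : ∀ x, Continuous fun p => (wt (actR (sec x)⁻¹ p) : ℂ) * ψ p := fun x =>
    (hw.comp (continuous_actR _)).mul hψ
  have f₂ : ∑' x, ∫⁻ p, ‖(wt (actR (sec x)⁻¹ p) : ℂ) * ψ p‖ₑ < ⊤ := by
    rw [← lintegral_tsum fun x => (m₂ x).enorm.measurable.aemeasurable]
    refine lt_of_eq_of_lt (lintegral_congr fun p => ?_) hA
    simp only [enorm_mul, un_enorm, ENNReal.tsum_mul_right, un_A]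
  have f₁ : ∑' x, ∫⁻ p, ‖(wt p : ℂ) * ψ (actR (sec x) p)‖ₑ < ⊤ := by
    refine lt_of_eq_of_lt (tsum_congr fun x => ?_) f₂
    rw [← (measurePreserving_actR (sec x)).lintegral_comp_emb (un_emb _)
      fun p => ‖(wt (actR (sec x)⁻¹ p) : ℂ) * ψ p‖ₑ]
    simp only [← actR_mul, inv_mul_cancel, actR_one]
  simp only [← tsum_mul_left]
  refine ⟨⟨(Measurable.tsum fun x => (m₁ x).measurable).aestronglyMeasurable, ?_⟩, ?_⟩
  · refine lt_of_le_of_lt (lintegral_mono fun p => enorm_tsum_le_tsum_enorm) ?_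
    rwa [lintegral_tsum fun x => (m₁ x).enorm.measurable.aemeasurable]
  have e1 : ∫ p, ∑' x, (wt p : ℂ) * ψ (actR (sec x) p) = ∫ p, ((un_A sec p).toReal : ℂ) * ψ p := by
    simp only [← un_A_toReal, ← tsum_mul_right]
    rw [integral_tsum (fun x => (m₁ x).aestronglyMeasurable) f₁.ne,
      integral_tsum (fun x => (m₂ x).aestronglyMeasurable) f₂.ne]
    refine tsum_congr fun x => ?_
    rw [← (measurePreserving_actR (sec x)).integral_comp (un_emb _)
      fun p => (wt (actR (sec x)⁻¹ p) : ℂ) * ψ p]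
    simp only [← actR_mul, inv_mul_cancel, actR_one]
  have i1 : Integrable fun p => ((un_A sec p).toReal : ℂ) * ψ p := by
    refine ⟨(ha.mul hψ.measurable).aestronglyMeasurable, lt_of_eq_of_lt (lintegral_congr fun p => ?_) hA⟩
    rw [enorm_mul, hae]
  rw [e1, integral_pt i1]
  refine integral_congr_ae (ae_of_all _ fun y => ?_)
  have i2 : Integrable fun z => ((un_A sec (pt z y)).toReal : ℂ) * ψ (pt z y) := by
    refine ⟨((ha.mul hψ.measurable).comp (hy y).measurable).aestronglyMeasurable,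
      lt_of_eq_of_lt ((lintegral_congr fun z => ?_).trans (hin y).2) (hfd y).2⟩
    rw [enorm_mul, hae]
  simp only
  congr 1
  rw [integral_eq_tsum_fd un_MM i2]
  have e2 : ∀ (n : Lat (MM K)) z, ψ (pt (z + emb ((n : R K) : K)) y) = ψ (pt z y) :=
    fun n z => hper _ n.2 z y
  simp only [e2]
  rw [← integral_tsum]
  · refine integral_congr_ae (ae_of_all _ fun z => ?_)
    simp only
    rw [tsum_mul_right, ← Complex.ofReal_tsum,
      ← ENNReal.tsum_toReal_eq fun _ => un_A_ne_top sec hsec _, un_A_sum sec hsec]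
    simp
  · intro n
    exact ((ha.comp ((hy y).comp (continuous_id.add continuous_const)).measurable).mul
      (hψ.comp (hy y)).measurable).aestronglyMeasurable
  · simp only [enorm_mul, hae]
    rw [(hin y).1]
    exact (hfd y).2.ne

end Crest.Agent.GQ
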