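import Crest.Agent.GQ.ZTriv

/-!
# Project GQ, part B3: removal of coprimality conditions
-/

set_option autoImplicit false

noncomputable section

open NumberField Complex UniqueFactorizationMonoid MeasureTheory
open scoped ComplexConjugate ENNReal

namespace Crest.Agent.GQ

variable {K : Type} [Field K] [NumberField K] [P : Pre K]

theorem zm_fib {α β : Type} [DecidableEq β] (S : Finset α) (T : Finset β) (φ : α → β) (g : α → ℝ)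
    (Φ : β → ℝ) (B : ℝ) (h0 : ∀ b, 0 ≤ Φ b) (h1 : ∀ a ∈ S, φ a ∈ T) (h2 : ∀ a ∈ S, g a ≤ Φ (φ a))
    (h3 : ∀ b ∈ T, ((S.filter fun a => φ a = b).card : ℝ) ≤ B) :
    ∑ a ∈ S, g a ≤ B * ∑ b ∈ T, Φ b := by
  rw [← Finset.sum_fiberwise_of_maps_to h1, Finset.mul_sum]
  refine Finset.sum_le_sum fun b hb => ?_
  refine (Finset.sum_le_card_nsmul _ _ (Φ b) fun a ha => ?_).trans ?_
  · obtain ⟨a1, a2⟩ := Finset.mem_filter.1 ha
    exact a2 ▸ h2 a a1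
  · rw [nsmul_eq_mul]
    exact mul_le_mul_of_nonneg_right (h3 b hb) (h0 b)

/-- Merging of the rows `z d (d/e) J`. -/
theorem merge_rows {ε : ℝ} (hε : 0 < ε) : ∃ C : ℝ, 0 ≤ C ∧ ∀ (ZZ : Finset (Ideal (R K)))
    (Z D E F K' : ℝ), 1 ≤ Z → 1 ≤ D → 1 ≤ E → 1 ≤ K' → E ≤ 2 * D →
    (∀ z ∈ ZZ, z ≠ ⊥ ∧ NI z ≤ Z) →
    ∀ (Φ : Ideal (R K) → Ideal (R K) → ℝ) (Ψ : Ideal (R K) → Ideal (R K) → Ideal (R K) →
      Ideal (R K) → Ideal (R K) → ℝ), (∀ f J, 0 ≤ Φ f J) →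
      (∀ z ∈ ZZ, ∀ d e d' f J, d = e * d' → Squarefree (d * f) → J ≠ ⊥ →
        Ψ z d e f J ≤ Φ f (z * d * d' * J)) →
      ∑ z ∈ ZZ, ∑ x ∈ Tri K D E F, ∑ J ∈ rows K K', Ψ z x.1 x.2.1 x.2.2 J ≤
        C * (4 * Z * D ^ 2 * K' / E) ^ ε *
          ∑ f ∈ rows K (2 * F), ∑ J ∈ rows K (4 * Z * D ^ 2 * K' / E), Φ f J := by
  classical
  obtain ⟨C, hC⟩ := card_divs_le (K := K) (ε := ε / 3) (by positivity)
  refine ⟨|C| ^ 3, by positivity, fun ZZ Z D E F K' hZ hD hE hK _ hZZ Φ Ψ hΦ hΨ => ?_⟩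
  have hq : ∀ d e : Ideal (R K), ∃ d', e ∣ d → d = e * d' := fun d e => by
    by_cases h : e ∣ d
    · exact ⟨h.choose, fun _ => h.choose_spec⟩
    · exact ⟨1, fun h' => absurd h' h⟩
  choose q hq using hq
  have key : ∀ a ∈ ZZ ×ˢ Tri K D E F ×ˢ rows K K', a.1 ≠ ⊥ ∧ a.2.1.1 ≠ ⊥ ∧
      a.2.1.1 = a.2.1.2.1 * q a.2.1.1 a.2.1.2.1 ∧ q a.2.1.1 a.2.1.2.1 ≠ ⊥ := fun a ha => by
    obtain ⟨h1, h2⟩ := Finset.mem_product.1 ha
    obtain ⟨-, -, -, h3, h4⟩ := mem_Tri.1 (Finset.mem_product.1 h2).1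
    have h5 : a.2.1.1 ≠ ⊥ := left_ne_zero_of_mul h4.ne_zero
    exact ⟨(hZZ _ h1).1, h5, hq _ _ h3, right_ne_zero_of_mul (hq _ _ h3 ▸ h5)⟩
  have h := zm_fib (ZZ ×ˢ Tri K D E F ×ˢ rows K K')
    (rows K (2 * F) ×ˢ rows K (4 * Z * D ^ 2 * K' / E))
    (fun a => (a.2.1.2.2, a.1 * a.2.1.1 * q a.2.1.1 a.2.1.2.1 * a.2.2))
    (fun a => Ψ a.1 a.2.1.1 a.2.1.2.1 a.2.1.2.2 a.2.2) (fun b => Φ b.1 b.2)
    (|C| ^ 3 * (4 * Z * D ^ 2 * K' / E) ^ ε) (fun b => hΦ _ _) ?_ ?_ ?_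
  · simpa only [Finset.sum_product] using h
  · rintro ⟨z, ⟨d, e, f⟩, J⟩ ha
    obtain ⟨k1, k2, k3, k4⟩ := key _ ha
    obtain ⟨h1, h2⟩ := Finset.mem_product.1 ha
    obtain ⟨h2, h3⟩ := Finset.mem_product.1 h2
    obtain ⟨a1, a2, a3, -, a4⟩ := mem_Tri.1 h2
    obtain ⟨b1, b2⟩ := mem_rows'.1 h3
    dsimp only at *
    refine Finset.mem_product.2 ⟨mem_rows'.2 ⟨right_ne_zero_of_mul a4.ne_zero, a3.2⟩,
      mem_rows'.2 ⟨mul_ne_zero (mul_ne_zero (mul_ne_zero k1 k2) k4) b1, ?_⟩⟩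
    have c1 : NI (q d e) ≤ 2 * D / E := by
      rw [le_div_iff₀ (by positivity)]
      refine le_trans ?_ a1.2
      rw [congrArg NI k3, NI_mul, mul_comm]
      exact mul_le_mul_of_nonneg_right a2.1 (NI_nonneg _)
    have c2 := (hZZ z h1).2
    have := NI_nonneg d
    have := NI_nonneg J
    have := NI_nonneg (q d e)
    dsimp only
    rw [NI_mul, NI_mul, NI_mul]
    calc NI z * NI d * NI (q d e) * NI J ≤ Z * (2 * D) * (2 * D / E) * K' := by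
          gcongr
          exact a1.2
      _ = _ := by ring
  · intro a ha
    obtain ⟨h1, h2⟩ := Finset.mem_product.1 ha
    obtain ⟨h2, h3⟩ := Finset.mem_product.1 h2
    exact hΨ _ h1 _ _ _ _ _ (key a ha).2.2.1 (mem_Tri.1 h2).2.2.2.2 (mem_rows'.1 h3).1
  · rintro ⟨f, J⟩ hb
    obtain ⟨b1, b2⟩ := mem_rows'.1 (Finset.mem_product.1 hb).2
    dsimp only at b1 b2
    have c1 : ((divs J).card : ℝ) ≤ |C| * (4 * Z * D ^ 2 * K' / E) ^ (ε / 3) :=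
      (hC J b1).trans (mul_le_mul (le_abs_self C)
        (Real.rpow_le_rpow (NI_nonneg J) b2 (by positivity)) (by positivity) (abs_nonneg C))
    refine le_trans (b := ((divs J ×ˢ divs J ×ˢ divs J).card : ℝ)) (Nat.cast_le.2
      (Finset.card_le_card_of_injOn (fun a => (a.1, a.2.1.1, a.2.1.2.1)) ?_ ?_)) ?_
    · intro a ha
      obtain ⟨h1, h2⟩ := Finset.mem_filter.1 (Finset.mem_coe.1 ha)
      have h3 : a.1 * a.2.1.1 ∣ J := (Prod.mk.inj h2).2 ▸ (dvd_mul_right _ _).mul_right _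
      simp only [Finset.coe_product, Set.mem_prod, Finset.mem_coe, mem_divs b1]
      exact ⟨(dvd_mul_right _ _).trans h3, (dvd_mul_left _ _).trans h3,
        (Dvd.intro _ (key a h1).2.2.1.symm).trans ((dvd_mul_left _ _).trans h3)⟩
    · rintro ⟨z, ⟨d, e, f₁⟩, J₁⟩ ha ⟨z', ⟨d', e', f₂⟩, J₂⟩ ha' h
      obtain ⟨h1, h2⟩ := Finset.mem_filter.1 (Finset.mem_coe.1 ha)
      obtain ⟨-, h3⟩ := Finset.mem_filter.1 (Finset.mem_coe.1 ha')
      obtain ⟨k1, k2, -, k4⟩ := key _ h1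
      simp only [Prod.mk.injEq] at h h2 h3 ⊢
      obtain ⟨rfl, rfl, rfl⟩ := h
      exact ⟨rfl, ⟨rfl, rfl, h2.1.trans h3.1.symm⟩,
        mul_left_cancel₀ (mul_ne_zero (mul_ne_zero k1 k2) k4) (h2.2.trans h3.2.symm)⟩
    · rw [Finset.card_product, Finset.card_product]
      push_cast
      calc ((divs J).card : ℝ) * ((divs J).card * (divs J).card) = ((divs J).card : ℝ) ^ 3 := by ring
        _ ≤ (|C| * (4 * Z * D ^ 2 * K' / E) ^ (ε / 3)) ^ 3 := by gcongr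
        _ = _ := by
          rw [mul_pow, ← Real.rpow_natCast (_ ^ (ε / 3)), ← Real.rpow_mul (by positivity)]
          norm_num

end Crest.Agent.GQ
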