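import Crest.Agent.GQ.ZPL5

/-!
# Project GQ, part B3: Poisson lemma, step 5: dyadic blocks
-/

set_option autoImplicit false

noncomputable section

open NumberField Complex UniqueFactorizationMonoid MeasureTheory
open scoped ComplexConjugate ENNReal

namespace Crest.Agent.GQ

variable {K : Type} [Field K] [NumberField K] [P : Pre K]

theorem pl7_sum_lintegral_le {Ω ι : Type} [MeasurableSpace Ω] (μ : Measure Ω) (s : Finset ι)
    (f : ι → Ω → ℝ≥0∞) : ∑ i ∈ s, ∫⁻ p, f i p ∂μ ≤ ∫⁻ p, ∑ i ∈ s, f i p ∂μ := by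
  classical
  induction s using Finset.induction_on with
  | empty => simp
  | insert a s ha ih =>
    simp only [Finset.sum_insert ha]
    exact (add_le_add le_rfl ih).trans (le_lintegral_add _ _)

theorem pl7_gauss {lam b m x : ℝ} (hlam : 0 < lam) (hm : 0 ≤ m) (hx : 0 ≤ x) :
    Real.exp (-(lam * x ^ 2)) * Real.exp (b * x) ≤
      Real.exp ((b + m) ^ 2 / (4 * lam)) * (1 + x) ^ (-m) := by
  have h1 : (1 + x) ^ m ≤ Real.exp (m * x) := by
    rw [mul_comm, Real.exp_mul]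
    exact Real.rpow_le_rpow (by linarith) (by linarith [Real.add_one_le_exp x]) hm
  have h0 : 0 < (1 + x) ^ m := Real.rpow_pos_of_pos (by linarith) _
  rw [Real.rpow_neg (by linarith), ← div_eq_mul_inv, le_div_iff₀ h0]
  refine (mul_le_mul_of_nonneg_left h1 (by positivity)).trans ?_
  rw [← Real.exp_add, ← Real.exp_add, Real.exp_le_exp, le_div_iff₀ (by positivity)]
  nlinarith [sq_nonneg (2 * lam * x - (b + m))]

omit P in
theorem pl7_int {V : Type} [Fintype V] {lam b N : ℝ} (hlam : 0 < lam)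
    (hN : (Fintype.card V : ℝ) < N) : ∃ C : ℝ, 0 ≤ C ∧ ∀ t0 : V → ℝ,
    ∫⁻ p : (V → ℝ) × (V → ℝ), ENNReal.ofReal (Real.exp (-(lam * ‖p.1 - t0‖ ^ 2)) *
      Real.exp (b * ‖p.1 - t0‖) * (1 + ‖p.2‖) ^ (-N)) ≤ ENNReal.ofReal C := by
  have hfr : (Module.finrank ℝ (V → ℝ) : ℝ) < N := by simpa using hN
  have hN0 : 0 ≤ N := le_trans (Nat.cast_nonneg _) hN.le
  have hI := finite_integral_one_add_norm (E := V → ℝ) (μ := volume) hfr
  set J := ∫⁻ x : V → ℝ, ENNReal.ofReal ((1 + ‖x‖) ^ (-N)) with hJ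
  set C0 := Real.exp ((b + N) ^ 2 / (4 * lam)) with hC0
  refine ⟨(ENNReal.ofReal C0 * (J * J)).toReal, ENNReal.toReal_nonneg, fun t0 => ?_⟩
  rw [ENNReal.ofReal_toReal
    (ENNReal.mul_ne_top ENNReal.ofReal_ne_top (ENNReal.mul_ne_top hI.ne hI.ne))]
  calc _ ≤ ∫⁻ p : (V → ℝ) × (V → ℝ), ENNReal.ofReal C0 *
          (ENNReal.ofReal ((1 + ‖p.1 - t0‖) ^ (-N)) * ENNReal.ofReal ((1 + ‖p.2‖) ^ (-N))) := by
        refine lintegral_mono fun p => ?_
        rw [← ENNReal.ofReal_mul (by positivity), ← ENNReal.ofReal_mul (by positivity),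
          ← mul_assoc]
        refine ENNReal.ofReal_le_ofReal (mul_le_mul_of_nonneg_right ?_ (by positivity))
        exact pl7_gauss hlam hN0 (norm_nonneg _)
    _ = ENNReal.ofReal C0 * (J * J) := by
        rw [lintegral_const_mul' _ _ ENNReal.ofReal_ne_top]
        congr 1
        rw [Measure.volume_eq_prod, lintegral_prod_mul
          (f := fun x : V → ℝ => ENNReal.ofReal ((1 + ‖x - t0‖) ^ (-N)))
          (g := fun x : V → ℝ => ENNReal.ofReal ((1 + ‖x‖) ^ (-N)))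
          (Measurable.aemeasurable (by fun_prop)) (Measurable.aemeasurable (by fun_prop))]
        congr 1
        exact lintegral_sub_right_eq_self
          (fun x : V → ℝ => ENNReal.ofReal ((1 + ‖x‖) ^ (-N))) t0

/-- A pointwise bound gives a bound for the block. -/
theorem pl7_blk {lam b A N : ℝ} (hlam : 0 < lam) (hN : (rr K : ℝ) < N - A) :
    ∃ C : ℝ, 0 ≤ C ∧ ∀ (e0 : ℕ) (ι : Type) (s : Finset ι) (a : ι → R K → ℂ) (j : ℕ) (c : K)
      (t ξ : Pl K → ℝ) (D E F K' M : ℝ), 0 ≤ M →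
      (∀ t' τ : Pl K → ℝ, ∑ i ∈ s, ∑ x ∈ Tri K D E F, ∑ J ∈ rows K K',
        ‖Sm (dualF e0 (a i) x.1 x.2.1 x.2.2 J) j (c / ((gen x.1 : K) * (gen x.2.2 : K)))
          (2 * lam) t' (ξ + τ)‖ ^ 2 ≤
        M * (Real.exp (b * ‖t' - tc t (D * F)‖) * (1 + ‖τ‖) ^ A)) →
      blk e0 s a j c lam N t ξ D E F K' ≤ ENNReal.ofReal (C * M) := by
  obtain ⟨C, hC, h⟩ := pl7_int (V := Pl K) (b := b) hlam hN
  refine ⟨C, hC, fun e0 ι s a j c t ξ D E F K' M hM hp => ?_⟩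
  unfold blk Qav
  refine (Finset.sum_le_sum fun i _ => (Finset.sum_le_sum fun x _ =>
    pl7_sum_lintegral_le _ _ _).trans (pl7_sum_lintegral_le _ _ _)).trans
      ((pl7_sum_lintegral_le _ _ _).trans ?_)
  rw [mul_comm C M, ENNReal.ofReal_mul hM]
  refine le_trans ?_ (mul_le_mul_right (h (tc t (D * F))) _)
  rw [← lintegral_const_mul' _ _ ENNReal.ofReal_ne_top]
  refine lintegral_mono fun p => ?_
  have e1 : ∀ (i : ι) (x : Ideal (R K) × Ideal (R K) × Ideal (R K)) (J : Ideal (R K)),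
      0 ≤ Real.exp (-(lam * ‖p.1 - tc t (D * F)‖ ^ 2)) * (1 + ‖p.2‖) ^ (-N) *
        ‖Sm (dualF e0 (a i) x.1 x.2.1 x.2.2 J) j (c / ((gen x.1 : K) * (gen x.2.2 : K)))
          (2 * lam) p.1 (ξ + p.2)‖ ^ 2 := fun i x J => by positivity
  simp only [← ENNReal.ofReal_sum_of_nonneg fun J _ => e1 _ _ J,
    ← ENNReal.ofReal_sum_of_nonneg fun x _ => Finset.sum_nonneg fun J _ => e1 _ x J,
    ← ENNReal.ofReal_sum_of_nonneg fun i _ =>
      Finset.sum_nonneg fun x _ => Finset.sum_nonneg fun J _ => e1 i x J]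
  rw [← ENNReal.ofReal_mul hM]
  refine ENNReal.ofReal_le_ofReal ?_
  simp only [← Finset.mul_sum]
  refine (mul_le_mul_of_nonneg_left (hp p.1 p.2) (by positivity)).trans (le_of_eq ?_)
  rw [neg_sub, sub_eq_add_neg A N, Real.rpow_add (by positivity)]
  ring

theorem pl7_sz {c g : K} (t t' : Pl K → ℝ) {Z : ℝ} (hZ : 0 < Z) :
    sz (c / g) t' = sz c t / Z * NS g * Real.exp (2 * ∑ v, (t' - tc t Z) v) := by
  have hr : (0 : ℝ) < rr K := by exact_mod_cast rr_pos (K := K)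
  have e1 : 2 * ∑ v, (t' - tc t Z) v = 2 * ∑ v, t' v - 2 * ∑ v, t v + Real.log Z := by
    simp only [Pi.sub_apply, tc, Finset.sum_sub_distrib, Finset.sum_const, Finset.card_univ,
      nsmul_eq_mul]
    field_simp
    ring
  rw [e1, Real.exp_add, Real.exp_sub, Real.exp_log hZ, sz, sz, NS_div]
  have := Real.exp_pos (2 * ∑ v, t v)
  field_simp

theorem pl7_abs_sum (u : Pl K → ℝ) : |2 * ∑ v, u v| ≤ 2 * rr K * ‖u‖ := by
  rw [abs_mul, abs_two, mul_assoc]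
  refine mul_le_mul_of_nonneg_left ((Finset.abs_sum_le_sum_abs _ _).trans ?_) (by norm_num)
  have : ∑ v : Pl K, |u v| ≤ ∑ _v : Pl K, ‖u‖ :=
    Finset.sum_le_sum fun v _ => by simpa using norm_le_pi_norm u v
  simpa using this

theorem pl7_ne {D E F : ℝ} {x : Ideal (R K) × Ideal (R K) × Ideal (R K)}
    (hx : x ∈ Tri K D E F) : x.1 ≠ ⊥ ∧ x.2.2 ≠ ⊥ := by
  have h := (mem_Tri.1 hx).2.2.2.2.ne_zero
  exact ⟨left_ne_zero_of_mul h, right_ne_zero_of_mul h⟩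

/-- A block in the main range. -/
theorem pl7a (e0 : ℕ) (he0 : e0 = 1 ∨ e0 = 3 ∨ e0 = 5) (j : ℕ) (hj : 1 ≤ j) (lam : ℝ)
    (hlam : 0 < lam) (A : ℝ) (hA : 0 ≤ A) :
    ∃ C : ℝ, 0 ≤ C ∧ ∀ (ι : Type) (s : Finset ι) (a : ι → R K → ℂ), (∀ i n, ‖a i n‖ ≤ 1) →
      (∀ i n, a i n ≠ 0 → Squarefree n) → ∀ c : K, c ≠ 0 → ∀ (t ξ : Pl K → ℝ) (H Θ : ℝ), 1 ≤ H →
      0 ≤ Θ → PLHyp e0 s a j (2 * lam) (sz c t) H Θ A →
      ∀ D E F K' : ℝ, 1 ≤ D → 1 ≤ E → 1 ≤ F → 1 ≤ K' → D * F ≤ sz c t ^ 2 → E ≤ 2 * D →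
        blk e0 s a j c lam (A + rr K + 1) t ξ D E F K' ≤
          ENNReal.ofReal (C * (1 + ‖ξ‖) ^ A * Θ * (E * sz c t / (H * D)) *
            max 1 (K' / (E * sz c t ^ 2 / (H * D ^ 2))) ^ A) := by

  obtain ⟨S, hS, hg⟩ := gen_cls (K := K) j
  obtain ⟨C, hC, h⟩ := pl7_blk (K := K) (b := 2 * rr K * A) (A := A) (N := A + rr K + 1) hlam
    (by linarith)
  have hMk : MK K ^ balC K ≠ 0 := pow_ne_zero _ MK_ne_zero
  set B0 := NS (MK K ^ balC K) with hB0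
  have hB1 : 1 ≤ B0 := one_le_NS hMk (pow_mem MK_mem_T _)
  have hNS : ∀ g ∈ S, 1 ≤ NS g ∧ NS g ≤ B0 := fun g hg =>
    ⟨one_le_NS (hS g hg).1 (hS g hg).2.1, NS_le_of_InT hMk (hS g hg).2.2⟩
  refine ⟨C * (((S ×ˢ S).card : ℝ) * (B0 * B0) ^ A), by positivity, ?_⟩
  intro ι s a ha hsf c hc t ξ H Θ hH hΘ hyp D E F K' hD hE hF hK hDF hED
  have hX := sz_pos hc t
  set X := sz c t with hXdef
  set K0 := E * X ^ 2 / (H * D ^ 2) with hK0
  have hK0p : 0 < K0 := by positivity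
  set m := max 1 (K' / K0) with hm
  have hm1 : 1 ≤ m := le_max_left _ _
  have hm2 : K' ≤ m * K0 := (div_le_iff₀ hK0p).1 (le_max_right _ _)
  refine (h e0 ι s a j c t ξ D E F K' (((S ×ˢ S).card : ℝ) * (B0 * B0) ^ A *
    ((1 + ‖ξ‖) ^ A * Θ * (E * X / (H * D)) * m ^ A)) (by positivity) fun t' τ => ?_).trans
      (le_of_eq (congrArg _ (by ring)))
  set u := t' - tc t (D * F) with hu
  set y := B0 * B0 * Real.exp (2 * rr K * ‖u‖) * m with hy
  have hex : 1 ≤ Real.exp (2 * rr K * ‖u‖) := Real.one_le_exp (by positivity)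
  have hBB : 1 ≤ B0 * B0 := one_le_mul_of_one_le_of_one_le hB1 hB1
  have hy0 : 1 ≤ B0 * B0 * Real.exp (2 * rr K * ‖u‖) := one_le_mul_of_one_le_of_one_le hBB hex
  have hmy : m ≤ y := le_mul_of_one_le_left (by linarith) hy0
  have hy1 : 1 ≤ y := hm1.trans hmy
  have key : ∀ q ∈ S ×ˢ S, ∑ i ∈ s, ∑ x ∈ Tri K D E F, ∑ J ∈ rows K K',
      ‖Sm (dualF e0 (a i) x.1 x.2.1 x.2.2 J) j (c / (q.1 * q.2)) (2 * lam) t' (ξ + τ)‖ ^ 2 ≤
        Θ * (E * X / (H * D)) * (y * (1 + ‖ξ + τ‖)) ^ A := by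
    intro q hq
    obtain ⟨hq1, hq2⟩ := Finset.mem_product.1 hq
    have hsz := pl7_sz (c := c) (g := q.1 * q.2) t t' (Z := D * F) (by positivity)
    rw [← hXdef, ← hu, NS_mul] at hsz
    have a1 := hNS _ hq1
    have a2 := hNS _ hq2
    have b1 : 1 ≤ NS q.1 * NS q.2 := one_le_mul_of_one_le_of_one_le a1.1 a2.1
    have b2 : NS q.1 * NS q.2 ≤ B0 * B0 := mul_le_mul a1.2 a2.2 (by linarith) (by linarith)
    have c1 := abs_le.1 (pl7_abs_sum u)
    have hXDF : 0 < X / (D * F) := by positivity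
    refine hyp D E F K' y hD hE hF hK hy1 hDF hED
      (hm2.trans (mul_le_mul_of_nonneg_right hmy hK0p.le)) _
      (div_ne_zero hc (mul_ne_zero (hS _ hq1).1 (hS _ hq2).1)) t' (ξ + τ) ?_ ?_
    · rw [hsz, ← div_div, div_le_iff₀ (by linarith), mul_assoc, mul_assoc]
      refine le_mul_of_one_le_right hXDF.le (one_le_mul_of_one_le_of_one_le b1 ?_)
      have d1 : 1 ≤ Real.exp (2 * ∑ v, u v) * Real.exp (2 * rr K * ‖u‖) := by
        rw [← Real.exp_add]; exact Real.one_le_exp (by linarith [c1.1])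
      have : Real.exp (2 * ∑ v, u v) * y =
          (Real.exp (2 * ∑ v, u v) * Real.exp (2 * rr K * ‖u‖)) * (B0 * B0 * m) := by
        rw [hy]; ring
      rw [this]
      exact one_le_mul_of_one_le_of_one_le d1 (one_le_mul_of_one_le_of_one_le hBB hm1)
    · rw [hsz, mul_div_right_comm, mul_assoc]
      refine mul_le_mul_of_nonneg_left ?_ hXDF.le
      refine le_trans ?_ (le_mul_of_one_le_right (by linarith) hm1)
      exact mul_le_mul b2 (Real.exp_le_exp.2 c1.2) (Real.exp_pos _).le (by linarith)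
  have step : ∑ i ∈ s, ∑ x ∈ Tri K D E F, ∑ J ∈ rows K K',
      ‖Sm (dualF e0 (a i) x.1 x.2.1 x.2.2 J) j (c / ((gen x.1 : K) * (gen x.2.2 : K)))
        (2 * lam) t' (ξ + τ)‖ ^ 2 ≤
      ∑ q ∈ S ×ˢ S, ∑ i ∈ s, ∑ x ∈ Tri K D E F, ∑ J ∈ rows K K',
        ‖Sm (dualF e0 (a i) x.1 x.2.1 x.2.2 J) j (c / (q.1 * q.2)) (2 * lam) t' (ξ + τ)‖ ^ 2 := by
    rw [Finset.sum_comm (s := S ×ˢ S)]
    refine Finset.sum_le_sum fun i _ => ?_
    rw [Finset.sum_comm (s := S ×ˢ S)]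
    refine Finset.sum_le_sum fun x hx => ?_
    obtain ⟨hx1, hx2⟩ := pl7_ne hx
    obtain ⟨g, hgS, hg1⟩ := hg _ hx1
    obtain ⟨g', hgS', hg2⟩ := hg _ hx2
    have n1 : (gen x.1 : K) ≠ 0 := by exact_mod_cast gen_ne_zero hx1
    have n2 : (gen x.2.2 : K) ≠ 0 := by exact_mod_cast gen_ne_zero hx2
    have n3 := (hS g hgS).1
    have n4 := (hS g' hgS').1
    have hcls : cls j (c / (g * g')) = cls j (c / ((gen x.1 : K) * (gen x.2.2 : K))) := by
      refine cls_eq_of_div hj (div_ne_zero hc (mul_ne_zero n1 n2)) ?_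
      have := U_mul ((mem_cls_iff n3).1 hg1) ((mem_cls_iff n4).1 hg2)
      convert this using 1
      field_simp
    refine le_trans (le_of_eq ?_) (Finset.single_le_sum (f := fun q : K × K =>
      ∑ J ∈ rows K K', ‖Sm (dualF e0 (a i) x.1 x.2.1 x.2.2 J) j (c / (q.1 * q.2)) (2 * lam) t'
        (ξ + τ)‖ ^ 2) (fun q _ => by positivity) (Finset.mk_mem_product hgS hgS'))
    refine Finset.sum_congr rfl fun J _ => ?_
    rw [Sm_cls_eq _ hcls]
  refine step.trans ((Finset.sum_le_card_nsmul _ _ _ key).trans ?_)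
  rw [nsmul_eq_mul]
  have f1 : y * (1 + ‖ξ + τ‖) ≤ y * ((1 + ‖ξ‖) * (1 + ‖τ‖)) := by
    refine mul_le_mul_of_nonneg_left ?_ (by linarith)
    nlinarith [norm_add_le ξ τ, mul_nonneg (norm_nonneg ξ) (norm_nonneg τ)]
  have f2 : (y * (1 + ‖ξ + τ‖)) ^ A ≤ (B0 * B0) ^ A * Real.exp (2 * rr K * A * ‖u‖) * m ^ A *
      ((1 + ‖ξ‖) ^ A * (1 + ‖τ‖) ^ A) := by
    refine (Real.rpow_le_rpow (by positivity) f1 hA).trans (le_of_eq ?_)
    have g1 : y ^ A = (B0 * B0) ^ A * Real.exp (2 * rr K * A * ‖u‖) * m ^ A := by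
      rw [hy, Real.mul_rpow (by linarith) (by linarith),
        Real.mul_rpow (x := B0 * B0) (by linarith) (by linarith), ← Real.exp_mul]
      congr 3
      ring
    rw [Real.mul_rpow (x := y) (by linarith) (by positivity),
      Real.mul_rpow (x := 1 + ‖ξ‖) (by positivity) (by positivity), g1]
  refine (mul_le_mul_of_nonneg_left (mul_le_mul_of_nonneg_left f2 (by positivity))
    (by positivity)).trans (le_of_eq ?_)
  ring

/-- The trivial bound for a block. -/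
theorem pl7b (e0 : ℕ) (he0 : e0 = 1 ∨ e0 = 3 ∨ e0 = 5) (j : ℕ) (hj : 1 ≤ j) (lam : ℝ)
    (hlam : 0 < lam) (N : ℝ) (hN : (rr K : ℝ) < N) :
    ∃ C : ℝ, 0 ≤ C ∧ ∀ (ι : Type) (s : Finset ι) (a : ι → R K → ℂ), (∀ i n, ‖a i n‖ ≤ 1) →
      (∀ i n, a i n ≠ 0 → Squarefree n) → ∀ c : K, c ≠ 0 → ∀ (t ξ : Pl K → ℝ),
      ∀ D E F K' : ℝ, 1 ≤ D → 1 ≤ E → 1 ≤ F → 1 ≤ K' →
        blk e0 s a j c lam N t ξ D E F K' ≤
          ENNReal.ofReal (C * s.card * (D * E * F * K') * (sz c t / (D * F)) ^ 10) := by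

  obtain ⟨C, hC, h⟩ := pl7_blk (K := K) (b := 20 * rr K) (A := 0) (N := N) hlam (by linarith)
  obtain ⟨C1, hC1, h1⟩ := norm_Sm_le (K := K) (lam := 2 * lam) (by linarith) (B := 5)
    (by norm_num)
  obtain ⟨C2, hC2, h2⟩ := b3b_card_rows (K := K)
  obtain ⟨C3, h3⟩ := NS_gen_le (K := K)
  have hC3 : 1 ≤ C3 := (h3 ⊤ top_ne_bot).1.trans (h3 ⊤ top_ne_bot).2
  refine ⟨C * (8 * C2 ^ 4 * (C1 ^ 2 * (C3 * C3) ^ 10)), by positivity, ?_⟩
  intro ι s a ha hsf c hc t ξ D E F K' hD hE hF hK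
  have hX := sz_pos hc t
  set X := sz c t with hXdef
  refine (h e0 ι s a j c t ξ D E F K' (8 * C2 ^ 4 * (C1 ^ 2 * (C3 * C3) ^ 10) *
    (s.card * (D * E * F * K') * (X / (D * F)) ^ 10)) (by positivity) fun t' τ => ?_).trans
      (le_of_eq (congrArg _ (by ring)))
  set u := t' - tc t (D * F) with hu
  set W := C1 ^ 2 * (C3 * C3) ^ 10 * (X / (D * F)) ^ 10 * Real.exp (20 * rr K * ‖u‖) with hW
  have hW0 : 0 ≤ W := by positivity
  have key : ∀ i, ∀ x ∈ Tri K D E F, ∀ J,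
      ‖Sm (dualF e0 (a i) x.1 x.2.1 x.2.2 J) j (c / ((gen x.1 : K) * (gen x.2.2 : K)))
        (2 * lam) t' (ξ + τ)‖ ^ 2 ≤ W := by
    intro i x hx J
    obtain ⟨hx1, hx2⟩ := pl7_ne hx
    have n1 : (gen x.1 : K) ≠ 0 := by exact_mod_cast gen_ne_zero hx1
    have n2 : (gen x.2.2 : K) ≠ 0 := by exact_mod_cast gen_ne_zero hx2
    have n3 := div_ne_zero hc (mul_ne_zero n1 n2)
    have b1 := (h1 _ (norm_dualF_le e0 he0 (a i) (ha i) (hsf i) x.1 x.2.1 x.2.2 J) j hj _ n3 t'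
      (ξ + τ)).trans (mul_le_mul_of_nonneg_left (min_le_right _ _) hC1.le)
    have hsz := pl7_sz (c := c) (g := (gen x.1 : K) * (gen x.2.2 : K)) t t' (Z := D * F)
      (by positivity)
    rw [← hXdef, ← hu, NS_mul] at hsz
    have a1 := h3 _ hx1
    have a2 := h3 _ hx2
    have b2 : NS (gen x.1 : K) * NS (gen x.2.2 : K) ≤ C3 * C3 :=
      mul_le_mul a1.2 a2.2 (by linarith) (by linarith)
    have c1 := abs_le.1 (pl7_abs_sum u)
    have b3 : sz (c / ((gen x.1 : K) * (gen x.2.2 : K))) t' ≤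
        X / (D * F) * (C3 * C3) * Real.exp (2 * rr K * ‖u‖) := by
      rw [hsz]
      exact mul_le_mul (mul_le_mul_of_nonneg_left b2 (by positivity)) (Real.exp_le_exp.2 c1.2)
        (Real.exp_pos _).le (by positivity)
    have b4 := sz_pos n3 t'
    rw [show (5 : ℝ) = ((5 : ℕ) : ℝ) by norm_num, Real.rpow_natCast] at b1
    have b5 := b1.trans (mul_le_mul_of_nonneg_left (pow_le_pow_left₀ b4.le b3 5) hC1.le)
    refine (pow_le_pow_left₀ (norm_nonneg _) b5 2).trans (le_of_eq ?_)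
    have : Real.exp (20 * rr K * ‖u‖) = Real.exp (2 * rr K * ‖u‖) ^ 10 := by
      rw [← Real.exp_nat_mul]; congr 1; push_cast; ring
    rw [hW, this]
    ring
  have hT : ((Tri K D E F).card : ℝ) ≤ C2 * (2 * D) * (C2 * (2 * E) * (C2 * (2 * F))) := by
    have : ((Tri K D E F).card : ℝ) ≤
        ((rows K (2 * D) ×ˢ rows K (2 * E) ×ˢ rows K (2 * F)).card : ℝ) := by
      classical
      unfold Tri
      exact Nat.cast_le.2 (Finset.card_le_card fun x hx => (Finset.mem_filter.1 (by convert hx)).1)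
    refine this.trans ?_
    rw [Finset.card_product, Finset.card_product]
    push_cast
    exact mul_le_mul (h2 _ (by linarith)) (mul_le_mul (h2 _ (by linarith)) (h2 _ (by linarith))
      (by positivity) (by positivity)) (by positivity) (by positivity)
  have hR := h2 K' (by linarith)
  calc _ ≤ ∑ _i ∈ s, ∑ _x ∈ Tri K D E F, ∑ _J ∈ rows K K', W :=
        Finset.sum_le_sum fun i _ => Finset.sum_le_sum fun x hx =>
          Finset.sum_le_sum fun J _ => key i x hx J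
    _ = s.card * (((Tri K D E F).card : ℝ) * (((rows K K').card : ℝ) * W)) := by
        simp only [Finset.sum_const, nsmul_eq_mul]
    _ ≤ s.card * (C2 * (2 * D) * (C2 * (2 * E) * (C2 * (2 * F))) * (C2 * K' * W)) := by
        gcongr
    _ = _ := by rw [Real.rpow_zero, hW]; ring

end Crest.Agent.GQ
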