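import Crest.Agent.GQ.ZPL6
import Crest.Agent.GQ.ZPL7

/-!
# Project GQ, part B3: the Poisson lemma
-/

set_option autoImplicit false

noncomputable section

open NumberField Complex UniqueFactorizationMonoid MeasureTheory
open scoped ComplexConjugate ENNReal

namespace Crest.Agent.GQ

theorem zpl_sort {α β : Type*} (G : α → ℝ≥0∞) (S : β → Finset α) (g : β → α → ℝ≥0∞)
    (h : ∀ x, G x ≠ 0 → ∃ y, x ∈ S y ∧ G x ≤ g y x) : ∑' x, G x ≤ ∑' y, ∑ x ∈ S y, g y x := by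
  classical
  calc ∑' x, G x ≤ ∑' x, ∑' y, (if x ∈ S y then g y x else 0) := by
        refine ENNReal.tsum_le_tsum fun x => ?_
        by_cases hx : G x = 0
        · rw [hx]; exact zero_le
        · obtain ⟨y, h1, h2⟩ := h x hx
          refine le_trans ?_ (ENNReal.le_tsum y)
          rwa [if_pos h1]
    _ = ∑' y, ∑' x, (if x ∈ S y then g y x else 0) := ENNReal.tsum_comm
    _ = _ := by
        refine tsum_congr fun y => ?_
        rw [tsum_eq_sum (s := S y) fun x hx => if_neg hx]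
        exact Finset.sum_congr rfl fun x hx => if_pos hx

theorem zpl_geom {q T : ℝ} (h0 : 0 ≤ q) (h1 : q < 1) (hT : 0 ≤ T) :
    ∑' y : ℕ × ℕ × ℕ × ℕ, ENNReal.ofReal (T * (q ^ y.1 * (q ^ y.2.1 * (q ^ y.2.2.1 * q ^ y.2.2.2)))) =
      ENNReal.ofReal (T * ((1 - q)⁻¹) ^ 4) := by
  have hG : ∑' n : ℕ, ENNReal.ofReal (q ^ n) = ENNReal.ofReal (1 - q)⁻¹ := by
    rw [← ENNReal.ofReal_tsum_of_nonneg (fun n => pow_nonneg h0 n) (summable_geometric_of_lt_one h0 h1),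
      tsum_geometric_of_lt_one h0 h1]
  have hq : 0 ≤ (1 - q)⁻¹ := inv_nonneg.2 (by linarith)
  simp only [ENNReal.ofReal_mul hT, ENNReal.ofReal_mul (pow_nonneg h0 _), ENNReal.tsum_mul_left,
    ENNReal.tsum_prod', ENNReal.tsum_mul_right, hG]
  rw [ENNReal.ofReal_pow hq]
  ring

theorem zpl_phi1 {u M η A : ℝ} (hu : 0 < u) (huM : u ≤ M) (hM : 1 ≤ M) (hη : 0 < η) (hη1 : η ≤ 1) :
    max 1 u ^ η * min 1 u ^ (A + 2) * max 1 u⁻¹ ^ A ≤ (M * u) ^ η := by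
  rcases le_total 1 u with h | h
  · rw [max_eq_right h, min_eq_left h, max_eq_left (inv_le_one_of_one_le₀ h), Real.one_rpow,
      Real.one_rpow, mul_one, mul_one]
    exact Real.rpow_le_rpow hu.le (by nlinarith) hη.le
  · rw [max_eq_left h, min_eq_right h, max_eq_right ((one_le_inv₀ hu).2 h), Real.one_rpow, one_mul,
      Real.inv_rpow hu.le, Real.rpow_add hu, mul_right_comm,
      mul_inv_cancel₀ (Real.rpow_pos_of_pos hu A).ne', one_mul]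
    exact (Real.rpow_le_rpow_of_exponent_ge hu h (by linarith)).trans
      (Real.rpow_le_rpow hu.le (by nlinarith) hη.le)

theorem zpl_phi2 {u η A : ℝ} (hu : 0 < u) (hη1 : η ≤ 1) (hA : 0 ≤ A) :
    max 1 u ^ η * min 1 u ^ (A + 2) ≤ u ^ 2 := by
  rw [← Real.rpow_two]
  rcases le_total 1 u with h | h
  · rw [max_eq_right h, min_eq_left h, Real.one_rpow, mul_one]
    exact Real.rpow_le_rpow_of_exponent_le h (by linarith)
  · rw [max_eq_left h, min_eq_right h, Real.one_rpow, one_mul]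
    exact Real.rpow_le_rpow_of_exponent_ge hu h (by linarith)

theorem zpl_u_le {D E K' X H : ℝ} (hD : 1 ≤ D) (hE : 1 ≤ E) (hED : E ≤ D) (hK : 1 ≤ K') (hH : 1 ≤ H) :
    E * X ^ 2 / (H * D ^ 2) / K' ≤ X ^ 2 / K' := by
  refine div_le_div_of_nonneg_right ?_ (by linarith)
  rw [div_le_iff₀ (by positivity), mul_comm E]
  refine mul_le_mul_of_nonneg_left ?_ (sq_nonneg X)
  nlinarith [mul_le_mul_of_nonneg_right hH (sq_nonneg D)]

theorem zpl_main {D E F K' X H η ε A : ℝ} (hD : 1 ≤ D) (hE : 1 ≤ E) (hF : 1 ≤ F) (hED : E ≤ D)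
    (hK : 1 ≤ K') (hH : 1 ≤ H) (hX : 1 ≤ X) (hη : 0 < η) (hη1 : η ≤ 1) (hε : 10 * η ≤ ε)
    (hDF : D * F ≤ X ^ 2) :
    H * D / (E * X) * (max 1 (E * X ^ 2 / (H * D ^ 2) / K') ^ η *
      min 1 (E * X ^ 2 / (H * D ^ 2) / K') ^ (A + 2)) *
      (E * X / (H * D) * max 1 (K' / (E * X ^ 2 / (H * D ^ 2))) ^ A) ≤
      X ^ ε * (D * E * F * K') ^ (-η) := by
  have hu := zpl_u_le (X := X) hD hE hED hK hH
  have hX2 : 1 ≤ X ^ 2 := one_le_pow₀ hX
  have hu0 : 0 < E * X ^ 2 / (H * D ^ 2) / K' := by positivity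
  have h1 := zpl_phi1 (A := A) hu0 (hu.trans (div_le_self (by positivity) hK)) hX2 hη hη1
  rw [inv_div] at h1
  have h2 : X ^ 2 * (E * X ^ 2 / (H * D ^ 2) / K') ≤ X ^ 10 / (D * E * F * K') := by
    refine (mul_le_mul_of_nonneg_left hu (by positivity)).trans ?_
    have k1 : D * F * E ≤ X ^ 2 * X ^ 2 :=
      mul_le_mul hDF (by nlinarith) (by linarith) (by positivity)
    have k2 : X ^ 2 * X ^ 2 ≤ X ^ 6 := by nlinarith [pow_pos (show 0 < X by linarith) 4]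
    rw [← mul_div_assoc, div_le_div_iff₀ (by positivity) (by positivity)]
    calc X ^ 2 * X ^ 2 * (D * E * F * K') = X ^ 4 * K' * (D * F * E) := by ring
      _ ≤ X ^ 4 * K' * X ^ 6 := mul_le_mul_of_nonneg_left (k1.trans k2) (by positivity)
      _ = _ := by ring
  calc _ = max 1 (E * X ^ 2 / (H * D ^ 2) / K') ^ η * min 1 (E * X ^ 2 / (H * D ^ 2) / K') ^ (A + 2) *
        max 1 (K' / (E * X ^ 2 / (H * D ^ 2))) ^ A := by field_simp
    _ ≤ (X ^ 10 / (D * E * F * K')) ^ η :=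
        h1.trans (Real.rpow_le_rpow (by positivity) h2 hη.le)
    _ = X ^ (10 * η) * (D * E * F * K') ^ (-η) := by
        rw [Real.div_rpow (by positivity) (by positivity), Real.rpow_neg (by positivity),
          Real.rpow_mul (by positivity), div_eq_mul_inv]
        norm_num
    _ ≤ _ := mul_le_mul_of_nonneg_right (Real.rpow_le_rpow_of_exponent_le hX hε) (by positivity)

theorem zpl_tail {D E F K' X H η A : ℝ} (hD : 1 ≤ D) (hE : 1 ≤ E) (hF : 1 ≤ F) (hED : E ≤ D)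
    (hK : 1 ≤ K') (hH : 1 ≤ H) (hX : 1 ≤ X) (hη1 : η ≤ 1) (hA : 0 ≤ A) (hDF : X ^ 2 ≤ D * F) :
    H * D / (E * X) * (max 1 (E * X ^ 2 / (H * D ^ 2) / K') ^ η *
      min 1 (E * X ^ 2 / (H * D ^ 2) / K') ^ (A + 2)) * (D * E * F * K' * (X / (D * F)) ^ 10) ≤
      H * X * (D * E * F * K') ^ (-η) := by
  have hu := zpl_u_le (X := X) hD hE hED hK hH
  have hu0 : 0 < E * X ^ 2 / (H * D ^ 2) / K' := by positivity
  have h1 := (zpl_phi2 hu0 hη1 hA).trans (pow_le_pow_left₀ hu0.le hu 2)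
  have hY : 1 ≤ D * E * F * K' :=
    one_le_mul_of_one_le_of_one_le (one_le_mul_of_one_le_of_one_le
      (one_le_mul_of_one_le_of_one_le hD hE) hF) hK
  have h2 : (D * E * F * K')⁻¹ ≤ (D * E * F * K') ^ (-η) := by
    rw [← Real.rpow_neg_one]
    exact Real.rpow_le_rpow_of_exponent_le hY (by linarith)
  have h3 : (X ^ 2) ^ 6 ≤ (D * F) ^ 6 := pow_le_pow_left₀ (by positivity) hDF 6
  have h4 : D ^ 3 * E * F ^ 2 ≤ D ^ 3 * D * F ^ 4 :=
    mul_le_mul (mul_le_mul_of_nonneg_left hED (by positivity)) (pow_le_pow_right₀ hF (by norm_num))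
      (by positivity) (by positivity)
  have h5 := mul_le_mul h3 h4 (by positivity) (by positivity)
  calc _ ≤ H * D / (E * X) * (X ^ 2 / K') ^ 2 * (D * E * F * K' * (X / (D * F)) ^ 10) := by gcongr
    _ = H * X * (D * E * F * K')⁻¹ * (((X ^ 2) ^ 6 * (D ^ 3 * E * F ^ 2)) /
          ((D * F) ^ 6 * (D ^ 3 * D * F ^ 4))) := by field_simp
    _ ≤ H * X * (D * E * F * K') ^ (-η) * 1 := by
        gcongr
        exact div_le_one_of_le₀ h5 (by positivity)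
    _ = _ := mul_one _

theorem zpl_wt {D E K' X H nd ne nJ η B : ℝ} (hD : 1 ≤ D) (hE : 1 ≤ E) (hK : 1 ≤ K') (hH : 1 ≤ H)
    (hX : 1 ≤ X) (hη : 0 < η) (hη1 : η ≤ 1) (hB : 0 ≤ B) (h1 : D ≤ nd) (h2 : nd ≤ 2 * D) (h3 : E ≤ ne)
    (h4 : ne ≤ 2 * E) (h5 : K' ≤ 2 * nJ) :
    H * nd / (ne * X) * max 1 (ne * X ^ 2 / (H * nd ^ 2) / nJ) ^ η *
      min 1 (ne * X ^ 2 / (H * nd ^ 2) / nJ) ^ B ≤
      8 * 4 ^ B * (H * D / (E * X) * (max 1 (E * X ^ 2 / (H * D ^ 2) / K') ^ η *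
        min 1 (E * X ^ 2 / (H * D ^ 2) / K') ^ B)) := by
  have hnd : 0 < nd := by linarith
  have hne : 0 < ne := by linarith
  have hnJ : 0 < nJ := by linarith
  have hu : ne * X ^ 2 / (H * nd ^ 2) / nJ ≤ 4 * (E * X ^ 2 / (H * D ^ 2) / K') := by
    calc _ ≤ (2 * E) * X ^ 2 / (H * D ^ 2) / (K' / 2) := by gcongr; linarith
      _ = _ := by field_simp; norm_num
  have hu0 : 0 < E * X ^ 2 / (H * D ^ 2) / K' := by positivity
  have hv0 : 0 < ne * X ^ 2 / (H * nd ^ 2) / nJ := by positivity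
  generalize ne * X ^ 2 / (H * nd ^ 2) / nJ = v at hu hv0
  generalize E * X ^ 2 / (H * D ^ 2) / K' = u at hu hu0
  have k1 : H * nd / (ne * X) ≤ 2 * (H * D / (E * X)) := by
    calc _ ≤ H * (2 * D) / (E * X) := by gcongr
      _ = _ := by ring
  have m1 : 1 ≤ max 1 u := le_max_left _ _
  have m2 : u ≤ max 1 u := le_max_right _ _
  have k2 : max 1 v ^ η ≤ 4 * max 1 u ^ η := by
    calc _ ≤ (4 * max 1 u) ^ η :=
          Real.rpow_le_rpow (by positivity) (max_le (by linarith) (by linarith)) hη.le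
      _ = 4 ^ η * max 1 u ^ η := Real.mul_rpow (by norm_num) (by positivity)
      _ ≤ 4 ^ (1 : ℝ) * max 1 u ^ η := by gcongr; norm_num
      _ = _ := by rw [Real.rpow_one]
  have k3 : min 1 v ^ B ≤ 4 ^ B * min 1 u ^ B := by
    rw [← Real.mul_rpow (by norm_num) (by positivity)]
    refine Real.rpow_le_rpow (by positivity) ?_ hB
    rcases le_total 1 u with h | h
    · rw [min_eq_left h]; linarith [min_le_left 1 v]
    · rw [min_eq_right h]; linarith [min_le_right 1 v]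
  calc _ ≤ 2 * (H * D / (E * X)) * (4 * max 1 u ^ η) * (4 ^ B * min 1 u ^ B) := by gcongr
    _ = _ := by ring

theorem zpl_log {n : ℕ} (hn : 0 < n) :
    (2 : ℝ) ^ Nat.log 2 n ≤ n ∧ (n : ℝ) ≤ 2 * 2 ^ Nat.log 2 n := by
  constructor
  · exact_mod_cast Nat.pow_log_le_self 2 hn.ne'
  · have := (Nat.lt_pow_succ_log_self one_lt_two n).le
    rw [pow_succ, mul_comm] at this
    exact_mod_cast this

theorem zpl_pow {η : ℝ} (hη : 0 < η) (a b g k : ℕ) :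
    ((2 : ℝ) ^ a * 2 ^ b * 2 ^ g * (2 * 2 ^ k)) ^ (-η) ≤
      (2 ^ (-η)) ^ a * ((2 ^ (-η)) ^ b * ((2 ^ (-η)) ^ g * (2 ^ (-η)) ^ k)) := by
  have e : ∀ n : ℕ, ((2 : ℝ) ^ (-η)) ^ n = (2 ^ n) ^ (-η) := fun n =>
    Real.rpow_pow_comm (by norm_num) _ _
  rw [e, e, e, e, ← Real.mul_rpow (by positivity) (by positivity),
    ← Real.mul_rpow (by positivity) (by positivity), ← Real.mul_rpow (by positivity) (by positivity)]
  refine Real.rpow_le_rpow_of_nonpos (by positivity) ?_ (by linarith)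
  have : (0 : ℝ) < 2 ^ a * (2 ^ b * (2 ^ g * 2 ^ k)) := by positivity
  linarith

variable {K : Type} [Field K] [NumberField K] [P : Pre K] [Q : Rec K]

/-- The weight of a dyadic block. -/
def zplW (C H X η B D E K' : ℝ) : ℝ :=
  C * (H * D / (E * X) * (max 1 (E * X ^ 2 / (H * D ^ 2) / K') ^ η *
    min 1 (E * X ^ 2 / (H * D ^ 2) / K') ^ B))

theorem zpl_blk (e0 : ℕ) (he0 : e0 = 1 ∨ e0 = 3 ∨ e0 = 5) (j : ℕ) (hj : 1 ≤ j) (lam : ℝ)
    (hlam : 0 < lam) (A : ℝ) (hA : 0 ≤ A) {η ε : ℝ} (hη : 0 < η) (hη1 : η ≤ 1) (hε : 10 * η ≤ ε) :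
    ∃ C : ℝ, 0 ≤ C ∧ ∀ (ι : Type) (s : Finset ι) (a : ι → R K → ℂ), (∀ i n, ‖a i n‖ ≤ 1) →
      (∀ i n, a i n ≠ 0 → Squarefree n) → ∀ c : K, c ≠ 0 → ∀ (t ξ : Pl K → ℝ) (H Θ : ℝ), 1 ≤ H →
      0 ≤ Θ → 1 ≤ sz c t → PLHyp e0 s a j (2 * lam) (sz c t) H Θ A →
      ∀ Cw D E F K' : ℝ, 0 ≤ Cw → 1 ≤ D → 1 ≤ E → 1 ≤ F → 1 ≤ K' → E ≤ D →
        ENNReal.ofReal (zplW Cw H (sz c t) η (A + 2) D E K') *
          blk e0 s a j c lam (A + rr K + 1) t ξ D E F K' ≤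
          ENNReal.ofReal (Cw * C * ((1 + ‖ξ‖) ^ A * sz c t ^ ε * (s.card * H * sz c t + Θ)) *
            (D * E * F * K') ^ (-η)) := by
  obtain ⟨Ca, hCa, ha⟩ := pl7a (K := K) e0 he0 j hj lam hlam A hA
  obtain ⟨Cb, hCb, hb⟩ := pl7b (K := K) e0 he0 j hj lam hlam (A + rr K + 1) (by linarith)
  refine ⟨Ca + Cb, by positivity, fun ι s a h1 h2 c hc t ξ H Θ hH hΘ hX hyp Cw D E F K' hCw hD hE hF
    hK hED => ?_⟩
  have hW : 0 ≤ zplW Cw H (sz c t) η (A + 2) D E K' := by unfold zplW; positivity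
  have hP : 1 ≤ (1 + ‖ξ‖) ^ A := Real.one_le_rpow (by linarith [norm_nonneg ξ]) hA
  have hXε : 1 ≤ sz c t ^ ε := Real.one_le_rpow hX (by linarith)
  have hn : 0 ≤ (s.card : ℝ) * H * sz c t := by positivity
  rcases le_total (D * F) (sz c t ^ 2) with hDF | hDF
  · refine (mul_le_mul_right (ha ι s a h1 h2 c hc t ξ H Θ hH hΘ hyp D E F K' hD hE hF hK hDF
      (by linarith)) _).trans ?_
    rw [← ENNReal.ofReal_mul hW]
    refine ENNReal.ofReal_le_ofReal ?_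
    have k := zpl_main (A := A) hD hE hF hED hK hH hX hη hη1 hε hDF
    calc _ = Cw * Ca * (1 + ‖ξ‖) ^ A * Θ * _ := by unfold zplW; ring
      _ ≤ Cw * Ca * (1 + ‖ξ‖) ^ A * Θ * (sz c t ^ ε * (D * E * F * K') ^ (-η)) :=
          mul_le_mul_of_nonneg_left k (by positivity)
      _ = Cw * Ca * ((1 + ‖ξ‖) ^ A * sz c t ^ ε * Θ) * (D * E * F * K') ^ (-η) := by ring
      _ ≤ _ := by gcongr <;> linarith
  · refine (mul_le_mul_right (hb ι s a h1 h2 c hc t ξ D E F K' hD hE hF hK) _).trans ?_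
    rw [← ENNReal.ofReal_mul hW]
    refine ENNReal.ofReal_le_ofReal ?_
    have k := zpl_tail (η := η) hD hE hF hED hK hH hX hη1 hA hDF
    calc _ = Cw * Cb * s.card * _ := by unfold zplW; ring
      _ ≤ Cw * Cb * s.card * (H * sz c t * (D * E * F * K') ^ (-η)) :=
          mul_le_mul_of_nonneg_left k (by positivity)
      _ = Cw * Cb * (1 * 1 * (s.card * H * sz c t)) * (D * E * F * K') ^ (-η) := by ring
      _ ≤ _ := by gcongr <;> linarith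

theorem PL (e0 : ℕ) (he0 : e0 = 1 ∨ e0 = 3 ∨ e0 = 5) (j : ℕ) (hj : Rec.k K ≤ j) (lam : ℝ)
    (hlam : 0 < lam) (A : ℝ) (hA : 0 ≤ A) (ε : ℝ) (hε : 0 < ε) :
    ∃ C : ℝ, 0 ≤ C ∧ ∀ (ι : Type) (s : Finset ι) (a : ι → R K → ℂ), (∀ i n, ‖a i n‖ ≤ 1) →
      (∀ i n, a i n ≠ 0 → Squarefree n) → ∀ c : K, c ≠ 0 → ∀ (t ξ : Pl K → ℝ) (H Θ : ℝ), 1 ≤ H →
      0 ≤ Θ → 1 ≤ sz c t → PLHyp e0 s a j (2 * lam) (sz c t) H Θ A →
        ∑ i ∈ s, ∑ J ∈ rows K H, ‖Sm (fun n => a i n * chiI J n ^ e0) j c lam t ξ‖ ^ 2 ≤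
          C * (1 + ‖ξ‖) ^ A * sz c t ^ ε * (s.card * H * sz c t + Θ) := by
  classical
  have hη : 0 < min 1 (ε / 10) := lt_min one_pos (by positivity)
  have hη1 : min 1 (ε / 10) ≤ 1 := min_le_left _ _
  have hηε : 10 * min 1 (ε / 10) ≤ ε := by linarith [min_le_right 1 (ε / 10)]
  generalize min 1 (ε / 10) = η at hη hη1 hηε
  obtain ⟨C6, hC6, h6⟩ := pl6 e0 he0 j hj lam hlam η (A + 2) (A + rr K + 1) hη hη1 (by linarith)
  obtain ⟨C7, hC7, h7⟩ := zpl_blk (K := K) e0 he0 j (Q.hk.trans hj) lam hlam A hA hη hη1 hηε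
  have hq0 : (0 : ℝ) ≤ 2 ^ (-η) := by positivity
  have hq1 : (2 : ℝ) ^ (-η) < 1 := Real.rpow_lt_one_of_one_lt_of_neg one_lt_two (by linarith)
  set Cw := C6 * (8 * 4 ^ (A + 2)) with hCw
  have hCw0 : 0 ≤ Cw := by positivity
  refine ⟨C6 + Cw * C7 * ((1 - 2 ^ (-η))⁻¹) ^ 4, by positivity,
    fun ι s a h1 h2 c hc t ξ H Θ hH hΘ hX hyp => ?_⟩
  set T := (1 + ‖ξ‖) ^ A * sz c t ^ ε * (s.card * H * sz c t + Θ) with hT
  have hT0 : 0 ≤ T := by positivity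
  set W : ℕ × ℕ × ℕ × ℕ → ℝ≥0∞ := fun y => if y.2.1 ≤ y.1 then
    ENNReal.ofReal (zplW Cw H (sz c t) η (A + 2) (2 ^ y.1) (2 ^ y.2.1) (2 * 2 ^ y.2.2.2)) else 0 with hWdef
  have one2 : ∀ n : ℕ, (1 : ℝ) ≤ 2 ^ n := fun n => one_le_pow₀ one_le_two
  have step : ∀ i, ENNReal.ofReal (∑ J ∈ rows K H,
      ‖Sm (fun n => a i n * chiI J n ^ e0) j c lam t ξ‖ ^ 2) ≤ ENNReal.ofReal (C6 * H * sz c t) +
      ∑' y : ℕ × ℕ × ℕ × ℕ, W y * ∑ x ∈ Tri K (2 ^ y.1) (2 ^ y.2.1) (2 ^ y.2.2.1),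
        ∑ J ∈ rows K (2 * 2 ^ y.2.2.2), Qav (dualF e0 (a i) x.1 x.2.1 x.2.2 J) j
          (c / ((gen x.1 : K) * (gen x.2.2 : K))) lam (A + rr K + 1)
          (tc t (2 ^ y.1 * 2 ^ y.2.2.1)) ξ := by
    intro i
    refine (h6 (a i) (h1 i) (h2 i) c hc t ξ H hH
      (fun d f => 2 ^ Nat.log 2 (nmI d) * 2 ^ Nat.log 2 (nmI f)) fun d f hd hf => ?_).trans
      (add_le_add le_rfl ?_)
    · obtain ⟨a1, a2⟩ := zpl_log (nmI_pos hd)
      obtain ⟨b1, b2⟩ := zpl_log (nmI_pos hf)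
      unfold NI
      exact ⟨(mul_le_mul a2 b2 (by positivity) (by positivity)).trans_eq (by ring),
        mul_le_mul a1 b1 (by positivity) (by positivity)⟩
    refine (zpl_sort _ (fun y : ℕ × ℕ × ℕ × ℕ =>
      Tri K (2 ^ y.1) (2 ^ y.2.1) (2 ^ y.2.2.1) ×ˢ rows K (2 * 2 ^ y.2.2.2))
      (fun y x => W y * Qav (dualF e0 (a i) x.1.1 x.1.2.1 x.1.2.2 x.2) j
          (c / ((gen x.1.1 : K) * (gen x.1.2.2 : K))) lam (A + rr K + 1)
          (tc t (2 ^ y.1 * 2 ^ y.2.2.1)) ξ) ?_).trans (le_of_eq (tsum_congr fun y => ?_))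
    · rintro ⟨⟨d, e, f⟩, J⟩ hx
      have hc : e ∣ d ∧ Squarefree (d * f) ∧ J ≠ ⊥ := by
        by_contra hc
        exact hx (if_neg hc)
      have hdf : d * f ≠ 0 := hc.2.1.ne_zero
      have hd : d ≠ ⊥ := left_ne_zero_of_mul hdf
      have hf : f ≠ ⊥ := right_ne_zero_of_mul hdf
      have he : e ≠ ⊥ := ne_zero_of_dvd_ne_zero hd hc.1
      obtain ⟨d1, d2⟩ := zpl_log (nmI_pos hd)
      obtain ⟨e1, e2⟩ := zpl_log (nmI_pos he)
      obtain ⟨f1, f2⟩ := zpl_log (nmI_pos hf)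
      obtain ⟨J1, J2⟩ := zpl_log (nmI_pos hc.2.2)
      refine ⟨(Nat.log 2 (nmI d), Nat.log 2 (nmI e), Nat.log 2 (nmI f), Nat.log 2 (nmI J)), ?_, ?_⟩
      · simp only [Tri, Finset.mem_product, Finset.mem_filter, mem_rows]
        exact ⟨⟨⟨⟨hd, d2⟩, ⟨he, e2⟩, hf, f2⟩, d1, e1, f1, hc.1, hc.2.1⟩, hc.2.2, J2⟩
      · simp only [hWdef]
        rw [if_pos hc, if_pos (Nat.log_mono_right (nmI_le_of_dvd hd hc.1))]
        refine mul_le_mul_left (ENNReal.ofReal_le_ofReal ?_) _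
        have k := zpl_wt (B := A + 2) (one2 _) (one2 _)
          (show (1 : ℝ) ≤ 2 * 2 ^ Nat.log 2 (nmI J) by linarith [one2 (Nat.log 2 (nmI J))]) hH hX hη hη1
          (by linarith) d1 d2 e1 e2 (mul_le_mul_of_nonneg_left J1 (by norm_num))
        have k' := mul_le_mul_of_nonneg_left k hC6
        unfold zplW NI
        rw [hCw]
        linarith
    · rw [Finset.sum_product, Finset.mul_sum]
      exact Finset.sum_congr rfl fun x _ => (Finset.mul_sum _ _ _).symm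
  have tot : ∑' y : ℕ × ℕ × ℕ × ℕ, W y * blk e0 s a j c lam (A + rr K + 1) t ξ (2 ^ y.1) (2 ^ y.2.1)
      (2 ^ y.2.2.1) (2 * 2 ^ y.2.2.2) ≤ ENNReal.ofReal (Cw * C7 * T * ((1 - 2 ^ (-η))⁻¹) ^ 4) := by
    rw [← zpl_geom hq0 hq1 (by positivity)]
    refine ENNReal.tsum_le_tsum fun y => ?_
    simp only [hWdef]
    split_ifs with hy
    · refine (h7 ι s a h1 h2 c hc t ξ H Θ hH hΘ hX hyp Cw _ _ _ _ hCw0 (one2 _) (one2 _) (one2 _)
        (by linarith [one2 y.2.2.2]) (pow_le_pow_right₀ one_le_two hy)).trans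
        (ENNReal.ofReal_le_ofReal ?_)
      exact mul_le_mul_of_nonneg_left (zpl_pow hη _ _ _ _) (by positivity)
    · rw [zero_mul]; exact zero_le
  have hP : 1 ≤ (1 + ‖ξ‖) ^ A := Real.one_le_rpow (by linarith [norm_nonneg ξ]) hA
  have hXε : 1 ≤ sz c t ^ ε := Real.one_le_rpow hX hε.le
  have hT1 : 1 * 1 * (s.card * H * sz c t) ≤ T := by
    rw [hT]
    gcongr
    linarith
  rw [← ENNReal.ofReal_le_ofReal_iff (by positivity),
    ENNReal.ofReal_sum_of_nonneg fun i _ => by positivity]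
  refine (Finset.sum_le_sum fun i _ => step i).trans ?_
  rw [Finset.sum_add_distrib, ← Summable.tsum_finsetSum fun _ _ => ENNReal.summable,
    ← ENNReal.ofReal_sum_of_nonneg fun i _ => by positivity]
  simp only [← Finset.mul_sum]
  refine (add_le_add le_rfl tot).trans ?_
  rw [← ENNReal.ofReal_add (by positivity) (by positivity)]
  refine ENNReal.ofReal_le_ofReal ?_
  rw [Finset.sum_const, nsmul_eq_mul]
  have := mul_le_mul_of_nonneg_left hT1 hC6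
  calc _ ≤ C6 * T + Cw * C7 * T * ((1 - 2 ^ (-η))⁻¹) ^ 4 := by linarith
    _ = _ := by rw [hT]; ring

end Crest.Agent.GQ
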