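import Crest.Agent.GQ.ZCop
import Crest.Agent.GQ.ZMerge
import Crest.Agent.GQ.ZPL

/-!
# Project GQ, part B3: from the Moebius function to cubic Gauss sums
-/

set_option autoImplicit false

noncomputable section

open NumberField Complex UniqueFactorizationMonoid MeasureTheory
open scoped ComplexConjugate ENNReal

namespace Crest.Agent.GQ

variable {K : Type} [Field K] [NumberField K] [P : Pre K] [Q : Rec K]

/-- The dual sums for `e0 = 5`. -/
theorem norm_Sm_dualF5 {z w : Ideal (R K)} (hz : z ≠ ⊥) (hw : w ≠ ⊥) {d e d' f J : Ideal (R K)}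
    (he : d = e * d') (hdf : Squarefree (d * f)) (hJ : J ≠ ⊥) {j : ℕ} (hj : Rec.k K ≤ j) {c : K}
    (hc : c ≠ 0) (lam : ℝ) (t ξ : Pl K → ℝ) :
    ‖Sm (dualF 5 (fun n => Gsf n * (ang (n : K) * (chiI z n * chiI w n ^ 6))) d e f J)
        j c lam t ξ‖ ≤
      ‖Sm (fun n => mu n * (chiI (z * d * d' * J) n * chiI (f * w) n ^ 6)) j c lam t ξ‖ := by
  classical
  have hdf0 : d * f ≠ ⊥ := hdf.ne_zero
  have hd0 : d ≠ ⊥ := left_ne_zero_of_mul hdf0
  have hf0 : f ≠ ⊥ := right_ne_zero_of_mul hdf0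
  have hed : e * d' ≠ ⊥ := he ▸ hd0
  have he0 : e ≠ ⊥ := left_ne_zero_of_mul hed
  have hd'0 : d' ≠ ⊥ := right_ne_zero_of_mul hed
  have hD : Squarefree (gen d) := squarefree_gen.2 hdf.of_mul_left
  have hF0 : gen f ≠ 0 := gen_ne_zero hf0
  have hc' : (gen f : K) * c ≠ 0 := mul_ne_zero (fl_coe_ne hF0) hc
  obtain ⟨β₁, hβ₁, h₁⟩ := Gsf_mul_cls hD hj hc'
  obtain ⟨β₂, hβ₂, h₂⟩ := key_identity hj hc'
  obtain ⟨s₀, hs₀⟩ := cls_nonempty j hc'
  have hη : ‖β₁ * conj β₂ * chi s₀ (-1) ^ 5 * ang (gen d : K) * mu (gen f) * chiI d (gen f) ^ 2 *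
      chiI z (gen d) * chiI z (gen f) * (chiI w (gen d) * chiI w (gen f)) ^ 6 *
      chiI e (gen f) ^ 5 * chiI J (gen f)‖ ≤ 1 := by
    simp only [norm_mul, norm_pow, hβ₁, hβ₂, norm_conj, norm_ang (fl_coe_ne (gen_ne_zero hd0)),
      mul_one, one_mul]
    have a1 := norm_chi_le s₀ (-1)
    have a2 := norm_mu_le (gen f)
    have a3 := norm_chiI_le d (gen f)
    have a4 := norm_chiI_le z (gen d)
    have a5 := norm_chiI_le z (gen f)
    have a6 := norm_chiI_le w (gen d)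
    have a7 := norm_chiI_le w (gen f)
    have a8 := norm_chiI_le e (gen f)
    have a9 := norm_chiI_le J (gen f)
    calc _ ≤ (1 : ℝ) ^ 5 * 1 * 1 ^ 2 * 1 * 1 * (1 * 1) ^ 6 * 1 ^ 5 * 1 := by gcongr
      _ = 1 := by norm_num
  refine le_trans (le_of_eq ?_) (mul_le_of_le_one_left (norm_nonneg _) hη)
  rw [← norm_mul]
  congr 1
  refine Sm_congr_mul (fun n hn => ?_) lam t ξ
  have hs : gen f * n ∈ cls j ((gen f : K) * c) := mul_mem_cls (self_mem_cls j _) hn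
  have hkey : Gsf (gen f * n) * ang ((gen f * n : R K) : K) * g6 5 (gen f * n) =
      conj β₂ * chi s₀ (-1) ^ 5 * mu (gen f * n) := by
    by_cases hsq : Squarefree (gen f * n)
    · rw [g6_conj (gen f * n) (k := 1) (l := 5) (by norm_num) (by norm_num) (by norm_num),
        chi_unit_cls isUnit_one.neg hj hc' hs hs₀]
      have e1 := h₂ _ hs
      have e2 := fl_mul_conj (norm_g6 hsq (k := 1) (by norm_num))
      have e3 := fl_mul_conj hβ₂
      linear_combination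
        (-(chi s₀ (-1) ^ 5 * conj (g6 1 (gen f * n)) * conj β₂)) * e1 -
        (Gsf (gen f * n) * ang ((gen f * n : R K) : K) * chi s₀ (-1) ^ 5 *
          conj (g6 1 (gen f * n))) * e3 + (conj β₂ * chi s₀ (-1) ^ 5 * mu (gen f * n)) * e2
    · rw [Gsf_eq_zero hsq, mu_eq_zero.2 hsq]; ring
  have hmu : mu (gen f * n) = mu (gen f) * mu n * chiI f n ^ 6 := by
    rw [mu_mul', chiI, chi_pow_six hF0]
    split_ifs <;> simp
  have hd : chiI d n = chiI e n * chiI d' n := by rw [he, chiI_mul he0 hd'0]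
  have h7 : chiI e n ^ 7 = chiI e n := by
    simpa [chiI] using chi_pow_add_six (gen e) n (k := 1) one_ne_zero
  have hG := h₁ _ hs
  have hang : ang ((gen d * (gen f * n) : R K) : K) =
      ang (gen d : K) * ang ((gen f * n : R K) : K) := by
    rw [← ang_mul]; rfl
  have hch : chi (gen d) (gen f * n) = chiI d (gen f) * chiI d n := chiI_mul_right d _ _
  unfold dualF
  simp only
  rw [hG, hang, hch, chiI_mul (mul_ne_zero (mul_ne_zero hz hd0) hd'0) hJ,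
    chiI_mul (mul_ne_zero hz hd0) hd'0, chiI_mul hz hd0, chiI_mul hf0 hw]
  simp only [chiI_mul_right]
  rw [hmu] at hkey
  rw [hd]
  linear_combination
    (β₁ * ang (gen d : K) * chiI d (gen f) ^ 2 * (chiI e n * chiI d' n) ^ 2 * chiI z (gen d) *
      chiI z (gen f) * chiI z n * (chiI w (gen d) * chiI w (gen f) * chiI w n) ^ 6 *
      (chiI e (gen f) * chiI e n) ^ 5 * chiI J (gen f) * chiI J n) * hkey +
    (β₁ * conj β₂ * chi s₀ (-1) ^ 5 * ang (gen d : K) * mu (gen f) * chiI d (gen f) ^ 2 *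
      chiI z (gen d) * chiI z (gen f) * (chiI w (gen d) * chiI w (gen f)) ^ 6 *
      chiI e (gen f) ^ 5 * chiI J (gen f) * mu n * chiI z n * chiI d' n ^ 2 * chiI J n *
      chiI f n ^ 6 * chiI w n ^ 6) * h7

theorem zba_pow {X X' D F y p : ℝ} (hX : 1 ≤ X) (hD : 1 ≤ D) (hF : 1 ≤ F) (hy : 1 ≤ y)
    (hp : 1 ≤ p) (hX' : 0 < X') (h : X' ≤ X * y / (D * F)) {k : ℕ} (hk : p ≤ k) :
    F * X' ^ p ≤ y ^ k * X ^ p / D := by
  have hDF : 1 ≤ D * F := one_le_mul_of_one_le_of_one_le hD hF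
  have h1 : X' ^ p ≤ X ^ p * y ^ p / (D * F) ^ p := by
    rw [← Real.mul_rpow (by linarith) (by linarith), ← Real.div_rpow (by positivity) (by linarith)]
    exact Real.rpow_le_rpow hX'.le h (by linarith)
  have h2 : y ^ p ≤ y ^ k := by
    rw [← Real.rpow_natCast]
    exact Real.rpow_le_rpow_of_exponent_le hy hk
  have h3 : D * F ≤ (D * F) ^ p := by
    simpa using Real.rpow_le_rpow_of_exponent_le hDF hp
  have h4 : X' ^ p ≤ X ^ p * y ^ k / (D * F) := by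
    refine h1.trans ?_
    gcongr
  calc F * X' ^ p ≤ F * (X ^ p * y ^ k / (D * F)) := by gcongr
    _ = y ^ k * X ^ p / D := by field_simp

theorem zba_num {X X' D E F y Z H N Rr θ e : ℝ} (hX : 1 ≤ X) (hD : 1 ≤ D) (hE : 1 ≤ E)
    (hF : 1 ≤ F) (hy : 1 ≤ y) (hZ : 1 ≤ Z) (hH : 1 ≤ H) (hN : 1 ≤ N) (hθ1 : 1 ≤ θ) (hθ2 : θ ≤ 2)
    (he : 0 < e) (he1 : e ≤ 1) (hDF : D * F ≤ X ^ 2) (hX' : 0 < X') (h : X' ≤ X * y / (D * F))
    (hR : 1 ≤ Rr) (hR' : Rr ≤ 4 * Z * y * X ^ 2 / H) :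
    Rr ^ e * (2 * F) * (2 * F * N) ^ e * ((Rr + X' ^ (43 / 36 : ℝ)) * X' ^ θ) ≤
      64 * y ^ 5 * ((Z * N) ^ e * X ^ (4 * e) * (Z * X ^ (1 + θ) + H * X ^ (7 / 36 + θ))) *
        (E * X / (H * D)) := by
  have hX0 : 0 < X := by linarith
  have hX2 : (X ^ 2) ^ e = X ^ (2 * e) := by
    rw [Real.rpow_mul hX0.le]; norm_num
  have hle : ∀ a : ℝ, 1 ≤ a → a ^ e ≤ a := fun a ha => by
    simpa using Real.rpow_le_rpow_of_exponent_le ha he1
  have h1 : Rr ^ e ≤ 4 * Z ^ e * y * X ^ (2 * e) := by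
    have h2 : Rr ≤ 4 * Z * y * X ^ 2 := hR'.trans (div_le_self (by positivity) hH)
    refine (Real.rpow_le_rpow (by linarith) h2 he.le).trans ?_
    rw [Real.mul_rpow (by positivity) (by positivity), Real.mul_rpow (by positivity) (by positivity),
      Real.mul_rpow (by positivity) (by positivity), hX2]
    have := hle 4 (by norm_num)
    have := hle y hy
    gcongr
  have h2 : (2 * F * N) ^ e ≤ 2 * X ^ (2 * e) * N ^ e := by
    have h3 : F ≤ X ^ 2 := le_trans (by nlinarith) hDF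
    have h4 : 2 * F * N ≤ 2 * X ^ 2 * N := by gcongr
    refine (Real.rpow_le_rpow (by positivity) h4 he.le).trans ?_
    rw [Real.mul_rpow (by positivity) (by positivity), Real.mul_rpow (by positivity) (by positivity),
      hX2]
    have := hle 2 (by norm_num)
    gcongr
  have h3 : F * X' ^ θ ≤ y ^ 2 * X ^ θ / D :=
    zba_pow hX hD hF hy hθ1 hX' h (k := 2) (by simpa using hθ2)
  have h4 : F * X' ^ (43 / 36 + θ) ≤ y ^ 4 * X ^ (43 / 36 + θ) / D :=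
    zba_pow hX hD hF hy (by linarith) hX' h (k := 4) (by push_cast; linarith)
  have e1 : X ^ (1 + θ) = X * X ^ θ := by rw [Real.rpow_add hX0, Real.rpow_one]
  have e2 : X ^ (43 / 36 + θ) = X * X ^ (7 / 36 + θ) := by
    rw [show (43 / 36 + θ : ℝ) = 1 + (7 / 36 + θ) by ring, Real.rpow_add hX0, Real.rpow_one]
  have e3 : X ^ (4 * e) = X ^ (2 * e) * X ^ (2 * e) := by
    rw [← Real.rpow_add hX0]; congr 1; ring
  have h5 : F * ((Rr + X' ^ (43 / 36 : ℝ)) * X' ^ θ) ≤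
      4 * y ^ 4 * (Z * X ^ (1 + θ) + H * X ^ (7 / 36 + θ)) * (E * X / (H * D)) := by
    have a1 : Rr * (F * X' ^ θ) ≤ 4 * y ^ 4 * (Z * X ^ (1 + θ)) * (E * X / (H * D)) := by
      calc Rr * (F * X' ^ θ) ≤ (4 * Z * y * X ^ 2 / H) * (y ^ 2 * X ^ θ / D) := by gcongr
        _ = 4 * y ^ 3 * (Z * X ^ (1 + θ)) * (1 * X / (H * D)) := by rw [e1]; field_simp
        _ ≤ 4 * y ^ 4 * (Z * X ^ (1 + θ)) * (E * X / (H * D)) := by
          gcongr
          norm_num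
    have a2 : F * X' ^ (43 / 36 + θ) ≤ 4 * y ^ 4 * (H * X ^ (7 / 36 + θ)) * (E * X / (H * D)) := by
      calc F * X' ^ (43 / 36 + θ) ≤ y ^ 4 * X ^ (43 / 36 + θ) / D := h4
        _ = 1 * y ^ 4 * (H * X ^ (7 / 36 + θ)) * (1 * X / (H * D)) := by rw [e2]; field_simp
        _ ≤ 4 * y ^ 4 * (H * X ^ (7 / 36 + θ)) * (E * X / (H * D)) := by
          gcongr
          norm_num
    rw [Real.rpow_add hX'] at a2
    linarith
  calc Rr ^ e * (2 * F) * (2 * F * N) ^ e * ((Rr + X' ^ (43 / 36 : ℝ)) * X' ^ θ)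
      = 2 * Rr ^ e * (2 * F * N) ^ e * (F * ((Rr + X' ^ (43 / 36 : ℝ)) * X' ^ θ)) := by ring
    _ ≤ 2 * (4 * Z ^ e * y * X ^ (2 * e)) * (2 * X ^ (2 * e) * N ^ e) *
        (4 * y ^ 4 * (Z * X ^ (1 + θ) + H * X ^ (7 / 36 + θ)) * (E * X / (H * D))) := by gcongr
    _ = _ := by rw [Real.mul_rpow (by positivity) (by positivity), e3]; ring

omit Q in
theorem zba_coef_le (z w : Ideal (R K)) (n : R K) :
    ‖Gsf n * (ang (n : K) * (chiI z n * chiI w n ^ 6))‖ ≤ 1 := by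
  have a1 := norm_Gsf_le n
  have a2 : ‖ang (n : K)‖ ≤ 1 := by simpa using norm_ang_zpow_le (n : K) 1
  have a3 := norm_chiI_le z n
  have a4 := norm_chiI_le w n
  simp only [norm_mul, norm_pow]
  calc _ ≤ (1 : ℝ) * (1 * (1 * 1 ^ 6)) := by gcongr
    _ = 1 := by norm_num

set_option maxHeartbeats 600000 in
theorem BA {θ : ℝ} (hθ1 : 1 ≤ θ) (hθ2 : θ ≤ 2) (hA : Acond K θ) (j : ℕ) (hj : Rec.k K ≤ j)
    (lam : ℝ) (hlam : 0 < lam) (ε : ℝ) (hε : 0 < ε) (hε1 : ε ≤ 1) :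
    ∃ C A : ℝ, 0 ≤ C ∧ 0 ≤ A ∧ ∀ (ZZ : Finset (Ideal (R K))) (Z : ℝ) (w : Ideal (R K)), 1 ≤ Z →
      (∀ z ∈ ZZ, z ≠ ⊥ ∧ NI z ≤ Z) → w ≠ ⊥ → ∀ c : K, c ≠ 0 → ∀ (t ξ : Pl K → ℝ) (H : ℝ), 1 ≤ H →
        ∑ z ∈ ZZ, ∑ J ∈ rows K H,
          ‖Sm (fun n => Gsf n * (ang (n : K) * (chiI z n * chiI w n ^ 6)) * chiI J n ^ 5)
            j c lam t ξ‖ ^ 2 ≤
          C * (1 + ‖ξ‖) ^ A * (Z * NI w) ^ ε * sz c t ^ ε *
            (ZZ.card * H * sz c t + Z * sz c t ^ (1 + θ) + H * sz c t ^ (7 / 36 + θ)) := by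
  have hj1 : 1 ≤ j := Q.hk.trans hj
  set e : ℝ := ε / 5 with hedef
  have he : 0 < e := by positivity
  have he1 : e ≤ 1 := by linarith
  have heε : e ≤ ε := by linarith
  obtain ⟨C₀, hC₀, h₀⟩ := sum_sq_Sm_le (K := K) hlam
  obtain ⟨Cr, hCr, hr⟩ := b3b_card_rows (K := K)
  obtain ⟨Cm, hCm, hm⟩ := merge_rows (K := K) he
  obtain ⟨Cc, Ac, hCc, hAc, hcop⟩ := COP hθ1 hθ2 hA j hj (2 * lam) (by positivity) e he
  obtain ⟨Cp, hCp, hp⟩ := PL (K := K) 5 (by norm_num) j hj lam hlam (Ac + 5) (by positivity) e he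
  refine ⟨C₀ * Cr + Cp * (1 + 64 * Cm * Cr * Cc), Ac + 5, by positivity, by positivity, ?_⟩
  intro ZZ Z w hZ hZZ hw c hc t ξ H hH
  have hX0 : 0 < sz c t := sz_pos hc t
  have hNw : 1 ≤ NI w := one_le_NI hw
  have hZN : 1 ≤ Z * NI w := one_le_mul_of_one_le_of_one_le hZ hNw
  have hξ : 1 ≤ (1 + ‖ξ‖) ^ (Ac + 5) :=
    Real.one_le_rpow (by linarith [norm_nonneg ξ]) (by positivity)
  have hZε : 1 ≤ (Z * NI w) ^ ε := Real.one_le_rpow hZN hε.le
  rcases le_total (sz c t) 1 with hX | hX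
  · have h1 : ∀ z ∈ ZZ, ∑ J ∈ rows K H,
        ‖Sm (fun n => Gsf n * (ang (n : K) * (chiI z n * chiI w n ^ 6)) * chiI J n ^ 5)
          j c lam t ξ‖ ^ 2 ≤ C₀ * (Cr * H) * sz c t ^ 2 := fun z _ => by
      refine (h₀ _ (rows K H) _ (fun J _ n => ?_) j hj1 c hc t ξ).trans ?_
      · rw [norm_mul, norm_pow]
        exact mul_le_one₀ (zba_coef_le z w n) (by positivity)
          (pow_le_one₀ (norm_nonneg _) (norm_chiI_le J n))
      · have := hr H (by linarith)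
        gcongr
    have h2 : sz c t ≤ sz c t ^ ε := by
      simpa using Real.rpow_le_rpow_of_exponent_ge hX0 hX hε1
    refine (Finset.sum_le_card_nsmul _ _ _ h1).trans ?_
    rw [nsmul_eq_mul]
    calc (ZZ.card : ℝ) * (C₀ * (Cr * H) * sz c t ^ 2)
        = C₀ * Cr * 1 * 1 * sz c t * (ZZ.card * H * sz c t + 0 + 0) := by ring
      _ ≤ _ := by
        gcongr
        · exact le_add_of_nonneg_right (by positivity)
        · positivity
        · positivity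
  · set Θ : ℝ := 64 * Cm * Cr * Cc * ((Z * NI w) ^ e * sz c t ^ (4 * e) *
      (Z * sz c t ^ (1 + θ) + H * sz c t ^ (7 / 36 + θ))) with hΘ
    have hΘ0 : 0 ≤ Θ := by positivity
    have hyp : PLHyp 5 ZZ (fun z n => Gsf n * (ang (n : K) * (chiI z n * chiI w n ^ 6))) j
        (2 * lam) (sz c t) H Θ (Ac + 5) := by
      intro D E F K' y hD hE hF hK' hy hDF hED hKy c' hc' t' ξ' _ hX'
      have hX'0 : 0 < sz c' t' := sz_pos hc' t'
      have h1 := hm ZZ Z D E F K' hZ hD hE hK' hED hZZ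
        (fun f J => ‖Sm (fun n => mu n * (chiI J n * chiI (f * w) n ^ 6)) j c' (2 * lam) t' ξ'‖ ^ 2)
        (fun z d e f J => ‖Sm (dualF 5 (fun n => Gsf n * (ang (n : K) * (chiI z n * chiI w n ^ 6)))
          d e f J) j c' (2 * lam) t' ξ'‖ ^ 2) (fun _ _ => by positivity)
        (fun z hz d e d' f J hd hdf hJ => pow_le_pow_left₀ (norm_nonneg _)
          (norm_Sm_dualF5 (hZZ z hz).1 hw hd hdf hJ hj hc' _ _ _) 2)
      refine h1.trans ?_
      set Rr : ℝ := 4 * Z * D ^ 2 * K' / E with hRr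
      have hR : 1 ≤ Rr := by
        rw [hRr, le_div_iff₀ (by linarith)]
        have a1 : D ≤ D ^ 2 := by nlinarith
        have a2 : 4 * 1 * D * 1 ≤ 4 * Z * D ^ 2 * K' := by gcongr
        linarith
      have hR' : Rr ≤ 4 * Z * y * sz c t ^ 2 / H := by
        calc Rr ≤ 4 * Z * D ^ 2 * (y * (E * sz c t ^ 2 / (H * D ^ 2))) / E := by
              rw [hRr]; gcongr
          _ = 4 * Z * y * sz c t ^ 2 / H := by field_simp
      have h2 : ∀ f ∈ rows K (2 * F), ∑ J ∈ rows K Rr,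
          ‖Sm (fun n => mu n * (chiI J n * chiI (f * w) n ^ 6)) j c' (2 * lam) t' ξ'‖ ^ 2 ≤
          Cc * (1 + ‖ξ'‖) ^ Ac * (2 * F * NI w) ^ e * (Rr + sz c' t' ^ (43 / 36 : ℝ)) *
            sz c' t' ^ θ := fun f hf => by
        obtain ⟨hf0, hfF⟩ := mem_rows'.1 hf
        have hp0 : 0 ≤ sz c' t' ^ (43 / 36 : ℝ) := by positivity
        have h3 := hcop (f * w) (mul_ne_zero hf0 hw) c' hc' t' ξ' (Rr + sz c' t' ^ (43 / 36 : ℝ))
          (by linarith) (by linarith)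
        refine (Finset.sum_le_sum_of_subset_of_nonneg (rows_mono (by linarith))
          (fun _ _ _ => by positivity)).trans (h3.trans ?_)
        rw [NI_mul]
        have := NI_nonneg f
        gcongr
      have h3 := (Finset.sum_le_card_nsmul _ _ _ h2)
      rw [nsmul_eq_mul] at h3
      have h4 := hr (2 * F) (by linarith)
      have h5 := zba_num hX hD hE hF hy hZ hH hNw hθ1 hθ2 he he1 hDF hX'0 hX' hR hR'
      have h6 : y ^ 5 * (1 + ‖ξ'‖) ^ Ac ≤ (y * (1 + ‖ξ'‖)) ^ (Ac + 5) := by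
        have b1 : 1 ≤ 1 + ‖ξ'‖ := by linarith [norm_nonneg ξ']
        rw [Real.mul_rpow (by linarith) (by linarith)]
        refine mul_le_mul ?_ (Real.rpow_le_rpow_of_exponent_le b1 (by linarith)) (by positivity)
          (by positivity)
        rw [← Real.rpow_natCast]
        exact Real.rpow_le_rpow_of_exponent_le hy (by push_cast; linarith)
      calc _ ≤ Cm * Rr ^ e * (Cr * (2 * F) * (Cc * (1 + ‖ξ'‖) ^ Ac * (2 * F * NI w) ^ e *
            (Rr + sz c' t' ^ (43 / 36 : ℝ)) * sz c' t' ^ θ)) := by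
            refine mul_le_mul_of_nonneg_left (h3.trans ?_) (by positivity)
            gcongr
        _ = Cm * Cr * Cc * (1 + ‖ξ'‖) ^ Ac * (Rr ^ e * (2 * F) * (2 * F * NI w) ^ e *
            ((Rr + sz c' t' ^ (43 / 36 : ℝ)) * sz c' t' ^ θ)) := by ring
        _ ≤ Cm * Cr * Cc * (1 + ‖ξ'‖) ^ Ac * (64 * y ^ 5 * ((Z * NI w) ^ e * sz c t ^ (4 * e) *
            (Z * sz c t ^ (1 + θ) + H * sz c t ^ (7 / 36 + θ))) * (E * sz c t / (H * D))) :=
            mul_le_mul_of_nonneg_left h5 (by positivity)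
        _ = Θ * (E * sz c t / (H * D)) * (y ^ 5 * (1 + ‖ξ'‖) ^ Ac) := by rw [hΘ]; ring
        _ ≤ _ := mul_le_mul_of_nonneg_left h6 (by positivity)
    have h1 := hp _ ZZ (fun z n => Gsf n * (ang (n : K) * (chiI z n * chiI w n ^ 6)))
      (fun z n => zba_coef_le z w n)
      (fun z n hn => by_contra fun h => hn (by rw [Gsf_eq_zero h, zero_mul])) c hc t ξ H Θ hH hΘ0
      hX hyp
    refine h1.trans ?_
    have a1 : sz c t ^ e ≤ sz c t ^ ε := Real.rpow_le_rpow_of_exponent_le hX heε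
    have a2 : sz c t ^ e * sz c t ^ (4 * e) = sz c t ^ ε := by
      rw [← Real.rpow_add hX0]; congr 1; rw [hedef]; ring
    have a3 : (Z * NI w) ^ e ≤ (Z * NI w) ^ ε := Real.rpow_le_rpow_of_exponent_le hZN heε
    set S₁ : ℝ := ZZ.card * H * sz c t with hS₁
    set S₂ : ℝ := Z * sz c t ^ (1 + θ) + H * sz c t ^ (7 / 36 + θ) with hS₂
    have hS₁0 : 0 ≤ S₁ := by positivity
    have hS₂0 : 0 ≤ S₂ := by positivity
    have b1 : sz c t ^ e * S₁ ≤ (Z * NI w) ^ ε * sz c t ^ ε * (S₁ + S₂) := by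
      calc sz c t ^ e * S₁ = 1 * sz c t ^ e * (S₁ + 0) := by ring
        _ ≤ _ := by gcongr
    have b2 : sz c t ^ e * Θ ≤
        64 * Cm * Cr * Cc * ((Z * NI w) ^ ε * sz c t ^ ε * (S₁ + S₂)) := by
      calc sz c t ^ e * Θ = 64 * Cm * Cr * Cc *
            ((Z * NI w) ^ e * (sz c t ^ e * sz c t ^ (4 * e)) * (0 + S₂)) := by rw [hΘ]; ring
        _ ≤ _ := by rw [a2]; gcongr
    calc Cp * (1 + ‖ξ‖) ^ (Ac + 5) * sz c t ^ e * (S₁ + Θ)
        = Cp * (1 + ‖ξ‖) ^ (Ac + 5) * (sz c t ^ e * S₁ + sz c t ^ e * Θ) := by ring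
      _ ≤ Cp * (1 + ‖ξ‖) ^ (Ac + 5) * ((Z * NI w) ^ ε * sz c t ^ ε * (S₁ + S₂) +
          64 * Cm * Cr * Cc * ((Z * NI w) ^ ε * sz c t ^ ε * (S₁ + S₂))) := by gcongr
      _ = (0 + Cp * (1 + 64 * Cm * Cr * Cc)) * (1 + ‖ξ‖) ^ (Ac + 5) * (Z * NI w) ^ ε *
          sz c t ^ ε * (S₁ + S₂) := by ring
      _ ≤ (C₀ * Cr + Cp * (1 + 64 * Cm * Cr * Cc)) * (1 + ‖ξ‖) ^ (Ac + 5) * (Z * NI w) ^ ε *
          sz c t ^ ε * (S₁ + S₂) := by
          gcongr
          positivity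
      _ = _ := by rw [hS₂, add_assoc]

end Crest.Agent.GQ
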