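import Mathlib

/-!
# Project GQ, part B3: the real inequality behind the weak quadratic large sieve
-/

set_option autoImplicit false

namespace Crest.Agent.GQ

theorem zcc_real {s X X' r D E F K' y H W c δ : ℝ} (hs0 : 0 ≤ s) (hX : 1 ≤ X) (hX' : 0 < X')
    (hr : 1 ≤ r) (hD : 1 ≤ D) (hE : 1 ≤ E) (hF : 1 ≤ F) (hK : 1 ≤ K') (hy : 1 ≤ y) (hH : 1 ≤ H)
    (hW : 1 ≤ W) (hc : 0 ≤ c) (hδ : 0 < δ) (hδ1 : δ ≤ 1) (hDF : D * F ≤ X ^ 2) (hED : E ≤ 2 * D)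
    (hKy : K' ≤ y * (E * X ^ 2 / (H * D ^ 2))) (hXX : X' ≤ X * y / (D * F))
    (hHX : X ^ 8 * r ^ 2 ≤ H ^ 5) (h1 : s ≤ c * X' ^ 2)
    (h2 : s ≤ c * W * X' ^ (1 + δ) * ((4 * r * D * F * K') ^ (1 + δ) / √F)) :
    s * (D ^ (1 + δ) * F * K') ≤
      32 * c * (r ^ δ * X ^ (7 * δ) * X * H) * (E * X / (H * D)) * (W * y ^ 5) := by
  have hX0 : 0 < X := by linarith
  have hD0 : 0 < D := by linarith
  have hF0 : 0 < F := by linarith
  have hH0 : 0 < H := by linarith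
  have hy0 : 0 < y := by linarith
  obtain ⟨q, hq⟩ : ∃ q, q = E * X ^ 2 / (H * D ^ 2) := ⟨_, rfl⟩
  have hq0 : 0 ≤ q := by rw [hq]; positivity
  rw [← hq] at hKy
  have hqe : q * H * D * D = E * X ^ 2 := by rw [hq]; field_simp
  have hq2 : q * H * D ≤ 2 * X ^ 2 := by
    refine le_of_mul_le_mul_right ?_ hD0
    rw [hqe]
    nlinarith [sq_nonneg X]
  have hq3 : q * H ≤ 2 * X ^ 2 := (le_mul_of_one_le_right (by positivity) hD).trans hq2
  have hq4 : q ≤ 2 * X ^ 2 := (le_mul_of_one_le_right hq0 hH).trans hq3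
  have hq5 : X ^ 4 * r ^ 2 * q ^ 2 ≤ 4 * H ^ 3 * D ^ 2 := by
    have a1 : X ^ 4 * r ^ 2 * q ^ 2 ≤ 4 * H ^ 3 := by
      refine le_of_mul_le_mul_right ?_ (show 0 < H ^ 2 by positivity)
      calc X ^ 4 * r ^ 2 * q ^ 2 * H ^ 2 = X ^ 4 * r ^ 2 * (q * H) ^ 2 := by ring
        _ ≤ X ^ 4 * r ^ 2 * (2 * X ^ 2) ^ 2 := by gcongr
        _ = 4 * (X ^ 8 * r ^ 2) := by ring
        _ ≤ 4 * H ^ 5 := by gcongr
        _ = _ := by ring
    exact a1.trans (le_mul_of_one_le_right (by positivity) (one_le_pow₀ hD))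
  have hX1 : X' * (D * F) ≤ X * y := by rwa [le_div_iff₀ (by positivity)] at hXX
  have hDF1 : 1 ≤ D * F := one_le_mul_of_one_le_of_one_le hD hF
  have hX2 : X' ≤ X * y := (le_mul_of_one_le_right hX'.le hDF1).trans hX1
  have hDX : D ≤ X ^ 2 := (le_mul_of_one_le_right hD0.le hF).trans hDF
  obtain ⟨N, hN⟩ : ∃ N, N = 4 * r * D * F * K' := ⟨_, rfl⟩
  have hN0 : 0 < N := by rw [hN]; positivity
  have hNle : N ≤ 8 * r * y * X ^ 4 := by
    rw [hN]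
    calc 4 * r * D * F * K' = 4 * r * (D * F) * K' := by ring
      _ ≤ 4 * r * X ^ 2 * (y * (2 * X ^ 2)) := by
          gcongr
          exact hKy.trans (by gcongr)
      _ = _ := by ring
  rw [← hN, Real.rpow_add hX', Real.rpow_add hN0, Real.rpow_one, Real.rpow_one] at h2
  rw [Real.rpow_add hD0, Real.rpow_one]
  -- the small powers
  obtain ⟨g, hg⟩ : ∃ g, g = (8 * r * y ^ 2 * X ^ 5) ^ δ := ⟨_, rfl⟩
  have hb1 : 1 ≤ 8 * r * y ^ 2 * X ^ 5 := by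
    have : 1 ≤ r * y ^ 2 * X ^ 5 := one_le_mul_of_one_le_of_one_le
      (one_le_mul_of_one_le_of_one_le hr (one_le_pow₀ hy)) (one_le_pow₀ hX)
    linarith
  have hg1 : 1 ≤ g := hg ▸ Real.one_le_rpow hb1 hδ.le
  have hu : X' ^ δ * N ^ δ ≤ g := by
    rw [← Real.mul_rpow hX'.le hN0.le, hg]
    refine Real.rpow_le_rpow (by positivity) ?_ hδ.le
    calc X' * N ≤ (X * y) * (8 * r * y * X ^ 4) := by gcongr
      _ = _ := by ring
  have hv : D ^ δ ≤ (X ^ 2) ^ δ := Real.rpow_le_rpow hD0.le hDX hδ.le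
  have hG : g * (X ^ 2) ^ δ ≤ 8 * y ^ 2 * (r ^ δ * X ^ (7 * δ)) := by
    have e1 : g * (X ^ 2) ^ δ = (8 * y ^ 2) ^ δ * (r ^ δ * X ^ (7 * δ)) := by
      rw [hg, Real.rpow_mul hX0.le, ← Real.mul_rpow (by positivity) (by positivity),
        ← Real.mul_rpow (by positivity) (by positivity),
        ← Real.mul_rpow (by positivity) (by positivity)]
      congr 1
      rw [show (7 : ℝ) = (7 : ℕ) by norm_num, Real.rpow_natCast]
      ring
    have e2 : (8 * y ^ 2) ^ δ ≤ 8 * y ^ 2 := by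
      conv_rhs => rw [← Real.rpow_one (8 * y ^ 2)]
      exact Real.rpow_le_rpow_of_exponent_le (by nlinarith) hδ1
    rw [e1]
    gcongr
  have hsF : √F ^ 2 = F := Real.sq_sqrt hF0.le
  have hsF0 : 0 < √F := Real.sqrt_pos.2 hF0
  have h3 : s ≤ c * W * g * (X' * N / √F) := by
    refine h2.trans ?_
    calc c * W * (X' * X' ^ δ) * (N * N ^ δ / √F) = c * W * (X' ^ δ * N ^ δ) * (X' * N / √F) := by
          ring
      _ ≤ _ := by gcongr
  have h4 : s ^ 2 * F ≤ (c * W * g * (X' * N)) ^ 2 := by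
    calc s ^ 2 * F ≤ (c * W * g * (X' * N / √F)) ^ 2 * √F ^ 2 := by rw [hsF]; gcongr
      _ = _ := by field_simp
  have h5 : s * (D * F * K') ≤ 4 * c * W * g * y ^ 3 * (q * H * D) := by
    refine le_of_pow_le_pow_left₀ (n := 3) (by norm_num) (by positivity) ?_
    calc (s * (D * F * K')) ^ 3 = s * (s ^ 2 * F) * (D ^ 3 * F ^ 2 * K' ^ 3) := by ring
      _ ≤ (c * X' ^ 2) * (c * W * g * (X' * N)) ^ 2 * (D ^ 3 * F ^ 2 * K' ^ 3) := by gcongr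
      _ = 16 * c ^ 3 * (W * g) ^ 2 * (X' * (D * F)) ^ 4 * r ^ 2 * D * K' ^ 5 := by rw [hN]; ring
      _ ≤ 16 * c ^ 3 * (W * g) ^ 3 * (X * y) ^ 4 * r ^ 2 * D * (y * q) ^ 5 := by
          have : (W * g) ^ 2 ≤ (W * g) ^ 3 :=
            pow_le_pow_right₀ (one_le_mul_of_one_le_of_one_le hW hg1) (by norm_num)
          gcongr
      _ = 16 * c ^ 3 * (W * g) ^ 3 * y ^ 9 * D * q ^ 3 * (X ^ 4 * r ^ 2 * q ^ 2) := by ring
      _ ≤ 16 * c ^ 3 * (W * g) ^ 3 * y ^ 9 * D * q ^ 3 * (4 * H ^ 3 * D ^ 2) := by gcongr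
      _ = _ := by ring
  have hm : q * H * D = X * H * (E * X / (H * D)) := by rw [hq]; field_simp
  calc s * (D * D ^ δ * F * K') = s * (D * F * K') * D ^ δ := by ring
    _ ≤ (4 * c * W * g * y ^ 3 * (q * H * D)) * (X ^ 2) ^ δ := by gcongr
    _ = 4 * c * W * y ^ 3 * (q * H * D) * (g * (X ^ 2) ^ δ) := by ring
    _ ≤ 4 * c * W * y ^ 3 * (q * H * D) * (8 * y ^ 2 * (r ^ δ * X ^ (7 * δ))) := by gcongr
    _ = _ := by rw [hm]; ring

end Crest.Agent.GQ
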