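import Crest.Agent.GQ.ZTriv

/-!
# Project GQ, part B3: convolution identities
-/

set_option autoImplicit false

noncomputable section

open NumberField Complex UniqueFactorizationMonoid MeasureTheory
open scoped ComplexConjugate ENNReal

namespace Crest.Agent.GQ

variable {K : Type} [Field K] [NumberField K] [P : Pre K]

open Classical in
theorem zram_count {q J : Ideal (R K)} (hq : Prime q) (hJ : J ≠ ⊥) :
    (normalizedFactors J).count q = multiplicity q J := by
  rw [multiplicity_eq_count_normalizedFactors hq.irreducible hJ, normalize_eq]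

theorem zram_pfs_prod {S : Finset (Ideal (R K))} (hS : ∀ q ∈ S, Prime q) :
    pfs (∏ q ∈ S, q) = S := by
  have h0 : (∏ q ∈ S, q) ≠ ⊥ := Finset.prod_ne_zero_iff.2 fun q hq => (hS q hq).ne_zero
  ext p
  rw [mem_pfs h0]
  refine ⟨fun h => ?_, fun h => ⟨hS p h, Finset.dvd_prod_of_mem (fun q : Ideal (R K) => q) h⟩⟩
  obtain ⟨q, hq, hpq⟩ := (Prime.dvd_finsetProd_iff h.1 _).1 h.2
  rwa [associated_iff_eq.1 (h.1.associated_of_dvd (hS q hq) hpq)]

theorem zram_pfs_sub {b g : Ideal (R K)} (hb : b ≠ ⊥) (hg : g ∣ b) : pfs g ⊆ pfs b := fun _ hq =>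
  (mem_pfs hb).2 ⟨(ar_of_mem_pfs hq).1, (ar_of_mem_pfs hq).2.trans hg⟩

theorem zram_sum_divs {b : Ideal (R K)} (hb : Squarefree b) (F : Ideal (R K) → ℂ) :
    ∑ g ∈ divs b, F g = ∑ S ∈ (pfs b).powerset, F (∏ q ∈ S, q) := by
  have hb0 : b ≠ ⊥ := hb.ne_zero
  refine Finset.sum_bij' (fun g _ => pfs g) (fun S _ => ∏ q ∈ S, q) ?_ ?_ ?_ ?_ ?_
  · intro g hg
    exact Finset.mem_powerset.2 (zram_pfs_sub hb0 ((mem_divs hb0).1 hg))
  · intro S hS
    refine (mem_divs hb0).2 (Dvd.dvd.trans ?_ (radI_dvd hb0))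
    exact Finset.prod_dvd_prod_of_subset _ _ _ (Finset.mem_powerset.1 hS)
  · intro g hg
    exact radI_eq_self (hb.squarefree_of_dvd ((mem_divs hb0).1 hg))
  · intro S hS
    exact zram_pfs_prod fun q hq => (ar_of_mem_pfs (Finset.mem_powerset.1 hS hq)).1
  · intro g hg
    congr 1
    exact (radI_eq_self (hb.squarefree_of_dvd ((mem_divs hb0).1 hg))).symm

theorem zram_map_prod (F : Ideal (R K) → ℂ) (h1 : F ⊤ = 1)
    (hF : ∀ I J, I ≠ ⊥ → J ≠ ⊥ → IsCoprime I J → F (I * J) = F I * F J)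
    {S : Finset (Ideal (R K))} (hS : ∀ q ∈ S, Prime q) : F (∏ q ∈ S, q) = ∏ q ∈ S, F q := by
  classical
  induction S using Finset.induction_on with
  | empty => rw [Finset.prod_empty, Finset.prod_empty, Ideal.one_eq_top, h1]
  | insert a S ha ih =>
    have hS' : ∀ q ∈ S, Prime q := fun q hq => hS q (Finset.mem_insert_of_mem hq)
    have hp := hS a (Finset.mem_insert_self _ _)
    rw [Finset.prod_insert ha, Finset.prod_insert ha, hF _ _ hp.ne_zero
      (Finset.prod_ne_zero_iff.2 fun q hq => (hS' q hq).ne_zero)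
      (IsCoprime.prod_right fun q hq => ar_coprime hp (hS' q hq) fun e => ha (e ▸ hq)), ih hS']

theorem zram_muR_prime {q : Ideal (R K)} (hq : Prime q) : muR q = -1 := mu_prime (prime_gen.2 hq)

open Classical in
theorem zram_prod {b : Ideal (R K)} (hb : Squarefree b) (r : R K) :
    ram b r = ∏ q ∈ pfs b, (if gen q ∣ r then (NI q : ℂ) - 1 else -1) := by
  have hP : ∀ q ∈ pfs b, Prime q := fun q hq => (ar_of_mem_pfs hq).1
  have h1 : muR b = ∏ q ∈ pfs b, muR q := by
    conv_lhs => rw [← radI_eq_self hb]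
    exact zram_map_prod muR ar_muR_top (fun I J _ _ h => ar_muR_mul h) hP
  have h2 : ∀ S ∈ (pfs b).powerset,
      (fun g : Ideal (R K) => if gen g ∣ r then muR g * (NI g : ℂ) else 0) (∏ q ∈ S, q) =
        ∏ q ∈ S, (if gen q ∣ r then muR q * (NI q : ℂ) else 0) := by
    intro S hS
    refine zram_map_prod (fun g : Ideal (R K) => if gen g ∣ r then muR g * (NI g : ℂ) else 0)
      ?_ ?_ fun q hq => hP q (Finset.mem_powerset.1 hS hq)
    · have : gen (⊤ : Ideal (R K)) ∣ r := gen_dvd_iff.2 (Ideal.dvd_iff_le.2 le_top)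
      simp only [if_pos this, ar_muR_top, NI, nmI_top]
      simp
    · intro I J _ _ h
      simp only [gen_dvd_iff]
      by_cases hI : I ∣ Ideal.span {r}
      · by_cases hJ : J ∣ Ideal.span {r}
        · rw [if_pos hI, if_pos hJ, if_pos (h.mul_dvd hI hJ), ar_muR_mul h, NI_mul]
          push_cast
          ring
        · rw [if_neg hJ, if_neg fun h' => hJ ((dvd_mul_left J I).trans h'), mul_zero]
      · rw [if_neg hI, if_neg fun h' => hI ((dvd_mul_right I J).trans h'), zero_mul]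
  rw [ram, zram_sum_divs hb, Finset.sum_congr rfl h2, ← Finset.prod_one_add, h1,
    ← Finset.prod_mul_distrib]
  refine Finset.prod_congr rfl fun q hq => ?_
  rw [zram_muR_prime (hP q hq)]
  split_ifs <;> ring

/-- A squarefree ideal occurring exactly to the second power divides the `b`-part. -/
theorem dvd_bpart {f J : Ideal (R K)} (hf : Squarefree f) (hJ : J ≠ ⊥) (h : IsCoprime f J) :
    f ∣ bpart (J * f ^ 2) := by
  classical
  have hf0 : f ≠ ⊥ := hf.ne_zero
  have h0 : J * f ^ 2 ≠ ⊥ := mul_ne_zero hJ (pow_ne_zero 2 hf0)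
  conv_lhs => rw [← radI_eq_self hf]
  refine Finset.prod_dvd_prod_of_subset _ _ _ fun q hq => ?_
  obtain ⟨hp, hqf⟩ := ar_of_mem_pfs hq
  refine Finset.mem_filter.2 ⟨(mem_pfs h0).2 ⟨hp, (hqf.pow two_ne_zero).mul_left _⟩, ?_⟩
  have h1 := (ar_sqf hf0).1 hf q hp
  have h2 := (ar_coprime_mult hf0).1 h q hp
  have h3 : 1 ≤ multiplicity q f := (ar_pow_dvd hp hf0 1).1 (by rwa [pow_one])
  have h4 := zram_count hp h0
  rw [ar_mul hp hJ (pow_ne_zero 2 hf0), ar_pow hp hf0] at h4
  have h5 : (multiplicity q J + 2 * multiplicity q f) % 6 = 2 := by omega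
  rw [← h4] at h5
  convert h5

theorem bpart_dvd_radI (J : Ideal (R K)) : bpart J ∣ radI J := by
  exact Finset.prod_dvd_prod_of_subset _ _ _ (Finset.filter_subset _ _)

theorem squarefree_bpart (J : Ideal (R K)) : Squarefree (bpart J) := by
  exact (squarefree_radI J).squarefree_of_dvd (bpart_dvd_radI J)

theorem bpart_pow_five {J : Ideal (R K)} (hJ : J ≠ ⊥) : bpart (J ^ 5) ^ 4 ∣ J := by
  classical
  rw [bpart, ← Finset.prod_pow]
  refine Finset.prod_dvd_of_coprime (fun p hp q hq hne => ?_) fun q hq => ?_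
  · exact (ar_coprime (ar_of_mem_pfs (Finset.mem_filter.1 hp).1).1
      (ar_of_mem_pfs (Finset.mem_filter.1 hq).1).1 hne).pow
  · obtain ⟨h1, h2⟩ := Finset.mem_filter.1 hq
    have hp := (ar_of_mem_pfs h1).1
    have h4 := zram_count hp (pow_ne_zero 5 hJ)
    rw [ar_pow hp hJ] at h4
    have h5 : (5 * multiplicity q J) % 6 = 2 := by
      rw [← h4]
      convert h2
    exact (ar_pow_dvd hp hJ 4).2 (by omega)

open Classical in
theorem norm_ram_le (b : Ideal (R K)) (r : R K) :
    ‖ram b r‖ ≤ ∑ g ∈ divs b, if gen g ∣ r then NI g else 0 := by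
  rw [ram, norm_mul]
  refine (mul_le_of_le_one_left (norm_nonneg _) (norm_mu_le _)).trans
    ((norm_sum_le _ _).trans (Finset.sum_le_sum fun g _ => ?_))
  split_ifs
  · rw [norm_mul, Complex.norm_real, Real.norm_of_nonneg (NI_nonneg g)]
    exact mul_le_of_le_one_left (NI_nonneg g) (norm_mu_le _)
  · simp

/-- Expansion of a Ramanujan sum into principal characters. -/
theorem ram_eq_sum {b : Ideal (R K)} (hb : Squarefree b) : ∃ β : Ideal (R K) → ℂ,
    (∀ g, ‖β g‖ ≤ (divs b).card * NI b) ∧ ∀ r : R K, ram b r = ∑ g ∈ divs b, β g * chiI g r ^ 6 := by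
  classical
  have hb0 : b ≠ ⊥ := hb.ne_zero
  have hP : ∀ q ∈ pfs b, Prime q := fun q hq => (ar_of_mem_pfs hq).1
  refine ⟨fun g => if g ∣ b then (∏ q ∈ pfs g, -(NI q : ℂ)) *
    ∏ q ∈ pfs b \ pfs g, ((NI q : ℂ) - 1) else 0, fun g => ?_, fun r => ?_⟩
  · have hc : (1 : ℝ) ≤ (divs b).card := by
      exact_mod_cast Finset.card_pos.2 ⟨b, (mem_divs hb0).2 dvd_rfl⟩
    refine le_trans ?_ (le_mul_of_one_le_left (NI_nonneg b) hc)
    simp only
    split_ifs with hg
    · have hsub := zram_pfs_sub hb0 hg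
      calc ‖(∏ q ∈ pfs g, -(NI q : ℂ)) * ∏ q ∈ pfs b \ pfs g, ((NI q : ℂ) - 1)‖
          ≤ (∏ q ∈ pfs g, NI q) * ∏ q ∈ pfs b \ pfs g, NI q := by
            rw [norm_mul, norm_prod, norm_prod]
            refine mul_le_mul (Finset.prod_le_prod (fun _ _ => norm_nonneg _) fun q _ => ?_)
              (Finset.prod_le_prod (fun _ _ => norm_nonneg _) fun q hq => ?_)
              (Finset.prod_nonneg fun _ _ => norm_nonneg _)
              (Finset.prod_nonneg fun q _ => NI_nonneg q)
            · rw [norm_neg, Complex.norm_real, Real.norm_of_nonneg (NI_nonneg q)]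
            · have h1 := one_le_NI (hP q (Finset.mem_sdiff.1 hq).1).ne_zero
              rw [← Complex.ofReal_one, ← Complex.ofReal_sub, Complex.norm_real,
                Real.norm_of_nonneg (by linarith)]
              linarith
        _ = ∏ q ∈ pfs b, NI q := by rw [mul_comm, Finset.prod_sdiff hsub]
        _ ≤ NI b := ar_prod_pfs_le hb0
    · rw [norm_zero]
      exact NI_nonneg b
  · have h1 : ∀ q ∈ pfs b, (if gen q ∣ r then (NI q : ℂ) - 1 else -1) =
        -(NI q : ℂ) * chiI q r ^ 6 + ((NI q : ℂ) - 1) := by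
      intro q hq
      have hq' := prime_gen.2 (hP q hq)
      rw [chiI, chi_pow_six hq'.ne_zero, hq'.irreducible.coprime_iff_not_dvd]
      by_cases h : gen q ∣ r
      · rw [if_pos h, if_neg (not_not.2 h)]
        ring
      · rw [if_neg h, if_pos h]
        ring
    rw [zram_prod hb, Finset.prod_congr rfl h1, Finset.prod_add, zram_sum_divs hb]
    refine Finset.sum_congr rfl fun S hS => ?_
    have hS' : ∀ q ∈ S, Prime q := fun q hq => hP q (Finset.mem_powerset.1 hS hq)
    have hd : (∏ q ∈ S, q) ∣ b := Dvd.dvd.trans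
      (Finset.prod_dvd_prod_of_subset _ _ _ (Finset.mem_powerset.1 hS)) (radI_dvd hb0)
    have h2 := zram_map_prod (fun g : Ideal (R K) => chiI g r ^ 6) (by simp [chiI_top])
      (fun I J hI hJ _ => by simp only [chiI_mul hI hJ, mul_pow]) hS'
    beta_reduce
    rw [if_pos hd, zram_pfs_prod hS', h2, Finset.prod_mul_distrib]
    ring

open Classical in
theorem ram_eq_prod {b : Ideal (R K)} (hb : Squarefree b) (r : R K) :
    ram b r = ∏ q ∈ pfs b, (if gen q ∣ r then (NI q : ℂ) - 1 else -1) := by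
  exact zram_prod hb r

end Crest.Agent.GQ
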