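import Crest.Agent.GQ.ZPV
import Crest.Agent.GQ.ZPL
import Crest.Agent.GQ.ZRam
import Crest.Agent.GQ.ZCCAux

/-!
# Project GQ, part B3: the weak quadratic large sieve for cubic Gauss sums
-/

set_option autoImplicit false

noncomputable section

open NumberField Complex UniqueFactorizationMonoid MeasureTheory
open scoped ComplexConjugate ENNReal

namespace Crest.Agent.GQ

variable {K : Type} [Field K] [NumberField K] [P : Pre K] [Q : Rec K]

open Classical in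
/-- The dual sums for `e0 = 3`. -/
theorem norm_Sm_dualF3 {J : Ideal (R K)} (hJ : J ≠ ⊥) {d e f I' : Ideal (R K)} (he : e ∣ d)
    (hdf : Squarefree (d * f)) (hI : I' ≠ ⊥) {j : ℕ} (hj : Rec.k K ≤ j) {c : K} (hc : c ≠ 0)
    (lam : ℝ) (t ξ : Pl K → ℝ) :
    ‖Sm (dualF 3 (fun n => Gsf n * (ang (n : K) ^ (-1 : ℤ) * chiI J n)) d e f I') j c lam t ξ‖ ≤
      if IsCoprime f (J * I') then
        ‖Sm (fun n => Gsf n * (ang (n : K) ^ (-1 : ℤ) *
          chiI (J * d ^ 2 * e ^ 3 * I' ^ 3 * f ^ 2) n)) j c lam t ξ‖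
      else 0 := by
  have hdf0 : d * f ≠ ⊥ := hdf.ne_zero
  have hd : d ≠ ⊥ := left_ne_zero_of_mul hdf0
  have hf : f ≠ ⊥ := right_ne_zero_of_mul hdf0
  have he0 : e ≠ ⊥ := ne_zero_of_dvd_ne_zero hd he
  have hgd := gen_ne_zero hd
  have hgf := gen_ne_zero hf
  have hsq : Squarefree (gen d * gen f) :=
    (associated_gen_mul d f).squarefree_iff.1 (squarefree_gen.2 hdf)
  obtain ⟨β₁, hβ₁, h₁⟩ := Gsf_mul_cls hsq hj hc
  obtain ⟨β₂, hβ₂, h₂⟩ := g6_three_cls hj (c := (gen f : K) * c) (mul_ne_zero (fl_coe_ne hgf) hc)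
  have key : ∀ n ∈ cls j c,
      dualF 3 (fun n => Gsf n * (ang (n : K) ^ (-1 : ℤ) * chiI J n)) d e f I' n =
      (β₁ * β₂ * ang ((gen d * gen f : R K) : K) ^ (-1 : ℤ) * chiI J (gen d) * chiI e (gen f) ^ 3 *
        (chiI J (gen f) * chiI I' (gen f) ^ 3)) *
      (Gsf n * (ang (n : K) ^ (-1 : ℤ) * chiI (J * d ^ 2 * e ^ 3 * I' ^ 3 * f ^ 2) n)) := by
    intro n hn
    have h3 : Gsf (gen d * (gen f * n)) * g6 3 (gen f * n) = Gsf (gen d * (gen f * n)) * β₂ := by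
      by_cases hs : Squarefree (gen f * n)
      · rw [h₂ _ (mul_mem_cls (self_mem_cls j (gen f)) hn) hs]
      · rw [Gsf_eq_zero (fun h => hs h.of_mul_right), zero_mul, zero_mul]
    have h4 : Gsf (gen d * (gen f * n)) = β₁ * Gsf n * (chiI d n * chiI f n) ^ 2 := by
      rw [← mul_assoc, h₁ n hn, chi_mul_left hgd hgf]
      rfl
    have h5 : ang ((gen d * (gen f * n) : R K) : K) ^ (-1 : ℤ) =
        ang ((gen d * gen f : R K) : K) ^ (-1 : ℤ) * ang (n : K) ^ (-1 : ℤ) := by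
      rw [← mul_zpow, ← ang_mul]
      congr 2
      push_cast
      ring
    have h6 : chiI (J * d ^ 2 * e ^ 3 * I' ^ 3 * f ^ 2) n =
        chiI J n * chiI d n ^ 2 * chiI e n ^ 3 * chiI I' n ^ 3 * chiI f n ^ 2 := by
      have a1 : J * d ^ 2 ≠ ⊥ := mul_ne_zero hJ (pow_ne_zero _ hd)
      have a2 : J * d ^ 2 * e ^ 3 ≠ ⊥ := mul_ne_zero a1 (pow_ne_zero _ he0)
      have a3 : J * d ^ 2 * e ^ 3 * I' ^ 3 ≠ ⊥ := mul_ne_zero a2 (pow_ne_zero _ hI)
      rw [chiI_mul a3 (pow_ne_zero _ hf), chiI_mul a2 (pow_ne_zero _ hI),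
        chiI_mul a1 (pow_ne_zero _ he0), chiI_mul hJ (pow_ne_zero _ hd), chiI_pow hd, chiI_pow he0,
        chiI_pow hI, chiI_pow hf]
    unfold dualF
    beta_reduce
    rw [h5, h6]
    simp only [chiI_mul_right, show 6 - 3 = 3 from rfl]
    rw [h4] at h3
    rw [h4]
    linear_combination (ang ((gen d * gen f : R K) : K) ^ (-1 : ℤ) * ang (n : K) ^ (-1 : ℤ) *
      (chiI J (gen d) * (chiI J (gen f) * chiI J n)) * (chiI e (gen f) * chiI e n) ^ 3 *
      (chiI I' (gen f) * chiI I' n) ^ 3) * h3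
  rw [Sm_congr_mul key, norm_mul]
  split_ifs with hcop
  · refine mul_le_of_le_one_left (norm_nonneg _) ?_
    simp only [norm_mul, norm_pow, hβ₁, hβ₂, one_mul]
    have b1 := norm_ang_zpow_le ((gen d * gen f : R K) : K) (-1)
    have b2 := norm_chiI_le J (gen d)
    have b3 := norm_chiI_le e (gen f)
    have b4 := norm_chiI_le J (gen f)
    have b5 := norm_chiI_le I' (gen f)
    calc _ ≤ (1 : ℝ) * 1 * 1 ^ 3 * (1 * 1 ^ 3) := by gcongr
      _ = 1 := by norm_num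
  · have h0 : chiI J (gen f) * chiI I' (gen f) ^ 3 = 0 := by
      by_contra hne
      apply hcop
      have a1 : chi (gen J) (gen f) ≠ 0 := left_ne_zero_of_mul hne
      have a2 : chi (gen I') (gen f) ≠ 0 := fun h => right_ne_zero_of_mul hne (by
        unfold chiI; rw [h]; norm_num)
      rw [Ne, chi_eq_zero (gen_ne_zero hJ), not_not, isCoprime_gen] at a1
      rw [Ne, chi_eq_zero (gen_ne_zero hI), not_not, isCoprime_gen] at a2
      exact a1.symm.mul_right a2.symm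
    rw [h0]
    simp

theorem CC (hcv : CV K) (j : ℕ) (hj : Rec.k K ≤ j) (lam : ℝ) (hlam : 0 < lam) (ε : ℝ) (hε : 0 < ε)
    (hε1 : ε ≤ 1) :
    ∃ C A : ℝ, 0 ≤ C ∧ 0 ≤ A ∧ ∀ J ρ : Ideal (R K), J ≠ ⊥ → ρ ≠ ⊥ → radI J ∣ ρ →
      ∀ c : K, c ≠ 0 → ∀ (t ξ : Pl K → ℝ) (H : ℝ), 1 ≤ H →
        ∑ I' ∈ rows K H, ‖Sm (fun n => Gsf n * (ang (n : K) ^ (-1 : ℤ) * chiI J n) * chiI I' n ^ 3)
          j c lam t ξ‖ ^ 2 ≤
          C * (1 + ‖ξ‖) ^ A * NI ρ ^ ε * sz c t ^ (1 + ε) *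
            (H + sz c t ^ (8 / 5 : ℝ) * NI ρ ^ (2 / 5 : ℝ)) := by
  classical
  have hj1 : 1 ≤ j := Q.hk.trans hj
  have hδ : 0 < ε / 8 := by positivity
  obtain ⟨C₀, hC₀, h₀⟩ := sum_sq_Sm_le (K := K) hlam
  obtain ⟨C₀', hC₀', h₀'⟩ := sum_sq_Sm_le (K := K) (lam := 2 * lam) (by positivity)
  obtain ⟨Cr, hCr0, hCr⟩ := b3b_card_rows (K := K)
  obtain ⟨C₁, A₁, hC₁, hA₁, h₁⟩ := PVsf hcv j hj (2 * lam) (by positivity) (ε / 8) hδ (by linarith)
  obtain ⟨CT, hCT, hT⟩ := card_Tri_le (K := K) hδ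
  obtain ⟨CP, hCP, hP⟩ := PL (K := K) 3 (by norm_num) j hj lam hlam (A₁ + 5) (by positivity)
    (ε / 8) hδ
  obtain ⟨c₀, hc₀⟩ : ∃ c₀, c₀ = C₀' + C₁ := ⟨_, rfl⟩
  have hc₀0 : 0 ≤ c₀ := by rw [hc₀]; positivity
  refine ⟨C₀ * Cr + CP * (1 + CT * Cr * (32 * c₀)), A₁ + 5, by positivity, by positivity, ?_⟩
  intro J ρ hJ hρ hJρ c hc t ξ H hH
  have hr := one_le_NI hρ
  have hX0 := sz_pos hc t
  have hξ : 1 ≤ (1 + ‖ξ‖) ^ (A₁ + 5) :=
    Real.one_le_rpow (by linarith [norm_nonneg ξ]) (by positivity)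
  have hrε : 1 ≤ NI ρ ^ ε := Real.one_le_rpow hr hε.le
  have ha1 : ∀ (J : Ideal (R K)) (n : R K), ‖Gsf n * (ang (n : K) ^ (-1 : ℤ) * chiI J n)‖ ≤ 1 := by
    intro J n
    rw [norm_mul, norm_mul]
    exact mul_le_one₀ (norm_Gsf_le n) (by positivity)
      (mul_le_one₀ (norm_ang_zpow_le _ _) (norm_nonneg _) (norm_chiI_le _ _))
  obtain ⟨H', hH'⟩ : ∃ H', H' = H + sz c t ^ (8 / 5 : ℝ) * NI ρ ^ (2 / 5 : ℝ) := ⟨_, rfl⟩
  have hpos : 0 ≤ sz c t ^ (8 / 5 : ℝ) * NI ρ ^ (2 / 5 : ℝ) := by positivity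
  have hHH : H ≤ H' := by rw [hH']; linarith
  have hH1 : 1 ≤ H' := hH.trans hHH
  rw [← hH']
  rcases le_total (sz c t) 1 with hX | hX
  · have h1 := h₀ (Ideal (R K)) (rows K H)
      (fun I' n => Gsf n * (ang (n : K) ^ (-1 : ℤ) * chiI J n) * chiI I' n ^ 3) (fun I' _ n => by
        rw [norm_mul, norm_pow]
        exact mul_le_one₀ (ha1 J n) (by positivity)
          (pow_le_one₀ (norm_nonneg _) (norm_chiI_le _ _))) j hj1 c hc t ξ
    refine h1.trans ?_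
    have h2 : sz c t ^ 2 ≤ sz c t ^ (1 + ε) := by
      rw [← Real.rpow_natCast]
      exact Real.rpow_le_rpow_of_exponent_ge hX0 hX (by push_cast; linarith)
    have h3 := hCr H (by linarith)
    calc C₀ * (rows K H).card * sz c t ^ 2 ≤ C₀ * (Cr * H') * sz c t ^ (1 + ε) := by
          gcongr
          exact h3.trans (by gcongr)
      _ = C₀ * Cr * 1 * 1 * sz c t ^ (1 + ε) * H' := by ring
      _ ≤ _ := by
          gcongr
          have : 0 ≤ CP * (1 + CT * Cr * (32 * c₀)) := by positivity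
          linarith
  have hHX : sz c t ^ 8 * NI ρ ^ 2 ≤ H' ^ 5 := by
    have e1 : sz c t ^ 8 * NI ρ ^ 2 = (sz c t ^ (8 / 5 : ℝ) * NI ρ ^ (2 / 5 : ℝ)) ^ 5 := by
      rw [mul_pow, ← Real.rpow_natCast (sz c t ^ (8 / 5 : ℝ)), ← Real.rpow_natCast (NI ρ ^ (2 / 5 : ℝ)),
        ← Real.rpow_mul hX0.le, ← Real.rpow_mul (by linarith)]
      norm_num
    rw [e1]
    exact pow_le_pow_left₀ hpos (by rw [hH']; linarith) 5
  obtain ⟨Θ, hΘ⟩ : ∃ Θ, Θ = CT * Cr * (32 * c₀) *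
      (NI ρ ^ (ε / 8) * sz c t ^ (7 * (ε / 8)) * sz c t * H') := ⟨_, rfl⟩
  have hΘ0 : 0 ≤ Θ := by rw [hΘ]; positivity
  have hyp : PLHyp 3 (Finset.univ : Finset Unit)
      (fun _ n => Gsf n * (ang (n : K) ^ (-1 : ℤ) * chiI J n)) j (2 * lam) (sz c t) H' Θ (A₁ + 5) := by
    intro D E F K' y hD hE hF hK hy hDF hED hKy c' hc' t' ξ' _ hX'
    rw [Finset.univ_unique, Finset.sum_singleton]
    have hW : 1 ≤ (1 + ‖ξ'‖) ^ A₁ := Real.one_le_rpow (by linarith [norm_nonneg ξ']) hA₁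
    have hX'0 := sz_pos hc' t'
    have hNb : 0 < D ^ (1 + ε / 8) * F * K' := by positivity
    obtain ⟨B, hB⟩ : ∃ B, B = 32 * c₀ * (NI ρ ^ (ε / 8) * sz c t ^ (7 * (ε / 8)) * sz c t * H') *
        (E * sz c t / (H' * D)) * ((1 + ‖ξ'‖) ^ A₁ * y ^ 5) := ⟨_, rfl⟩
    have hB0 : 0 ≤ B := by rw [hB]; positivity
    have hterm : ∀ x ∈ Tri K D E F, ∀ I' ∈ rows K K',
        ‖Sm (dualF 3 (fun n => Gsf n * (ang (n : K) ^ (-1 : ℤ) * chiI J n)) x.1 x.2.1 x.2.2 I')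
          j c' (2 * lam) t' ξ'‖ ^ 2 ≤ B / (D ^ (1 + ε / 8) * F * K') := by
      rintro ⟨d, e, f⟩ hx I' hI'
      obtain ⟨⟨-, hd2⟩, -, ⟨hf1, hf2⟩, hed, hsq⟩ := mem_Tri.1 hx
      simp only at hd2 hf1 hf2 hed hsq ⊢
      obtain ⟨hI0, hI2⟩ := mem_rows'.1 hI'
      have hdf0 : d * f ≠ ⊥ := hsq.ne_zero
      have hd : d ≠ ⊥ := left_ne_zero_of_mul hdf0
      have hf : f ≠ ⊥ := right_ne_zero_of_mul hdf0
      have he0 : e ≠ ⊥ := ne_zero_of_dvd_ne_zero hd hed
      have hb := norm_Sm_dualF3 hJ hed hsq hI0 hj hc' (2 * lam) t' ξ'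
      split_ifs at hb with hcop
      · refine (pow_le_pow_left₀ (norm_nonneg _) hb 2).trans ?_
        rw [le_div_iff₀ hNb, hB]
        have a3 : J * d ^ 2 * e ^ 3 * I' ^ 3 ≠ ⊥ :=
          mul_ne_zero (mul_ne_zero (mul_ne_zero hJ (pow_ne_zero _ hd)) (pow_ne_zero _ he0))
            (pow_ne_zero _ hI0)
        have hfd : IsCoprime f d := by
          rw [ar_coprime_iff hf]
          intro p hp hpf hpd
          exact hp.not_isUnit (hsq p (mul_dvd_mul hpd hpf))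
        have hbp : f ∣ bpart (J * d ^ 2 * e ^ 3 * I' ^ 3 * f ^ 2) :=
          dvd_bpart hsq.of_mul_right a3
            (((hcop.of_mul_right_left.mul_right hfd.pow_right).mul_right
              (hfd.of_isCoprime_of_dvd_right hed).pow_right).mul_right
              hcop.of_mul_right_right.pow_right)
        have hrad : radI (J * d ^ 2 * e ^ 3 * I' ^ 3 * f ^ 2) ∣ ρ * d * f * I' := by
          refine ar_rad_dvd_of fun p hp hpd => ?_
          rcases hp.dvd_or_dvd hpd with h | h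
          · rcases hp.dvd_or_dvd h with h | h
            · rcases hp.dvd_or_dvd h with h | h
              · rcases hp.dvd_or_dvd h with h | h
                · exact ((((((prime_dvd_radI hJ hp).2 h).trans hJρ).mul_right d).mul_right
                    f).mul_right I')
                · exact (((hp.dvd_of_dvd_pow h).mul_left ρ).mul_right f).mul_right I'
              · exact ((((hp.dvd_of_dvd_pow h).trans hed).mul_left ρ).mul_right f).mul_right I'
            · exact (hp.dvd_of_dvd_pow h).mul_left _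
          · exact ((hp.dvd_of_dvd_pow h).mul_left _).mul_right I'
        have k1 := h₀' Unit Finset.univ (fun _ n => Gsf n * (ang (n : K) ^ (-1 : ℤ) *
          chiI (J * d ^ 2 * e ^ 3 * I' ^ 3 * f ^ 2) n)) (fun _ _ n => ha1 _ n) j hj1 c' hc' t' ξ'
        rw [Finset.univ_unique, Finset.sum_singleton, Finset.card_singleton, Nat.cast_one,
          mul_one] at k1
        have k2 := h₁ (-1) (Or.inr rfl) _ (ρ * d * f * I') f (mul_ne_zero a3 (pow_ne_zero _ hf))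
          (mul_ne_zero (mul_ne_zero (mul_ne_zero hρ hd) hf) hI0) hrad hbp c' hc' t' ξ'
        refine zcc_real (by positivity) hX hX'0 hr hD hE hF hK hy hH1 hW hc₀0 hδ (by linarith) hDF
          hED hKy hX' hHX (k1.trans ?_) (k2.trans ?_)
        · rw [hc₀]
          gcongr
          linarith
        · have k3 : NI (ρ * d * f * I') ≤ 4 * NI ρ * D * F * K' := by
            rw [NI_mul, NI_mul, NI_mul]
            have := NI_nonneg d
            have := NI_nonneg f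
            have := NI_nonneg I'
            calc NI ρ * NI d * NI f * NI I' ≤ NI ρ * (2 * D) * (2 * F) * K' := by gcongr
              _ = _ := by ring
          have k4 := NI_nonneg (ρ * d * f * I')
          have k5 : C₁ ≤ c₀ := by rw [hc₀]; linarith
          have k6 : 0 < √F := Real.sqrt_pos.2 (by linarith)
          gcongr
      · have : ‖Sm (dualF 3 (fun n => Gsf n * (ang (n : K) ^ (-1 : ℤ) * chiI J n)) d e f I')
            j c' (2 * lam) t' ξ'‖ = 0 := le_antisymm hb (norm_nonneg _)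
        rw [this]
        simp only [ne_eq, OfNat.ofNat_ne_zero, not_false_eq_true, zero_pow]
        positivity
    have hc1 := hT D E F hD hF
    have hc2 := hCr K' (by linarith)
    have hy5 : (1 + ‖ξ'‖) ^ A₁ * y ^ 5 ≤ (y * (1 + ‖ξ'‖)) ^ (A₁ + 5) := by
      have b0 : 1 ≤ 1 + ‖ξ'‖ := by linarith [norm_nonneg ξ']
      rw [Real.rpow_add (by positivity), show (5 : ℝ) = (5 : ℕ) by norm_num, Real.rpow_natCast]
      have b1 : 1 + ‖ξ'‖ ≤ y * (1 + ‖ξ'‖) := le_mul_of_one_le_left (by linarith) hy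
      have b2 : y ≤ y * (1 + ‖ξ'‖) := le_mul_of_one_le_right (by linarith) b0
      gcongr
    calc _ ≤ ∑ x ∈ Tri K D E F, ∑ I' ∈ rows K K', B / (D ^ (1 + ε / 8) * F * K') :=
          Finset.sum_le_sum fun x hx => Finset.sum_le_sum fun I' hI' => hterm x hx I' hI'
      _ = (Tri K D E F).card * ((rows K K').card * (B / (D ^ (1 + ε / 8) * F * K'))) := by
          simp only [Finset.sum_const, nsmul_eq_mul]
      _ ≤ (CT * D ^ (1 + ε / 8) * F) * ((Cr * K') * (B / (D ^ (1 + ε / 8) * F * K'))) := by gcongr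
      _ = CT * Cr * B := by field_simp
      _ = Θ * (E * sz c t / (H' * D)) * ((1 + ‖ξ'‖) ^ A₁ * y ^ 5) := by rw [hB, hΘ]; ring
      _ ≤ _ := by gcongr
  have key := hP Unit Finset.univ (fun _ n => Gsf n * (ang (n : K) ^ (-1 : ℤ) * chiI J n))
    (fun _ n => ha1 J n) (fun _ n hn => by
      by_contra hs
      exact hn (by rw [Gsf_eq_zero hs, zero_mul])) c hc t ξ H' Θ hH1 hΘ0 hX hyp
  rw [Finset.univ_unique, Finset.sum_singleton, Finset.card_singleton, Nat.cast_one,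
    one_mul] at key
  refine le_trans (Finset.sum_le_sum_of_subset_of_nonneg (rows_mono hHH) fun _ _ _ => by positivity)
    (key.trans ?_)
  have e1 : sz c t ^ (ε / 8) * sz c t ^ (7 * (ε / 8)) * sz c t = sz c t ^ (1 + ε) := by
    rw [← Real.rpow_add hX0, ← Real.rpow_add_one hX0.ne']
    congr 1
    ring
  have e2 : NI ρ ^ (ε / 8) ≤ NI ρ ^ ε := Real.rpow_le_rpow_of_exponent_le hr (by linarith)
  have e3 : 1 ≤ sz c t ^ (7 * (ε / 8)) := Real.one_le_rpow hX (by positivity)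
  have e4 : H' * sz c t ≤ NI ρ ^ ε * sz c t ^ (7 * (ε / 8)) * sz c t * H' := by
    calc H' * sz c t = 1 * 1 * sz c t * H' := by ring
      _ ≤ _ := by gcongr
  have e5 : Θ ≤ CT * Cr * (32 * c₀) * (NI ρ ^ ε * sz c t ^ (7 * (ε / 8)) * sz c t * H') := by
    rw [hΘ]
    gcongr
  calc _ ≤ CP * (1 + ‖ξ‖) ^ (A₁ + 5) * sz c t ^ (ε / 8) *
        (NI ρ ^ ε * sz c t ^ (7 * (ε / 8)) * sz c t * H' +
          CT * Cr * (32 * c₀) * (NI ρ ^ ε * sz c t ^ (7 * (ε / 8)) * sz c t * H')) := by gcongr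
    _ = CP * (1 + CT * Cr * (32 * c₀)) * (1 + ‖ξ‖) ^ (A₁ + 5) * NI ρ ^ ε *
        (sz c t ^ (ε / 8) * sz c t ^ (7 * (ε / 8)) * sz c t) * H' := by ring
    _ ≤ _ := by
        rw [e1]
        gcongr
        have : 0 ≤ C₀ * Cr := by positivity
        linarith

end Crest.Agent.GQ
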