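import Crest.Agent.GQ.ZCC

/-!
# Project GQ, part B3: the weak quadratic large sieve for the theta coefficients
-/

set_option autoImplicit false

noncomputable section

open NumberField Complex UniqueFactorizationMonoid MeasureTheory
open scoped ComplexConjugate ENNReal

namespace Crest.Agent.GQ

variable {K : Type} [Field K] [NumberField K] [P : Pre K] [Q : Rec K]

omit Q in
theorem zccg_norm_le (I' J : Ideal (R K)) (n : R K) :
    ‖ang (n : K) ^ (-1 : ℤ) * (chiI I' n ^ 3 * chiI J n)‖ ≤ 1 := by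
  rw [norm_mul, norm_mul, norm_pow]
  exact mul_le_one₀ (norm_ang_zpow_le _ _) (by positivity)
    (mul_le_one₀ (pow_le_one₀ (norm_nonneg _) (norm_chiI_le _ _)) (norm_nonneg _)
      (norm_chiI_le _ _))

theorem zccg_cs {ι : Type} (s : Finset ι) (β x : ι → ℂ) {M : ℝ} (hβ : ∀ i ∈ s, ‖β i‖ ^ 2 ≤ M) :
    ‖∑ i ∈ s, β i * x i‖ ^ 2 ≤ s.card * M * ∑ i ∈ s, ‖x i‖ ^ 2 := by
  have h1 : ‖∑ i ∈ s, β i * x i‖ ≤ ∑ i ∈ s, ‖β i‖ * ‖x i‖ :=
    (norm_sum_le _ _).trans_eq (Finset.sum_congr rfl fun i _ => norm_mul _ _)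
  refine (pow_le_pow_left₀ (norm_nonneg _) h1 2).trans
    ((Finset.sum_mul_sq_le_sq_mul_sq s _ _).trans ?_)
  refine mul_le_mul_of_nonneg_right ?_ (Finset.sum_nonneg fun _ _ => by positivity)
  simpa using Finset.sum_le_card_nsmul s _ M hβ

theorem CCG (hcv : CV K) (j : ℕ) (hj : Rec.k K ≤ j) (lam : ℝ) (hlam : 0 < lam) (ε : ℝ) (hε : 0 < ε)
    (hε1 : ε ≤ 1) :
    ∃ C A : ℝ, 0 ≤ C ∧ 0 ≤ A ∧ ∀ J ρ : Ideal (R K), J ≠ ⊥ → ρ ≠ ⊥ → radI J ∣ ρ →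
      ∀ c : K, c ≠ 0 → ∀ (t ξ : Pl K → ℝ) (H : ℝ), 1 ≤ H →
        ∑ I' ∈ rows K H, ‖Sm (fun n => Gf n * (ang (n : K) ^ (-1 : ℤ) * (chiI I' n ^ 3 * chiI J n)))
          j c lam t ξ‖ ^ 2 ≤
          C * (1 + ‖ξ‖) ^ A * NI ρ ^ ε * sz c t ^ (1 + ε) *
            (H + sz c t ^ (8 / 5 : ℝ) * NI ρ ^ (2 / 5 : ℝ)) := by
  obtain ⟨C, A, hC, hA, Hcc⟩ := CC hcv j hj lam hlam ε hε hε1
  have hj1 : 1 ≤ j := Q.hk.trans hj
  set φ : Ideal (R K) → ℂ := fun J => (Real.sqrt (NI J) : ℂ) with hφ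
  set w : Ideal (R K) → ℝ := fun J => NI J ^ (-(3 * (1 + ε) / 2)) with hw
  have hnφ : ∀ J, ‖φ J‖ = Real.sqrt (NI J) := fun J => by
    rw [hφ, Complex.norm_real, Real.norm_eq_abs, abs_of_nonneg (Real.sqrt_nonneg _)]
  have hsum : Summable (fun J => ‖φ J‖ * w J) := by
    refine (summable_nmI (K := K) (σ := 1 + 3 * ε / 2) (by linarith)).congr fun J => ?_
    rw [hnφ, hw, Real.sqrt_eq_rpow, ← Real.rpow_add' (NI_nonneg J) (by linarith)]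
    congr 1
    ring
  refine ⟨C * (∑' J, ‖φ J‖ * w J) ^ 2, A, by positivity, hA, ?_⟩
  intro J ρ hJ hρ hJρ c hc t ξ H hH
  have hX := sz_pos hc t
  have hρ0 := NI_nonneg ρ
  have key := conv2 3 (by norm_num) j hj1 c hc lam hlam t ξ (rows K H) (fun _ => Gsf)
    (fun I' n => ang (n : K) ^ (-1 : ℤ) * (chiI I' n ^ 3 * chiI J n))
    (fun _ _ => mod_of_le_one norm_Gsf_le) (fun I' _ n => zccg_norm_le I' J n)
    (fun I' _ x y _ _ => by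
      simp only [chiI_mul_right, Subring.coe_mul, ang_mul, mul_zpow]
      ring)
    φ ⟨1, fun J' hJ' => by
      have h1 := one_le_NI hJ'
      rw [hnφ, one_mul]
      exact (Real.sqrt_le_iff.2 ⟨by positivity, by nlinarith [one_le_pow₀ (n := 3) h1]⟩)⟩
    w (fun J' => Real.rpow_nonneg (NI_nonneg J') _) hsum
    (C * (1 + ‖ξ‖) ^ A * NI ρ ^ ε * sz c t ^ (1 + ε) *
      (H + sz c t ^ (8 / 5 : ℝ) * NI ρ ^ (2 / 5 : ℝ))) (by positivity)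
    (fun J' hJ' _ => by
      have h1 := one_le_NI hJ'
      have h0 : 0 < NI J' := by linarith
      have hg : ((gen J' ^ 3 : R K) : K) ≠ 0 := fun h =>
        pow_ne_zero 3 (gen_ne_zero hJ') (Subtype.ext h)
      have h2 := Hcc J ρ hJ hρ hJρ _ (div_ne_zero hc hg) (t - lg ((gen J' ^ 3 : R K) : K)) ξ H hH
      rw [sz_div_gen_pow 3 c hc t J' hJ'] at h2
      have h3 : (sz c t / NI J' ^ 3) ^ (1 + ε) = sz c t ^ (1 + ε) * w J' ^ 2 := by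
        rw [Real.div_rpow hX.le (by positivity), hw, ← Real.rpow_natCast, ← Real.rpow_natCast,
          ← Real.rpow_mul h0.le, ← Real.rpow_mul h0.le, div_eq_mul_inv, ← Real.rpow_neg h0.le]
        congr 2
        push_cast
        ring
      have h4 : (sz c t / NI J' ^ 3) ^ (8 / 5 : ℝ) ≤ sz c t ^ (8 / 5 : ℝ) :=
        Real.rpow_le_rpow (by positivity) (div_le_self hX.le (one_le_pow₀ h1)) (by norm_num)
      have e : ∀ I' : Ideal (R K),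
          (fun n : R K => Gsf n * (ang (n : K) ^ (-1 : ℤ) * (chiI I' n ^ 3 * chiI J n))) =
          fun n : R K => Gsf n * (ang (n : K) ^ (-1 : ℤ) * chiI J n) * chiI I' n ^ 3 := by
        intro I'
        funext n
        ring
      simp only [e]
      refine h2.trans ?_
      rw [h3]
      calc _ ≤ C * (1 + ‖ξ‖) ^ A * NI ρ ^ ε * (sz c t ^ (1 + ε) * w J' ^ 2) *
            (H + sz c t ^ (8 / 5 : ℝ) * NI ρ ^ (2 / 5 : ℝ)) := by gcongr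
        _ = _ := by ring)
  rw [← Gf_eq_cv] at key
  refine key.trans_eq ?_
  ring

/-- The same with a Ramanujan sum inserted. -/
theorem CCR (hcv : CV K) (j : ℕ) (hj : Rec.k K ≤ j) (lam : ℝ) (hlam : 0 < lam) (ε : ℝ) (hε : 0 < ε)
    (hε1 : ε ≤ 1) :
    ∃ C A : ℝ, 0 ≤ C ∧ 0 ≤ A ∧ ∀ J ρ b : Ideal (R K), J ≠ ⊥ → ρ ≠ ⊥ → radI J ∣ ρ → Squarefree b →
      b ∣ ρ → ∀ c : K, c ≠ 0 → ∀ (t ξ : Pl K → ℝ) (H : ℝ), 1 ≤ H →
        ∑ I' ∈ rows K H, ‖Sm (fun n => Gf n * (ang (n : K) ^ (-1 : ℤ) * (chiI I' n ^ 3 * chiI J n *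
          (ram b n / (Real.sqrt (NI b) : ℂ))))) j c lam t ξ‖ ^ 2 ≤
          C * (1 + ‖ξ‖) ^ A * NI b * NI ρ ^ (2 * ε) * sz c t ^ (1 + ε) *
            (H + sz c t ^ (8 / 5 : ℝ) * NI ρ ^ (2 / 5 : ℝ)) := by
  obtain ⟨C, A, hC, hA, Hcc⟩ := CCG hcv j hj lam hlam ε hε hε1
  obtain ⟨C₁, hC₁⟩ := card_divs_le (K := K) (ε := ε / 4) (by positivity)
  have hj1 : 1 ≤ j := Q.hk.trans hj
  refine ⟨C₁ ^ 4 * C, A, by positivity, hA, ?_⟩
  intro J ρ b hJ hρ hJρ hb hbρ c hc t ξ H hH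
  have hb0 : b ≠ ⊥ := hb.ne_zero
  have hX := sz_pos hc t
  have hρ0 := NI_pos hρ
  have hN := NI_pos hb0
  obtain ⟨β, hβ, hram⟩ := ram_eq_sum hb
  set τ : ℝ := ((divs b).card : ℝ) with hτ
  have hτ0 : 0 ≤ τ := Nat.cast_nonneg _
  set Φ : ℝ := C * (1 + ‖ξ‖) ^ A * NI ρ ^ ε * sz c t ^ (1 + ε) *
    (H + sz c t ^ (8 / 5 : ℝ) * NI ρ ^ (2 / 5 : ℝ)) with hΦ
  have hΦ0 : 0 ≤ Φ := by positivity
  have hg0 : ∀ g ∈ divs b, g ≠ ⊥ := fun g hg h => by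
    have := (mem_divs hb0).1 hg
    rw [h] at this
    exact hb0 (zero_dvd_iff.1 this)
  set S : Ideal (R K) → Ideal (R K) → ℂ := fun I' g =>
    Sm (fun n => Gf n * (ang (n : K) ^ (-1 : ℤ) * (chiI I' n ^ 3 * chiI (J * g ^ 6) n)))
      j c lam t ξ with hS
  have h1 : ∀ I' : Ideal (R K), Sm (fun n => Gf n * (ang (n : K) ^ (-1 : ℤ) *
      (chiI I' n ^ 3 * chiI J n * (ram b n / (Real.sqrt (NI b) : ℂ))))) j c lam t ξ =
      ∑ g ∈ divs b, β g / (Real.sqrt (NI b) : ℂ) * S I' g := by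
    intro I'
    have e : (fun n : R K => Gf n * (ang (n : K) ^ (-1 : ℤ) *
        (chiI I' n ^ 3 * chiI J n * (ram b n / (Real.sqrt (NI b) : ℂ))))) =
        fun n : R K => ∑ g ∈ divs b, β g / (Real.sqrt (NI b) : ℂ) *
          (Gf n * (ang (n : K) ^ (-1 : ℤ) * (chiI I' n ^ 3 * chiI (J * g ^ 6) n))) := by
      funext n
      rw [hram, Finset.sum_div, Finset.mul_sum, Finset.mul_sum, Finset.mul_sum]
      refine Finset.sum_congr rfl fun g hg => ?_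
      rw [chiI_mul hJ (pow_ne_zero 6 (hg0 g hg)), chiI_pow (hg0 g hg)]
      ring
    rw [e, Sm_sum (divs b) (fun g _ => ?_) hj1 hc hlam]
    · exact Finset.sum_congr rfl fun g _ => Sm_const_mul _ _ _ _ _ _ _
    · have := (mod_Gf.mul_bdd (zccg_norm_le I' (J * g ^ 6))).mul_bdd
        (b := fun _ => β g / (Real.sqrt (NI b) : ℂ)) (fun _ => le_rfl)
      simpa only [mul_comm (β g / (Real.sqrt (NI b) : ℂ))] using this
  have h2 : ∀ g ∈ divs b, ‖β g / (Real.sqrt (NI b) : ℂ)‖ ^ 2 ≤ τ ^ 2 * NI b := by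
    intro g _
    rw [norm_div, div_pow, Complex.norm_real, Real.norm_eq_abs, sq_abs, Real.sq_sqrt hN.le,
      div_le_iff₀ hN]
    calc ‖β g‖ ^ 2 ≤ (τ * NI b) ^ 2 := pow_le_pow_left₀ (norm_nonneg _) (hβ g) 2
      _ = _ := by ring
  have h3 : ∀ g ∈ divs b, ∑ I' ∈ rows K H, ‖S I' g‖ ^ 2 ≤ Φ := by
    intro g hg
    refine Hcc (J * g ^ 6) ρ (mul_ne_zero hJ (pow_ne_zero 6 (hg0 g hg))) hρ ?_ c hc t ξ H hH
    refine ar_rad_dvd_of fun p hp hd => ?_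
    rcases hp.dvd_or_dvd hd with h | h
    · exact ((prime_dvd_radI hJ hp).2 h).trans hJρ
    · exact ((hp.dvd_of_dvd_pow h).trans ((mem_divs hb0).1 hg)).trans hbρ
  have h4 : τ ^ 4 ≤ C₁ ^ 4 * NI ρ ^ ε := by
    have h5 : τ ≤ |C₁| * NI ρ ^ (ε / 4) :=
      (hC₁ b hb0).trans (mul_le_mul (le_abs_self _)
        (Real.rpow_le_rpow hN.le (NI_le_of_dvd hρ hbρ) (by positivity))
        (Real.rpow_nonneg hN.le _) (abs_nonneg _))
    refine (pow_le_pow_left₀ hτ0 h5 4).trans_eq ?_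
    rw [mul_pow, ← Real.rpow_natCast (NI ρ ^ (ε / 4)), ← Real.rpow_mul hρ0.le,
      Even.pow_abs (by norm_num)]
    congr 2
    push_cast
    ring
  simp only [h1]
  calc _ ≤ ∑ I' ∈ rows K H, τ * (τ ^ 2 * NI b) * ∑ g ∈ divs b, ‖S I' g‖ ^ 2 :=
        Finset.sum_le_sum fun I' _ => zccg_cs _ _ _ h2
    _ = τ * (τ ^ 2 * NI b) * ∑ g ∈ divs b, ∑ I' ∈ rows K H, ‖S I' g‖ ^ 2 := by
        rw [← Finset.mul_sum, Finset.sum_comm]
    _ ≤ τ * (τ ^ 2 * NI b) * (τ * Φ) := by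
        refine mul_le_mul_of_nonneg_left ?_ (by positivity)
        simpa using Finset.sum_le_card_nsmul _ _ Φ h3
    _ = τ ^ 4 * (NI b * Φ) := by ring
    _ ≤ C₁ ^ 4 * NI ρ ^ ε * (NI b * Φ) := mul_le_mul_of_nonneg_right h4 (by positivity)
    _ = _ := by
        rw [hΦ, two_mul ε, Real.rpow_add hρ0]
        ring

end Crest.Agent.GQ
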