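import Crest.Agent.GQ.ZTriv

/-!
# Project GQ, part B3: convolution identities
-/

set_option autoImplicit false

noncomputable section

open NumberField Complex UniqueFactorizationMonoid MeasureTheory
open scoped ComplexConjugate ENNReal

namespace Crest.Agent.GQ

variable {K : Type} [Field K] [NumberField K] [P : Pre K]

theorem Gf_eq_cv : (Gf : R K → ℂ) = cnv 3 (fun J => (Real.sqrt (NI J) : ℂ)) Gsf := rfl

open Classical in
theorem cv_eq_sum {p : ℕ} (hp : 1 ≤ p) (φ : Ideal (R K) → ℂ) (a : R K → ℂ) {n : R K} (hn : n ≠ 0) :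
    cnv p φ a n = ∑ J ∈ divs (Ideal.span {n}),
      if gen J ^ p ∣ n then φ J * a (rdiv n (gen J ^ p)) else 0 := by
  have hN : Ideal.span {n} ≠ (⊥ : Ideal (R K)) := by rwa [Ne, Ideal.span_singleton_eq_bot]
  unfold cnv
  refine finsum_eq_sum_of_support_subset _ fun I hI => ?_
  rw [Finset.mem_coe, mem_divs hN, ← gen_dvd_iff]
  by_contra h
  exact hI (if_neg fun h3 => h ((dvd_pow_self _ (by omega)).trans h3))

theorem Gsf_eq_cv {n : R K} (hn : n ≠ 0) :
    Gsf n = cnv 3 (fun J => muR J * (Real.sqrt (NI J) : ℂ)) Gf n := by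
  rw [cv_eq_sum (by norm_num) _ _ hn, Gsf_eq_sum hn]
  rfl

open Classical in
/-- Coefficients of the head of the truncated cube inversion. -/
def ph1 (M0 : ℝ) (J : Ideal (R K)) : ℂ := if NI J ≤ M0 then muR J * (Real.sqrt (NI J) : ℂ) else 0

open Classical in
/-- Coefficients of the tail of the truncated cube inversion. -/
def ph2 (M0 : ℝ) (J : Ideal (R K)) : ℂ := if NI J ≤ M0 then 0 else
  -(∑ g ∈ (divs J).filter (fun g => NI g ≤ M0), muR g) * (Real.sqrt (NI J) : ℂ)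

open Classical in
theorem zcid_Gsf (n m : R K) : Gsf (n * m ^ 3) = if IsUnit m then Gsf n else 0 := by
  split_ifs with h
  · exact Gsf_unit_cube n h
  · exact Gsf_eq_zero fun hs => h (hs m ⟨n * m, by ring⟩)

theorem zcid_norm_sum {S T : Finset (Ideal (R K))} (h : S ⊆ T) : ‖∑ g ∈ S, muR g‖ ≤ T.card := by
  refine (norm_sum_le _ _).trans ((Finset.sum_le_card_nsmul _ _ 1 fun g _ => norm_mu_le _).trans ?_)
  rw [nsmul_eq_mul, mul_one]
  exact_mod_cast Finset.card_le_card h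

open Classical in
theorem zcid_head (M0 : ℝ) {n : R K} (hn : n ≠ 0) : cnv 3 (ph1 M0) Gf n =
    (∑ J ∈ (divs (Ideal.span {n})).filter (fun J => gen J ^ 3 ∣ n ∧ NI J ≤ M0), muR J) * Gf n := by
  have hN : Ideal.span {n} ≠ (⊥ : Ideal (R K)) := by rwa [Ne, Ideal.span_singleton_eq_bot]
  rw [cv_eq_sum (by norm_num) _ _ hn, Finset.sum_filter, Finset.sum_mul]
  refine Finset.sum_congr rfl fun J hJ => ?_
  have hJ0 : J ≠ ⊥ := ne_zero_of_dvd_ne_zero hN ((mem_divs hN).1 hJ)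
  by_cases h : gen J ^ 3 ∣ n
  · rw [if_pos h, ph1]
    by_cases h' : NI J ≤ M0
    · rw [if_pos h', if_pos ⟨h, h'⟩]
      conv_rhs => rw [rdiv_spec h, mul_comm (gen J ^ 3), Gf_cube _ (gen_ne_zero hJ0), Nr_gen']
      ring
    · rw [if_neg h', if_neg fun h'' => h' h''.2, zero_mul, zero_mul]
  · rw [if_neg h, if_neg fun h'' => h h''.1, zero_mul]

/-- Truncated cube inversion. -/
theorem Gsf_eq_cv_trunc {M0 : ℝ} (hM0 : 1 ≤ M0) {n : R K} (hn : n ≠ 0) :
    Gsf n = cnv 3 (ph1 M0) Gf n + cnv 3 (ph2 M0) Gsf n := by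
  classical
  have hN : Ideal.span {n} ≠ (⊥ : Ideal (R K)) := by rwa [Ne, Ideal.span_singleton_eq_bot]
  rw [zcid_head M0 hn, cv_eq_sum (by norm_num) _ _ hn]
  by_cases hex : ∃ n₀ m : R K, Squarefree n₀ ∧ m ≠ 0 ∧ n = n₀ * m ^ 3
  · obtain ⟨n₀, m, hs, hm, rfl⟩ := hex
    have hS : Ideal.span {m} ≠ (⊥ : Ideal (R K)) := by rwa [Ne, Ideal.span_singleton_eq_bot]
    have hmn : m ∣ n₀ * m ^ 3 := (dvd_pow_self m (by norm_num)).mul_left n₀
    have h1 : (divs (Ideal.span {n₀ * m ^ 3})).filter (fun J => gen J ^ 3 ∣ n₀ * m ^ 3 ∧ NI J ≤ M0) =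
        (divs (Ideal.span {m})).filter (fun J => NI J ≤ M0) := by
      ext J
      rw [Finset.mem_filter, Finset.mem_filter, mem_divs hN, mem_divs hS, ← gen_dvd_iff,
        ← gen_dvd_iff]
      refine ⟨fun h => ⟨(ar_cube_dvd hs hm ?_).1 h.2.1, h.2.2⟩,
        fun h => ⟨h.1.trans hmn, (pow_dvd_pow_of_dvd h.1 3).mul_left _, h.2⟩⟩
      exact ne_zero_of_dvd_ne_zero hn h.1
    have h2 : ∀ J : Ideal (R K), J ≠ ⊥ → ∀ m' : R K, m = gen J * m' →
        rdiv (n₀ * m ^ 3) (gen J ^ 3) = n₀ * m' ^ 3 := by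
      intro J hJ m' hm'
      rw [hm', show n₀ * (gen J * m') ^ 3 = gen J ^ 3 * (n₀ * m' ^ 3) by ring,
        rdiv_mul (pow_ne_zero 3 (gen_ne_zero hJ))]
    obtain ⟨u, hu⟩ := associated_gen_span m
    have h3 : (∑ J ∈ divs (Ideal.span {n₀ * m ^ 3}), if gen J ^ 3 ∣ n₀ * m ^ 3 then
        ph2 M0 J * Gsf (rdiv (n₀ * m ^ 3) (gen J ^ 3)) else 0) =
        ph2 M0 (Ideal.span {m}) * Gsf n₀ := by
      rw [Finset.sum_eq_single (Ideal.span {m})]
      · rw [if_pos ((pow_dvd_pow_of_dvd (associated_gen_span m).dvd 3).mul_left _),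
          h2 _ hS u hu.symm, Gsf_unit_cube n₀ u.isUnit]
      · intro J hJ hne
        have hJ0 : J ≠ ⊥ := ne_zero_of_dvd_ne_zero hN ((mem_divs hN).1 hJ)
        split_ifs with h
        · obtain ⟨m', hm'⟩ := (ar_cube_dvd hs hm (gen_ne_zero hJ0)).1 h
          rw [h2 J hJ0 m' hm', zcid_Gsf, if_neg, mul_zero]
          intro hu'
          refine hne ?_
          rw [hm', Ideal.span_singleton_mul_right_unit hu', span_gen]
        · rfl
      · intro h
        exact absurd ((mem_divs hN).2 (Ideal.span_singleton_dvd_span_singleton_iff_dvd.2 hmn)) h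
    rw [h1, h3, Gf_eq hs hm, zcid_Gsf, ph2, show Nr m = NI (Ideal.span {m}) from rfl]
    by_cases h4 : NI (Ideal.span {m}) ≤ M0
    · rw [if_pos h4, Finset.filter_true_of_mem fun J hJ =>
        (NI_le_of_dvd hS ((mem_divs hS).1 hJ)).trans h4, sum_divs_muR hS, zero_mul, add_zero]
      by_cases h5 : IsUnit m
      · have h6 : Ideal.span {m} = (⊤ : Ideal (R K)) := Ideal.span_singleton_eq_top.2 h5
        rw [if_pos h5, if_pos h6, h6, NI, nmI_top]
        simp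
      · rw [if_neg h5, if_neg fun h => h5 (Ideal.span_singleton_eq_top.1 h), zero_mul]
    · rw [if_neg h4, if_neg]
      · ring
      · intro h5
        rw [Ideal.span_singleton_eq_top.2 h5, NI, nmI_top, Nat.cast_one] at h4
        exact h4 hM0
  · rw [Gf_eq_zero hex, mul_zero, zero_add,
      Gsf_eq_zero fun h => hex ⟨n, 1, h, one_ne_zero, by simp⟩]
    refine (Finset.sum_eq_zero fun J hJ => ?_).symm
    have hJ0 : J ≠ ⊥ := ne_zero_of_dvd_ne_zero hN ((mem_divs hN).1 hJ)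
    split_ifs with h
    · rw [Gsf_eq_zero fun hs => hex ⟨_, gen J, hs, gen_ne_zero hJ0, (rdiv_spec h).trans (mul_comm _ _)⟩,
        mul_zero]
    · rfl

theorem norm_ph1_le (M0 : ℝ) (J : Ideal (R K)) : ‖ph1 M0 J‖ ≤ Real.sqrt (NI J) := by
  unfold ph1
  split_ifs
  · rw [norm_mul, Complex.norm_real, Real.norm_of_nonneg (Real.sqrt_nonneg _)]
    exact mul_le_of_le_one_left (Real.sqrt_nonneg _) (norm_mu_le _)
  · rw [norm_zero]; exact Real.sqrt_nonneg _

theorem norm_ph2_le (M0 : ℝ) (J : Ideal (R K)) :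
    ‖ph2 M0 J‖ ≤ (divs J).card * Real.sqrt (NI J) := by
  unfold ph2
  split_ifs
  · rw [norm_zero]; positivity
  · rw [norm_mul, norm_neg, Complex.norm_real, Real.norm_of_nonneg (Real.sqrt_nonneg _)]
    exact mul_le_mul_of_nonneg_right (zcid_norm_sum (Finset.filter_subset _ _)) (Real.sqrt_nonneg _)

theorem card_divs_le_sq : ∃ C : ℝ, ∀ J : Ideal (R K), J ≠ ⊥ →
    (divs J).card * Real.sqrt (NI J) ≤ C * NI J ^ 2 := by
  obtain ⟨C, hC⟩ := card_divs_le (K := K) one_pos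
  refine ⟨C, fun J hJ => ?_⟩
  have h1 : ((divs J).card : ℝ) ≤ C * NI J := by simpa [NI] using hC J hJ
  have h2 := one_le_NI hJ
  have h3 : Real.sqrt (NI J) ≤ NI J := Real.sqrt_le_iff.2 ⟨by linarith, by nlinarith⟩
  calc _ ≤ C * NI J * NI J :=
        mul_le_mul h1 h3 (Real.sqrt_nonneg _) ((Nat.cast_nonneg _).trans h1)
    _ = _ := by ring

theorem mod_cv_ph1 (M0 : ℝ) : Mod (cnv 3 (ph1 M0) (Gf : R K → ℂ)) := by
  classical
  obtain ⟨C, hC⟩ := card_divs_le (K := K) (ε := 5 / 6) (by norm_num)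
  refine ⟨C, fun n hn => ?_⟩
  have hN : Ideal.span {n} ≠ (⊥ : Ideal (R K)) := by rwa [Ne, Ideal.span_singleton_eq_bot]
  have h1 : ((divs (Ideal.span {n})).card : ℝ) ≤ C * Nr n ^ (5 / 6 : ℝ) := hC _ hN
  rw [zcid_head M0 hn, norm_mul]
  calc _ ≤ C * Nr n ^ (5 / 6 : ℝ) * Nr n ^ (1 / 6 : ℝ) :=
        mul_le_mul ((zcid_norm_sum (Finset.filter_subset _ _)).trans h1) (norm_Gf_le n)
          (norm_nonneg _) ((Nat.cast_nonneg _).trans h1)
    _ = _ := by
        rw [mul_assoc, ← Real.rpow_add (Nr_pos hn)]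
        norm_num

theorem mod_cv_ph2 (M0 : ℝ) : Mod (cnv 3 (ph2 M0) (Gsf : R K → ℂ)) := by
  classical
  obtain ⟨C, hC⟩ := card_divs_le (K := K) (ε := 1 / 4) (by norm_num)
  refine ⟨C * C, fun n hn => ?_⟩
  have hN : Ideal.span {n} ≠ (⊥ : Ideal (R K)) := by rwa [Ne, Ideal.span_singleton_eq_bot]
  have h1 : ((divs (Ideal.span {n})).card : ℝ) ≤ C * Nr n ^ (1 / 4 : ℝ) := hC _ hN
  have h0 : 0 ≤ C * Nr n ^ (1 / 4 : ℝ) := (Nat.cast_nonneg _).trans h1
  have h2 : ∀ J ∈ divs (Ideal.span {n}),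
      ‖(if gen J ^ 3 ∣ n then ph2 M0 J * Gsf (rdiv n (gen J ^ 3)) else 0)‖ ≤
        C * Nr n ^ (1 / 4 : ℝ) * Nr n ^ (1 / 2 : ℝ) := by
    intro J hJ
    have hJn := (mem_divs hN).1 hJ
    have hJ0 : J ≠ ⊥ := ne_zero_of_dvd_ne_zero hN hJn
    split_ifs
    · have h3 : ((divs J).card : ℝ) ≤ (divs (Ideal.span {n})).card := by
        exact_mod_cast Finset.card_le_card fun g hg =>
          (mem_divs hN).2 (((mem_divs hJ0).1 hg).trans hJn)
      have h4 : Real.sqrt (NI J) ≤ Nr n ^ (1 / 2 : ℝ) := by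
        rw [← Real.sqrt_eq_rpow]
        exact Real.sqrt_le_sqrt (NI_le_of_dvd hN hJn)
      rw [norm_mul]
      exact (mul_le_of_le_one_right (norm_nonneg _) (norm_Gsf_le _)).trans
        ((norm_ph2_le M0 J).trans (mul_le_mul (h3.trans h1) h4 (Real.sqrt_nonneg _) h0))
    · rw [norm_zero]
      exact mul_nonneg h0 (Real.rpow_nonneg (Nr_nonneg n) _)
  rw [cv_eq_sum (by norm_num) _ _ hn]
  refine (norm_sum_le _ _).trans ((Finset.sum_le_card_nsmul _ _ _ h2).trans ?_)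
  rw [nsmul_eq_mul]
  calc _ ≤ C * Nr n ^ (1 / 4 : ℝ) * (C * Nr n ^ (1 / 4 : ℝ) * Nr n ^ (1 / 2 : ℝ)) :=
        mul_le_mul_of_nonneg_right h1 (mul_nonneg h0 (Real.rpow_nonneg (Nr_nonneg n) _))
    _ = C * C * (Nr n ^ (1 / 4 : ℝ) * Nr n ^ (1 / 4 : ℝ) * Nr n ^ (1 / 2 : ℝ)) := by ring
    _ = _ := by
        rw [← Real.rpow_add (Nr_pos hn), ← Real.rpow_add (Nr_pos hn)]
        norm_num

open Classical in
/-- Removal of a coprimality condition. -/
theorem mu_cop {w : Ideal (R K)} (hw : w ≠ ⊥) {n : R K} (hn : n ≠ 0) :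
    mu n * chiI w n ^ 6 = cnv 1 (fun g => if g ≠ ⊥ ∧ radI g ∣ w then 1 else 0) mu n := by
  have hN : Ideal.span {n} ≠ (⊥ : Ideal (R K)) := by rwa [Ne, Ideal.span_singleton_eq_bot]
  rw [cv_eq_sum le_rfl _ _ hn, chiI, chi_pow_six (gen_ne_zero hw), mul_ite, mul_one, mul_zero,
    mu_coprime_eq_sum hw hn]
  refine Finset.sum_congr rfl fun J hJ => ?_
  have hJn := (mem_divs hN).1 hJ
  have hJ0 : J ≠ ⊥ := ne_zero_of_dvd_ne_zero hN hJn
  rw [pow_one, if_pos (gen_dvd_iff.2 hJn)]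
  by_cases h : radI J ∣ w
  · rw [if_pos h, if_pos ⟨hJ0, h⟩, one_mul]
  · rw [if_neg h, if_neg fun h' => h h'.2, zero_mul]

open Classical in
/-- Insertion of a coprimality condition. -/
theorem mu_gcd {b : Ideal (R K)} (hb : b ≠ ⊥) {n : R K} (hn : n ≠ 0) :
    mu n = cnv 1 (fun e => if e ∣ b then muR e else 0) (fun m => mu m * chiI b m ^ 6) n := by
  unfold cnv
  rw [finsum_eq_sum_of_support_subset (s := divs b), mu_eq_sum_coprime hb n]
  · refine Finset.sum_congr rfl fun J hJ => ?_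
    beta_reduce
    rw [pow_one, if_pos ((mem_divs hb).1 hJ), chiI, chi_pow_six (gen_ne_zero hb)]
    by_cases h1 : gen J ∣ n <;> by_cases h2 : IsCoprime (gen b) (rdiv n (gen J)) <;> simp [h1, h2]
  · intro J hJ
    rw [Finset.mem_coe, mem_divs hb]
    by_contra h
    exact hJ (by simp [h])

open Classical in
/-- Detection of coprimality of two elements. -/
theorem sum_muR_dvd {x : R K} (hx : x ≠ 0) (y : R K) :
    ∑ f ∈ divs (Ideal.span {x}), (if gen f ∣ y then muR f else 0) =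
      if IsCoprime x y then 1 else 0 := by
  have hN : Ideal.span {x} ≠ (⊥ : Ideal (R K)) := by rwa [Ne, Ideal.span_singleton_eq_bot]
  rw [sum_divs_muR_dvd hN, ar_coprime_gen_span]

theorem norm_sum_muR_div_le {d : Ideal (R K)} (hd : d ≠ ⊥) :
    ‖∑ e ∈ divs d, muR e / (NI e : ℂ)‖ ≤ 1 := by
  classical
  have h0 := gen_ne_zero hd
  have h1 := phiN_eq h0
  rw [span_gen] at h1
  have h2 : ∑ e ∈ divs d, muR e / (NI e : ℂ) = (phiN (gen d) : ℂ) := by
    rw [h1]; simp [NI]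
  rw [h2, Complex.norm_real, phiN, Real.norm_of_nonneg (div_nonneg (Nat.cast_nonneg _) (Nr_nonneg _)),
    div_le_one (Nr_pos h0), Nr, ← card_reps h0]
  exact_mod_cast Finset.card_filter_le _ _

end Crest.Agent.GQ
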