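import Mathlib

/-!
# Project GQ, part B3: two abstract Cauchy-Schwarz lemmas
-/

set_option autoImplicit false

noncomputable section

open NumberField Complex UniqueFactorizationMonoid MeasureTheory
open scoped ComplexConjugate ENNReal

namespace Crest.Agent.GQ

/-- Minkowski's inequality for a series of vectors. -/
theorem mink {ι G : Type} (s : Finset ι) (x : ι → G → ℂ) (w : G → ℝ) (Φ : ℝ) (hΦ : 0 ≤ Φ)
    (hw0 : ∀ g, 0 ≤ w g) (hw : Summable w)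
    (hx : ∀ g, ∑ i ∈ s, ‖x i g‖ ^ 2 ≤ Φ * w g ^ 2) :
    ∑ i ∈ s, ‖∑' g, x i g‖ ^ 2 ≤ Φ * (∑' g, w g) ^ 2 := by
  set v : G → EuclideanSpace ℂ s := fun g => WithLp.toLp 2 (fun i : s => x i g) with hv
  have hn : ∀ y : EuclideanSpace ℂ s, ‖y‖ ^ 2 = ∑ i : s, ‖y i‖ ^ 2 := fun y =>
    EuclideanSpace.norm_sq_eq y
  have h1 : ∀ g, ‖v g‖ ≤ Real.sqrt Φ * w g := by
    intro g
    refine (pow_le_pow_iff_left₀ (norm_nonneg _) (mul_nonneg (Real.sqrt_nonneg _) (hw0 g))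
      two_ne_zero).1 ?_
    rw [hn, mul_pow, Real.sq_sqrt hΦ]
    exact le_of_eq_of_le (Finset.sum_coe_sort s (fun i => ‖x i g‖ ^ 2)) (hx g)
  have h2 : Summable v := Summable.of_norm_bounded (hw.mul_left _) h1
  have h3 : ‖∑' g, v g‖ ≤ Real.sqrt Φ * ∑' g, w g :=
    tsum_of_norm_bounded (hw.hasSum.mul_left _) h1
  have h4 : ∀ i : s, (∑' g, v g) i = ∑' g, x i g := fun i =>
    (EuclideanSpace.proj (𝕜 := ℂ) i).map_tsum h2
  have h5 := pow_le_pow_left₀ (norm_nonneg _) h3 2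
  rw [hn, mul_pow, Real.sq_sqrt hΦ] at h5
  simp_rw [h4] at h5
  rwa [Finset.sum_coe_sort s (fun i => ‖∑' g, x i g‖ ^ 2)] at h5

/-- Cauchy-Schwarz for an integral, `lintegral` form. -/
theorem sq_norm_integral_le {Ω : Type} [MeasurableSpace Ω] (μ : Measure Ω) (F : Ω → ℂ)
    (m G : Ω → ℝ) (hm0 : ∀ ω, 0 ≤ m ω) (hG0 : ∀ ω, 0 ≤ G ω) (hm : Integrable m μ)
    (hG : AEStronglyMeasurable G μ) (hF : ∀ ω, ‖F ω‖ ≤ m ω * G ω) :
    ENNReal.ofReal (‖∫ ω, F ω ∂μ‖ ^ 2) ≤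
      ENNReal.ofReal (∫ ω, m ω ∂μ) * ∫⁻ ω, ENNReal.ofReal (m ω * G ω ^ 2) ∂μ := by
  have hs : AEMeasurable (fun ω => Real.sqrt (m ω)) μ := hm.1.aemeasurable.sqrt
  have h1 := ENNReal.lintegral_mul_le_Lp_mul_Lq μ Real.HolderConjugate.two_two
    hs.ennreal_ofReal (hs.mul hG.aemeasurable).ennreal_ofReal
  have h2 : ∀ ω, ENNReal.ofReal (Real.sqrt (m ω)) ^ (2 : ℝ) = ENNReal.ofReal (m ω) := by
    intro ω
    rw [ENNReal.rpow_two, ← ENNReal.ofReal_pow (Real.sqrt_nonneg _), Real.sq_sqrt (hm0 ω)]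
  have h3 : ∀ ω, ENNReal.ofReal (Real.sqrt (m ω) * G ω) ^ (2 : ℝ) =
      ENNReal.ofReal (m ω * G ω ^ 2) := by
    intro ω
    rw [ENNReal.rpow_two, ← ENNReal.ofReal_pow (mul_nonneg (Real.sqrt_nonneg _) (hG0 ω)), mul_pow,
      Real.sq_sqrt (hm0 ω)]
  simp only [Pi.mul_apply, h2, h3] at h1
  have h4 : ‖∫ ω, F ω ∂μ‖ₑ ≤ ∫⁻ ω, ENNReal.ofReal (Real.sqrt (m ω)) *
      ENNReal.ofReal (Real.sqrt (m ω) * G ω) ∂μ := by
    refine (enorm_integral_le_lintegral_enorm _).trans (lintegral_mono fun ω => ?_)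
    rw [← ENNReal.ofReal_mul (Real.sqrt_nonneg _), ← mul_assoc, Real.mul_self_sqrt (hm0 ω),
      ← ofReal_norm]
    exact ENNReal.ofReal_le_ofReal (hF ω)
  have h5 := ENNReal.rpow_le_rpow (h4.trans h1) (show (0 : ℝ) ≤ 2 by norm_num)
  rw [ENNReal.mul_rpow_of_nonneg _ _ (by norm_num), ← ENNReal.rpow_mul, ← ENNReal.rpow_mul,
    show (1 : ℝ) / 2 * 2 = 1 by norm_num, ENNReal.rpow_one, ENNReal.rpow_one, ENNReal.rpow_two,
    ← ofReal_norm, ← ENNReal.ofReal_pow (norm_nonneg _)] at h5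
  rwa [ofReal_integral_eq_lintegral_ofReal hm (Filter.Eventually.of_forall hm0)]

/-- Superposition: a series of integrals is bounded through the mean square of the series. -/
theorem sup_abs {Ω ι N : Type} [MeasurableSpace Ω] (μ : Measure Ω) [Countable N] (s : Finset ι)
    (F : ι → N → Ω → ℂ) (κ : ι → Ω → ℂ) (m Ψ : Ω → ℝ) (hm0 : ∀ ω, 0 ≤ m ω)
    (hm : Integrable m μ) (hmΨ : Integrable (fun ω => m ω * Ψ ω) μ)
    (hκ : ∀ i ∈ s, ∀ ω, ‖κ i ω‖ ≤ m ω)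
    (hint : ∀ i ∈ s, ∀ n, Integrable (fun ω => κ i ω * F i n ω) μ)
    (hsum : ∀ i ∈ s, Summable (fun n => ∫ ω, ‖κ i ω * F i n ω‖ ∂μ))
    (hmeas : ∀ i ∈ s, AEStronglyMeasurable (fun ω => ∑' n, F i n ω) μ)
    (hΨ : ∀ ω, ∑ i ∈ s, ‖∑' n, F i n ω‖ ^ 2 ≤ Ψ ω) :
    ∑ i ∈ s, ‖∑' n, ∫ ω, κ i ω * F i n ω ∂μ‖ ^ 2 ≤ (∫ ω, m ω ∂μ) * ∫ ω, m ω * Ψ ω ∂μ := by
  have hΨ0 : ∀ ω, 0 ≤ Ψ ω := fun ω =>
    (Finset.sum_nonneg fun _ _ => by positivity).trans (hΨ ω)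
  have hI : 0 ≤ ∫ ω, m ω ∂μ := integral_nonneg hm0
  have hJ : 0 ≤ ∫ ω, m ω * Ψ ω ∂μ := integral_nonneg fun ω => mul_nonneg (hm0 ω) (hΨ0 ω)
  have h1 : ∀ i ∈ s, ENNReal.ofReal (‖∑' n, ∫ ω, κ i ω * F i n ω ∂μ‖ ^ 2) ≤
      ENNReal.ofReal (∫ ω, m ω ∂μ) *
        ∫⁻ ω, ENNReal.ofReal (m ω * ‖∑' n, F i n ω‖ ^ 2) ∂μ := by
    intro i hi
    rw [integral_tsum_of_summable_integral_norm (hint i hi) (hsum i hi)]
    refine sq_norm_integral_le μ _ m _ hm0 (fun _ => norm_nonneg _) hm (hmeas i hi).norm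
      fun ω => ?_
    rw [tsum_mul_left, norm_mul]
    exact mul_le_mul_of_nonneg_right (hκ i hi ω) (norm_nonneg _)
  rw [← ENNReal.ofReal_le_ofReal_iff (mul_nonneg hI hJ),
    ENNReal.ofReal_sum_of_nonneg (fun _ _ => by positivity), ENNReal.ofReal_mul hI]
  refine (Finset.sum_le_sum h1).trans ?_
  have hme : ∀ i ∈ s, AEMeasurable
      (fun ω => ENNReal.ofReal (m ω * ‖∑' n, F i n ω‖ ^ 2)) μ := fun i hi =>
    (hm.1.aemeasurable.mul ((hmeas i hi).norm.aemeasurable.pow_const 2)).ennreal_ofReal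
  rw [← Finset.mul_sum, ← lintegral_finsetSum' _ hme,
    ofReal_integral_eq_lintegral_ofReal hmΨ
      (Filter.Eventually.of_forall fun ω => mul_nonneg (hm0 ω) (hΨ0 ω))]
  refine mul_le_mul_right (lintegral_mono fun ω => ?_) _
  rw [← ENNReal.ofReal_sum_of_nonneg (fun _ _ => mul_nonneg (hm0 ω) (by positivity)),
    ← Finset.mul_sum]
  exact ENNReal.ofReal_le_ofReal (mul_le_mul_of_nonneg_left (hΨ ω) (hm0 ω))

end Crest.Agent.GQ
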