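import Crest.Agent.GQ.ZCid
import Crest.Agent.GQ.ZMink

/-!
# Project GQ, part B3: smooth sums of convolutions
-/

set_option autoImplicit false

noncomputable section

open NumberField Complex UniqueFactorizationMonoid MeasureTheory
open scoped ComplexConjugate ENNReal

namespace Crest.Agent.GQ

variable {K : Type} [Field K] [NumberField K] [P : Pre K]

theorem zconv_sz (p : ℕ) (c : K) (hc : c ≠ 0) (t : Pl K → ℝ) (J : Ideal (R K)) (hJ : J ≠ ⊥) :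
    sz (c / ((gen J ^ p : R K) : K)) (t - lg ((gen J ^ p : R K) : K)) = sz c t / NI J ^ p := by
  rw [sz_div hc (pow_ne_zero p (gen_ne_zero hJ)), Nr_pow, Nr_gen]; rfl

open Classical in
/-- The terms of the double series. -/
def zconvF (p : ℕ) (φ : Ideal (R K) → ℂ) (a ψ : R K → ℂ) (j : ℕ) (c : K) (lam : ℝ)
    (t ξ : Pl K → ℝ) (J : Ideal (R K)) (n : R K) : ℂ :=
  if n ∈ cls j c then
    (if gen J ^ p ∣ n then φ J * (a (rdiv n (gen J ^ p)) * ψ n) else 0) * pk lam t ξ (n : K)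
  else 0

theorem zconv_bot {p : ℕ} (hp : 1 ≤ p) (φ : Ideal (R K) → ℂ) (a ψ : R K → ℂ) {j : ℕ} (hj : 1 ≤ j)
    {c : K} (hc : c ≠ 0) (lam : ℝ) (t ξ : Pl K → ℝ) (n : R K) :
    zconvF p φ a ψ j c lam t ξ ⊥ n = 0 := by
  unfold zconvF
  split_ifs with h1 h2
  · rw [gen, if_pos rfl, zero_pow (by omega), zero_dvd_iff] at h2
    exact absurd h2 (ne_zero_of_mem_cls hj hc h1)
  · rw [zero_mul]
  · rfl

theorem zconv_row {p : ℕ} (hp : 1 ≤ p) (φ : Ideal (R K) → ℂ) (a ψ : R K → ℂ) {j : ℕ} (hj : 1 ≤ j)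
    {c : K} (hc : c ≠ 0) {lam : ℝ} (t ξ : Pl K → ℝ) {Ca C0 C : ℝ} (hC0 : 0 ≤ C)
    (ha : ∀ n : R K, n ≠ 0 → ‖a n‖ ≤ Ca * Nr n) (hψ1 : ∀ n, ‖ψ n‖ ≤ 1)
    (hφ : ∀ J, J ≠ ⊥ → ‖φ J‖ ≤ C0 * NI J ^ 2)
    (hC : ∀ c : K, c ≠ 0 → ∀ t ξ : Pl K → ℝ,
      Summable (fun n : R K => open Classical in
        if n ∈ cls j c then Nr n ^ (1 : ℝ) * ‖pk lam t ξ (n : K)‖ else 0) ∧
      (∑' n : R K, open Classical in
        if n ∈ cls j c then Nr n ^ (1 : ℝ) * ‖pk lam t ξ (n : K)‖ else 0) ≤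
        C * min (sz c t ^ (1 + 1 : ℝ)) (sz c t ^ (4 : ℝ))) (J : Ideal (R K)) :
    Summable (fun n => ‖zconvF p φ a ψ j c lam t ξ J n‖) ∧
      ∑' n, ‖zconvF p φ a ψ j c lam t ξ J n‖ ≤
        |C0| * |Ca| * C * sz c t ^ 4 * (nmI J : ℝ) ^ (-2 : ℝ) := by
  classical
  have hX := sz_pos hc t
  by_cases hJ : J = ⊥
  · subst hJ
    simp only [zconv_bot hp φ a ψ hj hc, norm_zero, tsum_zero]
    exact ⟨summable_zero, by positivity⟩
  have hd : gen J ^ p ≠ 0 := pow_ne_zero p (gen_ne_zero hJ)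
  set d := gen J ^ p with hdd
  have hd' : (d : K) ≠ 0 := by exact_mod_cast hd
  obtain ⟨h1, h2⟩ := hC (c / d) (div_ne_zero hc hd') (t - lg (d : K)) ξ
  have hsupp : ∀ n ∉ Set.range (fun x : R K => d * x), ‖zconvF p φ a ψ j c lam t ξ J n‖ = 0 := by
    intro n hn
    have : ¬ d ∣ n := fun ⟨m, hm⟩ => hn ⟨m, hm.symm⟩
    simp [zconvF, ← hdd, this]
  have hle : ∀ n : R K, ‖zconvF p φ a ψ j c lam t ξ J (d * n)‖ ≤ ‖φ J‖ * |Ca| *
      (if n ∈ cls j (c / d) then Nr n ^ (1 : ℝ) * ‖pk lam (t - lg (d : K)) ξ (n : K)‖ else 0) := by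
    intro n
    unfold zconvF
    by_cases hn : n ∈ cls j (c / d)
    · have h0 : n ≠ 0 := ne_zero_of_mem_cls hj (div_ne_zero hc hd') hn
      have h0' : (n : K) ≠ 0 := by exact_mod_cast h0
      rw [if_pos ((mul_mem_cls_iff hd).2 hn), if_pos hn, ← hdd, if_pos (dvd_mul_right d n),
        rdiv_mul hd, Subring.coe_mul, pk_mul lam t ξ hd' h0', norm_mul, norm_mul, norm_mul,
        norm_mul, Complex.norm_exp_I_mul_ofReal, one_mul, Real.rpow_one]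
      have e1 : ‖a n‖ * ‖ψ (d * n)‖ ≤ |Ca| * Nr n := by
        calc _ ≤ ‖a n‖ * 1 := mul_le_mul_of_nonneg_left (hψ1 _) (norm_nonneg _)
          _ ≤ Ca * Nr n := by rw [mul_one]; exact ha n h0
          _ ≤ _ := mul_le_mul_of_nonneg_right (le_abs_self _) (Nr_nonneg n)
      calc _ ≤ ‖φ J‖ * (|Ca| * Nr n) * ‖pk lam (t - lg (d : K)) ξ (n : K)‖ :=
            mul_le_mul_of_nonneg_right (mul_le_mul_of_nonneg_left e1 (norm_nonneg _))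
              (norm_nonneg _)
        _ = _ := by ring
    · rw [if_neg hn, if_neg fun h => hn ((mul_mem_cls_iff hd).1 h), norm_zero, mul_zero]
  have h3 : Summable (fun n : R K => ‖zconvF p φ a ψ j c lam t ξ J (d * n)‖) :=
    Summable.of_nonneg_of_le (fun _ => norm_nonneg _) hle (h1.mul_left _)
  refine ⟨((mul_right_injective₀ hd).summable_iff hsupp).1 h3, ?_⟩
  rw [← (mul_right_injective₀ hd).tsum_eq (f := fun n => ‖zconvF p φ a ψ j c lam t ξ J n‖)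
    (fun n hn => by by_contra hcon; exact hn (hsupp n hcon))]
  refine (h3.tsum_le_tsum hle (h1.mul_left _)).trans ?_
  rw [tsum_mul_left]
  have hN : 1 ≤ NI J := one_le_NI hJ
  have hN0 : 0 < NI J := by linarith
  have h4 : sz (c / d) (t - lg (d : K)) ^ (4 : ℝ) ≤ (sz c t / NI J) ^ 4 := by
    rw [hdd, zconv_sz p c hc t J hJ, show (4 : ℝ) = ((4 : ℕ) : ℝ) by norm_num, Real.rpow_natCast]
    exact pow_le_pow_left₀ (by positivity)
      (div_le_div_of_nonneg_left hX.le hN0 (le_self_pow₀ hN (by omega))) 4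
  have h5 := h2.trans (mul_le_mul_of_nonneg_left ((min_le_right _ _).trans h4) hC0)
  have h6 : ‖φ J‖ ≤ |C0| * NI J ^ 2 :=
    (hφ J hJ).trans (mul_le_mul_of_nonneg_right (le_abs_self _) (by positivity))
  have h7 : (nmI J : ℝ) ^ (-2 : ℝ) = 1 / NI J ^ 2 := by
    rw [Real.rpow_neg (Nat.cast_nonneg _), show (2 : ℝ) = ((2 : ℕ) : ℝ) by norm_num,
      Real.rpow_natCast, one_div]; rfl
  rw [h7]
  calc _ ≤ ‖φ J‖ * |Ca| * (C * (sz c t / NI J) ^ 4) :=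
        mul_le_mul_of_nonneg_left h5 (by positivity)
    _ ≤ |C0| * NI J ^ 2 * |Ca| * (C * (sz c t / NI J) ^ 4) :=
        mul_le_mul_of_nonneg_right (mul_le_mul_of_nonneg_right h6 (abs_nonneg _)) (by positivity)
    _ = _ := by field_simp

theorem zconv_eq {p : ℕ} (hp : 1 ≤ p) {j : ℕ} (hj : 1 ≤ j) {c : K} (hc : c ≠ 0) {lam : ℝ}
    (hlam : 0 < lam) (t ξ : Pl K → ℝ) (a ψ : R K → ℂ) (ha : Mod a) (hψ1 : ∀ n, ‖ψ n‖ ≤ 1)
    (φ : Ideal (R K) → ℂ) (hφ : ∃ C0 : ℝ, ∀ J, J ≠ ⊥ → ‖φ J‖ ≤ C0 * NI J ^ 2) :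
    Sm (fun n => cnv p φ a n * ψ n) j c lam t ξ = ∑' J, ∑' n, zconvF p φ a ψ j c lam t ξ J n := by
  classical
  obtain ⟨Ca, ha⟩ := ha
  obtain ⟨C0, hφ⟩ := hφ
  obtain ⟨C, hC0, hC⟩ := triv_pk (K := K) lam hlam 1 4 zero_le_one (by norm_num)
  have hrow := zconv_row hp φ a ψ hj hc t ξ hC0 ha hψ1 hφ (hC j hj)
  have hs : Summable (Function.uncurry (zconvF p φ a ψ j c lam t ξ)) := by
    refine Summable.of_norm ((summable_prod_of_nonneg (fun _ => norm_nonneg _)).2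
      ⟨fun J => (hrow J).1, ?_⟩)
    exact Summable.of_nonneg_of_le (fun J => tsum_nonneg fun _ => norm_nonneg _)
      (fun J => (hrow J).2) ((summable_nmI (by norm_num : (1 : ℝ) < 2)).mul_left _)
  rw [← hs.tsum_comm]
  unfold Sm
  refine tsum_congr fun n => ?_
  by_cases hn : n ∈ cls j c
  · have h0 := ne_zero_of_mem_cls hj hc hn
    have hsp : Ideal.span {n} ≠ ⊥ := by rw [Ne, Ideal.span_singleton_eq_bot]; exact h0
    rw [if_pos hn, tsum_eq_sum (s := divs (Ideal.span {n}))]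
    · beta_reduce
      rw [cv_eq_sum hp φ a h0, Finset.sum_mul, Finset.sum_mul]
      refine Finset.sum_congr rfl fun J _ => ?_
      unfold zconvF
      rw [if_pos hn]
      split_ifs <;> ring
    · intro J hJ
      unfold zconvF
      rw [if_pos hn, if_neg, zero_mul]
      intro h
      exact hJ ((mem_divs hsp).2 (gen_dvd_iff.1 ((dvd_pow_self _ (by omega)).trans h)))
  · simp [zconvF, hn]

theorem zconv_norm (p : ℕ) {j : ℕ} (hj : 1 ≤ j) {c : K} (hc : c ≠ 0) (lam : ℝ)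
    (t ξ : Pl K → ℝ) (a ψ : R K → ℂ) (hψ1 : ∀ n, ‖ψ n‖ ≤ 1)
    (hψ : ∀ x y : R K, x ≠ 0 → y ≠ 0 → ψ (x * y) = ψ x * ψ y) (φ : Ideal (R K) → ℂ)
    {J : Ideal (R K)} (hJ : J ≠ ⊥) :
    ‖∑' n, zconvF p φ a ψ j c lam t ξ J n‖ ≤ ‖φ J‖ *
      ‖Sm (fun n => a n * ψ n) j (c / ((gen J ^ p : R K) : K)) lam
        (t - lg ((gen J ^ p : R K) : K)) ξ‖ := by
  classical
  have hd : gen J ^ p ≠ 0 := pow_ne_zero p (gen_ne_zero hJ)
  have hd' : ((gen J ^ p : R K) : K) ≠ 0 := by exact_mod_cast hd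
  have h1 := Sm_dvd (fun n => φ J * (a (rdiv n (gen J ^ p)) * ψ n)) hj hc hd lam t ξ
  have h2 : Sm (fun n => φ J * (a (rdiv (gen J ^ p * n) (gen J ^ p)) * ψ (gen J ^ p * n))) j
      (c / ((gen J ^ p : R K) : K)) lam (t - lg ((gen J ^ p : R K) : K)) ξ =
      (φ J * ψ (gen J ^ p)) * Sm (fun n => a n * ψ n) j (c / ((gen J ^ p : R K) : K)) lam
        (t - lg ((gen J ^ p : R K) : K)) ξ := by
    refine Sm_congr_mul (fun n hn => ?_) _ _ _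
    rw [rdiv_mul hd, hψ _ _ hd (ne_zero_of_mem_cls hj (div_ne_zero hc hd') hn)]
    ring
  have h3 : ∑' n, zconvF p φ a ψ j c lam t ξ J n =
      Sm (fun n => if gen J ^ p ∣ n then φ J * (a (rdiv n (gen J ^ p)) * ψ n) else 0)
        j c lam t ξ := rfl
  rw [h3, h1, h2, norm_mul, Complex.norm_exp_I_mul_ofReal, one_mul, norm_mul, norm_mul]
  exact mul_le_mul_of_nonneg_right (mul_le_of_le_one_right (norm_nonneg _) (hψ1 _))
    (norm_nonneg _)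

/-- Mean square of smooth sums of a convolution. -/
theorem conv2 (p : ℕ) (hp : 1 ≤ p) (j : ℕ) (hj : 1 ≤ j) (c : K) (hc : c ≠ 0) (lam : ℝ)
    (hlam : 0 < lam) (t ξ : Pl K → ℝ) {ι : Type} (s : Finset ι) (a ψ : ι → R K → ℂ)
    (ha : ∀ i ∈ s, Mod (a i)) (hψ1 : ∀ i ∈ s, ∀ n, ‖ψ i n‖ ≤ 1)
    (hψ : ∀ i ∈ s, ∀ x y : R K, x ≠ 0 → y ≠ 0 → ψ i (x * y) = ψ i x * ψ i y)
    (φ : Ideal (R K) → ℂ) (hφ : ∃ C0 : ℝ, ∀ J, J ≠ ⊥ → ‖φ J‖ ≤ C0 * NI J ^ 2)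
    (w : Ideal (R K) → ℝ) (hw0 : ∀ J, 0 ≤ w J) (hw : Summable (fun J => ‖φ J‖ * w J))
    (Φ : ℝ) (hΦ : 0 ≤ Φ)
    (h : ∀ J, J ≠ ⊥ → φ J ≠ 0 →
      ∑ i ∈ s, ‖Sm (fun n => a i n * ψ i n) j (c / ((gen J ^ p : R K) : K)) lam
        (t - lg ((gen J ^ p : R K) : K)) ξ‖ ^ 2 ≤ Φ * w J ^ 2) :
    ∑ i ∈ s, ‖Sm (fun n => cnv p φ (a i) n * ψ i n) j c lam t ξ‖ ^ 2 ≤
      Φ * (∑' J, ‖φ J‖ * w J) ^ 2 := by
  rw [Finset.sum_congr rfl fun i hi => by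
    rw [zconv_eq hp hj hc hlam t ξ (a i) (ψ i) (ha i hi) (hψ1 i hi) φ hφ]]
  refine mink s (fun i J => ∑' n, zconvF p φ (a i) (ψ i) j c lam t ξ J n) _ Φ hΦ
    (fun J => mul_nonneg (norm_nonneg _) (hw0 J)) hw fun J => ?_
  by_cases hJ : J = ⊥
  · subst hJ
    simp only [zconv_bot hp φ _ _ hj hc, tsum_zero, norm_zero]
    rw [Finset.sum_eq_zero fun _ _ => by norm_num]
    positivity
  calc _ ≤ ∑ i ∈ s, (‖φ J‖ * ‖Sm (fun n => a i n * ψ i n) j (c / ((gen J ^ p : R K) : K)) lam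
        (t - lg ((gen J ^ p : R K) : K)) ξ‖) ^ 2 :=
        Finset.sum_le_sum fun i hi => pow_le_pow_left₀ (norm_nonneg _)
          (zconv_norm p hj hc lam t ξ (a i) (ψ i) (hψ1 i hi) (hψ i hi) φ hJ) 2
    _ = ‖φ J‖ ^ 2 * ∑ i ∈ s, ‖Sm (fun n => a i n * ψ i n) j (c / ((gen J ^ p : R K) : K)) lam
        (t - lg ((gen J ^ p : R K) : K)) ξ‖ ^ 2 := by
        rw [Finset.mul_sum]; exact Finset.sum_congr rfl fun _ _ => mul_pow _ _ _
    _ ≤ _ := by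
        by_cases hz : φ J = 0
        · simp [hz]
        · calc _ ≤ ‖φ J‖ ^ 2 * (Φ * w J ^ 2) :=
                mul_le_mul_of_nonneg_left (h J hJ hz) (by positivity)
            _ = _ := by ring

/-- One smooth sum of a convolution. -/
theorem conv1 (p : ℕ) (hp : 1 ≤ p) (j : ℕ) (hj : 1 ≤ j) (c : K) (hc : c ≠ 0) (lam : ℝ)
    (hlam : 0 < lam) (t ξ : Pl K → ℝ) (a ψ : R K → ℂ) (ha : Mod a) (hψ1 : ∀ n, ‖ψ n‖ ≤ 1)
    (hψ : ∀ x y : R K, x ≠ 0 → y ≠ 0 → ψ (x * y) = ψ x * ψ y)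
    (φ : Ideal (R K) → ℂ) (hφ : ∃ C0 : ℝ, ∀ J, J ≠ ⊥ → ‖φ J‖ ≤ C0 * NI J ^ 2)
    (w : Ideal (R K) → ℝ) (hw0 : ∀ J, 0 ≤ w J) (hw : Summable (fun J => ‖φ J‖ * w J))
    (h : ∀ J, J ≠ ⊥ → φ J ≠ 0 →
      ‖Sm (fun n => a n * ψ n) j (c / ((gen J ^ p : R K) : K)) lam
        (t - lg ((gen J ^ p : R K) : K)) ξ‖ ≤ w J) :
    ‖Sm (fun n => cnv p φ a n * ψ n) j c lam t ξ‖ ≤ ∑' J, ‖φ J‖ * w J := by
  rw [zconv_eq hp hj hc hlam t ξ a ψ ha hψ1 φ hφ]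
  refine tsum_of_norm_bounded hw.hasSum fun J => ?_
  by_cases hJ : J = ⊥
  · subst hJ
    simp only [zconv_bot hp φ _ _ hj hc, tsum_zero, norm_zero]
    exact mul_nonneg (norm_nonneg _) (hw0 _)
  refine (zconv_norm p hj hc lam t ξ a ψ hψ1 hψ φ hJ).trans ?_
  by_cases hz : φ J = 0
  · simp [hz]
  · exact mul_le_mul_of_nonneg_left (h J hJ hz) (norm_nonneg _)

theorem sz_div_gen_pow (p : ℕ) (c : K) (hc : c ≠ 0) (t : Pl K → ℝ) (J : Ideal (R K)) (hJ : J ≠ ⊥) :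
    sz (c / ((gen J ^ p : R K) : K)) (t - lg ((gen J ^ p : R K) : K)) = sz c t / NI J ^ p :=
  zconv_sz p c hc t J hJ

end Crest.Agent.GQ
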