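import Crest.Agent.GQ.ZConv

/-!
# Project GQ, part B3: removal of coprimality conditions
-/

set_option autoImplicit false

noncomputable section

open NumberField Complex UniqueFactorizationMonoid MeasureTheory
open scoped ComplexConjugate ENNReal

namespace Crest.Agent.GQ

variable {K : Type} [Field K] [NumberField K] [P : Pre K] [Q : Rec K]

omit Q in
theorem zcop_norm (J : Ideal (R K)) (n : R K) : ‖mu n * chiI J n‖ ≤ 1 := by
  rw [norm_mul]
  exact mul_le_one₀ (norm_mu_le n) (norm_nonneg _) (norm_chiI_le J n)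

theorem acond_two : Acond K 2 := by
  intro j hj lam hlam
  obtain ⟨C, hC0, hC⟩ := sum_sq_Sm_le (K := K) hlam
  obtain ⟨C1, hC10, hC1⟩ := b3b_card_rows (K := K)
  refine ⟨C * C1, 0, mul_nonneg hC0 hC10, le_rfl, fun c hc t ξ H hH _ => ?_⟩
  have h1 := hC _ (rows K H) (fun J n => mu n * chiI J n) (fun J _ n => zcop_norm J n) j
    (Rec.hk.trans hj) c hc t ξ
  have h2 := hC1 H (by linarith)
  rw [Real.rpow_zero, Real.rpow_two]
  refine h1.trans ?_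
  have h3 : 0 ≤ sz c t ^ 2 := sq_nonneg _
  calc C * ((rows K H).card : ℝ) * sz c t ^ 2 ≤ C * (C1 * H) * sz c t ^ 2 := by gcongr
    _ = _ := by ring

theorem acond_mono {θ θ' : ℝ} (h : θ ≤ θ') (hA : Acond K θ) : Acond K θ' := by
  intro j hj lam hlam
  obtain ⟨C, A, hC0, hA0, hC⟩ := hA j hj lam hlam
  obtain ⟨C2, hC20, hC2⟩ := norm_Sm_le (K := K) hlam (B := max 1 θ') (le_max_left _ _)
  obtain ⟨C1, hC10, hC1⟩ := b3b_card_rows (K := K)
  refine ⟨C + C1 * C2 ^ 2, A, by positivity, hA0, fun c hc t ξ H hH hsz => ?_⟩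
  have hz := sz_pos hc t
  have hξ : 1 ≤ (1 + ‖ξ‖) ^ A := Real.one_le_rpow (by linarith [norm_nonneg ξ]) hA0
  have hH0 : 0 ≤ H := by linarith
  have hzθ : 0 ≤ sz c t ^ θ' := Real.rpow_nonneg hz.le _
  rcases le_total 1 (sz c t) with h1 | h1
  · refine (hC c hc t ξ H hH hsz).trans ?_
    have h2 : sz c t ^ θ ≤ sz c t ^ θ' := Real.rpow_le_rpow_of_exponent_le h1 h
    have h3 : C ≤ C + C1 * C2 ^ 2 := le_add_of_nonneg_right (by positivity)
    have h4 : 0 ≤ sz c t ^ θ := Real.rpow_nonneg hz.le _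
    gcongr
  · have h2 : ∀ J ∈ rows K H, ‖Sm (fun n => mu n * chiI J n) j c lam t ξ‖ ^ 2 ≤
        C2 ^ 2 * sz c t ^ θ' := by
      intro J _
      have h3 := hC2 (fun n => mu n * chiI J n) (fun n => zcop_norm J n) j (Rec.hk.trans hj) c hc t ξ
      have h4 : min (sz c t) (sz c t ^ max 1 θ') ≤ sz c t ^ max 1 θ' := min_le_right _ _
      have h5 : ‖Sm (fun n => mu n * chiI J n) j c lam t ξ‖ ≤ C2 * sz c t ^ max 1 θ' :=
        h3.trans (mul_le_mul_of_nonneg_left h4 hC20.le)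
      have h6 : sz c t ^ max 1 θ' ≤ sz c t ^ θ' :=
        Real.rpow_le_rpow_of_exponent_ge hz h1 (le_max_right _ _)
      have h7 : sz c t ^ max 1 θ' ≤ 1 :=
        Real.rpow_le_one hz.le h1 (zero_le_one.trans (le_max_left _ _))
      have h8 : 0 ≤ sz c t ^ max 1 θ' := Real.rpow_nonneg hz.le _
      calc ‖Sm (fun n => mu n * chiI J n) j c lam t ξ‖ ^ 2 ≤ (C2 * sz c t ^ max 1 θ') ^ 2 := by
            gcongr
        _ = C2 ^ 2 * (sz c t ^ max 1 θ' * sz c t ^ max 1 θ') := by ring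
        _ ≤ C2 ^ 2 * (1 * sz c t ^ θ') := by gcongr
        _ = _ := by ring
    refine (Finset.sum_le_card_nsmul _ _ _ h2).trans ?_
    rw [nsmul_eq_mul]
    have h3 := hC1 H hH0
    calc ((rows K H).card : ℝ) * (C2 ^ 2 * sz c t ^ θ') ≤ C1 * H * (C2 ^ 2 * sz c t ^ θ') := by
          gcongr
      _ = (C1 * C2 ^ 2) * 1 * H * sz c t ^ θ' := by ring
      _ ≤ (C + C1 * C2 ^ 2) * (1 + ‖ξ‖) ^ A * H * sz c t ^ θ' := by
          have h4 : C1 * C2 ^ 2 ≤ C + C1 * C2 ^ 2 := le_add_of_nonneg_left hC0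
          gcongr

theorem COP {θ : ℝ} (hθ1 : 1 ≤ θ) (hθ2 : θ ≤ 2) (hA : Acond K θ) (j : ℕ) (hj : Rec.k K ≤ j)
    (lam : ℝ) (hlam : 0 < lam) (ε : ℝ) (hε : 0 < ε) :
    ∃ C A : ℝ, 0 ≤ C ∧ 0 ≤ A ∧ ∀ w : Ideal (R K), w ≠ ⊥ → ∀ c : K, c ≠ 0 →
      ∀ (t ξ : Pl K → ℝ) (H : ℝ), 1 ≤ H → sz c t ^ (43 / 36 : ℝ) ≤ H →
        ∑ J ∈ rows K H, ‖Sm (fun n => mu n * (chiI J n * chiI w n ^ 6)) j c lam t ξ‖ ^ 2 ≤
          C * (1 + ‖ξ‖) ^ A * NI w ^ ε * H * sz c t ^ θ := by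
  classical
  have _ := hθ2
  obtain ⟨C, A, hC0, hA0, hC⟩ := hA j hj lam hlam
  obtain ⟨C1, hC1⟩ := smooth_sum_le (K := K) (ε := ε / 2) (σ := 1 / 2) (by positivity) (by norm_num)
  refine ⟨C * C1 ^ 2, A, by positivity, hA0, fun w hw c hc t ξ H hH hsz => ?_⟩
  have hj1 : 1 ≤ j := Rec.hk.trans hj
  have hz := sz_pos hc t
  have hξ : 0 ≤ (1 + ‖ξ‖) ^ A := Real.rpow_nonneg (by linarith [norm_nonneg ξ]) _
  have hH0 : 0 ≤ H := by linarith
  have hzθ : 0 ≤ sz c t ^ θ := Real.rpow_nonneg hz.le _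
  obtain ⟨hsum, hle⟩ := hC1 w hw
  obtain ⟨φ, hφ⟩ : ∃ φ : Ideal (R K) → ℂ, φ = fun g => if g ≠ ⊥ ∧ radI g ∣ w then 1 else 0 :=
    ⟨_, rfl⟩
  have hfun : (fun J : Ideal (R K) => ‖φ J‖ * NI J ^ (-(1 / 2) : ℝ)) =
      fun I : Ideal (R K) => if I ≠ ⊥ ∧ radI I ∣ w then (nmI I : ℝ) ^ (-(1 / 2) : ℝ) else 0 := by
    funext J
    rw [hφ]
    dsimp only
    split_ifs <;> simp [NI]
  have hcongr : ∀ J, Sm (fun n => mu n * (chiI J n * chiI w n ^ 6)) j c lam t ξ =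
      Sm (fun n => cnv 1 φ mu n * chiI J n) j c lam t ξ := by
    intro J
    refine Sm_congr (fun n hn => ?_) lam t ξ
    have hn0 := ne_zero_of_mem_cls hj1 hc hn
    have h1 := mu_cop hw hn0
    have h2 : cnv 1 φ mu n = mu n * chiI w n ^ 6 := by
      rw [h1, hφ]
    rw [h2]; ring
  simp only [hcongr]
  have hmain := conv2 1 le_rfl j hj1 c hc lam hlam t ξ (rows K H) (fun _ => mu)
    (fun J n => chiI J n) (fun _ _ => mod_of_le_one norm_mu_le) (fun J _ n => norm_chiI_le J n)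
    (fun J _ x y _ _ => chiI_mul_right J x y) φ
    ⟨1, fun J hJ => by
      have h1 := one_le_NI hJ
      have h2 : ‖φ J‖ ≤ 1 := by
        rw [hφ]; dsimp only; split_ifs <;> simp
      nlinarith⟩
    (fun J => NI J ^ (-(1 / 2) : ℝ)) (fun J => Real.rpow_nonneg (NI_nonneg J) _)
    (by rw [hfun]; exact hsum)
    (C * (1 + ‖ξ‖) ^ A * H * sz c t ^ θ) (by positivity)
    (fun J hJ _ => by
      have hN := one_le_NI hJ
      have hN0 := NI_pos hJ
      have hg : ((gen J ^ 1 : R K) : K) ≠ 0 := by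
        have := gen_ne_zero hJ
        simpa using this
      have hs := sz_div_gen_pow 1 c hc t J hJ
      rw [pow_one (NI J)] at hs
      have h1 := hC (c / ((gen J ^ 1 : R K) : K)) (div_ne_zero hc hg)
        (t - lg ((gen J ^ 1 : R K) : K)) ξ H hH (by
          rw [hs]
          refine le_trans ?_ hsz
          exact Real.rpow_le_rpow (by positivity) (div_le_self hz.le hN) (by norm_num))
      refine h1.trans ?_
      rw [hs, Real.div_rpow hz.le hN0.le]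
      have h2 : (NI J ^ (-(1 / 2) : ℝ)) ^ 2 = (NI J)⁻¹ := by
        rw [← Real.rpow_natCast, ← Real.rpow_mul hN0.le, ← Real.rpow_neg_one]
        norm_num
      have h3 : NI J ≤ NI J ^ θ := by
        conv_lhs => rw [← Real.rpow_one (NI J)]
        exact Real.rpow_le_rpow_of_exponent_le hN hθ1
      rw [h2, mul_assoc (C * (1 + ‖ξ‖) ^ A * H), ← div_eq_mul_inv]
      gcongr)
  refine hmain.trans ?_
  rw [hfun]
  have h0 : 0 ≤ ∑' I : Ideal (R K),
      (if I ≠ ⊥ ∧ radI I ∣ w then (nmI I : ℝ) ^ (-(1 / 2) : ℝ) else 0) :=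
    tsum_nonneg fun I => by
      split_ifs
      · exact Real.rpow_nonneg (Nat.cast_nonneg _) _
      · exact le_rfl
  have h1 : (C1 * (nmI w : ℝ) ^ (ε / 2)) ^ 2 = C1 ^ 2 * NI w ^ ε := by
    rw [mul_pow, ← Real.rpow_natCast ((nmI w : ℝ) ^ (ε / 2)), ← Real.rpow_mul (Nat.cast_nonneg _)]
    congr 2
    push_cast; ring
  calc C * (1 + ‖ξ‖) ^ A * H * sz c t ^ θ * (∑' I : Ideal (R K),
      (if I ≠ ⊥ ∧ radI I ∣ w then (nmI I : ℝ) ^ (-(1 / 2) : ℝ) else 0)) ^ 2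
      ≤ C * (1 + ‖ξ‖) ^ A * H * sz c t ^ θ * (C1 * (nmI w : ℝ) ^ (ε / 2)) ^ 2 := by gcongr
    _ = _ := by rw [h1]; ring

end Crest.Agent.GQ
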