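import Crest.Agent.GQ.ZDW0

/-!
# Project GQ, part B3: mean square with the dual weight
-/

set_option autoImplicit false

noncomputable section

open NumberField Complex UniqueFactorizationMonoid MeasureTheory
open scoped ComplexConjugate ENNReal

namespace Crest.Agent.GQ

/-- The abscissa of the line of integration. -/
def dwSig (B u : ℝ) : ℝ := if u ≤ 0 then -(3 / 2) else B

/-- The majorant of the kernel. -/
def dwW (lam B : ℝ) (p : ℝ × ℝ) : ℝ :=
  Real.exp (-(1 + dwSig B p.1) * p.1) * Real.exp (-(1 / (8 * lam)) * p.2 ^ 2)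

/-- The growth factor. -/
def dwP (p : ℝ × ℝ) : ℝ := (1 + |p.2|) * Real.exp (max p.1 0 + 1)

/-- The integrand of `WdS`. -/
def dwH (lam t ξ σ x τ : ℝ) : ℂ := khat (σ + τ * I) / khat (-(σ + τ * I)) *
  phat lam t ξ (1 - (σ + τ * I)) * (x : ℂ) ^ (-(σ + τ * I))

/-- The kernel in one variable. -/
def dwK (lam t ξ η T σ : ℝ) (p : ℝ × ℝ) : ℂ :=
  ((Real.sqrt Real.pi)⁻¹ * (2 * Real.pi)⁻¹ *
    Real.exp (-(1 + σ) * (T + p.1) + (1 + σ) ^ 2 / 4) : ℝ) *
    dwH lam t ξ σ (Real.exp (-(2 * η))) (ξ + p.2)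

theorem dw_sig_ge {B : ℝ} (hB : 0 ≤ B) (u : ℝ) : -(3 / 2) ≤ dwSig B u := by
  unfold dwSig; split_ifs <;> linarith

theorem dw_sig_le {B : ℝ} (hB : 0 ≤ B) (u : ℝ) : dwSig B u ≤ B := by
  unfold dwSig; split_ifs <;> linarith

@[fun_prop] theorem dw_meas_sig (B : ℝ) : Measurable (dwSig B) :=
  Measurable.ite measurableSet_Iic measurable_const measurable_const

theorem dw_W_pos (lam B : ℝ) (p : ℝ × ℝ) : 0 < dwW lam B p := by unfold dwW; positivity

theorem dw_P_pos (p : ℝ × ℝ) : 0 < dwP p := by unfold dwP; positivity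

theorem dw_int {lam B a : ℝ} (hlam : 0 < lam) (ha : 0 ≤ a) (hB : a ≤ B) :
    Integrable fun p => dwW lam B p * dwP p ^ a := by
  have h1 : Integrable fun u : ℝ => Real.exp (-|u| / 2) := by
    rw [← integrableOn_univ, ← Set.Iic_union_Ioi (a := (0 : ℝ))]
    refine ((integrableOn_exp_mul_Iic (a := 1 / 2) (by norm_num) 0).congr_fun (fun u hu => ?_)
      measurableSet_Iic).union ((integrableOn_exp_mul_Ioi (a := -1 / 2) (by norm_num) 0).congr_fun
      (fun u hu => ?_) measurableSet_Ioi)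
    · simp only [abs_of_nonpos (show u ≤ 0 from hu)]; ring_nf
    · simp only [abs_of_pos (show 0 < u from hu)]; ring_nf
  refine ((h1.mul_prod (integrable_exp_neg_mul_sq (b := 1 / (16 * lam))
    (by positivity))).const_mul (Real.exp (a + 4 * lam * a ^ 2))).mono'
    (Measurable.aestronglyMeasurable (by unfold dwW dwP; fun_prop)) (.of_forall fun p => ?_)
  rw [Real.norm_of_nonneg (mul_nonneg (dw_W_pos _ _ _).le (Real.rpow_nonneg (dw_P_pos _).le _))]
  have h2 : dwP p ^ a ≤ Real.exp ((|p.2| + (max p.1 0 + 1)) * a) := by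
    rw [Real.exp_mul, Real.exp_add]
    refine Real.rpow_le_rpow (dw_P_pos _).le (mul_le_mul_of_nonneg_right ?_ (Real.exp_pos _).le) ha
    linarith [Real.add_one_le_exp |p.2|]
  refine (mul_le_mul_of_nonneg_left h2 (dw_W_pos _ _ _).le).trans ?_
  simp only [dwW, ← Real.exp_add, Real.exp_le_exp]
  have h3 : -(1 + dwSig B p.1) * p.1 + max p.1 0 * a ≤ -|p.1| / 2 := by
    unfold dwSig
    split_ifs with h
    · rw [max_eq_right h, abs_of_nonpos h]; linarith
    · rw [not_le] at h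
      rw [max_eq_left h.le, abs_of_pos h]; nlinarith
  have h4 : |p.2| * a ≤ 4 * lam * a ^ 2 + 1 / (16 * lam) * p.2 ^ 2 := by
    rw [← sq_abs p.2, ← sub_nonneg, show 4 * lam * a ^ 2 + 1 / (16 * lam) * |p.2| ^ 2 - |p.2| * a =
      (8 * lam * a - |p.2|) ^ 2 / (16 * lam) by field_simp; ring]
    positivity
  have h5 : 1 / (8 * lam) = 2 * (1 / (16 * lam)) := by field_simp; norm_num
  rw [h5]
  linarith

theorem dw_cpow (a : ℝ) (z : ℂ) : ((Real.exp a : ℝ) : ℂ) ^ z = Complex.exp (a * z) := by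
  rw [cpow_def_of_ne_zero (ofReal_ne_zero.2 (Real.exp_pos a).ne'),
    ← ofReal_log (Real.exp_pos a).le, Real.log_exp]

theorem dw_cont {σ : ℝ} (hσ : -(5 / 3) < σ) (lam t ξ η T : ℝ) :
    Continuous (dwK lam t ξ η T σ) := by
  have h1 : Continuous fun τ : ℝ => khat (σ + τ * I) :=
    differentiableOn_khat.continuousOn.comp_continuous (by fun_prop) fun τ => by simpa using hσ
  have h2 := differentiable_inv_khat.continuous
  have h3 := (differentiable_phat lam t ξ).continuous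
  have h4 : Continuous (dwH lam t ξ σ (Real.exp (-(2 * η)))) := by
    unfold dwH
    simp only [dw_cpow, div_eq_mul_inv]
    exact ((h1.mul (h2.comp (by fun_prop))).mul (h3.comp (by fun_prop))).mul (by fun_prop)
  unfold dwK
  fun_prop

theorem dw_meas {B : ℝ} (hB : 0 ≤ B) (lam t ξ η T : ℝ) :
    Measurable fun p : ℝ × ℝ => dwK lam t ξ η T (dwSig B p.1) p := by
  simp only [dwSig, apply_ite (dwK lam t ξ η T), ite_apply]
  exact Measurable.ite (measurableSet_le measurable_fst measurable_const)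
    (dw_cont (by norm_num) _ _ _ _ _).measurable (dw_cont (by linarith) _ _ _ _ _).measurable

theorem dw_bound {lam B : ℝ} (hlam : 0 < lam) (hB : 0 ≤ B) (C0 : ℝ) :
    ∃ (C : ℝ) (n : ℕ), 0 ≤ C ∧ ∀ (t ξ η η0 : ℝ) (p : ℝ × ℝ), |η - η0| ≤ C0 →
      ‖dwK lam t ξ η (2 * η0 - t) (dwSig B p.1) p‖ ≤
        C * (1 + |ξ|) ^ n * Real.exp (2 * (t - η0)) * dwW lam B p := by
  obtain ⟨C, n, hC, h⟩ := gm_bound (σ₀ := -(3 / 2)) (by norm_num) B hlam
  refine ⟨(Real.sqrt Real.pi)⁻¹ * (2 * Real.pi)⁻¹ * C *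
    Real.exp ((1 + B) ^ 2 / 4 + 2 * ((2 + B) * C0)), n, by positivity, fun t ξ η η0 p hη => ?_⟩
  have s1 := dw_sig_ge hB p.1
  have s2 := dw_sig_le hB p.1
  have h1 := h _ t ξ _ (ξ + p.2) s1 s2 (Real.exp_pos (-(2 * η)))
  rw [dwK, norm_mul, Complex.norm_real, Real.norm_of_nonneg (by positivity), dwW]
  refine (mul_le_mul_of_nonneg_left h1 (by positivity)).trans ?_
  generalize dwSig B p.1 = σ at *
  have h2 : (1 + σ) ^ 2 ≤ (1 + B) ^ 2 := sq_le_sq' (by linarith) (by linarith)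
  have h3 : σ * (η - η0) ≤ (2 + B) * C0 := by
    refine (le_abs_self _).trans ?_
    rw [abs_mul]
    exact mul_le_mul (abs_le.2 ⟨by linarith, by linarith⟩) hη (abs_nonneg _) (by linarith)
  have h4 : Real.exp (-(1 + σ) * (2 * η0 - t + p.1) + (1 + σ) ^ 2 / 4) * Real.exp ((1 - σ) * t) *
      Real.exp (-(2 * η) * -σ) ≤ Real.exp ((1 + B) ^ 2 / 4 + 2 * ((2 + B) * C0)) *
        Real.exp (2 * (t - η0)) * Real.exp (-(1 + σ) * p.1) := by
    simp only [← Real.exp_add, Real.exp_le_exp]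
    linarith
  rw [← Real.exp_mul, add_sub_cancel_left]
  refine le_trans (le_of_eq (by ring)) ((mul_le_mul_of_nonneg_left h4
    (show 0 ≤ (Real.sqrt Real.pi)⁻¹ * (2 * Real.pi)⁻¹ * C * (1 + |ξ|) ^ n *
      Real.exp (-(1 / (8 * lam)) * p.2 ^ 2) by positivity)).trans_eq (by ring))

/-- The dual weight in one variable as a superposition of packets. -/
theorem dw_rep {lam B : ℝ} (hlam : 0 < lam) (hB : 0 ≤ B) (t ξ η η0 y : ℝ) :
    let f := fun p : ℝ × ℝ => dwK lam t ξ η (2 * η0 - t) (dwSig B p.1) p *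
      Complex.exp (-(1 * (y - (2 * η0 - t + p.1 - (1 + dwSig B p.1) / 2)) ^ 2 : ℝ) +
        I * (-(ξ + p.2) * y : ℝ))
    Integrable f ∧ ∫ p, f p =
      ((Real.exp y : ℝ) : ℂ)⁻¹ * WdS 0 lam t ξ (Real.exp y / Real.exp η ^ 2) := by
  intro f
  have hf : Integrable f := by
    obtain ⟨C, n, hC, h⟩ := dw_bound hlam hB |η - η0|
    refine ((dw_int hlam le_rfl hB).const_mul
      (C * (1 + |ξ|) ^ n * Real.exp (2 * (t - η0)))).mono'
      ((dw_meas hB _ _ _ _ _).mul (by fun_prop)).aestronglyMeasurable (.of_forall fun p => ?_)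
    rw [norm_mul, Real.rpow_zero, mul_one]
    refine (mul_le_of_le_one_right (norm_nonneg _) ?_).trans (h t ξ η η0 p le_rfl)
    rw [Complex.norm_exp, Real.exp_le_one_iff]
    simp only [add_re, neg_re, ofReal_re, mul_re, I_re, I_im, ofReal_im]
    nlinarith [sq_nonneg (y - (2 * η0 - t + p.1 - (1 + dwSig B p.1) / 2))]
  refine ⟨hf, (integral_prod f hf).trans ?_⟩
  have hx : Real.exp y / Real.exp η ^ 2 = Real.exp (y - 2 * η) := by
    rw [Real.exp_sub, ← Real.exp_nat_mul]; norm_num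
  have key : ∀ u s, f (u, s) = ((Real.sqrt Real.pi)⁻¹ *
      Real.exp (-1 * (y - (2 * η0 - t) - u) ^ 2) : ℝ) * (((Real.exp y : ℝ) : ℂ)⁻¹ *
        ((1 / (2 * Real.pi) : ℂ) * dwH lam t ξ (dwSig B u) (Real.exp (y - 2 * η)) (ξ + s))) := by
    intro u s
    simp only [f, dwK, dwH, dw_cpow]
    generalize dwSig B u = σ
    have e : Complex.exp (-(1 + σ) * (2 * η0 - t + u) + (1 + σ) ^ 2 / 4) *
        Complex.exp (-(2 * η) * -(σ + (ξ + s) * I)) *
        Complex.exp (-(1 * (y - (2 * η0 - t + u - (1 + σ) / 2)) ^ 2) + I * (-(ξ + s) * y)) =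
        Complex.exp (-1 * (y - (2 * η0 - t) - u) ^ 2) * (Complex.exp y)⁻¹ *
          Complex.exp ((y - 2 * η) * -(σ + (ξ + s) * I)) := by
      simp only [← Complex.exp_neg, ← Complex.exp_add]
      congr 1
      ring
    push_cast
    linear_combination ((Real.sqrt Real.pi : ℂ)⁻¹ * (2 * Real.pi : ℂ)⁻¹ *
      (khat (σ + (ξ + s) * I) / khat (-(σ + (ξ + s) * I)) *
        phat lam t ξ (1 - (σ + (ξ + s) * I)))) * e
  have key2 : ∀ u, (1 / (2 * Real.pi) : ℂ) *
      ∫ s, dwH lam t ξ (dwSig B u) (Real.exp (y - 2 * η)) (ξ + s) =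
      WdS 0 lam t ξ (Real.exp (y - 2 * η)) := fun u => by
    rw [integral_add_left_eq_self, ← WdS_shift (by linarith [dw_sig_ge hB u] : _ < dwSig B u) hlam
      (Real.exp_pos _)]
    rfl
  simp only [key, integral_const_mul, key2, integral_mul_const, hx]
  rw [integral_complex_ofReal, integral_const_mul,
    integral_sub_left_eq_self (fun u : ℝ => Real.exp (-1 * u ^ 2)), integral_gaussian, div_one,
    inv_mul_cancel₀ (Real.sqrt_pos.2 Real.pi_pos).ne']
  simp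

theorem dw_prod {ι : Type} [Fintype ι] {f : ι → ℝ × ℝ → ℂ} {g : ι → ℂ}
    (h1 : ∀ v, Integrable (f v)) (h2 : ∀ v, ∫ p, f v p = g v) :
    Integrable (fun ω : ι → ℝ × ℝ => ∏ v, f v (ω v)) ∧
      ∫ ω : ι → ℝ × ℝ, ∏ v, f v (ω v) = ∏ v, g v :=
  ⟨Integrable.fintype_prod h1, by simp only [integral_fintype_prod_volume_eq_prod f, h2]⟩

theorem dw_one_add_norm {ι : Type} [Fintype ι] (s : ι → ℝ) : 1 + ‖s‖ ≤ ∏ v, (1 + |s v|) := by
  classical
  rw [← le_sub_iff_add_le', pi_norm_le_iff_of_nonneg (sub_nonneg.2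
    (Finset.one_le_prod fun v _ => by linarith [abs_nonneg (s v)]))]
  intro v
  rw [le_sub_iff_add_le', ← Finset.mul_prod_erase _ _ (Finset.mem_univ v)]
  exact le_mul_of_one_le_right (by positivity)
    (Finset.one_le_prod fun v _ => by linarith [abs_nonneg (s v)])

variable {K : Type} [Field K] [NumberField K] [P : Pre K]

open Classical in
theorem DW (lam : ℝ) (hlam : 0 < lam) (A C0 : ℝ) (hA : 0 ≤ A) :
    ∃ C A' : ℝ, 0 ≤ C ∧ 0 ≤ A' ∧ ∀ j : ℕ, 1 ≤ j → ∀ (ι : Type) (s : Finset ι) (b : ι → R K → ℂ)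
      (h : ι → K) (η0 t ξ : Pl K → ℝ) (c' : K) (Φ : ℝ), c' ≠ 0 → 0 ≤ Φ → (∀ i ∈ s, Mod (b i)) →
      (∀ i ∈ s, h i ≠ 0 ∧ ‖lg (h i) - η0‖ ≤ C0) →
      (∀ t' ξ' : Pl K → ℝ, ∑ i ∈ s, ‖Sm (b i) j c' 1 t' ξ'‖ ^ 2 ≤
        Φ * ((1 + ‖ξ'‖) * Real.exp (∑ v, max (t' v - (2 * η0 v - t v)) 0)) ^ A) →
      ∑ i ∈ s, ‖∑' r : R K, if r ∈ cls j c' then b i r * Wd lam t ξ (h i) (r : K) else 0‖ ^ 2 ≤
        C * (1 + ‖ξ‖) ^ A' * Φ * Real.exp (4 * ∑ v, (t v - η0 v)) := by
  have hB : 0 ≤ A + 4 := by linarith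
  obtain ⟨C, n, hC, hb⟩ := dw_bound hlam hB C0
  obtain ⟨C', hC', htr⟩ := triv_pk (K := K) 1 one_pos 1 2 zero_le_one (by norm_num)
  have hI : ∀ a : ℝ, 0 ≤ ∫ p, dwW lam (A + 4) p * dwP p ^ a := fun a => integral_nonneg fun p =>
    mul_nonneg (dw_W_pos _ _ _).le (Real.rpow_nonneg (dw_P_pos _).le _)
  refine ⟨(C ^ rr K) ^ 2 * ((∫ p, dwW lam (A + 4) p * dwP p ^ (0 : ℝ)) ^ rr K *
      (∫ p, dwW lam (A + 4) p * dwP p ^ A) ^ rr K), (n * rr K * 2 : ℕ) + A,
    mul_nonneg (sq_nonneg _) (mul_nonneg (pow_nonneg (hI _) _) (pow_nonneg (hI _) _)),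
    by positivity, fun j hj ι s b h η0 t ξ c' Φ hc' hΦ hmod hh hyp => ?_⟩
  set cen : (Pl K → ℝ × ℝ) → Pl K → ℝ :=
    fun ω v => 2 * η0 v - t v + (ω v).1 - (1 + dwSig (A + 4) (ω v).1) / 2 with hcen
  set frq : (Pl K → ℝ × ℝ) → Pl K → ℝ := fun ω v => -(ξ v + (ω v).2) with hfrq
  set κ : ι → (Pl K → ℝ × ℝ) → ℂ := fun i ω =>
    ∏ v, dwK lam (t v) (ξ v) (lg (h i) v) (2 * η0 v - t v) (dwSig (A + 4) (ω v).1) (ω v) with hκ
  set F : ι → R K → (Pl K → ℝ × ℝ) → ℂ := fun i r ω =>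
    if r ∈ cls j c' then b i r * pk 1 (cen ω) (frq ω) (r : K) else 0 with hF
  set D : ℝ := C ^ rr K * (1 + ‖ξ‖) ^ (n * rr K) * Real.exp (2 * ∑ v, (t v - η0 v)) with hD
  set M : ℝ → (Pl K → ℝ × ℝ) → ℝ := fun a ω => ∏ v, dwW lam (A + 4) (ω v) * dwP (ω v) ^ a with hM
  have D0 : 0 ≤ D := by positivity
  have M0 : ∀ a ω, 0 ≤ M a ω := fun a ω => Finset.prod_nonneg fun v _ =>
    mul_nonneg (dw_W_pos _ _ _).le (Real.rpow_nonneg (dw_P_pos _).le _)
  have Mi : ∀ a, 0 ≤ a → a ≤ A + 4 → Integrable (M a) := fun a h1 h2 =>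
    Integrable.fintype_prod (f := fun _ p => dwW lam (A + 4) p * dwP p ^ a)
      fun _ => dw_int hlam h1 h2
  have Me : ∀ a : ℝ, ∫ ω, M a ω = (∫ p, dwW lam (A + 4) p * dwP p ^ a) ^ rr K := fun a =>
    integral_fintype_prod_volume_eq_pow fun p => dwW lam (A + 4) p * dwP p ^ a
  have Mm : ∀ a ω, M 0 ω * (∏ v, dwP (ω v)) ^ a = M a ω := fun a ω => by
    simp only [hM, Real.rpow_zero, mul_one, Finset.prod_mul_distrib, Finset.prod_const_one,
      Real.finsetProd_rpow _ _ fun v _ => (dw_P_pos (ω v)).le]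
  have hcle : ∀ ω v, cen ω v - (2 * η0 v - t v) ≤ max (ω v).1 0 + 1 := fun ω v => by
    have := dw_sig_ge hB (ω v).1
    simp only [hcen]
    linarith [le_max_left (ω v).1 0]
  have hκm : ∀ i ∈ s, ∀ ω, ‖κ i ω‖ ≤ D * M 0 ω := fun i hi ω => by
    rw [hκ, norm_prod]
    refine (Finset.prod_le_prod (g := fun v => C * (1 + ‖ξ‖) ^ n * Real.exp (2 * (t v - η0 v)) *
      dwW lam (A + 4) (ω v)) (fun _ _ => norm_nonneg _) fun v _ => (hb _ _ _ (η0 v) _
      ((norm_le_pi_norm (lg (h i) - η0) v).trans (hh i hi).2)).trans ?_).trans_eq ?_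
    · have := dw_W_pos lam (A + 4) (ω v)
      gcongr
      exact norm_le_pi_norm ξ v
    · simp only [hD, hM, Real.rpow_zero, mul_one, Finset.prod_mul_distrib, Finset.prod_const,
        Finset.card_univ, Finset.mul_sum, Real.exp_sum, pow_mul, one_pow]
  have rep : ∀ i ∈ s, ∀ r, Integrable (fun ω => κ i ω * F i r ω) ∧ ∫ ω, κ i ω * F i r ω =
      if r ∈ cls j c' then b i r * Wd lam t ξ (h i) (r : K) else 0 := fun i hi r => by
    simp only [hF]
    split_ifs with hr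
    · have h0 : (r : K) ≠ 0 := by exact_mod_cast ne_zero_of_mem_cls hj hc' hr
      have h1 := fun v => dw_rep hlam hB (t v) (ξ v) (lg (h i) v) (η0 v) (lg (r : K) v)
      simp only [mul_left_comm _ (b i r), hκ, pk, hcen, hfrq, ← Finset.prod_mul_distrib]
      obtain ⟨h2, h3⟩ := dw_prod (fun v => (h1 v).1) fun v => (h1 v).2
      refine ⟨h2.const_mul _, ?_⟩
      simp only [integral_const_mul, Wd, b3_norm_emb h0, b3_norm_emb (hh i hi).1]
      exact congrArg _ h3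
    · simp
  have key := sup_abs volume s F κ (fun ω => D * M 0 ω)
    (fun ω => Φ * (1 + ‖ξ‖) ^ A * (∏ v, dwP (ω v)) ^ A) (fun ω => mul_nonneg D0 (M0 _ _))
    ((Mi 0 le_rfl hB).const_mul D) (((Mi A hA (by linarith)).const_mul
      (D * (Φ * (1 + ‖ξ‖) ^ A))).congr (.of_forall fun ω => by simp only [← Mm A ω]; ring)) hκm
    (fun i hi r => (rep i hi r).1) (fun i hi => ?_) (fun i hi => ?_) fun ω => ?_
  · rw [Finset.sum_congr rfl fun i hi => by rw [tsum_congr fun r => (rep i hi r).2]] at key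
    refine key.trans_eq ?_
    rw [integral_congr_ae (g := fun ω => D * (Φ * (1 + ‖ξ‖) ^ A) * M A ω)
      (f := fun ω => D * M 0 ω * _) (.of_forall fun ω => by simp only [← Mm A ω]; ring),
      integral_const_mul, integral_const_mul, Me, Me, Real.rpow_add (by positivity),
      Real.rpow_natCast, pow_mul, hD, show 4 * ∑ v, (t v - η0 v) =
        2 * ∑ v, (t v - η0 v) + 2 * ∑ v, (t v - η0 v) by ring, Real.exp_add]
    ring
  · obtain ⟨Cb, hCb⟩ := hmod i hi
    have NS0 := NS_pos hc'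
    refine summable_of_sum_le (c := ∫ ω, D * (|Cb| * C' *
      (Real.exp (2 * ∑ v, (2 * η0 v - t v)) / NS c') ^ 2) * M 4 ω)
      (fun r => integral_nonneg fun ω => norm_nonneg _) fun S => ?_
    rw [← integral_finsetSum _ fun r _ => (rep i hi r).1.norm]
    refine integral_mono (integrable_finsetSum _ fun r _ => (rep i hi r).1.norm)
      ((Mi 4 (by norm_num) (by linarith)).const_mul _) fun ω => ?_
    obtain ⟨t1, t2⟩ := htr j hj c' hc' (cen ω) (frq ω)
    have h1 : ∑ r ∈ S, ‖F i r ω‖ ≤ |Cb| * (C' * sz c' (cen ω) ^ (2 : ℝ)) := by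
      refine le_trans ?_ (mul_le_mul_of_nonneg_left (((t1.sum_le_tsum S fun r _ => by
        split_ifs <;> [exact mul_nonneg (Real.rpow_nonneg (Nat.cast_nonneg _) _) (norm_nonneg _);
          rfl]).trans t2).trans (mul_le_mul_of_nonneg_left (min_le_right _ _) hC')) (abs_nonneg _))
      rw [Finset.mul_sum]
      refine Finset.sum_le_sum fun r _ => ?_
      simp only [hF]
      split_ifs with hr
      · rw [norm_mul, Real.rpow_one, ← mul_assoc]
        exact mul_le_mul_of_nonneg_right ((hCb r (ne_zero_of_mem_cls hj hc' hr)).trans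
          (mul_le_mul_of_nonneg_right (le_abs_self _) (Nat.cast_nonneg _))) (norm_nonneg _)
      · simp
    have h2 : Real.exp (∑ v, cen ω v) ≤ Real.exp (∑ v, (2 * η0 v - t v)) * ∏ v, dwP (ω v) := by
      rw [Real.exp_sum, Real.exp_sum, ← Finset.prod_mul_distrib]
      refine Finset.prod_le_prod (fun _ _ => (Real.exp_pos _).le) fun v _ => ?_
      refine le_trans ?_ (mul_le_mul_of_nonneg_left (le_mul_of_one_le_left (Real.exp_pos _).le
        (by linarith [abs_nonneg (ω v).2])) (Real.exp_pos _).le)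
      rw [← Real.exp_add, Real.exp_le_exp]
      linarith [hcle ω v]
    have h3 : sz c' (cen ω) ^ (2 : ℝ) ≤ (Real.exp (2 * ∑ v, (2 * η0 v - t v)) / NS c') ^ 2 *
        (∏ v, dwP (ω v)) ^ (4 : ℝ) := by
      refine le_trans (le_of_eq ?_) ((div_le_div_of_nonneg_right
        (pow_le_pow_left₀ (Real.exp_pos _).le h2 4) (sq_nonneg (NS c'))).trans_eq ?_)
      · rw [Real.rpow_two, sz, two_mul, Real.exp_add]
        ring
      · rw [two_mul (∑ _, _), Real.exp_add, show (4 : ℝ) = (4 : ℕ) by norm_num, Real.rpow_natCast]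
        ring
    simp only [norm_mul, ← Finset.mul_sum, ← Mm 4 ω]
    refine (mul_le_mul (hκm i hi ω) (h1.trans (mul_le_mul_of_nonneg_left
      (mul_le_mul_of_nonneg_left h3 hC') (abs_nonneg _))) (Finset.sum_nonneg fun _ _ => norm_nonneg _)
      (mul_nonneg D0 (M0 _ _))).trans_eq (by ring)
  · refine ((continuous_Sm (hmod i hi) hj hc' one_pos).measurable.comp
      (f := fun ω => (cen ω, frq ω)) ?_).aestronglyMeasurable
    simp only [hcen, hfrq]
    fun_prop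
  · refine (hyp (cen ω) (frq ω)).trans ?_
    have P0 : 0 ≤ ∏ v, dwP (ω v) := Finset.prod_nonneg fun v _ => (dw_P_pos _).le
    rw [mul_assoc, ← Real.mul_rpow (by positivity) P0]
    refine mul_le_mul_of_nonneg_left (Real.rpow_le_rpow (by positivity) ?_ hA) hΦ
    have h1 : ‖frq ω‖ ≤ ‖ξ‖ + ‖fun v => (ω v).2‖ := (norm_neg (ξ + fun v => (ω v).2)).trans_le
      (norm_add_le _ _)
    have h2 := dw_one_add_norm fun v => (ω v).2
    simp only [dwP, Finset.prod_mul_distrib, ← Real.exp_sum, ← mul_assoc]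
    refine mul_le_mul (le_trans ?_ (mul_le_mul_of_nonneg_left h2 (by positivity)))
      (Real.exp_le_exp.2 (Finset.sum_le_sum fun v _ => max_le (hcle ω v) (by positivity)))
      (Real.exp_pos _).le (by positivity)
    nlinarith [norm_nonneg ξ, norm_nonneg fun v => (ω v).2]

end Crest.Agent.GQ
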