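import Crest.Agent.GQ.ZTriv
import Crest.Agent.GQ.ZMink

/-!
# Project GQ, part B3: the dual weight as a superposition of packets
-/

set_option autoImplicit false

noncomputable section

open NumberField Complex UniqueFactorizationMonoid MeasureTheory
open scoped ComplexConjugate ENNReal

namespace Crest.Agent.GQ

variable {K : Type} [Field K] [NumberField K] [P : Pre K]

theorem dw0_up {a b y : ℝ} (hab : a ≤ b) (hb : 0 ≤ b) (hy : 0 ≤ y) :
    a * (1 + y) ^ a ≤ b * (1 + y) ^ b :=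
  mul_le_mul hab (Real.rpow_le_rpow_of_exponent_le (by linarith) hab) (by positivity) hb

theorem dw0_place (lam : ℝ) (hlam : 0 < lam) (B : ℝ) (hB : 0 ≤ B) : ∃ C : ℝ, 0 ≤ C ∧
    ∀ t ξ a b : ℝ, 0 < a → 0 < b →
      ‖((a : ℂ))⁻¹ * WdS 0 lam t ξ (a / b ^ 2)‖ ≤ C * (1 + |ξ|) ^ C *
        (Real.exp (2 * (t - Real.log b)) *
          Real.exp (-(1 / 2 * max (-(Real.log a - (2 * Real.log b - t))) 0) -
            B * max (Real.log a - (2 * Real.log b - t)) 0)) := by
  obtain ⟨C1, h1⟩ := norm_WdS_le (σ := -(3 / 2)) (by norm_num) hlam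
  obtain ⟨C2, h2⟩ := norm_WdS_le (σ := B - 1) (by linarith) hlam
  refine ⟨max (max C1 C2) 0, le_max_right _ _, fun t ξ a b ha hb => ?_⟩
  have hx : 0 < a / b ^ 2 := by positivity
  have key : ∀ σ C' : ℝ, C' ≤ max (max C1 C2) 0 →
      ‖WdS 0 lam t ξ (a / b ^ 2)‖ ≤
        C' * (1 + |ξ|) ^ C' * Real.exp ((1 - σ) * t) * (a / b ^ 2) ^ (-σ) →
      ‖((a : ℂ))⁻¹ * WdS 0 lam t ξ (a / b ^ 2)‖ ≤ max (max C1 C2) 0 * (1 + |ξ|) ^ max (max C1 C2) 0 *
        (Real.exp (2 * (t - Real.log b)) *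
          Real.exp (-((1 + σ) * (Real.log a - (2 * Real.log b - t))))) := by
    intro σ C' hC' h
    have e : a⁻¹ * (Real.exp ((1 - σ) * t) * (a / b ^ 2) ^ (-σ)) =
        Real.exp (2 * (t - Real.log b)) *
          Real.exp (-((1 + σ) * (Real.log a - (2 * Real.log b - t)))) := by
      rw [Real.rpow_def_of_pos hx, Real.log_div ha.ne' (by positivity), Real.log_pow]
      nth_rewrite 1 [← Real.exp_log ha]
      rw [← Real.exp_neg, ← Real.exp_add, ← Real.exp_add, ← Real.exp_add]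
      congr 1
      push_cast
      ring
    rw [norm_mul, norm_inv, Complex.norm_real, Real.norm_of_nonneg ha.le, ← e]
    calc a⁻¹ * ‖WdS 0 lam t ξ (a / b ^ 2)‖
        ≤ a⁻¹ * (C' * (1 + |ξ|) ^ C' * Real.exp ((1 - σ) * t) * (a / b ^ 2) ^ (-σ)) := by
          gcongr
      _ = C' * (1 + |ξ|) ^ C' * (a⁻¹ * (Real.exp ((1 - σ) * t) * (a / b ^ 2) ^ (-σ))) := by ring
      _ ≤ _ := mul_le_mul_of_nonneg_right (dw0_up hC' (le_max_right _ _) (abs_nonneg _))
          (by positivity)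
  rcases le_total (Real.log a - (2 * Real.log b - t)) 0 with hu | hu
  · refine (key _ C1 ((le_max_left _ _).trans (le_max_left _ _)) (h1 t ξ _ hx)).trans_eq ?_
    rw [max_eq_left (neg_nonneg.2 hu), max_eq_right hu]
    congr 3
    ring
  · refine (key _ C2 ((le_max_right _ _).trans (le_max_left _ _)) (h2 t ξ _ hx)).trans_eq ?_
    rw [max_eq_right (neg_nonpos.2 hu), max_eq_left hu]
    congr 3
    ring

/-- Pointwise bound for the dual weight. -/
theorem norm_Wd_le (lam : ℝ) (hlam : 0 < lam) (B : ℝ) (hB : 0 ≤ B) : ∃ C : ℝ, 0 ≤ C ∧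
    ∀ (t ξ : Pl K → ℝ) (h r : K), h ≠ 0 → r ≠ 0 →
      ‖Wd lam t ξ h r‖ ≤ C * (1 + ‖ξ‖) ^ C * Real.exp (2 * ∑ v, (t v - lg h v)) *
        Real.exp (-(1 / 2 * ∑ v, max (-(lg r v - (2 * lg h v - t v))) 0) -
          B * ∑ v, max (lg r v - (2 * lg h v - t v)) 0) := by
  obtain ⟨C, hC, hb⟩ := dw0_place lam hlam B hB
  refine ⟨max (C ^ rr K) (C * rr K), le_max_of_le_left (by positivity), fun t ξ h r hh hr => ?_⟩
  have h1 : ‖Wd lam t ξ h r‖ ≤ ∏ v : Pl K, (C * (1 + ‖ξ‖) ^ C *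
      (Real.exp (2 * (t v - lg h v)) *
        Real.exp (-(1 / 2 * max (-(lg r v - (2 * lg h v - t v))) 0) -
          B * max (lg r v - (2 * lg h v - t v)) 0))) := by
    rw [Wd, norm_prod]
    refine Finset.prod_le_prod (fun v _ => norm_nonneg _) fun v _ => ?_
    refine (hb (t v) (ξ v) _ _ (norm_pos_iff.2 (emb_ne_zero hr v))
      (norm_pos_iff.2 (emb_ne_zero hh v))).trans ?_
    have : |ξ v| ≤ ‖ξ‖ := norm_le_pi_norm ξ v
    unfold lg
    gcongr
  refine h1.trans ?_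
  rw [Finset.prod_mul_distrib, Finset.prod_mul_distrib, Finset.prod_mul_distrib, Finset.prod_const,
    Finset.prod_const, ← Real.exp_sum, ← Real.exp_sum, ← Finset.mul_sum, Finset.sum_sub_distrib,
    Finset.sum_sub_distrib, Finset.sum_neg_distrib, ← Finset.mul_sum, ← Finset.mul_sum,
    Finset.card_univ, mul_assoc (max _ _ * _)]
  refine mul_le_mul_of_nonneg_right ?_ (by positivity)
  rw [← Real.rpow_natCast ((1 + ‖ξ‖) ^ C), ← Real.rpow_mul (by positivity)]
  exact mul_le_mul (le_max_left _ _)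
    (Real.rpow_le_rpow_of_exponent_le (by linarith [norm_nonneg ξ]) (le_max_right _ _))
    (by positivity) (le_max_of_le_left (by positivity))

theorem dw0_prod {α β : Type} (w : α → ℝ) (f : α → β → ℝ) (C : ℝ) (hw0 : ∀ a, 0 ≤ w a)
    (hw : Summable w) (hf0 : ∀ a b, 0 ≤ f a b) (hf : ∀ a, Summable (f a) ∧ ∑' b, f a b ≤ C)
    (g : β → α) : Summable (fun b => w (g b) * f (g b) b) := by
  have hs : Summable (fun p : α × β => w p.1 * f p.1 p.2) := by
    refine (summable_prod_of_nonneg fun p => mul_nonneg (hw0 _) (hf0 _ _)).2 ⟨?_, ?_⟩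
    · intro a
      exact (hf a).1.mul_left (w a)
    · refine Summable.of_nonneg_of_le
        (fun a => tsum_nonneg fun b => mul_nonneg (hw0 _) (hf0 _ _)) (fun a => ?_)
        (hw.mul_right C)
      show ∑' b, w a * f a b ≤ w a * C
      rw [tsum_mul_left]
      exact mul_le_mul_of_nonneg_left (hf a).2 (hw0 a)
  exact hs.comp_injective (i := fun b => (g b, b)) fun a b hab => congrArg Prod.snd hab

open Classical in
theorem dw0_major {x : K} (hx : x ≠ 0) (τ : Pl K → ℝ) :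
    Summable (fun r : R K => if r ∈ Lat x ∧ r ≠ 0 then
      Nr r ^ (-2 : ℝ) * (Real.exp (-(1 / 2) * ∑ v, |lg (r : K) v - τ v|) *
        (NS (r : K) / NS x) ^ (-(1 / 2) : ℝ)) else 0) := by
  obtain ⟨C, hC⟩ := sunit_sum_le (K := K) (δ := 1 / 2) (by norm_num)
  have hnn : ∀ (I : Ideal (R K)) (r : R K), 0 ≤ (if r ∈ Lat x ∧ r ≠ 0 ∧ Ideal.span {r} = I then
      Real.exp (-(1 / 2) * ∑ v, |lg (r : K) v - τ v|) * (NS (r : K) / NS x) ^ (-(1 / 2) : ℝ)
        else 0) := by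
    intro I r
    split_ifs with h
    · have := NS_pos hx
      have := NS_pos (x := (r : K)) (by exact_mod_cast h.2.1)
      positivity
    · exact le_rfl
  have hs := dw0_prod (fun I : Ideal (R K) => (nmI I : ℝ) ^ (-2 : ℝ)) _ C
    (fun I => by positivity) (summable_nmI (K := K) (σ := 2) (by norm_num)) hnn
    (fun I => hC x hx I τ) (fun r => Ideal.span {r})
  refine hs.congr fun r => ?_
  simp only [and_true]
  split_ifs with h
  · rfl
  · simp

/-- The dual series converges absolutely. -/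
theorem summable_dual {j' : ℕ} {C : ℝ} {c : K} (hc : c ≠ 0) {h : R K} (hh : h ≠ 0) {κ b : R K → ℂ}
    (hκ : KapOK j' C c h κ) (hb : Mod b) {lam : ℝ} (hlam : 0 < lam) (t ξ : Pl K → ℝ) :
    Summable (fun r : R K => κ r * b r * Wd lam t ξ (h : K) (r : K)) := by
  classical
  have hhK : (h : K) ≠ 0 := by exact_mod_cast hh
  set x : K := (h : K) ^ 2 / (c * MK K ^ j') with hxdef
  have hx : x ≠ 0 := div_ne_zero (pow_ne_zero _ hhK) (mul_ne_zero hc (pow_ne_zero _ MK_ne_zero))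
  obtain ⟨Cb, hCb⟩ := hb
  obtain ⟨Cw, hCw0, hCw⟩ := norm_Wd_le (K := K) lam hlam (13 / 2) (by norm_num)
  set τ : Pl K → ℝ := fun v => 2 * lg (h : K) v - t v with hτ
  set a : ℝ := (NS x * NS c / NS (h : K) ^ 2) ^ (1 / 6 : ℝ) with ha
  set W : ℝ := Cw * (1 + ‖ξ‖) ^ Cw * Real.exp (2 * ∑ v, (t v - lg (h : K) v)) with hW
  have hNx := NS_pos hx
  have hNc := NS_pos hc
  have hNh := NS_pos hhK
  have ha0 : 0 ≤ a := by positivity
  have hW0 : 0 ≤ W := by positivity
  refine Summable.of_norm_bounded ((dw0_major hx τ).mul_left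
    (|C| * a * |Cb| * W * (Real.exp (6 * ∑ v, τ v) / NS x ^ 3))) fun r => ?_
  by_cases hk : κ r = 0
  · rw [hk, zero_mul, zero_mul, norm_zero]
    refine mul_nonneg (by positivity) ?_
    split_ifs with h'
    · have := NS_pos (x := (r : K)) (by exact_mod_cast h'.2)
      have := Nr_nonneg r
      positivity
    · exact le_rfl
  obtain ⟨hr, hL⟩ := hκ.2.1 r hk
  have hrK : (r : K) ≠ 0 := by exact_mod_cast hr
  rw [if_pos ⟨mem_Lat.2 hL, hr⟩]
  have hNr := NS_pos hrK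
  have hn1 := one_le_Nr hr
  set y : ℝ := NS (r : K) / NS x with hy
  have hy1 : 1 ≤ y := (one_le_div hNx).2 (NS_le_of_InT hrK hL)
  have k1 : ‖κ r‖ ≤ |C| * a * y := by
    refine (hκ.2.2 r).trans ?_
    have e : NS (r : K) * NS c / NS (h : K) ^ 2 = NS x * NS c / NS (h : K) ^ 2 * y := by
      rw [hy]; field_simp
    rw [e, Real.mul_rpow (by positivity) (by positivity), ← ha, mul_assoc]
    refine mul_le_mul (le_abs_self C) (mul_le_mul_of_nonneg_left ?_ ha0) (by positivity)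
      (abs_nonneg _)
    calc y ^ (1 / 6 : ℝ) ≤ y ^ (1 : ℝ) := Real.rpow_le_rpow_of_exponent_le hy1 (by norm_num)
      _ = y := Real.rpow_one y
  have k2 : ‖b r‖ ≤ |Cb| * Nr r :=
    (hCb r hr).trans (mul_le_mul_of_nonneg_right (le_abs_self _) (by positivity))
  have k3 := hCw t ξ (h : K) (r : K) hhK hrK
  rw [← hW] at k3
  set P1 : ℝ := ∑ v, max (-(lg (r : K) v - (2 * lg (h : K) v - t v))) 0 with hP1
  set P2 : ℝ := ∑ v, max (lg (r : K) v - (2 * lg (h : K) v - t v)) 0 with hP2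
  have e1 : ∑ v, |lg (r : K) v - τ v| = P1 + P2 := by
    rw [hP1, hP2, ← Finset.sum_add_distrib]
    refine Finset.sum_congr rfl fun v _ => ?_
    show |lg (r : K) v - (2 * lg (h : K) v - t v)| = _
    rcases le_total (lg (r : K) v - (2 * lg (h : K) v - t v)) 0 with hu | hu
    · rw [abs_of_nonpos hu, max_eq_left (neg_nonneg.2 hu), max_eq_right hu, add_zero]
    · rw [abs_of_nonneg hu, max_eq_right (neg_nonpos.2 hu), max_eq_left hu, zero_add]
  have e2 : ∑ v, lg (r : K) v ≤ ∑ v, τ v + P2 := by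
    rw [hP2, ← Finset.sum_add_distrib]
    refine Finset.sum_le_sum fun v _ => ?_
    have := le_max_left (lg (r : K) v - (2 * lg (h : K) v - t v)) 0
    show lg (r : K) v ≤ 2 * lg (h : K) v - t v + _
    linarith
  have e3 : (y * Nr r) ^ 3 ≤ Real.exp (6 * ∑ v, τ v) / NS x ^ 3 * Real.exp (6 * P2) := by
    have e : y * Nr r = Real.exp (2 * ∑ v, lg (r : K) v) / NS x := by
      rw [← Nm_eq_exp hrK, Nm_coe, hy]; ring
    rw [e, div_pow, ← Real.exp_nat_mul, div_mul_eq_mul_div, ← Real.exp_add]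
    gcongr
    push_cast
    linarith
  have e4 : y⁻¹ ≤ y ^ (-(1 / 2) : ℝ) := by
    rw [← Real.rpow_neg_one]
    exact Real.rpow_le_rpow_of_exponent_le hy1 (by norm_num)
  have e5 : Nr r ^ (-2 : ℝ) = (Nr r ^ 2)⁻¹ := by
    rw [Real.rpow_neg (by positivity), Real.rpow_two]
  have e6 : y * Nr r ≤ (y * Nr r) ^ 3 * ((Nr r ^ 2)⁻¹ * y⁻¹) := by
    have : (y * Nr r) ^ 3 * ((Nr r ^ 2)⁻¹ * y⁻¹) = y * (y * Nr r) := by
      field_simp
    rw [this]
    exact le_mul_of_one_le_left (by positivity) hy1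
  rw [norm_mul, norm_mul, e1, e5]
  calc ‖κ r‖ * ‖b r‖ * ‖Wd lam t ξ (h : K) (r : K)‖
      ≤ (|C| * a * y) * (|Cb| * Nr r) * (W * Real.exp (-(1 / 2 * P1) - 13 / 2 * P2)) := by
        gcongr
    _ = |C| * a * |Cb| * W * ((y * Nr r) * Real.exp (-(1 / 2 * P1) - 13 / 2 * P2)) := by ring
    _ ≤ |C| * a * |Cb| * W * (((Real.exp (6 * ∑ v, τ v) / NS x ^ 3 * Real.exp (6 * P2)) *
          ((Nr r ^ 2)⁻¹ * y ^ (-(1 / 2) : ℝ))) * Real.exp (-(1 / 2 * P1) - 13 / 2 * P2)) := by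
        refine mul_le_mul_of_nonneg_left (mul_le_mul_of_nonneg_right (e6.trans ?_)
          (Real.exp_pos _).le) (by positivity)
        gcongr
    _ = _ := by
        have : Real.exp (-(1 / 2) * (P1 + P2)) =
            Real.exp (6 * P2) * Real.exp (-(1 / 2 * P1) - 13 / 2 * P2) := by
          rw [← Real.exp_add]; congr 1; ring
        rw [this]; ring

end Crest.Agent.GQ
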