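import Crest.Agent.GQ.ZDW

/-!
# Project GQ, part B3: mean square of the dual sums
-/

set_option autoImplicit false

noncomputable section

open NumberField Complex UniqueFactorizationMonoid MeasureTheory
open scoped ComplexConjugate ENNReal

namespace Crest.Agent.GQ

variable {K : Type} [Field K] [NumberField K] [P : Pre K]

open Classical in
theorem dwc_fiber {G N : Type} (p : G → N → Prop) {f : N → ℂ} (hf : Summable f)
    (h : ∀ r, f r ≠ 0 → ∃! c, p c r) :
    ∑' r, f r = ∑' c, ∑' r, if p c r then f r else 0 := by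
  have h1 : ∀ {E : Type} [NormedAddCommGroup E] (r : N) (a : E), (f r = 0 → a = 0) →
      HasSum (fun c => if p c r then a else 0) a := by
    intro E _ r a ha
    by_cases h0 : f r = 0
    · simp [ha h0]
    · obtain ⟨c, hc, hu⟩ := h r h0
      convert hasSum_single (f := fun c => if p c r then a else 0) c
        fun c' hc' => if_neg fun h' => hc' (hu c' h') using 1
      rw [if_pos hc]
  have h2 : Summable fun q : N × G => if p q.2 q.1 then f q.1 else 0 := by
    refine .of_norm ?_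
    simp only [apply_ite norm, norm_zero]
    refine (summable_prod_of_nonneg fun q => ?_).2 ⟨fun r => ?_, ?_⟩
    · dsimp only [Pi.zero_apply]
      split_ifs <;> simp
    · exact (h1 r ‖f r‖ fun h => by simp [h]).summable
    · exact hf.norm.congr fun r => (h1 r ‖f r‖ fun h => by simp [h]).tsum_eq.symm
  rw [Summable.tsum_comm (f := fun r c => if p c r then f r else 0) h2]
  exact tsum_congr fun r => (h1 r (f r) id).tsum_eq.symm

open Classical in
theorem dwc_class {j' : ℕ} (hj' : 1 ≤ j') {C1 : ℝ} (hC1 : 0 ≤ C1) {c c' : K} (hc : c ≠ 0)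
    (hc' : c' ≠ 0) {h : R K} (hh : 1 ≤ NS (h : K)) {κ : R K → ℂ} (hκ : KapOK j' C1 c h κ)
    (b W : R K → ℂ) :
    ‖∑' r : R K, if r ∈ cls j' c' then κ r * b r * W r else 0‖ ≤
      C1 * (NS c' * NS c) ^ (1 / 6 : ℝ) * ‖∑' r : R K, if r ∈ cls j' c' then b r * W r else 0‖ := by
  obtain ⟨r₀, hr₀⟩ := cls_nonempty j' hc'
  have h1 : ∀ r : R K, (if r ∈ cls j' c' then κ r * b r * W r else 0) =
      κ r₀ * if r ∈ cls j' c' then b r * W r else 0 := by
    intro r
    split_ifs with hr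
    · rw [hκ.1 r₀ r (by rwa [cls_eq_of_mem hj' hc' hr₀]), mul_assoc]
    · simp
  simp only [h1]
  rw [tsum_mul_left, norm_mul]
  refine mul_le_mul_of_nonneg_right ((hκ.2.2 r₀).trans ?_) (norm_nonneg _)
  rw [NS_cls hj' hc' hr₀]
  have := NS_pos hc
  have := NS_pos hc'
  gcongr
  exact div_le_self (by positivity) (one_le_pow₀ hh)

theorem dwc_hyp {A m ν u E y : ℝ} (hA : 0 ≤ A) (hm : 1 ≤ m) (hν : 1 ≤ ν) (_hu0 : 0 ≤ u) (hE : 1 ≤ E)
    (hy : 1 ≤ y) (hu : u ≤ E ^ 2 * m / ν) :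
    u * (max 1 u * y) ^ A ≤ m ^ (1 + A) / ν * (y * E) ^ (2 * A + 2) := by
  have h1 : 1 ≤ E ^ 2 := one_le_pow₀ hE
  have h2 : max 1 u * y ≤ m * (y * E) ^ 2 := by
    have : max 1 u ≤ E ^ 2 * m := max_le (one_le_mul_of_one_le_of_one_le h1 hm)
      (hu.trans (div_le_self (by positivity) hν))
    calc max 1 u * y ≤ E ^ 2 * m * y ^ 2 := by
          gcongr
          nlinarith
      _ = _ := by ring
  have h3 : u ≤ m * (y * E) ^ 2 / ν := by
    refine hu.trans (div_le_div_of_nonneg_right ?_ (by positivity))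
    rw [mul_comm, mul_pow]
    gcongr
    exact le_mul_of_one_le_left (by positivity) (one_le_pow₀ hy)
  calc u * (max 1 u * y) ^ A ≤ m * (y * E) ^ 2 / ν * (m * (y * E) ^ 2) ^ A := by gcongr
    _ = _ := by
      rw [Real.mul_rpow (by positivity) (by positivity), Real.rpow_add (by positivity),
        Real.rpow_add (by positivity), Real.rpow_mul (by positivity), Real.rpow_one]
      simp only [Real.rpow_two]
      ring

theorem DWC (j' : ℕ) (hj' : 1 ≤ j') (C1 : ℝ) (hC1 : 0 ≤ C1) (lam : ℝ) (hlam : 0 < lam) (A : ℝ)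
    (hA : 0 ≤ A) :
    ∃ C A' : ℝ, 0 ≤ C ∧ 0 ≤ A' ∧ ∀ (ι : Type) (s : Finset ι) (Ih : ι → Ideal (R K))
      (κ b : ι → R K → ℂ) (c : K) (t ξ : Pl K → ℝ) (H1 Φ : ℝ), c ≠ 0 → 1 ≤ H1 → 0 ≤ Φ →
      (∀ i ∈ s, Mod (b i) ∧ KapOK j' C1 c (gen (Ih i)) (κ i) ∧ H1 ≤ NI (Ih i) ∧ NI (Ih i) ≤ 2 * H1) →
      (∀ c' : K, c' ≠ 0 → ∀ t' ξ' : Pl K → ℝ, ∑ i ∈ s, ‖Sm (b i) j' c' 1 t' ξ'‖ ^ 2 ≤
        Φ * (sz c' t' / (H1 ^ 2 / sz c t)) *
          (max 1 (sz c' t' / (H1 ^ 2 / sz c t)) * (1 + ‖ξ'‖)) ^ A) →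
      ∑ i ∈ s, ‖dualS (κ i) (b i) lam t ξ c (gen (Ih i))‖ ^ 2 ≤
        C * (1 + ‖ξ‖) ^ A' * Φ * (sz c t / H1) ^ 2 := by
  classical
  obtain ⟨C, A', hC, hA', hDW⟩ := DW (K := K) lam hlam (2 * A + 2) (balC K + 1) (by linarith)
  obtain ⟨Cg, hCg⟩ := NS_gen_le (K := K)
  obtain ⟨Cd, hCd⟩ := class_reps (K := K) hj'
  set m := NS (MK K ^ j') with hm
  have hM : MK K ^ j' ≠ 0 := pow_ne_zero _ MK_ne_zero
  have hm1 : 1 ≤ m := one_le_NS hM (pow_mem MK_mem_T _)
  refine ⟨Cg ^ 2 * C1 ^ 2 * Cd (1 / 3) ^ 2 * C * m ^ (1 + A), A', by positivity, hA',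
    fun ι s Ih κ b c t ξ H1 Φ hc hH hΦ hs hyp => ?_⟩
  have hr : (1 : ℝ) ≤ rr K := by exact_mod_cast rr_pos
  have hNc := NS_pos hc
  have hI : ∀ i ∈ s, Ih i ≠ ⊥ := by
    intro i hi h
    have := (hs i hi).2.2.1
    rw [h, NI, nmI_bot] at this
    norm_num at this
    linarith
  obtain ⟨𝒞, -, h𝒞, hU, hsum⟩ := hCd (c * MK K ^ j')⁻¹ (inv_ne_zero (mul_ne_zero hc hM))
  obtain ⟨hw, hwle⟩ := hsum (1 / 3) (by norm_num)
  set e := Real.exp (2 * ∑ v, t v) with he
  have he0 : 0 < e := Real.exp_pos _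
  set η : Pl K → ℝ := fun _ => Real.log H1 / (2 * rr K) with hη
  have hη2 : Real.exp (2 * ∑ v, η v) = H1 := by
    rw [hη, Finset.sum_const, Finset.card_univ, nsmul_eq_mul,
      show 2 * ((rr K : ℝ) * (Real.log H1 / (2 * rr K))) = Real.log H1 by field_simp,
      Real.exp_log (by linarith)]
  set D := C * (1 + ‖ξ‖) ^ A' * Φ * m ^ (1 + A) * (e / H1) ^ 2 with hD
  have key : ∀ c' : 𝒞, ∑ i ∈ s, ‖∑' r : R K, if r ∈ cls j' c'.1 then
      κ i r * b i r * Wd lam t ξ (gen (Ih i) : K) (r : K) else 0‖ ^ 2 ≤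
      C1 ^ 2 * D * ((NS c'.1 / NS (c * MK K ^ j')⁻¹) ^ (-(1 / 3) : ℝ)) ^ 2 := by
    rintro ⟨c', hc'⟩
    obtain ⟨hc0, hT⟩ := h𝒞 c' hc'
    have hNc' := NS_pos hc0
    set ν := NS c' / NS (c * MK K ^ j')⁻¹ with hν
    have hν1 : 1 ≤ ν :=
      (one_le_div (NS_pos (inv_ne_zero (mul_ne_zero hc hM)))).2 (NS_le_of_InT hc0 hT)
    have hν2 : ν = NS c' * NS c * m := by rw [hν, NS_inv, NS_mul, div_inv_eq_mul, mul_assoc]
    have h1 := hDW j' hj' ι s b (fun i => (gen (Ih i) : K)) η t ξ c' (Φ * (m ^ (1 + A) / ν)) hc0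
      (by positivity) (fun i hi => (hs i hi).1) (fun i hi => ⟨?_, ?_⟩) fun t' ξ' => ?_
    · have h2 : Real.exp (4 * ∑ v, (t v - η v)) = (e / H1) ^ 2 := by
        rw [he, ← hη2, ← Real.exp_sub, ← Real.exp_nat_mul, Finset.sum_sub_distrib]
        congr 1
        push_cast
        ring
      rw [h2] at h1
      have h3 : ν ^ (1 / 6 : ℝ) * ν ^ (1 / 6 : ℝ) / ν = (ν ^ (-(1 / 3) : ℝ)) ^ 2 := by
        rw [sq, ← Real.rpow_add (by positivity), ← Real.rpow_add (by positivity),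
          ← Real.rpow_sub_one (by positivity)]
        norm_num
      calc _ ≤ ∑ i ∈ s, (C1 * ν ^ (1 / 6 : ℝ)) ^ 2 * ‖∑' r : R K, if r ∈ cls j' c' then
            b i r * Wd lam t ξ (gen (Ih i) : K) (r : K) else 0‖ ^ 2 := by
            refine Finset.sum_le_sum fun i hi => ?_
            rw [← mul_pow]
            refine pow_le_pow_left₀ (norm_nonneg _)
              ((dwc_class hj' hC1 hc hc0 (hCg _ (hI i hi)).1 (hs i hi).2.1 _ _).trans ?_) 2
            gcongr
            rw [hν2]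
            exact le_mul_of_one_le_right (by positivity) hm1
        _ ≤ (C1 * ν ^ (1 / 6 : ℝ)) ^ 2 *
            (C * (1 + ‖ξ‖) ^ A' * (Φ * (m ^ (1 + A) / ν)) * (e / H1) ^ 2) := by
            rw [← Finset.mul_sum]
            gcongr
        _ = _ := by rw [← h3, hD]; ring
    · exact fun h => gen_ne_zero (hI i hi) (Subtype.ext h)
    · rw [pi_norm_le_iff_of_nonneg (by positivity)]
      intro v
      have h2 := abs_le.1 ((isBal_gen (hI i hi)).2.2.2 v)
      have h3 : Real.log H1 ≤ Real.log (nmI (Ih i)) := Real.log_le_log (by linarith) (hs i hi).2.2.1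
      have h4 : Real.log (nmI (Ih i)) ≤ Real.log H1 + 1 := by
        have := Real.log_le_log (NI_pos (hI i hi)) (hs i hi).2.2.2
        rw [Real.log_mul (by norm_num) (by linarith)] at this
        linarith [Real.log_two_lt_d9, show Real.log (nmI (Ih i)) = Real.log (NI (Ih i)) from rfl]
      have h5 : Real.log H1 / (2 * rr K) ≤ Real.log (nmI (Ih i)) / (2 * rr K) := by gcongr
      have h6 : Real.log (nmI (Ih i)) / (2 * rr K) ≤ Real.log H1 / (2 * rr K) + 1 := by
        rw [div_add_one (by positivity)]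
        gcongr
        linarith
      rw [Real.norm_eq_abs, abs_le, Pi.sub_apply, hη]
      constructor <;> linarith [h2.1, h2.2]
    · refine (hyp c' hc0 t' ξ').trans ?_
      rw [mul_assoc, mul_assoc]
      refine mul_le_mul_of_nonneg_left (dwc_hyp hA hm1 hν1
        (div_nonneg (sz_pos hc0 _).le (div_nonneg (sq_nonneg _) (sz_pos hc _).le))
        (Real.one_le_exp (Finset.sum_nonneg fun v _ => le_max_right _ _)) (by simp) ?_) hΦ
      have h2 : Real.exp (2 * ∑ v, t' v) * e ≤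
          Real.exp (∑ v, max (t' v - (2 * η v - t v)) 0) ^ 2 * H1 ^ 2 := by
        rw [he, ← hη2, ← Real.exp_nat_mul, ← Real.exp_nat_mul, ← Real.exp_add, ← Real.exp_add,
          Real.exp_le_exp]
        have : ∑ v, (t' v - (2 * η v - t v)) ≤ ∑ v, max (t' v - (2 * η v - t v)) 0 :=
          Finset.sum_le_sum fun v _ => le_max_left _ _
        rw [Finset.sum_sub_distrib, Finset.sum_sub_distrib, ← Finset.mul_sum] at this
        push_cast
        linarith
      rw [sz, sz, ← he, hν2, div_le_div_iff₀ (by positivity) (by positivity)]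
      field_simp
      exact h2
  have h1 := mink s _ _ _ (by positivity) (fun c' => ?_) hw key
  · calc _ ≤ ∑ i ∈ s, (Cg / NS c) ^ 2 * ‖∑' c' : 𝒞, ∑' r : R K, if r ∈ cls j' c'.1 then
          κ i r * b i r * Wd lam t ξ (gen (Ih i) : K) (r : K) else 0‖ ^ 2 := by
          refine Finset.sum_le_sum fun i hi => ?_
          obtain ⟨hb, hκ, -⟩ := hs i hi
          have h2 := hCg _ (hI i hi)
          rw [dualS, dwc_fiber (fun (c' : 𝒞) (r : R K) => r ∈ cls j' c'.1)
            (summable_dual hc (gen_ne_zero (hI i hi)) hκ hb hlam t ξ) fun r hr0 => ?_, norm_mul,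
            mul_pow, norm_real, Real.norm_of_nonneg (div_nonneg (by linarith) hNc.le)]
          · gcongr
            · exact div_nonneg (by linarith) hNc.le
            · exact h2.2
          · obtain ⟨h3, h4⟩ := hκ.2.1 r fun h => hr0 (by simp [h])
            obtain ⟨c', ⟨h5, h6⟩, h7⟩ := hU r h3 (InT.trans
              ⟨_, pow_mem (isBal_gen (hI i hi)).2.1 2, by rw [div_eq_inv_mul]⟩ h4)
            exact ⟨⟨c', h5⟩, h6, fun c'' h8 => Subtype.ext (h7 _ ⟨c''.2, h8⟩)⟩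
      _ ≤ (Cg / NS c) ^ 2 * (C1 ^ 2 * D * Cd (1 / 3) ^ 2) := by
          rw [← Finset.mul_sum]
          refine mul_le_mul_of_nonneg_left (h1.trans ?_) (sq_nonneg _)
          gcongr
          exact tsum_nonneg fun c' => Real.rpow_nonneg (div_nonneg (NS_pos (h𝒞 _ c'.2).1).le
            (NS_pos (inv_ne_zero (mul_ne_zero hc hM))).le) _
      _ = _ := by rw [hD, sz, ← he]; ring
  · exact Real.rpow_nonneg (div_nonneg (NS_pos (h𝒞 _ c'.2).1).le
      (NS_pos (inv_ne_zero (mul_ne_zero hc hM))).le) _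

end Crest.Agent.GQ
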