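import Crest.Agent.GQ.Arith
import Crest.Agent.GQ.Pack
import Crest.Agent.GQ.Poisson
import Crest.Agent.GQ.Key
import Crest.Agent.GQ.Gam

/-!
# Project GQ, part B3: definitions
-/

set_option autoImplicit false

noncomputable section

open NumberField Complex UniqueFactorizationMonoid MeasureTheory
open scoped ComplexConjugate ENNReal

namespace Crest.Agent.GQ

variable {K : Type} [Field K] [NumberField K] [P : Pre K]

/-- Moderate growth. -/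
def Mod (a : R K → ℂ) : Prop := ∃ C : ℝ, ∀ n : R K, n ≠ 0 → ‖a n‖ ≤ C * Nr n

/-- Real-valued norm of an ideal of `R`. -/
def NI (I : Ideal (R K)) : ℝ := (nmI I : ℝ)

/-- The phase `∏ |x_v|^{i ξ_v}`. -/
def ph (ξ : Pl K → ℝ) (x : K) : ℂ := Complex.exp (I * ((∑ v, ξ v * lg x v : ℝ) : ℂ))

open Classical in
/-- `∑_{J, (gen J)^p ∣ n} φ J * a (n / (gen J)^p)`; `Gf = cnv 3 (√N) Gsf` by definition. -/
def cnv (p : ℕ) (φ : Ideal (R K) → ℂ) (a : R K → ℂ) (n : R K) : ℂ :=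
  ∑ᶠ J : Ideal (R K), if gen J ^ p ∣ n then φ J * a (rdiv n (gen J ^ p)) else 0

open Classical in
/-- Product of the primes whose exponent in `J` is `2` modulo `6`. -/
def bpart (J : Ideal (R K)) : Ideal (R K) :=
  ∏ q ∈ (pfs J).filter (fun q => (normalizedFactors J).count q % 6 = 2), q

open Classical in
/-- Ramanujan sum; for squarefree `b` it is `∏_{q ∣ b} (N q · 1_{q ∣ r} - 1)`. -/
def ram (b : Ideal (R K)) (r : R K) : ℂ :=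
  muR b * ∑ g ∈ divs b, if gen g ∣ r then muR g * (NI g : ℂ) else 0

/-! ### Poisson lemma -/

open Classical in
/-- Dyadic triples `(d, e, f)` with `e ∣ d` and `d f` squarefree. -/
def Tri (K : Type) [Field K] [NumberField K] [Pre K] (D E F : ℝ) :
    Finset (Ideal (R K) × Ideal (R K) × Ideal (R K)) :=
  (rows K (2 * D) ×ˢ rows K (2 * E) ×ˢ rows K (2 * F)).filter (fun x =>
    D ≤ NI x.1 ∧ E ≤ NI x.2.1 ∧ F ≤ NI x.2.2 ∧ x.2.1 ∣ x.1 ∧ Squarefree (x.1 * x.2.2))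

/-- The coefficients of the dual sums. -/
def dualF (e0 : ℕ) (a : R K → ℂ) (d e f J : Ideal (R K)) (n : R K) : ℂ :=
  a (gen d * (gen f * n)) * g6 e0 (gen f * n) * chiI e (gen f * n) ^ e0 *
    chiI J (gen f * n) ^ (6 - e0)

/-- The hypothesis of the Poisson lemma. -/
def PLHyp (e0 : ℕ) {ι : Type} (s : Finset ι) (a : ι → R K → ℂ) (j : ℕ) (lam2 X H Θ A : ℝ) : Prop :=
  ∀ D E F K' y : ℝ, 1 ≤ D → 1 ≤ E → 1 ≤ F → 1 ≤ K' → 1 ≤ y → D * F ≤ X ^ 2 → E ≤ 2 * D →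
    K' ≤ y * (E * X ^ 2 / (H * D ^ 2)) → ∀ c' : K, c' ≠ 0 → ∀ t' ξ' : Pl K → ℝ,
      X / (D * F * y) ≤ sz c' t' → sz c' t' ≤ X * y / (D * F) →
      ∑ i ∈ s, ∑ x ∈ Tri K D E F, ∑ J ∈ rows K K',
          ‖Sm (dualF e0 (a i) x.1 x.2.1 x.2.2 J) j c' lam2 t' ξ'‖ ^ 2 ≤
        Θ * (E * X / (H * D)) * (y * (1 + ‖ξ'‖)) ^ A

/-- Gaussian weight on the rows. -/
def Gau (ρ : ℝ) (k : K) : ℝ := gau (fun _ => ρ ^ 2) (emb k)

open Classical in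
/-- The mean square over lattice points. -/
def latMS (e0 : ℕ) (a : R K → ℂ) (ρ : ℝ) (j : ℕ) (c : K) (lam : ℝ) (t ξ : Pl K → ℝ) : ℝ :=
  ∑' k : R K, if k ∈ Lat (1 : K) then
    Gau ρ (k : K) * ‖Sm (fun n => a n * chi n k ^ e0) j c lam t ξ‖ ^ 2 else 0

open Classical in
/-- The kernel of the quadratic form. -/
def Ker (e0 : ℕ) (ρ : ℝ) (n1 n2 : R K) : ℂ :=
  ∑' k : R K, if k ∈ Lat (1 : K) then
    (Gau ρ (k : K) : ℂ) * chi n1 k ^ e0 * conj (chi n2 k ^ e0) else 0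

/-- One factor of the dual kernel. -/
def kb (e0 : ℕ) (e : Ideal (R K)) (h s : R K) : ℂ :=
  g6 e0 s * chi s (gen e) ^ e0 * chi s h ^ (6 - e0) / (Real.sqrt (Nr s) : ℂ)

/-- The Gaussian of the dual kernel. -/
def gw (ρ : ℝ) (e : Ideal (R K)) (h s1 s2 : R K) : ℝ :=
  Real.exp (-(4 * Real.pi * ∑ v, ρ ^ 2 * ‖emb (h : K) v‖ ^ 2 /
    (‖emb (gen e : K) v‖ ^ 2 * ‖emb (s1 : K) v‖ ^ 2 * ‖emb (s2 : K) v‖ ^ 2)))

open Classical in
/-- The pairs with greatest common divisor `d`. -/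
def T2 (e0 : ℕ) (a : R K → ℂ) (ρ : ℝ) (j : ℕ) (c : K) (lam : ℝ) (t ξ : Pl K → ℝ)
    (d : Ideal (R K)) : ℂ :=
  ∑' p : R K × R K,
    if p.1 ∈ cls j (c / (gen d : K)) ∧ p.2 ∈ cls j (c / (gen d : K)) ∧ IsCoprime p.1 p.2 then
      a (gen d * p.1) * conj (a (gen d * p.2)) * pk lam t ξ ((gen d * p.1 : R K) : K) *
        conj (pk lam t ξ ((gen d * p.2 : R K) : K)) * Ker e0 ρ (gen d * p.1) (gen d * p.2)
    else 0

open Classical in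
/-- The diagonal terms with greatest common divisor `d`. -/
def dg (j : ℕ) (c : K) (lam : ℝ) (t ξ : Pl K → ℝ) (d : Ideal (R K)) : ℝ≥0∞ :=
  ∑' p : R K × R K,
    if p.1 ∈ cls j (c / (gen d : K)) ∧ p.2 ∈ cls j (c / (gen d : K)) ∧ IsUnit p.1 ∧ IsUnit p.2 then
      ENNReal.ofReal (‖pk lam t ξ ((gen d * p.1 : R K) : K)‖ * ‖pk lam t ξ ((gen d * p.2 : R K) : K)‖)
    else 0

open Classical in
/-- Bilinear form with a Gaussian coupling. -/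
def bil (B : R K → ℂ) (j : ℕ) (c : K) (lam : ℝ) (t ξ x : Pl K → ℝ) : ℂ :=
  ∑' p : R K × R K, if p.1 ∈ cls j c ∧ p.2 ∈ cls j c then
    B p.1 * conj (B p.2) * pk lam t ξ (p.1 : K) * conj (pk lam t ξ (p.2 : K)) *
      (Real.exp (-(∑ v, (lg (p.1 : K) v + lg (p.2 : K) v)) -
        Real.pi * ∑ v, Real.exp (2 * (x v - lg (p.1 : K) v - lg (p.2 : K) v))) : ℝ)
    else 0

/-- The position of the Gaussian coupling. -/
def xv (ρ : ℝ) (h : R K) (e f : Ideal (R K)) : Pl K → ℝ :=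
  fun v => Real.log (2 * ρ) + lg (h : K) v - lg (gen e : K) v - 2 * lg (gen f : K) v

open Classical in
/-- The off-diagonal majorant for the pairs with greatest common divisor `d`. -/
def offd (e0 : ℕ) (a : R K → ℂ) (ρ : ℝ) (j : ℕ) (c : K) (lam : ℝ) (t ξ : Pl K → ℝ)
    (d : Ideal (R K)) : ℝ≥0∞ :=
  ∑' x : Ideal (R K) × Ideal (R K) × R K,
    if x.1 ∣ d ∧ Squarefree (d * x.2.1) ∧ x.2.2 ≠ 0 ∧
        x.2.2 ∈ Lat ((c / (gen d : K)) ^ 2 * (gen x.1 : K) / dl K) then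
      ENNReal.ofReal (NS (c / (gen d : K)) / (NI x.1 * Nm (gen x.2.1 : K))) *
        ‖bil (dualF e0 a d x.1 x.2.1 (Ideal.span {x.2.2})) j (c / ((gen d : K) * (gen x.2.1 : K)))
          lam (t - lg ((gen d : K) * (gen x.2.1 : K))) ξ (xv ρ x.2.2 x.1 x.2.1)‖ₑ
    else 0

/-- Averaged square of a smooth sum. -/
def Qav (B : R K → ℂ) (j : ℕ) (c : K) (lam N : ℝ) (t0 ξ : Pl K → ℝ) : ℝ≥0∞ :=
  ∫⁻ p : (Pl K → ℝ) × (Pl K → ℝ), ENNReal.ofReal (Real.exp (-(lam * ‖p.1 - t0‖ ^ 2)) *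
    (1 + ‖p.2‖) ^ (-N) * ‖Sm B j c (2 * lam) p.1 (ξ + p.2)‖ ^ 2)

/-- Two-sided exponential weight. -/
def om (δ B : ℝ) (u : Pl K → ℝ) : ℝ :=
  Real.exp (δ * ∑ v, max (-u v) 0 - B * ∑ v, max (u v) 0)

/-- The centre `t - log(Z)/(2 r)`. -/
def tc (t : Pl K → ℝ) (Z : ℝ) : Pl K → ℝ := fun v => t v - Real.log Z / (2 * rr K)

/-- A dyadic block. -/
def blk (e0 : ℕ) {ι : Type} (s : Finset ι) (a : ι → R K → ℂ) (j : ℕ) (c : K) (lam N : ℝ)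
    (t ξ : Pl K → ℝ) (D E F K' : ℝ) : ℝ≥0∞ :=
  ∑ i ∈ s, ∑ x ∈ Tri K D E F, ∑ J ∈ rows K K',
    Qav (dualF e0 (a i) x.1 x.2.1 x.2.2 J) j (c / ((gen x.1 : K) * (gen x.2.2 : K))) lam N
      (tc t (D * F)) ξ

/-! ### Voronoi -/

/-- The properties of the class function in the Voronoi formula. -/
def KapOK (j' : ℕ) (C : ℝ) (c : K) (h : R K) (κ : R K → ℂ) : Prop :=
  (∀ r r' : R K, r' ∈ cls j' (r : K) → κ r' = κ r) ∧
  (∀ r : R K, κ r ≠ 0 → r ≠ 0 ∧ InT ((h : K) ^ 2 / (c * MK K ^ j')) r) ∧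
  (∀ r : R K, ‖κ r‖ ≤ C * (NS (r : K) * NS c / NS (h : K) ^ 2) ^ (1 / 6 : ℝ))

/-- The dual sum. -/
def dualS (κ b : R K → ℂ) (lam : ℝ) (t ξ : Pl K → ℝ) (c : K) (h : R K) : ℂ :=
  ((NS (h : K) / NS c : ℝ) : ℂ) * ∑' r : R K, κ r * b r * Wd lam t ξ (h : K) (r : K)

/-! ### The inductive statement -/

/-- Mean square of the sums of `μ` against sextic symbols, for long row ranges. -/
def Acond (K : Type) [Field K] [NumberField K] [Pre K] [Rec K] (θ : ℝ) : Prop :=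
  ∀ j : ℕ, Rec.k K ≤ j → ∀ lam : ℝ, 0 < lam → ∃ C A : ℝ, 0 ≤ C ∧ 0 ≤ A ∧
    ∀ c : K, c ≠ 0 → ∀ (t ξ : Pl K → ℝ) (H : ℝ), 1 ≤ H → sz c t ^ (43 / 36 : ℝ) ≤ H →
      ∑ J ∈ rows K H, ‖Sm (fun n => mu n * chiI J n) j c lam t ξ‖ ^ 2 ≤
        C * (1 + ‖ξ‖) ^ A * H * sz c t ^ θ

/-- The multiplicative twist in the inductive step. -/
def psi1 (d e f J : Ideal (R K)) (n : R K) : ℂ :=
  ang (n : K) * (chiI (f ^ 2 * e) n * chiI d n ^ 6) * chiI J n ^ 5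

open Classical in
/-- The Dirichlet series of `μ` over the ideals of `R` with a generator in a class. -/
def Dc (j : ℕ) (c : K) (s : ℂ) : ℂ :=
  ∑' J : Ideal (R K), if ∃ n ∈ cls j c, Ideal.span {n} = J then muR J * (NI J : ℂ) ^ (-s) else 0

end Crest.Agent.GQ
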