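import Crest.Agent.GQ.ZTriv

/-!
# Project GQ, part B3: Mellin transform over a class
-/

set_option autoImplicit false

noncomputable section

open NumberField Complex UniqueFactorizationMonoid MeasureTheory
open scoped ComplexConjugate ENNReal

namespace Crest.Agent.GQ

variable {K : Type} [Field K] [NumberField K] [P : Pre K]

theorem zmel0_ne {u : R K} (hu : IsUnit u) : (u : K) ≠ 0 := fun h => hu.ne_zero (Subtype.ext h)

theorem zmel0_inv_mem {u : R K} (hu : IsUnit u) : (u : K)⁻¹ ∈ R K := by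
  obtain ⟨y, hy⟩ := hu.exists_right_inv
  have h : (u : K) * (y : K) = 1 := congrArg Subtype.val hy
  rw [← eq_inv_of_mul_eq_one_right h]
  exact y.2

theorem zmel0_unit {u : K} (h0 : u ≠ 0) (h1 : u ∈ R K) (h2 : u⁻¹ ∈ R K) : IsUnit (⟨u, h1⟩ : R K) :=
  IsUnit.of_mul_eq_one ⟨u⁻¹, h2⟩ (Subtype.ext (mul_inv_cancel₀ h0))

theorem zmel0_sum {j : ℕ} (hj : 1 ≤ j) {u : R K} (hu : IsUnit u) (hU : (u : K) ∈ U j) :
    ∑ v, lg (u : K) v = 0 := by
  have h := Nm_eq_exp (zmel0_ne hu)
  rw [← NS_unit hu, NS_U hj hU, eq_comm, Real.exp_eq_one_iff] at h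
  linarith

/-- A partition of unity for the units of level `j` acting on the logarithmic space. -/
theorem exists_unit_weight (j : ℕ) (hj : 1 ≤ j) : ∃ (β : (Pl K → ℝ) → ℝ) (C : ℝ), Measurable β ∧
    (∀ t, 0 ≤ β t ∧ β t ≤ C * Real.exp (-(∑ v, |t v - (∑ w, t w) / rr K|))) ∧
    ∀ t, HasSum (fun u : {u : R K // IsUnit u ∧ (u : K) ∈ U j} => β (t + lg ((u : R K) : K))) 1 := by
  set G := {u : R K // IsUnit u ∧ (u : K) ∈ U j}
  set w0 : (Pl K → ℝ) → ℝ := fun t => Real.exp (-(∑ v, |t v - (∑ w, t w) / rr K|)) with hw0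
  have hw : ∀ (t : Pl K → ℝ) (u : G), w0 (t + lg ((u : R K) : K)) =
      Real.exp (-(∑ v, |lg ((u : R K) : K) v - ((∑ w, t w) / rr K - t v)|)) := by
    intro t u
    simp only [hw0, Pi.add_apply, Finset.sum_add_distrib, zmel0_sum hj u.2.1 u.2.2, add_zero]
    congr 2
    exact Finset.sum_congr rfl fun v _ => by congr 1; ring
  have hpos : ∀ t, 0 < w0 t := fun t => Real.exp_pos _
  have hsum : ∀ t, Summable fun u : G => w0 (t + lg ((u : R K) : K)) := by
    intro t
    obtain ⟨C, hC⟩ := unit_sum_le (K := K) one_pos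
    let ι : G → {u : K // u ≠ 0 ∧ IsIntegral ℤ u ∧ IsIntegral ℤ u⁻¹} := fun u =>
      ⟨((u : R K) : K), zmel0_ne u.2.1, int_of_mem u.1.2 (U_mem_T u.2.2),
        int_of_mem (zmel0_inv_mem u.2.1) (U_mem_T (U_inv hj u.2.2))⟩
    have hι : Function.Injective ι := fun a b h =>
      Subtype.ext (Subtype.ext (congrArg
        (fun x : {u : K // u ≠ 0 ∧ IsIntegral ℤ u ∧ IsIntegral ℤ u⁻¹} => x.1) h))
    refine Summable.of_nonneg_of_le (fun u => (hpos _).le) (fun u => ?_)
      ((hC fun v => (∑ w, t w) / rr K - t v).1.comp_injective hι)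
    rw [hw]
    refine Real.exp_le_exp.2 ?_
    rw [neg_mul, one_mul, neg_le_neg_iff]
    refine (pi_norm_le_iff_of_nonneg (Finset.sum_nonneg fun v _ => abs_nonneg _)).2 fun v => ?_
    exact Finset.single_le_sum (f := fun v => |lg ((u : R K) : K) v - ((∑ w, t w) / rr K - t v)|)
      (fun v _ => abs_nonneg _) (Finset.mem_univ v)
  set F : (Pl K → ℝ) → ℝ := fun t => ∑' u : G, w0 (t + lg ((u : R K) : K)) with hF
  obtain ⟨C, hC⟩ := unit_bal (K := K) j
  have hlow : ∀ t, Real.exp (-(rr K * C)) ≤ F t := by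
    intro t
    obtain ⟨u, h0, h1, h2, h3, h4⟩ := hC (-t)
    let u' : G := ⟨⟨u, mem_R_of_int h1⟩, zmel0_unit h0 _ (mem_R_of_int h2), h3⟩
    refine le_trans ?_ ((hsum t).le_tsum u' fun _ _ => (hpos _).le)
    rw [hw]
    refine Real.exp_le_exp.2 (neg_le_neg ((Finset.sum_le_card_nsmul _ _ C fun v _ => ?_).trans ?_))
    · refine le_trans (le_of_eq ?_) (h4 v)
      congr 1
      simp only [Pi.neg_apply, Finset.sum_neg_distrib, u']
      ring
    · simp
  have hFpos : ∀ t, 0 < F t := fun t => (Real.exp_pos _).trans_le (hlow t)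
  have hinv : ∀ t (u : G), F (t + lg ((u : R K) : K)) = F t := by
    intro t u
    let m : G → G := fun x => ⟨u.1 * x.1, u.2.1.mul x.2.1, U_mul u.2.2 x.2.2⟩
    have hm : Function.Bijective m := by
      refine ⟨fun a b h => Subtype.ext (mul_left_cancel₀ u.2.1.ne_zero (congrArg Subtype.val h)),
        fun x => ?_⟩
      have hu0 := zmel0_ne u.2.1
      have hi : IsUnit (⟨((u : R K) : K)⁻¹, zmel0_inv_mem u.2.1⟩ : R K) :=
        zmel0_unit (inv_ne_zero hu0) _ (by rw [inv_inv]; exact u.1.2)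
      refine ⟨⟨_ * x.1, hi.mul x.2.1, U_mul (U_inv hj u.2.2) x.2.2⟩, Subtype.ext (Subtype.ext ?_)⟩
      exact mul_inv_cancel_left₀ hu0 _
    simp only [hF]
    rw [← (Equiv.ofBijective m hm).tsum_eq fun x : G => w0 (t + lg ((x : R K) : K))]
    refine tsum_congr fun x => ?_
    rw [add_assoc, ← lg_mul (zmel0_ne u.2.1) (zmel0_ne x.2.1)]
    rfl
  have hc : Continuous w0 := by
    simp only [hw0]
    fun_prop
  have hFm : Measurable F :=
    Measurable.tsum fun u => (hc.comp (continuous_id.add continuous_const)).measurable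
  refine ⟨fun t => w0 t / F t, Real.exp (rr K * C), hc.measurable.div hFm, fun t =>
    ⟨div_nonneg (hpos t).le (hFpos t).le, ?_⟩, fun t => ?_⟩
  · refine (div_le_div_of_nonneg_left (hpos t).le (Real.exp_pos _) (hlow t)).trans (le_of_eq ?_)
    rw [Real.exp_neg, div_inv_eq_mul, mul_comm]
  · simp only [hinv]
    have h := (hsum t).hasSum.div_const (F t)
    rwa [div_self (hFpos t).ne'] at h

end Crest.Agent.GQ
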