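import Crest.Agent.GQ.ZTriv

/-!
# Project GQ, part B3: ideals of the ring of integers and ideals of R
-/

set_option autoImplicit false

noncomputable section

open NumberField Complex UniqueFactorizationMonoid MeasureTheory
open scoped ComplexConjugate ENNReal

namespace Crest.Agent.GQ

variable {K : Type} [Field K] [NumberField K] [P : Pre K]

/-- The inclusion `𝓞 K → R`. -/
def toR : 𝓞 K →+* R K where
  toFun x := ⟨(x : K), mem_R_of_int x.isIntegral_coe⟩
  map_one' := Subtype.ext (by simp)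
  map_mul' x y := Subtype.ext (by simp)
  map_zero' := Subtype.ext (by simp)
  map_add' x y := Subtype.ext (by simp)

theorem toR_injective : Function.Injective (toR : 𝓞 K → R K) := by
  intro x y h
  exact Subtype.ext (congrArg (fun z : R K => (z : K)) h)

theorem zm2_unit : IsUnit (toR ((P.M : ℕ) : 𝓞 K)) := by
  rw [map_natCast]
  exact b1_unit dvd_rfl

theorem zm2_den (n : R K) : ∃ (k : ℕ) (o : 𝓞 K), toR o = toR (((P.M : ℕ) : 𝓞 K) ^ k) * n := by
  obtain ⟨k, hk⟩ := n.2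
  obtain ⟨o, ho⟩ := b2_lift hk
  refine ⟨k, o, Subtype.ext ?_⟩
  rw [map_pow, map_natCast]
  push_cast
  exact ho

theorem zm2_comap_bot : (⊥ : Ideal (R K)).comap toR = ⊥ :=
  Ideal.comap_bot_of_injective _ toR_injective

theorem zm2_map_comap (J : Ideal (R K)) : (J.comap toR).map toR = J := by
  refine le_antisymm Ideal.map_comap_le fun n hn => ?_
  obtain ⟨k, o, ho⟩ := zm2_den n
  have h1 : toR o ∈ (J.comap toR).map toR :=
    Ideal.mem_map_of_mem _ (by rw [Ideal.mem_comap, ho]; exact J.mul_mem_left _ hn)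
  rw [ho, map_pow] at h1
  exact (Ideal.unit_mul_mem_iff_mem _ (zm2_unit.pow k)).1 h1

theorem zm2_mem_map {J : Ideal (𝓞 K)} {x : R K} (hx : x ∈ J.map toR) :
    ∃ (k : ℕ) (o : 𝓞 K), o ∈ J ∧ toR o = toR (((P.M : ℕ) : 𝓞 K) ^ k) * x := by
  induction hx using Submodule.span_induction with
  | mem x hx =>
    obtain ⟨o, ho, rfl⟩ := hx
    exact ⟨0, o, ho, by simp⟩
  | zero => exact ⟨0, 0, J.zero_mem, by simp⟩
  | add x y _ _ hx hy =>
    obtain ⟨k, o, ho, h⟩ := hx
    obtain ⟨k', o', ho', h'⟩ := hy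
    refine ⟨k + k', (P.M : 𝓞 K) ^ k' * o + (P.M : 𝓞 K) ^ k * o',
      J.add_mem (J.mul_mem_left _ ho) (J.mul_mem_left _ ho'), ?_⟩
    rw [map_add, map_mul, map_mul, h, h', pow_add, map_mul]
    ring
  | smul a x _ hx =>
    obtain ⟨k, o, ho, h⟩ := hx
    obtain ⟨k', o', h'⟩ := zm2_den a
    refine ⟨k + k', o' * o, J.mul_mem_left _ ho, ?_⟩
    rw [map_mul, h, h', pow_add, map_mul, smul_eq_mul]
    ring

theorem zm2_comap_map {J : Ideal (𝓞 K)} (h : IsCoprime J (Ideal.span {((P.M : ℕ) : 𝓞 K)})) :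
    (J.map toR).comap toR = J := by
  refine le_antisymm (fun x hx => ?_) Ideal.le_comap_map
  obtain ⟨k, o, ho, h1⟩ := zm2_mem_map (Ideal.mem_comap.1 hx)
  rw [← map_mul] at h1
  have h2 := toR_injective h1
  have h3 : IsCoprime J (Ideal.span {((P.M : ℕ) : 𝓞 K) ^ k}) := by
    rw [← Ideal.span_singleton_pow]
    exact h.pow_right
  obtain ⟨a, ha, b, hb, hab⟩ := Ideal.isCoprime_iff_exists.1 h3
  obtain ⟨c, rfl⟩ := Ideal.mem_span_singleton'.1 hb
  have h4 : x = x * a + c * o := by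
    rw [h2]
    linear_combination (-x) * hab
  rw [h4]
  exact J.add_mem (J.mul_mem_left _ ha) (J.mul_mem_left _ ho)

theorem zm2_cop {J : Ideal (R K)} (hJ : J ≠ ⊥) :
    IsCoprime (J.comap toR) (Ideal.span {((P.M : ℕ) : 𝓞 K)}) := by
  obtain ⟨u, hu⟩ := zm2_unit (K := K).exists_left_inv
  obtain ⟨o, ho⟩ := b2_surj hJ (Ideal.Quotient.mk J u)
  have h1 : toR o - u ∈ J := Ideal.Quotient.eq.1 ho
  refine Ideal.isCoprime_iff_exists.2 ⟨1 - o * P.M, ?_, o * P.M,
    Ideal.mem_span_singleton'.2 ⟨o, rfl⟩, by ring⟩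
  rw [Ideal.mem_comap, map_sub, map_one, map_mul, ← hu, ← sub_mul, ← neg_sub, neg_mul]
  exact J.neg_mem (J.mul_mem_right _ h1)

theorem comap_toR_mul (J J' : Ideal (R K)) :
    (J * J').comap toR = J.comap toR * J'.comap toR := by
  rcases eq_or_ne J ⊥ with rfl | hJ
  · rw [Ideal.bot_mul, zm2_comap_bot, Ideal.bot_mul]
  rcases eq_or_ne J' ⊥ with rfl | hJ'
  · rw [Ideal.mul_bot, zm2_comap_bot, Ideal.mul_bot]
  rw [← zm2_comap_map ((zm2_cop hJ).mul_left (zm2_cop hJ')), Ideal.map_mul, zm2_map_comap,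
    zm2_map_comap]

theorem map_comap_toR (J : Ideal (R K)) : (J.comap toR).map toR = J := by
  exact zm2_map_comap J

theorem comap_map_toR {J : Ideal (𝓞 K)} (h : IsCoprime J (Ideal.span {((P.M : ℕ) : 𝓞 K)})) :
    (J.map toR).comap toR = J := by
  exact zm2_comap_map h

theorem isCoprime_comap_toR {J : Ideal (R K)} (hJ : J ≠ ⊥) :
    IsCoprime (J.comap toR) (Ideal.span {((P.M : ℕ) : 𝓞 K)}) := by
  exact zm2_cop hJ

theorem absNorm_comap_toR (J : Ideal (R K)) : Ideal.absNorm (J.comap toR) = nmI J := by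
  rcases eq_or_ne J ⊥ with rfl | hJ
  · rw [zm2_comap_bot, nmI_bot, Ideal.absNorm_bot]
  · exact (b2_nmI_eq hJ).symm

omit P in
open Classical in
theorem zm2_muI_prime {p I : Ideal (𝓞 K)} (hp : Prime p) (hI : I ≠ 0) :
    muI (p * I) = if p ∣ I then 0 else -muI I := by
  unfold muI
  by_cases h2 : p ∣ I
  · rw [if_pos h2, if_neg fun h1 => hp.not_isUnit (h1 p (mul_dvd_mul_left p h2))]
  rw [if_neg h2]
  by_cases h3 : Squarefree I
  · rw [if_pos h3, if_pos (squarefree_mul_iff.2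
      ⟨hp.irreducible.isRelPrime_iff_not_dvd.2 h2, hp.squarefree, h3⟩),
      normalizedFactors_mul hp.ne_zero hI, normalizedFactors_irreducible hp.irreducible,
      Multiset.card_add, Multiset.card_singleton, pow_add, pow_one, neg_one_mul]
  · rw [if_neg h3, if_neg fun h1 => h3 h1.of_mul_right, neg_zero]

open Classical in
theorem zm2_muR_prime {p I : Ideal (R K)} (hp : Prime p) :
    muR (p * I) = if p ∣ I then 0 else -muR I := by
  split_ifs with h
  · exact ar_muR_eq_zero.2 fun h1 => hp.not_isUnit (h1 p (mul_dvd_mul_left p h))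
  · have : muR p = -1 := mu_prime (prime_gen.2 hp)
    rw [ar_muR_mul (ar_prime_coprime hp h), this, neg_one_mul]

theorem muI_comap_toR (J : Ideal (R K)) : muI (J.comap toR) = muR J := by
  classical
  induction J using UniqueFactorizationMonoid.induction_on_prime with
  | h₁ =>
    rw [ar_muR_eq_zero.2 not_squarefree_zero, Ideal.zero_eq_bot, zm2_comap_bot]
    exact if_neg not_squarefree_zero
  | h₂ J hJ =>
    rw [Ideal.isUnit_iff.1 hJ, Ideal.comap_top, ar_muR_top, ← Ideal.one_eq_top, muI,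
      if_pos squarefree_one, normalizedFactors_one, Multiset.card_zero, pow_zero]
  | h₃ J p hJ hp ih =>
    have h1 : p.IsPrime := Ideal.isPrime_of_prime hp
    have h2 : Prime (p.comap toR) :=
      Ideal.prime_of_isPrime (b2_comap_ne hp.ne_zero) (Ideal.IsPrime.comap _)
    have h3 : p.comap toR ∣ J.comap toR ↔ p ∣ J := by
      rw [Ideal.dvd_iff_le, Ideal.dvd_iff_le]
      refine ⟨fun h => ?_, Ideal.comap_mono⟩
      have := Ideal.map_mono (f := toR) h
      rwa [zm2_map_comap, zm2_map_comap] at this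
    have h4 : J.comap toR ≠ 0 := b2_comap_ne hJ
    rw [comap_toR_mul, zm2_muI_prime h2 h4, zm2_muR_prime hp, ih]
    simp only [h3]

omit P in
theorem norm_rayChar_le {m : Ideal (𝓞 K)} (hm : m ≠ ⊥) (ξ : RayChar K m) (J : Ideal (𝓞 K)) :
    ‖ξ.toFun J‖ ≤ 1 := by
  classical
  by_cases h : J ⊔ m = ⊤
  swap
  · rw [ξ.eq_zero_of_not_coprime J h, norm_zero]
    exact zero_le_one
  have htop : ξ.toFun 1 = 1 := by
    rw [Ideal.one_eq_top, ← Ideal.span_singleton_one]
    exact ξ.map_span_of_sub_one_mem 1 one_ne_zero (by simp)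
  have hpow : ∀ (I : Ideal (𝓞 K)) (k : ℕ), ξ.toFun (I ^ k) = ξ.toFun I ^ k := by
    intro I k
    induction k with
    | zero => rw [pow_zero, pow_zero, htop]
    | succ k ih => rw [pow_succ, ξ.map_mul, ih, pow_succ]
  rcases eq_or_ne J ⊥ with rfl | hJ
  · have h1 := ξ.map_mul ⊥ ⊥
    rw [Ideal.bot_mul] at h1
    have h2 : ξ.toFun ⊥ = 1 :=
      mul_left_cancel₀ (ξ.ne_zero_of_coprime ⊥ h) (by rw [mul_one]; exact h1.symm)
    rw [h2, norm_one]
  have hJ0 : J ∈ nonZeroDivisors (Ideal (𝓞 K)) := mem_nonZeroDivisors_of_ne_zero hJ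
  set k := Fintype.card (ClassGroup (𝓞 K)) with hk
  have hk0 : k ≠ 0 := Fintype.card_ne_zero
  have h1 : ClassGroup.mk0 ((⟨J, hJ0⟩ : nonZeroDivisors (Ideal (𝓞 K))) ^ k) = 1 := by
    rw [map_pow, pow_card_eq_one]
  obtain ⟨x, hx⟩ := ((ClassGroup.mk0_eq_one_iff (pow_mem hJ0 k)).1 h1).principal
  have hx' : J ^ k = Ideal.span {x} := hx
  have hx0 : x ≠ 0 := by
    rintro rfl
    rw [Ideal.span_singleton_zero] at hx'
    exact hJ (pow_eq_zero_iff hk0 |>.1 hx')
  have h2 : IsCoprime (Ideal.span {x}) m := by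
    rw [← hx']
    exact (Ideal.isCoprime_iff_sup_eq.2 h).pow_left
  obtain ⟨a, ha, b, hb, hab⟩ := Ideal.isCoprime_iff_exists.1 h2
  obtain ⟨c, rfl⟩ := Ideal.mem_span_singleton'.1 ha
  have : Finite (𝓞 K ⧸ m) := Ideal.finiteQuotientOfFreeOfNeBot _ hm
  have h3 : IsUnit (Ideal.Quotient.mk m x) := by
    refine IsUnit.of_mul_eq_one (Ideal.Quotient.mk m c) ?_
    rw [← map_mul, ← map_one (Ideal.Quotient.mk m), Ideal.Quotient.eq]
    have : x * c - 1 = -b := by linear_combination hab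
    rw [this]
    exact m.neg_mem hb
  obtain ⟨l, hl, h4⟩ := (h3.isOfFinOrder).exists_pow_eq_one
  rw [← map_pow, ← map_one (Ideal.Quotient.mk m), Ideal.Quotient.eq] at h4
  have h5 := ξ.map_span_of_sub_one_mem _ (pow_ne_zero l hx0) h4
  rw [← Ideal.span_singleton_pow, ← hx', ← pow_mul, hpow] at h5
  have h6 := congrArg norm h5
  rw [norm_pow, norm_one] at h6
  exact ((pow_eq_one_iff_of_nonneg (norm_nonneg _) (mul_ne_zero hk0 hl.ne')).1 h6).le

/-- A ray class character is constant on the ideals generated by a class. -/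
theorem rayChar_cls {m : Ideal (𝓞 K)} (hm : ((P.M : ℕ) : 𝓞 K) ∈ m) (ξ : RayChar K m) {j : ℕ}
    (hj : 1 ≤ j) {c : K} (hc : c ≠ 0) {n n' : R K} (hn : n ∈ cls j c) (hn' : n' ∈ cls j c) :
    ξ.toFun ((Ideal.span {n}).comap toR) = ξ.toFun ((Ideal.span {n'}).comap toR) := by
  have hn0 : (n : K) ≠ 0 := fun h => ne_zero_of_mem_cls hj hc hn (Subtype.ext h)
  have hn0' : (n' : K) ≠ 0 := fun h => ne_zero_of_mem_cls hj hc hn' (Subtype.ext h)
  have h1 : (n' : K) / n ∈ U 1 := by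
    refine U_mono hj ((mem_cls_iff hn0).1 ?_)
    rwa [cls_eq_of_mem hj hc hn]
  obtain ⟨t, ⟨b, hb, ht⟩, h2⟩ := h1
  obtain ⟨y, hy⟩ := b2_lift ht
  obtain ⟨u, v, huv⟩ := b1_bez hb 1
  rw [pow_one] at h2 huv
  have hz : ∀ z : 𝓞 K, ξ.toFun ((Ideal.span {toR (1 + z * (P.M : 𝓞 K))}).comap toR) = 1 := by
    intro z
    have h3 : IsCoprime (Ideal.span {1 + z * (P.M : 𝓞 K)}) (Ideal.span {((P.M : ℕ) : 𝓞 K)}) :=
      (Ideal.isCoprime_span_singleton_iff _ _).2 ⟨1, -z, by ring⟩
    rw [← Set.image_singleton, ← Ideal.map_span, zm2_comap_map h3]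
    refine ξ.map_span_of_sub_one_mem _ (fun h => not_InT_M_one (K := K)
      ⟨((-z : 𝓞 K) : K), mem_T_of_int (-z).isIntegral_coe, ?_⟩) ?_
    · have := congrArg (algebraMap (𝓞 K) K) h
      simp only [map_add, map_one, map_mul, map_natCast, map_zero] at this
      change 1 = (P.M : K) * algebraMap (𝓞 K) K (-z)
      rw [map_neg]
      linear_combination this
    · rw [add_sub_cancel_left]
      exact m.mul_mem_left _ hm
  have h4 : n' * toR (1 + (-(v : 𝓞 K)) * (P.M : 𝓞 K)) =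
      n * toR (1 + ((u : 𝓞 K) * y - (v : 𝓞 K)) * (P.M : 𝓞 K)) := by
    refine Subtype.ext ?_
    change (n' : K) * algebraMap (𝓞 K) K _ = (n : K) * algebraMap (𝓞 K) K _
    simp only [map_add, map_one, map_mul, map_natCast, map_neg, map_sub, map_intCast]
    have hy' : algebraMap (𝓞 K) K y = b * t := hy
    have h5 : (n' : K) = n * (1 + MK K * t) := by
      rw [← h2]
      field_simp
      ring
    rw [hy', h5]
    linear_combination (-(n : K) * MK K * t) * huv
  have h5 := congrArg (fun x => ξ.toFun ((Ideal.span {x}).comap toR)) h4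
  simp only [← Ideal.span_singleton_mul_span_singleton, comap_toR_mul, ξ.map_mul, hz, mul_one] at h5
  exact h5.symm

end Crest.Agent.GQ
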