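import Crest.Agent.GQ.ZTriv

/-!
# Project GQ, part B3: Poisson lemma, step 1: from ideals to lattice points
-/

set_option autoImplicit false

noncomputable section

open NumberField Complex UniqueFactorizationMonoid MeasureTheory
open scoped ComplexConjugate ENNReal

namespace Crest.Agent.GQ

variable {K : Type} [Field K] [NumberField K] [P : Pre K] [Q : Rec K]

omit Q in
open Classical in
theorem zpl1_summable {ρ : ℝ} (hρ : 0 < ρ) :
    Summable (fun k : R K => if k ∈ Lat (1 : K) then Gau ρ (k : K) else 0) := by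
  have h := summable_gau (K := K) (x := 1) one_ne_zero (ρ := fun _ => ρ ^ 2)
    (fun _ => by positivity) 0 0
  simp only [pow_zero, one_mul, add_zero] at h
  have h2 : Summable ((fun k : R K => Gau ρ (k : K)) ∘
      ((↑) : ((Lat (1 : K) : AddSubgroup (R K)) : Set (R K)) → R K)) := h
  refine (summable_subtype_iff_indicator.1 h2).congr fun k => ?_
  by_cases hk : k ∈ Lat (1 : K)
  · rw [if_pos hk, Set.indicator_of_mem (show k ∈ (Lat (1 : K) : Set (R K)) from hk)]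
  · rw [if_neg hk, Set.indicator_of_notMem (show k ∉ (Lat (1 : K) : Set (R K)) from hk)]

omit Q in
theorem zpl1_emb_le {H : ℝ} {J : Ideal (R K)} (hJ : J ∈ rows K H) (v : Pl K) :
    ‖emb (gen J : K) v‖ ≤ Real.exp (balC K) * H ^ (1 / (2 * rr K) : ℝ) := by
  obtain ⟨h0, hH⟩ := mem_rows.1 hJ
  have hN : (0 : ℝ) < nmI J := by exact_mod_cast nmI_pos h0
  have hg : (gen J : K) ≠ 0 := fun e => gen_ne_zero h0 (Subtype.ext e)
  have h1 := (abs_le.1 ((isBal_gen h0).2.2.2 v)).2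
  have hr : (0 : ℝ) < rr K := by exact_mod_cast rr_pos
  have h2 : Real.log (nmI J) / (2 * rr K) ≤ Real.log H * (1 / (2 * rr K)) := by
    rw [mul_one_div]
    exact div_le_div_of_nonneg_right (Real.log_le_log hN hH) (by positivity)
  rw [Real.rpow_def_of_pos (hN.trans_le hH), ← Real.exp_add,
    ← Real.exp_log (norm_pos_iff.2 (emb_ne_zero hg v))]
  refine Real.exp_le_exp.2 ?_
  unfold lg at h1
  linarith

omit Q in
theorem zpl1_gau {ρ : ℝ} (hρ : 0 < ρ) {k : K} (h : ∀ v, ‖emb k v‖ ≤ ρ) :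
    1 ≤ Real.exp (Real.pi * rr K) * Gau ρ k := by
  unfold Gau gau
  rw [← Real.exp_add]
  refine Real.one_le_exp ?_
  have h1 : ∑ v, ‖emb k v‖ ^ 2 / ρ ^ 2 ≤ (rr K : ℝ) := by
    calc ∑ v, ‖emb k v‖ ^ 2 / ρ ^ 2 ≤ ∑ _v : Pl K, (1 : ℝ) :=
          Finset.sum_le_sum fun v _ => (div_le_one (by positivity)).2
            (pow_le_pow_left₀ (norm_nonneg _) (h v) 2)
      _ = rr K := by simp
  have := mul_le_mul_of_nonneg_left h1 Real.pi_pos.le
  linarith

theorem pl1 : ∃ C1 C2 : ℝ, 1 ≤ C1 ∧ 0 ≤ C2 ∧ ∀ (e0 j : ℕ), Rec.k K ≤ j → ∀ lam : ℝ, 0 < lam →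
    ∀ a : R K → ℂ, (∀ n, ‖a n‖ ≤ 1) → ∀ c : K, c ≠ 0 → ∀ (t ξ : Pl K → ℝ) (H : ℝ), 1 ≤ H →
      ∑ J ∈ rows K H, ‖Sm (fun n => a n * chiI J n ^ e0) j c lam t ξ‖ ^ 2 ≤
        C2 * latMS e0 a (C1 * H ^ (1 / (2 * rr K) : ℝ)) j c lam t ξ := by
  classical
  obtain ⟨β, hβ, hfl⟩ := chi_flip (K := K)
  refine ⟨Real.exp (balC K), Real.exp (Real.pi * rr K), Real.one_le_exp (Nat.cast_nonneg _),
    (Real.exp_pos _).le, fun e0 j hj lam hlam a ha c hc t ξ H hH => ?_⟩
  have hj1 : 1 ≤ j := Q.hk.trans hj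
  set ρ : ℝ := Real.exp (balC K) * H ^ (1 / (2 * rr K) : ℝ) with hρ
  have hρ0 : 0 < ρ := mul_pos (Real.exp_pos _) (Real.rpow_pos_of_pos (by linarith) _)
  obtain ⟨C, -, hC⟩ := norm_Sm_le (K := K) hlam (B := 1) le_rfl
  set F : R K → ℝ := fun k => if k ∈ Lat (1 : K) then
    Gau ρ (k : K) * ‖Sm (fun n => a n * chi n k ^ e0) j c lam t ξ‖ ^ 2 else 0 with hF
  have hG : ∀ k : K, 0 ≤ Gau ρ k := fun k => (Real.exp_pos _).le
  have hF0 : ∀ k, 0 ≤ F k := fun k => by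
    simp only [hF]
    split_ifs
    · exact mul_nonneg (hG _) (sq_nonneg _)
    · exact le_rfl
  have hFs : Summable F := by
    refine Summable.of_nonneg_of_le hF0 (fun k => ?_)
      ((zpl1_summable (K := K) hρ0).mul_right ((C * min (sz c t) (sz c t ^ (1 : ℝ))) ^ 2))
    simp only [hF]
    split_ifs
    · refine mul_le_mul_of_nonneg_left (pow_le_pow_left₀ (norm_nonneg _)
        (hC _ (fun n => ?_) j hj1 c hc t ξ) 2) (hG _)
      rw [norm_mul, norm_pow]
      exact mul_le_one₀ (ha n) (by positivity) (pow_le_one₀ (norm_nonneg _) (norm_chi_le n k))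
    · rw [zero_mul]
  have hinj : Set.InjOn (gen : Ideal (R K) → R K) (rows K H : Set (Ideal (R K))) :=
    fun I _ J _ h => by rw [← span_gen I, h, span_gen]
  have h1 : ∑ J ∈ rows K H, F (gen J) ≤ latMS e0 a ρ j c lam t ξ := by
    rw [← Finset.sum_image (f := F) hinj]
    exact hFs.sum_le_tsum _ fun k _ => hF0 k
  refine le_trans ?_ (mul_le_mul_of_nonneg_left h1 (Real.exp_pos _).le)
  rw [Finset.mul_sum]
  refine Finset.sum_le_sum fun J hJ => ?_
  have h0 := (mem_rows.1 hJ).1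
  have hg : (gen J : K) ≠ 0 := fun e => gen_ne_zero h0 (Subtype.ext e)
  have hL : gen J ∈ Lat (1 : K) := mem_Lat.2 (InT_one_iff.2 (isBal_gen h0).2.1)
  have h2 : Sm (fun n => a n * chiI J n ^ e0) j c lam t ξ =
      β c (gen J : K) ^ e0 * Sm (fun n => a n * chi n (gen J) ^ e0) j c lam t ξ := by
    refine Sm_congr_mul (fun n hn => ?_) lam t ξ
    rw [chiI, hfl j hj c _ hc hg n hn (gen J) (self_mem_cls j _)]
    ring
  simp only [hF, if_pos hL]
  rw [h2, norm_mul, norm_pow, hβ, one_pow, one_mul, ← mul_assoc]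
  exact le_mul_of_one_le_left (sq_nonneg _) (zpl1_gau hρ0 (zpl1_emb_le hJ))

end Crest.Agent.GQ
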