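import Crest.Agent.GQ.ZTriv

/-!
# Project GQ, part B3: Poisson lemma, step 1: from ideals to lattice points
-/

set_option autoImplicit false

noncomputable section

open NumberField Complex UniqueFactorizationMonoid MeasureTheory
open scoped ComplexConjugate ENNReal

namespace Crest.Agent.GQ

variable {K : Type} [Field K] [NumberField K] [P : Pre K] [Q : Rec K]

theorem zpl2_expand {ι κ : Type} (w : κ → ℝ) (hw0 : ∀ k, 0 ≤ w k) (hw : Summable w) (u : ι → ℂ)
    (hu : Summable fun n => ‖u n‖) (x : ι → κ → ℂ) (hx : ∀ n k, ‖x n k‖ ≤ 1) :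
    Summable (fun p : ι × ι => u p.1 * conj (u p.2) *
        ∑' k, (w k : ℂ) * x p.1 k * conj (x p.2 k)) ∧
      ((∑' k, w k * ‖∑' n, u n * x n k‖ ^ 2 : ℝ) : ℂ) =
        ∑' p : ι × ι, u p.1 * conj (u p.2) * ∑' k, (w k : ℂ) * x p.1 k * conj (x p.2 k) := by
  have huu : Summable fun p : ι × ι => ‖u p.1‖ * ‖u p.2‖ :=
    hu.mul_of_nonneg hu (fun _ => norm_nonneg _) (fun _ => norm_nonneg _)
  have hbig : Summable fun q : κ × (ι × ι) => w q.1 * (‖u q.2.1‖ * ‖u q.2.2‖) :=
    Summable.mul_of_nonneg (f := w) (g := fun p : ι × ι => ‖u p.1‖ * ‖u p.2‖) hw huu hw0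
      (fun _ => mul_nonneg (norm_nonneg _) (norm_nonneg _))
  set G : κ → ι × ι → ℂ := fun k p => u p.1 * conj (u p.2) * ((w k : ℂ) * x p.1 k * conj (x p.2 k))
    with hG
  have hGs : Summable (Function.uncurry G) := by
    refine Summable.of_norm_bounded hbig fun q => ?_
    simp only [Function.uncurry, hG, norm_mul, Complex.norm_conj, Complex.norm_real,
      Real.norm_of_nonneg (hw0 _)]
    have h1 := hx q.2.1 q.1
    have h2 := hx q.2.2 q.1
    have h3 : ‖x q.2.1 q.1‖ * ‖x q.2.2 q.1‖ ≤ 1 := mul_le_one₀ h1 (norm_nonneg _) h2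
    have h4 : 0 ≤ w q.1 * (‖u q.2.1‖ * ‖u q.2.2‖) :=
      mul_nonneg (hw0 _) (mul_nonneg (norm_nonneg _) (norm_nonneg _))
    calc _ = w q.1 * (‖u q.2.1‖ * ‖u q.2.2‖) * (‖x q.2.1 q.1‖ * ‖x q.2.2 q.1‖) := by ring
      _ ≤ _ := mul_le_of_le_one_right h4 h3
  have hin : ∀ p : ι × ι, ∑' k, G k p =
      u p.1 * conj (u p.2) * ∑' k, (w k : ℂ) * x p.1 k * conj (x p.2 k) := fun p => by
    simp only [hG]
    rw [tsum_mul_left]
  refine ⟨?_, ?_⟩
  · have := hGs.prod_symm.prod
    refine this.congr fun p => ?_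
    rw [← hin]
    rfl
  · simp_rw [← hin]
    rw [hGs.tsum_comm, Complex.ofReal_tsum]
    refine tsum_congr fun k => ?_
    have hs : Summable fun n => ‖u n * x n k‖ :=
      Summable.of_nonneg_of_le (fun _ => norm_nonneg _)
        (fun n => by rw [norm_mul]; exact mul_le_of_le_one_right (norm_nonneg _) (hx n k)) hu
    have hs' : Summable fun n => ‖conj (u n * x n k)‖ := by simpa only [Complex.norm_conj] using hs
    rw [Complex.ofReal_mul, Complex.ofReal_pow, ← Complex.mul_conj', Complex.conj_tsum,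
      tsum_mul_tsum_of_summable_norm hs hs', ← tsum_mul_left]
    refine tsum_congr fun p => ?_
    simp only [hG, map_mul]
    ring

open Classical in
theorem zpl2_sort {A : Type} [CommRing A] [IsDomain A] (g : Ideal A → A)
    (hg : ∀ I, Ideal.span {g I} = I) (F : A × A → ℂ) (hF : Summable F)
    (hsf : ∀ p, F p ≠ 0 → Squarefree p.1) :
    ‖∑' p, F p‖ₑ ≤ ∑' d : Ideal A, if Squarefree (g d) then
      ‖∑' q : A × A, if IsCoprime q.1 q.2 then F (g d * q.1, g d * q.2) else 0‖ₑ else 0 := by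
  set φ : A × A → Ideal A := fun p => Ideal.span {p.1} ⊔ Ideal.span {p.2} with hφ
  rw [← (hF.hasSum.tsum_fiberwise φ).tsum_eq]
  refine enorm_tsum_le_tsum_enorm.trans (ENNReal.tsum_le_tsum fun d => ?_)
  have hdv : ∀ p : A × A, φ p = d → g d ∣ p.1 ∧ g d ∣ p.2 := fun p hp => by
    rw [← Ideal.mem_span_singleton, ← Ideal.mem_span_singleton, hg, ← hp]
    exact ⟨Ideal.mem_sup_left (Ideal.mem_span_singleton_self _),
      Ideal.mem_sup_right (Ideal.mem_span_singleton_self _)⟩
  split_ifs with hd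
  · have hd0 : g d ≠ 0 := hd.ne_zero
    have hinj : Function.Injective fun q : A × A => (g d * q.1, g d * q.2) := fun q q' h => by
      simp only [Prod.mk.injEq] at h
      exact Prod.ext (mul_left_cancel₀ hd0 h.1) (mul_left_cancel₀ hd0 h.2)
    have hφq : ∀ q : A × A, φ (g d * q.1, g d * q.2) = d ↔ IsCoprime q.1 q.2 := fun q => by
      have e : φ (g d * q.1, g d * q.2) =
          Ideal.span {g d} * (Ideal.span {q.1} ⊔ Ideal.span {q.2}) := by
        simp only [hφ, Ideal.mul_sup, Ideal.span_singleton_mul_span_singleton]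
      rw [e, ← Ideal.isCoprime_span_singleton_iff, Ideal.isCoprime_iff_sup_eq]
      constructor
      · intro h
        have h' : Ideal.span {g d} * (Ideal.span {q.1} ⊔ Ideal.span {q.2}) =
            Ideal.span {g d} * ⊤ := by rw [h, Ideal.mul_top, hg]
        exact (Ideal.span_singleton_mul_right_inj hd0).1 h'
      · intro h
        rw [h, Ideal.mul_top, hg]
    apply le_of_eq
    congr 1
    rw [tsum_subtype (φ ⁻¹' {d}) F, ← hinj.tsum_eq]
    · refine tsum_congr fun q => ?_
      simp only [Set.indicator, Set.mem_preimage, Set.mem_singleton_iff, hφq]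
    · intro p hp
      have hp' : p ∈ φ ⁻¹' {d} := Set.support_indicator_subset hp
      obtain ⟨⟨s1, h1⟩, ⟨s2, h2⟩⟩ := hdv p hp'
      exact ⟨(s1, s2), Prod.ext h1.symm h2.symm⟩
  · have : ∀ p : φ ⁻¹' {d}, F p = 0 := fun p => by
      by_contra h
      exact hd ((hsf _ h).squarefree_of_dvd (hdv p.1 p.2).1)
    simp [this]

open Classical in
/-- Expansion of the square and sorting by the greatest common divisor. -/
theorem pl2 (e0 j : ℕ) (hj : 1 ≤ j) (lam : ℝ) (hlam : 0 < lam) (a : R K → ℂ) (ha : ∀ n, ‖a n‖ ≤ 1)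
    (hsf : ∀ n, a n ≠ 0 → Squarefree n) (ρ : ℝ) (hρ : 0 < ρ) (c : K) (hc : c ≠ 0)
    (t ξ : Pl K → ℝ) :
    ENNReal.ofReal (latMS e0 a ρ j c lam t ξ) ≤
      ∑' d : Ideal (R K), if Squarefree d then ‖T2 e0 a ρ j c lam t ξ d‖ₑ else 0 := by
  obtain ⟨C, -, hC⟩ := triv_pk (K := K) lam hlam 0 1 le_rfl (by norm_num)
  have hpk := (hC j hj c hc t ξ).1
  set u : R K → ℂ := fun n => if n ∈ cls j c then a n * pk lam t ξ (n : K) else 0 with hu
  set w : R K → ℝ := fun k => if k ∈ Lat (1 : K) then Gau ρ (k : K) else 0 with hw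
  have hw0 : ∀ k, 0 ≤ w k := fun k => by
    simp only [hw]
    split_ifs
    · exact (Real.exp_pos _).le
    · exact le_rfl
  have hws : Summable w := by
    have h := summable_gau (K := K) (x := 1) one_ne_zero (ρ := fun _ => ρ ^ 2)
      (fun _ => pow_pos hρ 2) 0 0
    simp only [pow_zero, one_mul, add_zero] at h
    have h2 := (summable_subtype_iff_indicator (f := fun k : R K => Gau ρ (k : K))
      (s := (Lat (1 : K) : Set (R K)))).1 h
    refine h2.congr fun k => ?_
    simp only [hw, Set.indicator, SetLike.mem_coe]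
  have hus : Summable fun n => ‖u n‖ := by
    refine Summable.of_nonneg_of_le (fun _ => norm_nonneg _) (fun n => ?_) hpk
    simp only [hu]
    split_ifs
    · rw [norm_mul, Real.rpow_zero]
      exact mul_le_mul_of_nonneg_right (ha n) (norm_nonneg _)
    · simp
  have hx : ∀ n k : R K, ‖chi n k ^ e0‖ ≤ 1 := fun n k => by
    rw [norm_pow]
    exact pow_le_one₀ (norm_nonneg _) (norm_chi_le n k)
  obtain ⟨hS, hE⟩ := zpl2_expand w hw0 hws u hus (fun n k => chi n k ^ e0) hx
  have hKer : ∀ n1 n2 : R K, ∑' k, (w k : ℂ) * chi n1 k ^ e0 * conj (chi n2 k ^ e0) =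
      Ker e0 ρ n1 n2 := fun n1 n2 => by
    refine tsum_congr fun k => ?_
    simp only [hw]
    split_ifs <;> simp
  have hlat : latMS e0 a ρ j c lam t ξ = ∑' k, w k * ‖∑' n, u n * chi n k ^ e0‖ ^ 2 := by
    refine tsum_congr fun k => ?_
    simp only [hw]
    split_ifs
    · congr 3
      refine tsum_congr fun n => ?_
      simp only [hu]
      split_ifs
      · ring
      · simp
    · simp
  simp only [hKer] at hS hE
  have h1 := zpl2_sort (gen (K := K)) span_gen _ hS (fun p hp => by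
    apply hsf
    intro h
    apply hp
    simp [hu, h])
  rw [← hE, ← hlat] at h1
  refine le_trans ?_ (h1.trans (le_of_eq (tsum_congr fun d => ?_)))
  · rw [← ofReal_norm, Complex.norm_real]
    exact ENNReal.ofReal_le_ofReal (le_abs_self _)
  · by_cases hd : Squarefree d
    · rw [if_pos hd, if_pos (squarefree_gen.2 hd)]
      have hd0 : gen d ≠ 0 := (squarefree_gen.2 hd).ne_zero
      congr 1
      refine tsum_congr fun q => ?_
      simp only [hu, mul_mem_cls_iff hd0]
      by_cases h1 : q.1 ∈ cls j (c / (gen d : K)) <;> by_cases h2 : q.2 ∈ cls j (c / (gen d : K)) <;>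
        by_cases h3 : IsCoprime q.1 q.2 <;> simp only [h1, h2, h3, if_true, if_false, and_self,
          and_false, false_and, map_mul, map_zero, mul_zero, zero_mul]
      ring
    · rw [if_neg hd, if_neg (fun h => hd (squarefree_gen.1 h))]

end Crest.Agent.GQ
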