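import Crest.Agent.GQ.ZCid

/-!
# Project GQ, part B3: Poisson lemma, step 2: the kernel
-/

set_option autoImplicit false

noncomputable section

open NumberField Complex UniqueFactorizationMonoid MeasureTheory
open scoped ComplexConjugate ENNReal

namespace Crest.Agent.GQ

variable {K : Type} [Field K] [NumberField K] [P : Pre K] [Q : Rec K]

omit Q in
open Classical in
theorem zpl3_tsum (x : K) (f : R K → ℂ) :
    ∑' k : Lat x, f k = ∑' k : R K, if k ∈ Lat x then f k else 0 := by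
  have := tsum_subtype (Lat x : Set (R K)) f
  refine this.trans (tsum_congr fun k => ?_)
  simp only [Set.indicator, SetLike.mem_coe]

omit Q in
open Classical in
theorem zpl3_summable {ρ : ℝ} (hρ : 0 < ρ) {f : R K → ℂ} {C : ℝ} (hf : ∀ k, ‖f k‖ ≤ C) :
    Summable fun k : R K => if k ∈ Lat (1 : K) then (Gau ρ (k : K) : ℂ) * f k else 0 := by
  have h1 := summable_gau (K := K) (x := 1) one_ne_zero (ρ := fun _ => ρ ^ 2)
    (fun _ => by positivity) 0 0
  simp only [pow_zero, one_mul, add_zero] at h1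
  have h2 : Summable fun k : (Lat (1 : K) : Set (R K)) =>
      (Gau ρ ((k : R K) : K) : ℂ) * f k := by
    refine Summable.of_norm_bounded (h1.mul_right C) fun k => ?_
    have h0 : 0 ≤ Gau ρ ((k : R K) : K) := (Real.exp_pos _).le
    rw [norm_mul, Complex.norm_real, Real.norm_eq_abs, abs_of_nonneg h0]
    exact mul_le_mul_of_nonneg_left (hf _) h0
  have h3 := (summable_subtype_iff_indicator (s := (Lat (1 : K) : Set (R K)))
    (f := fun k : R K => (Gau ρ (k : K) : ℂ) * f k)).1 h2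
  refine h3.congr fun k => ?_
  simp only [Set.indicator, SetLike.mem_coe]

omit Q in
theorem zpl3_conj_pow (n x : R K) {e0 : ℕ} (he0 : e0 = 1 ∨ e0 = 3 ∨ e0 = 5) :
    conj (chi n x ^ e0) = chi n x ^ (6 - e0) := by
  rw [map_pow, conj_chi, ← pow_mul]
  apply ga_chi_pow_mod <;> omega

omit Q in
open Classical in
theorem zpl3_ind {g : R K} (hg : g ≠ 0) (k : R K) {e0 : ℕ} (he0 : e0 = 1 ∨ e0 = 3 ∨ e0 = 5) :
    chi g k ^ e0 * conj (chi g k ^ e0) = if IsCoprime g k then 1 else 0 := by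
  rw [zpl3_conj_pow g k he0, ← pow_add, show e0 + (6 - e0) = 6 by omega, chi_pow_six hg]

omit Q in
/-- the Gauss sum of the product character -/
theorem zpl3_gs {e0 : ℕ} (he0 : e0 = 1 ∨ e0 = 3 ∨ e0 = 5) {s1 s2 : R K} (h1 : Squarefree s1)
    (h2 : Squarefree s2) (hc : IsCoprime s1 s2) (h : R K) :
    gs (fun x => chi s1 x ^ e0 * conj (chi s2 x ^ e0)) (s1 * s2) h =
      (chi s1 s2 ^ e0 * chi s2 s1 ^ (6 - e0) * chi s2 (-1) ^ (6 - e0)) *
        ((Real.sqrt (Nr s1) : ℂ) * (Real.sqrt (Nr s2) : ℂ)) *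
        (g6 e0 s1 * chi s1 h ^ (6 - e0)) * conj (g6 e0 s2 * chi s2 h ^ (6 - e0)) := by
  have e1 : (fun x => chi s1 x ^ e0 * conj (chi s2 x ^ e0)) =
      fun x => (fun x => chi s1 x ^ e0) x * (fun x => chi s2 x ^ (6 - e0)) x := by
    funext x
    rw [zpl3_conj_pow s2 x he0]
  have n1 : (Real.sqrt (Nr s1) : ℂ) ≠ 0 :=
    Complex.ofReal_ne_zero.2 (Real.sqrt_pos.2 (Nr_pos h1.ne_zero)).ne'
  have n2 : (Real.sqrt (Nr s2) : ℂ) ≠ 0 :=
    Complex.ofReal_ne_zero.2 (Real.sqrt_pos.2 (Nr_pos h2.ne_zero)).ne'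
  have g1 : gs (fun x => chi s1 x ^ e0) s1 1 = g6 e0 s1 * (Real.sqrt (Nr s1) : ℂ) := by
    rw [g6, div_mul_cancel₀ _ n1]
  have g2 : gs (fun x => chi s2 x ^ (6 - e0)) s2 1 = g6 (6 - e0) s2 * (Real.sqrt (Nr s2) : ℂ) := by
    rw [g6, div_mul_cancel₀ _ n2]
  rw [e1, gs_mul_coprime h1.ne_zero h2.ne_zero hc (homog_chi_pow s1 e0) (homog_chi_pow s2 (6 - e0)),
    gs_chi_pow h1 (k := e0) (by omega), gs_chi_pow h2 (k := 6 - e0) (by omega), g1, g2,
    zpl3_conj_pow s1 h he0, g6_conj s2 (k := e0) (l := 6 - e0) (by omega) (by omega) (by omega),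
    map_mul]
  ring

omit Q in
theorem zpl3_emb_div (x y : K) (v : Pl K) : emb (x / y) v = emb x v / emb y v := by
  simp only [emb, map_div₀]

omit Q in
open Classical in
/-- Poisson summation over the multiples of `g` -/
theorem zpl3_poisson {ρ : ℝ} (hρ : 0 < ρ) {e : Ideal (R K)} (he : e ≠ ⊥) {s1 s2 : R K}
    (h1 : s1 ≠ 0) (h2 : s2 ≠ 0) (F : R K → ℂ) (hF : ∀ a b, s1 * s2 ∣ a - b → F a = F b)
    (hm : ∀ a b, F (a * b) = F a * F b) :
    (∑' k : R K, if k ∈ Lat (1 : K) then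
        (Gau ρ (k : K) : ℂ) * ((if gen e ∣ k then 1 else 0) * F k) else 0) =
      ((ρ ^ (2 * rr K) / (cov K * NI e) : ℝ) : ℂ) *
        ∑' h : R K, if h ∈ Lat ((s1 : K) * s2 * ((gen e : K) / dl K)) then
          F (gen e) * gs F (s1 * s2) h / ((Nr s1 * Nr s2 : ℝ) : ℂ) * (gw ρ e h s1 s2 : ℂ)
        else 0 := by
  have hg : gen e ≠ 0 := gen_ne_zero he
  have hgK : (gen e : K) ≠ 0 := fl_coe_ne hg
  have hgv : ∀ v, 0 < ‖emb (gen e : K) v‖ := fun v => norm_pos_iff.2 (emb_ne_zero hgK v)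
  have h1v : ∀ v, 0 < ‖emb (s1 : K) v‖ := fun v => norm_pos_iff.2 (emb_ne_zero (fl_coe_ne h1) v)
  have h2v : ∀ v, 0 < ‖emb (s2 : K) v‖ := fun v => norm_pos_iff.2 (emb_ne_zero (fl_coe_ne h2) v)
  set ρ' : Pl K → ℝ := fun v => ρ ^ 2 / ‖emb (gen e : K) v‖ ^ 2 with hρ'
  have hρ'0 : ∀ v, 0 < ρ' v := fun v => by have := hgv v; simp only [hρ']; positivity
  have hP := poisson_per (inv_ne_zero hgK) hρ'0 (mul_ne_zero h1 h2) F hF
  have hinj : Function.Injective fun k : R K => gen e * k := mul_right_injective₀ hg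
  rw [← hinj.tsum_eq]
  swap
  · intro k hk
    by_contra hr
    apply hk
    have : ¬ gen e ∣ k := fun ⟨c, hc⟩ => hr ⟨c, hc.symm⟩
    simp [this]
  have e1 : ∀ k : R K, (if gen e * k ∈ Lat (1 : K) then
      (Gau ρ ((gen e * k : R K) : K) : ℂ) * ((if gen e ∣ gen e * k then 1 else 0) * F (gen e * k))
      else 0) = F (gen e) * if k ∈ Lat (gen e : K)⁻¹ then (gau ρ' (emb (k : K)) : ℂ) * F k
        else 0 := by
    intro k
    have hL : gen e * k ∈ Lat (1 : K) ↔ k ∈ Lat (gen e : K)⁻¹ := by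
      rw [← mem_Lat_mul_iff (x := (gen e : K)⁻¹) hg, mul_inv_cancel₀ hgK]
    have hG : Gau ρ ((gen e * k : R K) : K) = gau ρ' (emb (k : K)) := by
      simp only [Gau, gau, hρ']
      congr 2
      refine Finset.sum_congr rfl fun v _ => ?_
      have := hgv v
      rw [Subring.coe_mul, emb_mul, Pi.mul_apply, norm_mul]
      field_simp
    by_cases hk : k ∈ Lat (gen e : K)⁻¹
    · rw [if_pos (hL.2 hk), if_pos hk, if_pos (dvd_mul_right _ _), hG, hm]; ring
    · rw [if_neg (fun h => hk (hL.1 h)), if_neg hk, mul_zero]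
  simp only [e1]
  rw [tsum_mul_left, ← zpl3_tsum _ (fun k => (gau ρ' (emb (k : K)) : ℂ) * F k), hP,
    zpl3_tsum _ (fun κ => gs F (s1 * s2) κ *
      (gau (fun v => 1 / (4 * ρ' v)) (emb ((κ : K) / ((s1 * s2 : R K) : K))) : ℂ))]
  have eL : ((s1 * s2 : R K) : K) / ((gen e : K)⁻¹ * dl K) = (s1 : K) * s2 * ((gen e : K) / dl K) := by
    rw [Subring.coe_mul, div_eq_mul_inv, mul_inv, inv_inv, div_eq_mul_inv]
  have eC : (∏ v, ρ' v) / (cov K * NS (gen e : K)⁻¹ * Nr (s1 * s2)) =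
      ρ ^ (2 * rr K) / (cov K * NI e) / (Nr s1 * Nr s2) := by
    have a1 : ∏ v, ρ' v = ρ ^ (2 * rr K) / (NI e * NS (gen e : K)) := by
      simp only [hρ']
      rw [Finset.prod_div_distrib, Finset.prod_const, Finset.card_univ, ← pow_mul, ← Nr_gen',
        ← Nm_coe, Nm]
    have := NS_pos hgK
    have := NI_pos he
    have := cov_pos (K := K)
    have := Nr_pos h1
    have := Nr_pos h2
    rw [a1, NS_inv, Nr_mul]
    field_simp
  rw [eL, eC, ← tsum_mul_left, ← tsum_mul_left, ← tsum_mul_left]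
  refine tsum_congr fun h => ?_
  have hG : gau (fun v => 1 / (4 * ρ' v)) (emb ((h : K) / ((s1 * s2 : R K) : K))) =
      gw ρ e h s1 s2 := by
    simp only [gau, gw, hρ']
    congr 1
    rw [neg_mul, neg_inj, mul_comm 4 Real.pi, mul_assoc]
    congr 1
    rw [Finset.mul_sum]
    refine Finset.sum_congr rfl fun v _ => ?_
    have := hgv v
    have := h1v v
    have := h2v v
    rw [zpl3_emb_div, Subring.coe_mul, emb_mul, Pi.mul_apply, norm_div, norm_mul]
    field_simp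
  rw [hG]
  split_ifs
  · push_cast
    ring
  · simp

open Classical in
theorem pl3 (e0 : ℕ) (he0 : e0 = 1 ∨ e0 = 3 ∨ e0 = 5) (j : ℕ) (hj : Rec.k K ≤ j)
    (c1 : K) (hc1 : c1 ≠ 0) : ∃ η : ℂ, ‖η‖ = 1 ∧ ∀ ρ : ℝ, 0 < ρ → ∀ d : Ideal (R K), ∀ s1 s2 : R K,
      s1 ∈ cls j c1 → s2 ∈ cls j c1 → Squarefree (gen d * s1) → Squarefree (gen d * s2) →
      IsCoprime s1 s2 →
        Ker e0 ρ (gen d * s1) (gen d * s2) =
          η * ∑ e ∈ divs d, muR e * ((ρ ^ (2 * rr K) / (cov K * NI e) : ℝ) : ℂ) *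
            ∑' h : R K, if h ∈ Lat (c1 ^ 2 * (gen e : K) / dl K) then
              kb e0 e h s1 * conj (kb e0 e h s2) * (gw ρ e h s1 s2 : ℂ) else 0 := by
  obtain ⟨β, hβ, hfl⟩ := chi_flip (K := K)
  obtain ⟨n0, hn0⟩ := cls_nonempty j hc1
  have hj1 : 1 ≤ j := le_trans Q.hk hj
  have hu : IsUnit (-1 : R K) := isUnit_one.neg
  refine ⟨β c1 c1 ^ e0 * chi n0 (-1) ^ (6 - e0), ?_, ?_⟩
  · rw [norm_mul, norm_pow, norm_pow, hβ, norm_chi (ga_chi_ne (ga_unit_coprime hu n0))]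
    simp
  intro ρ hρ d s1 s2 hs1 hs2 hq1 hq2 hc
  have hg : gen d ≠ 0 := left_ne_zero_of_mul hq1.ne_zero
  have hd : d ≠ ⊥ := by
    rintro rfl
    exact hg (by simp [gen])
  have sq1 : Squarefree s1 := hq1.of_mul_right
  have sq2 : Squarefree s2 := hq2.of_mul_right
  have h1 := sq1.ne_zero
  have h2 := sq2.ne_zero
  set F : R K → ℂ := fun x => chi s1 x ^ e0 * conj (chi s2 x ^ e0) with hF
  have hFper : ∀ a b, s1 * s2 ∣ a - b → F a = F b := by
    intro a b hab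
    simp only [hF]
    rw [chi_congr' ((dvd_mul_right s1 s2).trans hab), chi_congr' ((dvd_mul_left s2 s1).trans hab)]
  have hFm : ∀ a b, F (a * b) = F a * F b := by
    intro a b
    simp only [hF, chi_mul_right, mul_pow, map_mul]
    ring
  have hFn : ∀ k, ‖F k‖ ≤ 1 := by
    intro k
    simp only [hF]
    rw [norm_mul, Complex.norm_conj, norm_pow, norm_pow]
    exact mul_le_one₀ (pow_le_one₀ (norm_nonneg _) (norm_chi_le _ _)) (by positivity)
      (pow_le_one₀ (norm_nonneg _) (norm_chi_le _ _))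
  have e1 : ∀ k : R K, (if k ∈ Lat (1 : K) then
      (Gau ρ (k : K) : ℂ) * chi (gen d * s1) k ^ e0 * conj (chi (gen d * s2) k ^ e0) else 0) =
      ∑ e ∈ divs d, muR e * (if k ∈ Lat (1 : K) then
        (Gau ρ (k : K) : ℂ) * ((if gen e ∣ k then 1 else 0) * F k) else 0) := by
    intro k
    by_cases hk : k ∈ Lat (1 : K)
    · simp only [if_pos hk]
      have a1 := zpl3_ind hg k he0
      rw [← sum_divs_muR_dvd hd] at a1
      rw [chi_mul_left hg h1, chi_mul_left hg h2, mul_pow, mul_pow, map_mul]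
      calc _ = (chi (gen d) k ^ e0 * conj (chi (gen d) k ^ e0)) * ((Gau ρ (k : K) : ℂ) * F k) := by
            simp only [hF]; ring
        _ = _ := by
            rw [a1, Finset.sum_mul]
            refine Finset.sum_congr rfl fun e _ => ?_
            split_ifs <;> simp
    · simp [hk]
  have hL : ∀ e : Ideal (R K), Lat ((s1 : K) * s2 * ((gen e : K) / dl K)) =
      Lat (c1 ^ 2 * (gen e : K) / dl K) := by
    intro e
    rw [mul_div_assoc, pow_two]
    exact b3b_Lat_congr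
      (((InT_of_mem_cls hj1 hc1 hs1).mul (InT_of_mem_cls hj1 hc1 hs2)).mul (InT.refl _))
      (((mem_Lat.1 (mem_Lat_of_mem_cls hs1)).mul (mem_Lat.1 (mem_Lat_of_mem_cls hs2))).mul
        (InT.refl _))
  have hη : chi s1 s2 ^ e0 * chi s2 s1 ^ (6 - e0) * chi s2 (-1) ^ (6 - e0) =
      β c1 c1 ^ e0 * chi n0 (-1) ^ (6 - e0) := by
    rw [hfl j hj c1 c1 hc1 hc1 s2 hs2 s1 hs1, chi_unit_cls hu hj hc1 hs2 hn0, mul_pow,
      mul_assoc (β c1 c1 ^ e0), ← pow_add, show e0 + (6 - e0) = 6 by omega, chi_pow_six h2,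
      if_pos hc.symm, mul_one]
  rw [Ker]
  simp only [e1]
  rw [Summable.tsum_finsetSum, Finset.mul_sum]
  swap
  · intro e _
    refine (zpl3_summable hρ (C := 1) fun k => ?_).mul_left _
    rw [norm_mul]
    refine mul_le_one₀ ?_ (norm_nonneg _) (hFn k)
    split_ifs <;> simp
  refine Finset.sum_congr rfl fun e he => ?_
  have he' : e ≠ ⊥ := ne_zero_of_dvd_ne_zero hd ((mem_divs hd).1 he)
  rw [tsum_mul_left, zpl3_poisson hρ he' h1 h2 F hFper hFm, hL, ← mul_assoc, mul_left_comm,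
    ← tsum_mul_left (a := β c1 c1 ^ e0 * chi n0 (-1) ^ (6 - e0))]
  congr 1
  refine tsum_congr fun h => ?_
  split_ifs
  · rw [hF, zpl3_gs he0 sq1 sq2 hc h, hη]
    have n1 : (Real.sqrt (Nr s1) : ℂ) ≠ 0 :=
      Complex.ofReal_ne_zero.2 (Real.sqrt_pos.2 (Nr_pos h1)).ne'
    have n2 : (Real.sqrt (Nr s2) : ℂ) ≠ 0 :=
      Complex.ofReal_ne_zero.2 (Real.sqrt_pos.2 (Nr_pos h2)).ne'
    have m1 : ((Nr s1 : ℝ) : ℂ) = (Real.sqrt (Nr s1) : ℂ) * (Real.sqrt (Nr s1) : ℂ) := by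
      rw [← Complex.ofReal_mul, Real.mul_self_sqrt (Nr_nonneg _)]
    have m2 : ((Nr s2 : ℝ) : ℂ) = (Real.sqrt (Nr s2) : ℂ) * (Real.sqrt (Nr s2) : ℂ) := by
      rw [← Complex.ofReal_mul, Real.mul_self_sqrt (Nr_nonneg _)]
    simp only [kb, map_mul, map_div₀, Complex.conj_ofReal, Complex.ofReal_mul]
    rw [m1, m2]
    generalize (Real.sqrt (Nr s1) : ℂ) = a at *
    generalize (Real.sqrt (Nr s2) : ℂ) = b at *
    field_simp
  · simp

end Crest.Agent.GQ
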