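import Crest.Agent.GQ.ZPL4b

/-!
# Project GQ, part B3: Poisson lemma, step 3: a fixed greatest common divisor
-/

set_option autoImplicit false

noncomputable section

open NumberField Complex UniqueFactorizationMonoid MeasureTheory
open scoped ComplexConjugate ENNReal

namespace Crest.Agent.GQ

variable {K : Type} [Field K] [NumberField K] [P : Pre K] [Q : Rec K]

omit Q in
theorem pl4_kb_unit (e0 : ℕ) (e : Ideal (R K)) (h : R K) {s : R K} (hs : IsUnit s) :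
    kb e0 e h s = 1 := by
  unfold kb
  rw [g6_unit hs, chi_unit_left hs, chi_unit_left hs, Nr_eq_one.2 hs]
  simp

omit Q in
theorem pl4_kb_zero {e0 : ℕ} (he0 : e0 < 6) (e : Ideal (R K)) {s : R K} (hs0 : s ≠ 0)
    (hs : ¬ IsUnit s) : kb e0 e 0 s = 0 := by
  unfold kb
  rw [(chi_eq_zero hs0).2 (fun h => hs (isCoprime_zero_right.1 h)), zero_pow (by omega)]
  simp

omit Q in
theorem pl4_gw_zero (ρ : ℝ) (e : Ideal (R K)) (s1 s2 : R K) : gw ρ e 0 s1 s2 = 1 := by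
  simp [gw, emb]

open Classical in
/-- The contribution of the dual variable `h = 0`. -/
def pl4V (a : R K → ℂ) (j : ℕ) (c : K) (lam : ℝ) (t ξ : Pl K → ℝ) (d : Ideal (R K)) : ℂ :=
  ∑' p : R K × R K,
    if p.1 ∈ cls j (c / (gen d : K)) ∧ p.2 ∈ cls j (c / (gen d : K)) ∧ IsUnit p.1 ∧ IsUnit p.2 then
      a (gen d * p.1) * conj (a (gen d * p.2)) * pk lam t ξ ((gen d * p.1 : R K) : K) *
        conj (pk lam t ξ ((gen d * p.2 : R K) : K))
    else 0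

omit Q in
theorem pl4_U4_zero {e0 : ℕ} (he0 : e0 < 6) (a : R K → ℂ) (ρ : ℝ) {j : ℕ} (hj : 1 ≤ j) {c : K}
    (hc : c ≠ 0) (lam : ℝ) (t ξ : Pl K → ℝ) {d : Ideal (R K)} (hd : d ≠ ⊥) (e : Ideal (R K)) :
    U4 e0 a ρ j c lam t ξ d e 0 = pl4V a j c lam t ξ d := by
  have hg : (gen d : K) ≠ 0 := fun h => gen_ne_zero hd (Subtype.ext h)
  have hc' : c / (gen d : K) ≠ 0 := div_ne_zero hc hg
  unfold U4 pl4V
  refine tsum_congr fun p => ?_
  by_cases h1 : p.1 ∈ cls j (c / (gen d : K))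
  swap
  · rw [if_neg (fun h => h1 h.1), if_neg (fun h => h1 h.1)]
  by_cases h2 : p.2 ∈ cls j (c / (gen d : K))
  swap
  · rw [if_neg (fun h => h2 h.2.1), if_neg (fun h => h2 h.2.1)]
  by_cases u1 : IsUnit p.1
  swap
  · rw [if_neg (fun h : _ ∧ _ ∧ IsUnit p.1 ∧ IsUnit p.2 => u1 h.2.2.1),
      pl4_kb_zero he0 e (ne_zero_of_mem_cls hj hc' h1) u1]
    simp
  by_cases u2 : IsUnit p.2
  swap
  · rw [if_neg (fun h : _ ∧ _ ∧ IsUnit p.1 ∧ IsUnit p.2 => u2 h.2.2.2),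
      pl4_kb_zero he0 e (ne_zero_of_mem_cls hj hc' h2) u2]
    simp
  have hcop : IsCoprime p.1 p.2 := by
    obtain ⟨u, hu⟩ := u1
    exact ⟨↑u⁻¹, 0, by rw [← hu]; simp⟩
  rw [if_pos ⟨h1, h2, hcop⟩, if_pos ⟨h1, h2, u1, u2⟩, pl4_kb_unit e0 e 0 u1, pl4_kb_unit e0 e 0 u2,
    pl4_gw_zero]
  simp

omit Q in
theorem pl4_V_le {a : R K → ℂ} (ha : ∀ n, ‖a n‖ ≤ 1) (j : ℕ) (c : K) (lam : ℝ) (t ξ : Pl K → ℝ)
    (d : Ideal (R K)) : ‖pl4V a j c lam t ξ d‖ₑ ≤ dg j c lam t ξ d := by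
  unfold pl4V dg
  refine enorm_tsum_le_tsum_enorm.trans (ENNReal.tsum_le_tsum fun p => ?_)
  split_ifs
  · rw [← ofReal_norm]
    refine ENNReal.ofReal_le_ofReal ?_
    rw [norm_mul, norm_mul, norm_mul, Complex.norm_conj, Complex.norm_conj, mul_assoc]
    exact mul_le_of_le_one_left (by positivity) (mul_le_one₀ (ha _) (norm_nonneg _) (ha _))
  · simp

theorem pl4 : ∃ C : ℝ, 0 ≤ C ∧ ∀ e0 : ℕ, (e0 = 1 ∨ e0 = 3 ∨ e0 = 5) → ∀ j : ℕ, Rec.k K ≤ j →
    ∀ lam : ℝ, 0 < lam → ∀ a : R K → ℂ, (∀ n, ‖a n‖ ≤ 1) → (∀ n, a n ≠ 0 → Squarefree n) →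
    ∀ ρ : ℝ, 0 < ρ → ∀ c : K, c ≠ 0 → ∀ (t ξ : Pl K → ℝ) (d : Ideal (R K)), Squarefree d →
      ‖T2 e0 a ρ j c lam t ξ d‖ₑ ≤ ENNReal.ofReal (C * ρ ^ (2 * rr K)) *
        (dg j c lam t ξ d + offd e0 a ρ j c lam t ξ d) := by
  classical
  have hcov := cov_pos (K := K)
  refine ⟨1 / cov K, by positivity, fun e0 he0 j hj lam hlam a ha hsf ρ hρ c hc t ξ d hd => ?_⟩
  have hd0 : d ≠ ⊥ := hd.ne_zero
  have he6 : e0 < 6 := by omega
  obtain ⟨hsum, η, hη, hT⟩ := pl4a e0 he0 j hj lam hlam a ha hsf ρ hρ c hc t ξ d hd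
  have hρ' : 0 < ρ ^ (2 * rr K) := pow_pos hρ _
  set F : Ideal (R K) → R K → ℂ := fun e h =>
    if h ∈ Lat ((c / (gen d : K)) ^ 2 * (gen e : K) / dl K) then
      U4 e0 a ρ j c lam t ξ d e h else 0 with hF
  have h0 : ∀ e ∈ divs d, ∑' h : R K, F e h =
      pl4V a j c lam t ξ d + ∑' h : R K, if h = 0 then 0 else F e h := by
    intro e he
    rw [(hsum e he).tsum_eq_add_tsum_ite 0, if_pos (zero_mem _),
      pl4_U4_zero he6 a ρ (Q.hk.trans hj) hc lam t ξ hd0 e]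
  have hT' : T2 e0 a ρ j c lam t ξ d =
      η * (((1 / cov K * ρ ^ (2 * rr K) : ℝ) : ℂ) * ((∑ e ∈ divs d, muR e / (NI e : ℂ)) *
        pl4V a j c lam t ξ d + ∑ e ∈ divs d, muR e / (NI e : ℂ) *
          ∑' h : R K, if h = 0 then 0 else F e h)) := by
    rw [hT, Finset.sum_mul, ← Finset.sum_add_distrib, Finset.mul_sum (divs d) _ ((_ : ℝ) : ℂ)]
    congr 1
    refine Finset.sum_congr rfl fun e he => ?_
    rw [h0 e he]
    push_cast
    ring
  have e1 : ‖η‖ₑ = 1 := by rw [← ofReal_norm, hη, ENNReal.ofReal_one]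
  have e2 : ‖((1 / cov K * ρ ^ (2 * rr K) : ℝ) : ℂ)‖ₑ =
      ENNReal.ofReal (1 / cov K * ρ ^ (2 * rr K)) := by
    rw [← ofReal_norm, Complex.norm_real, Real.norm_of_nonneg (by positivity)]
  rw [hT', enorm_mul, enorm_mul, e1, e2, one_mul]
  refine mul_le_mul_right ((enorm_add_le _ _).trans (add_le_add ?_ ?_)) _
  · rw [enorm_mul]
    have h1 : ‖∑ e ∈ divs d, muR e / (NI e : ℂ)‖ₑ ≤ 1 := by
      rw [← ofReal_norm, ← ENNReal.ofReal_one]
      exact ENNReal.ofReal_le_ofReal (norm_sum_muR_div_le hd0)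
    exact (mul_le_of_le_one_left (zero_le) h1).trans (pl4_V_le ha j c lam t ξ d)
  · refine (enorm_sum_le _ _).trans ?_
    unfold offd
    rw [ENNReal.tsum_prod']
    refine le_trans (Finset.sum_le_sum fun e he => ?_) (ENNReal.sum_le_tsum (divs d))
    have hed : e ∣ d := (mem_divs hd0).1 he
    have he0' : e ≠ ⊥ := fun h => hd0 (by rw [h] at hed; exact zero_dvd_iff.1 hed)
    have hN := NI_pos he0'
    have h1 : ‖muR e / (NI e : ℂ)‖ₑ ≤ ENNReal.ofReal (NI e)⁻¹ := by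
      rw [← ofReal_norm]
      refine ENNReal.ofReal_le_ofReal ?_
      rw [norm_div, Complex.norm_real, Real.norm_of_nonneg hN.le, ← one_div]
      exact div_le_div_of_nonneg_right (norm_mu_le _) hN.le
    rw [enorm_mul, ENNReal.tsum_prod', ENNReal.tsum_comm]
    refine (mul_le_mul' h1 enorm_tsum_le_tsum_enorm).trans ?_
    rw [← ENNReal.tsum_mul_left]
    refine ENNReal.tsum_le_tsum fun h => ?_
    by_cases hh : h = 0
    · rw [if_pos hh]; simp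
    rw [if_neg hh]
    by_cases hL : h ∈ Lat ((c / (gen d : K)) ^ 2 * (gen e : K) / dl K)
    swap
    · simp only [hF, if_neg hL]; simp
    simp only [hF, if_pos hL]
    refine (mul_le_mul_right
      (pl4b e0 he0 j hj lam hlam a ha hsf ρ hρ c hc t ξ d hd e hed h hh) _).trans ?_
    rw [← ENNReal.tsum_mul_left]
    refine ENNReal.tsum_le_tsum fun f => ?_
    by_cases hf : Squarefree (d * f)
    · rw [if_pos hf, if_pos ⟨hed, hf, hh, hL⟩, ← mul_assoc,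
        ← ENNReal.ofReal_mul (inv_nonneg.2 hN.le)]
      refine le_of_eq ?_
      congr 2
      rw [mul_comm (NI e), ← div_div, div_eq_inv_mul _ (NI e)]
    · rw [if_neg hf]; simp

end Crest.Agent.GQ
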