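import Crest.Agent.GQ.ZPL3

/-!
# Project GQ, part B3: Poisson lemma, step 3a: interchange of summations
-/

set_option autoImplicit false

noncomputable section

open NumberField Complex UniqueFactorizationMonoid MeasureTheory
open scoped ComplexConjugate ENNReal

namespace Crest.Agent.GQ

variable {K : Type} [Field K] [NumberField K] [P : Pre K] [Q : Rec K]

open Classical in
/-- The contribution of one dual variable. -/
def U4 (e0 : ℕ) (a : R K → ℂ) (ρ : ℝ) (j : ℕ) (c : K) (lam : ℝ) (t ξ : Pl K → ℝ)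
    (d e : Ideal (R K)) (h : R K) : ℂ :=
  ∑' p : R K × R K,
    if p.1 ∈ cls j (c / (gen d : K)) ∧ p.2 ∈ cls j (c / (gen d : K)) ∧ IsCoprime p.1 p.2 then
      a (gen d * p.1) * conj (a (gen d * p.2)) * pk lam t ξ ((gen d * p.1 : R K) : K) *
        conj (pk lam t ξ ((gen d * p.2 : R K) : K)) *
        (kb e0 e h p.1 * conj (kb e0 e h p.2) * (gw ρ e h p.1 p.2 : ℂ))
    else 0

theorem pl4a_abs {α β ι : Type} (s : Finset ι) (F : ι → α → β → ℂ)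
    (hF : ∀ e ∈ s, Summable (Function.uncurry (F e))) (η : ℂ) (k : ι → ℂ) :
    ∑' p, η * ∑ e ∈ s, k e * ∑' h, F e p h = η * ∑ e ∈ s, k e * ∑' h, ∑' p, F e p h := by
  have h1 : ∀ e ∈ s, Summable (fun p => k e * ∑' h, F e p h) :=
    fun e he => (hF e he).prod.mul_left (k e)
  rw [tsum_mul_left, Summable.tsum_finsetSum h1]
  congr 1
  refine Finset.sum_congr rfl fun e he => ?_
  rw [tsum_mul_left, (hF e he).tsum_comm]

omit Q in
theorem pl4a_kb (e0 : ℕ) (e : Ideal (R K)) (h : R K) {s : R K} (hs : s ≠ 0) :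
    ‖kb e0 e h s‖ ≤ 1 := by
  have h0 := Nr_pos hs
  have h1 : 0 < Real.sqrt (Nr s) := Real.sqrt_pos.2 h0
  have h2 : ‖gs (fun x => chi s x ^ e0) s 1‖ ≤ Nr s :=
    norm_gs_le hs (fun x => by
      rw [norm_pow]; exact pow_le_one₀ (norm_nonneg _) (norm_chi_le _ _)) 1
  have h3 : ‖chi s (gen e) ^ e0‖ ≤ 1 := by
    rw [norm_pow]; exact pow_le_one₀ (norm_nonneg _) (norm_chi_le _ _)
  have h4 : ‖chi s h ^ (6 - e0)‖ ≤ 1 := by
    rw [norm_pow]; exact pow_le_one₀ (norm_nonneg _) (norm_chi_le _ _)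
  have h5 : ‖g6 e0 s‖ ≤ Real.sqrt (Nr s) := by
    unfold g6
    rw [norm_div, Complex.norm_real, Real.norm_of_nonneg h1.le, div_le_iff₀ h1,
      Real.mul_self_sqrt h0.le]
    exact h2
  unfold kb
  rw [norm_div, Complex.norm_real, Real.norm_of_nonneg h1.le, div_le_one h1, norm_mul, norm_mul]
  calc ‖g6 e0 s‖ * ‖chi s (gen e) ^ e0‖ * ‖chi s h ^ (6 - e0)‖ ≤ Real.sqrt (Nr s) * 1 * 1 := by
        gcongr
    _ = _ := by ring

omit Q in
theorem pl4a_gw (ρ : ℝ) (e : Ideal (R K)) (h s1 s2 : R K) :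
    gw ρ e h s1 s2 = gau (fun v => ‖emb (gen e : K) v‖ ^ 2 * ‖emb (s1 : K) v‖ ^ 2 *
      ‖emb (s2 : K) v‖ ^ 2 / (4 * ρ ^ 2)) (emb (h : K) + 0) := by
  unfold gw gau
  congr 1
  rw [add_zero, neg_mul, Finset.mul_sum, Finset.mul_sum]
  congr 1
  refine Finset.sum_congr rfl fun v _ => ?_
  rw [div_div_eq_mul_div]
  ring

omit Q in
open Classical in
theorem pl4a_hsum {ρ : ℝ} (hρ : 0 < ρ) {e : Ideal (R K)} (he : e ≠ ⊥) {j : ℕ} (hj : 1 ≤ j)
    {c1 : K} (hc1 : c1 ≠ 0) {x : K} (hx : x ≠ 0) : ∃ C : ℝ, 0 ≤ C ∧ ∀ s1 ∈ cls j c1,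
      ∀ s2 ∈ cls j c1, Summable (fun h : R K => if h ∈ Lat x then gw ρ e h s1 s2 else 0) ∧
        (∑' h : R K, if h ∈ Lat x then gw ρ e h s1 s2 else 0) ≤ C * (Nr s1 * Nr s2) := by
  obtain ⟨C, hC⟩ := tsum_gau_le (K := K)
  have hg : (gen e : K) ≠ 0 := fun h => gen_ne_zero he (Subtype.ext h)
  obtain ⟨L, hL⟩ : ∃ L : ℝ, L = Nm (gen e : K) * NS c1 * NS c1 / (4 * ρ ^ 2) ^ rr K / NS x :=
    ⟨_, rfl⟩
  have hL0 : 0 ≤ L := by
    have := Nm_pos hg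
    have := NS_pos hc1
    have := NS_pos hx
    rw [hL]; positivity
  refine ⟨|C| * (1 + L), by positivity, fun s1 h1 s2 h2 => ?_⟩
  have n1 := ne_zero_of_mem_cls hj hc1 h1
  have n2 := ne_zero_of_mem_cls hj hc1 h2
  have k1 : (s1 : K) ≠ 0 := fun h => n1 (Subtype.ext h)
  have k2 : (s2 : K) ≠ 0 := fun h => n2 (Subtype.ext h)
  obtain ⟨r, hr⟩ : ∃ r : Pl K → ℝ, r = fun v => ‖emb (gen e : K) v‖ ^ 2 * ‖emb (s1 : K) v‖ ^ 2 *
      ‖emb (s2 : K) v‖ ^ 2 / (4 * ρ ^ 2) := ⟨_, rfl⟩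
  have hr0 : ∀ v, 0 < r v := fun v => by
    have := norm_pos_iff.2 (emb_ne_zero hg v)
    have := norm_pos_iff.2 (emb_ne_zero k1 v)
    have := norm_pos_iff.2 (emb_ne_zero k2 v)
    rw [hr]; positivity
  have e1 : (fun h : R K => if h ∈ Lat x then gw ρ e h s1 s2 else 0) =
      (Lat x : Set (R K)).indicator (fun h => gau r (emb (h : K) + 0)) := by
    funext h
    rw [pl4a_gw, ← hr, Set.indicator_apply]
    rfl
  have e2 : (∏ v, r v) / NS x = L * (Nr s1 * Nr s2) := by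
    have : ∏ v, r v = Nm (gen e : K) * Nm (s1 : K) * Nm (s2 : K) / (4 * ρ ^ 2) ^ rr K := by
      rw [hr]
      simp only [Finset.prod_div_distrib, Finset.prod_mul_distrib, Finset.prod_const,
        Finset.card_univ, Nm, mul_pow]
    rw [this, Nm_coe s1, Nm_coe s2, NS_cls hj hc1 h1, NS_cls hj hc1 h2, hL]
    ring
  have b1 : 1 ≤ Nr s1 * Nr s2 := one_le_mul_of_one_le_of_one_le (one_le_Nr n1) (one_le_Nr n2)
  rw [e1]
  refine ⟨summable_subtype_iff_indicator.1 ?_, ?_⟩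
  · have := summable_gau hx hr0 0 0
    simp only [pow_zero, one_mul] at this
    exact this
  · rw [← tsum_subtype]
    refine (hC x hx r hr0 0).trans ?_
    rw [e2]
    calc C * (1 + L * (Nr s1 * Nr s2)) ≤ |C| * (1 + L * (Nr s1 * Nr s2)) := by
          gcongr; exact le_abs_self C
      _ ≤ |C| * (Nr s1 * Nr s2 + L * (Nr s1 * Nr s2)) := by gcongr
      _ = _ := by ring

theorem pl4a_abs2 {α β : Type} {u : α → ℝ} {G : α → α → β → ℝ} {C : ℝ} (hu : Summable u)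
    (hu0 : ∀ n, 0 ≤ u n) (hG0 : ∀ s1 s2 h, 0 ≤ G s1 s2 h)
    (hG : ∀ s1 s2, Summable (G s1 s2) ∧ ∑' h, G s1 s2 h ≤ C * (u s1 * u s2)) :
    Summable (fun q : (α × α) × β => G q.1.1 q.1.2 q.2) := by
  have huu := (hu.mul_of_nonneg hu hu0 hu0).mul_left C
  refine (summable_prod_of_nonneg fun q => hG0 _ _ _).2 ⟨fun p => (hG p.1 p.2).1, ?_⟩
  exact Summable.of_nonneg_of_le (fun p => tsum_nonneg fun h => hG0 _ _ _)
    (fun p => (hG p.1 p.2).2) huu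

omit Q in
open Classical in
theorem pl4a_maj {ρ : ℝ} (hρ : 0 < ρ) {e : Ideal (R K)} (he : e ≠ ⊥) {j : ℕ} (hj : 1 ≤ j)
    {c1 : K} (hc1 : c1 ≠ 0) {x : K} (hx : x ≠ 0) {lam : ℝ} (hlam : 0 < lam) (t ξ : Pl K → ℝ) :
    Summable (fun q : (R K × R K) × R K =>
      (if q.1.1 ∈ cls j c1 ∧ q.1.2 ∈ cls j c1 then
        ‖pk lam t ξ (q.1.1 : K)‖ * ‖pk lam t ξ (q.1.2 : K)‖ else 0) *
      (if q.2 ∈ Lat x then gw ρ e q.2 q.1.1 q.1.2 else 0)) := by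
  obtain ⟨C, hC0, hC⟩ := pl4a_hsum hρ he hj hc1 hx
  have hgw : ∀ h s1 s2 : R K, 0 ≤ (if h ∈ Lat x then gw ρ e h s1 s2 else 0) := fun h s1 s2 => by
    split_ifs
    · exact (Real.exp_pos _).le
    · exact le_rfl
  have hw : ∀ s1 s2 : R K, 0 ≤ (if s1 ∈ cls j c1 ∧ s2 ∈ cls j c1 then
      ‖pk lam t ξ (s1 : K)‖ * ‖pk lam t ξ (s2 : K)‖ else 0) := fun s1 s2 => by
    split_ifs
    · positivity
    · exact le_rfl
  have hu0 : ∀ n : R K, 0 ≤ (if n ∈ cls j c1 then Nr n * ‖pk lam t ξ (n : K)‖ else 0) :=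
    fun n => by
      split_ifs
      · exact mul_nonneg (Nr_nonneg _) (norm_nonneg _)
      · exact le_rfl
  have hu : Summable (fun n : R K => if n ∈ cls j c1 then Nr n * ‖pk lam t ξ (n : K)‖ else 0) := by
    have := summable_pk hlam 1 hc1 t ξ
    refine Summable.of_nonneg_of_le hu0 (fun n => ?_) this
    by_cases hn : n ∈ cls j c1
    · rw [if_pos hn, if_pos ⟨mem_Lat_of_mem_cls hn, ne_zero_of_mem_cls hj hc1 hn⟩, Real.rpow_one]
    · rw [if_neg hn]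
      exact pk_nonneg _ _ _ _ _ _
  refine pl4a_abs2 (C := C) (G := fun s1 s2 h => (if s1 ∈ cls j c1 ∧ s2 ∈ cls j c1 then
      ‖pk lam t ξ (s1 : K)‖ * ‖pk lam t ξ (s2 : K)‖ else 0) *
      (if h ∈ Lat x then gw ρ e h s1 s2 else 0)) hu hu0
    (fun s1 s2 h => mul_nonneg (hw s1 s2) (hgw h s1 s2)) fun s1 s2 => ?_
  by_cases hp : s1 ∈ cls j c1 ∧ s2 ∈ cls j c1
  · refine ⟨(hC _ hp.1 _ hp.2).1.mul_left _, ?_⟩
    rw [tsum_mul_left, if_pos hp, if_pos hp.1, if_pos hp.2]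
    refine (mul_le_mul_of_nonneg_left (hC _ hp.1 _ hp.2).2 (by positivity)).trans_eq ?_
    ring
  · simp only [if_neg hp, zero_mul, tsum_zero]
    exact ⟨summable_zero, mul_nonneg hC0 (mul_nonneg (hu0 _) (hu0 _))⟩

open Classical in
/-- The summand of the double series. -/
def pl4a_F (e0 : ℕ) (a : R K → ℂ) (ρ : ℝ) (j : ℕ) (c : K) (lam : ℝ) (t ξ : Pl K → ℝ)
    (d e : Ideal (R K)) (p : R K × R K) (h : R K) : ℂ :=
  if h ∈ Lat ((c / (gen d : K)) ^ 2 * (gen e : K) / dl K) then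
    (if p.1 ∈ cls j (c / (gen d : K)) ∧ p.2 ∈ cls j (c / (gen d : K)) ∧ IsCoprime p.1 p.2 then
      a (gen d * p.1) * conj (a (gen d * p.2)) * pk lam t ξ ((gen d * p.1 : R K) : K) *
        conj (pk lam t ξ ((gen d * p.2 : R K) : K)) *
        (kb e0 e h p.1 * conj (kb e0 e h p.2) * (gw ρ e h p.1 p.2 : ℂ))
    else 0) else 0

omit Q in
theorem pl4a_pk (lam : ℝ) (t ξ : Pl K → ℝ) {g s : R K} (hg : g ≠ 0) (hs : s ≠ 0) :
    ‖pk lam t ξ ((g * s : R K) : K)‖ = ‖pk lam (t - lg (g : K)) ξ (s : K)‖ := by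
  have h1 : (g : K) ≠ 0 := fun h => hg (Subtype.ext h)
  have h2 : (s : K) ≠ 0 := fun h => hs (Subtype.ext h)
  rw [show ((g * s : R K) : K) = (g : K) * (s : K) from rfl, pk_mul lam t ξ h1 h2, norm_mul,
    Complex.norm_exp_I_mul_ofReal, one_mul]

omit Q in
theorem pl4a_summ (e0 : ℕ) {j : ℕ} (hj : 1 ≤ j) {lam : ℝ} (hlam : 0 < lam) {a : R K → ℂ}
    (ha : ∀ n, ‖a n‖ ≤ 1) {ρ : ℝ} (hρ : 0 < ρ) {c : K} (hc : c ≠ 0) (t ξ : Pl K → ℝ)
    {d e : Ideal (R K)} (hd : d ≠ ⊥) (he : e ≠ ⊥) :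
    Summable (Function.uncurry (pl4a_F e0 a ρ j c lam t ξ d e)) := by
  classical
  have hg := gen_ne_zero hd
  have hg' : (gen d : K) ≠ 0 := fun h => hg (Subtype.ext h)
  have he' : (gen e : K) ≠ 0 := fun h => gen_ne_zero he (Subtype.ext h)
  have hc1 : c / (gen d : K) ≠ 0 := div_ne_zero hc hg'
  have hx : (c / (gen d : K)) ^ 2 * (gen e : K) / dl K ≠ 0 :=
    div_ne_zero (mul_ne_zero (pow_ne_zero _ hc1) he') dl_ne_zero
  refine Summable.of_norm_bounded (pl4a_maj hρ he hj hc1 hx hlam (t - lg (gen d : K)) ξ)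
    fun q => ?_
  obtain ⟨p, h⟩ := q
  simp only [Function.uncurry, pl4a_F]
  by_cases hh : h ∈ Lat ((c / (gen d : K)) ^ 2 * (gen e : K) / dl K)
  swap
  · simp only [if_neg hh, norm_zero, mul_zero, le_refl]
  rw [if_pos hh, if_pos hh]
  have hgw : 0 ≤ gw ρ e h p.1 p.2 := (Real.exp_pos _).le
  by_cases hp : p.1 ∈ cls j (c / (gen d : K)) ∧ p.2 ∈ cls j (c / (gen d : K)) ∧ IsCoprime p.1 p.2
  swap
  · rw [if_neg hp, norm_zero]
    refine mul_nonneg ?_ hgw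
    split_ifs
    · positivity
    · exact le_rfl
  have n1 := ne_zero_of_mem_cls hj hc1 hp.1
  have n2 := ne_zero_of_mem_cls hj hc1 hp.2.1
  rw [if_pos hp, if_pos ⟨hp.1, hp.2.1⟩]
  simp only [norm_mul, RCLike.norm_conj, Complex.norm_real, Real.norm_of_nonneg hgw]
  rw [pl4a_pk lam t ξ hg n1, pl4a_pk lam t ξ hg n2]
  have a1 := ha (gen d * p.1)
  have a2 := ha (gen d * p.2)
  have k1 := pl4a_kb e0 e h n1
  have k2 := pl4a_kb e0 e h n2
  calc _ ≤ 1 * 1 * ‖pk lam (t - lg (gen d : K)) ξ (p.1 : K)‖ *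
        ‖pk lam (t - lg (gen d : K)) ξ (p.2 : K)‖ * (1 * 1 * gw ρ e h p.1 p.2) := by gcongr
    _ = _ := by ring

omit Q in
open Classical in
theorem pl4a_U4 (e0 : ℕ) (a : R K → ℂ) (ρ : ℝ) (j : ℕ) (c : K) (lam : ℝ) (t ξ : Pl K → ℝ)
    (d e : Ideal (R K)) (h : R K) :
    ∑' p, pl4a_F e0 a ρ j c lam t ξ d e p h =
      if h ∈ Lat ((c / (gen d : K)) ^ 2 * (gen e : K) / dl K) then
        U4 e0 a ρ j c lam t ξ d e h else 0 := by
  unfold pl4a_F U4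
  split_ifs
  · rfl
  · exact tsum_zero

open Classical in
theorem pl4a (e0 : ℕ) (he0 : e0 = 1 ∨ e0 = 3 ∨ e0 = 5) (j : ℕ) (hj : Rec.k K ≤ j) (lam : ℝ)
    (hlam : 0 < lam) (a : R K → ℂ) (ha : ∀ n, ‖a n‖ ≤ 1) (hsf : ∀ n, a n ≠ 0 → Squarefree n)
    (ρ : ℝ) (hρ : 0 < ρ) (c : K) (hc : c ≠ 0) (t ξ : Pl K → ℝ) (d : Ideal (R K))
    (hd : Squarefree d) :
    (∀ e ∈ divs d, Summable (fun h : R K => if h ∈ Lat ((c / (gen d : K)) ^ 2 * (gen e : K) / dl K)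
      then U4 e0 a ρ j c lam t ξ d e h else 0)) ∧
    ∃ η : ℂ, ‖η‖ = 1 ∧ T2 e0 a ρ j c lam t ξ d =
      η * ∑ e ∈ divs d, muR e * ((ρ ^ (2 * rr K) / (cov K * NI e) : ℝ) : ℂ) *
        ∑' h : R K, if h ∈ Lat ((c / (gen d : K)) ^ 2 * (gen e : K) / dl K) then
          U4 e0 a ρ j c lam t ξ d e h else 0 := by
  have hj1 : 1 ≤ j := Q.hk.trans hj
  have hd0 : d ≠ ⊥ := hd.ne_zero
  have hg' : (gen d : K) ≠ 0 := fun h => gen_ne_zero hd0 (Subtype.ext h)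
  have hc1 : c / (gen d : K) ≠ 0 := div_ne_zero hc hg'
  have hs : ∀ e ∈ divs d, Summable (Function.uncurry (pl4a_F e0 a ρ j c lam t ξ d e)) :=
    fun e he => pl4a_summ e0 hj1 hlam ha hρ hc t ξ hd0
      (ne_zero_of_dvd_ne_zero hd0 ((mem_divs hd0).1 he))
  refine ⟨fun e he => ?_, ?_⟩
  · simp only [← pl4a_U4]
    exact (hs e he).prod_symm.prod
  obtain ⟨η, hη, H⟩ := pl3 e0 he0 j hj (c / (gen d : K)) hc1
  refine ⟨η, hη, ?_⟩
  simp only [← pl4a_U4]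
  rw [← pl4a_abs _ _ hs]
  unfold T2
  refine tsum_congr fun p => ?_
  by_cases hp : p.1 ∈ cls j (c / (gen d : K)) ∧ p.2 ∈ cls j (c / (gen d : K)) ∧ IsCoprime p.1 p.2
  swap
  · simp only [pl4a_F, if_neg hp, ite_self, tsum_zero, mul_zero, Finset.sum_const_zero]
  simp only [pl4a_F, if_pos hp]
  by_cases a1 : a (gen d * p.1) = 0
  · simp only [a1, zero_mul, ite_self, tsum_zero, mul_zero, Finset.sum_const_zero]
  by_cases a2 : a (gen d * p.2) = 0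
  · simp only [a2, map_zero, zero_mul, ite_self, tsum_zero, mul_zero, Finset.sum_const_zero]
  rw [H ρ hρ d p.1 p.2 hp.1 hp.2.1 (hsf _ a1) (hsf _ a2) hp.2.2, mul_left_comm, Finset.mul_sum]
  congr 1
  refine Finset.sum_congr rfl fun e _ => ?_
  rw [mul_left_comm, ← tsum_mul_left]
  congr 1
  refine tsum_congr fun h => ?_
  rw [mul_ite, mul_zero]

end Crest.Agent.GQ
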