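import Crest.Agent.GQ.ZCid
import Crest.Agent.GQ.ZPL4a

/-!
# Project GQ, part B3: Poisson lemma, step 3b: removal of the coprimality condition
-/

set_option autoImplicit false

noncomputable section

open NumberField Complex UniqueFactorizationMonoid MeasureTheory
open scoped ComplexConjugate ENNReal

namespace Crest.Agent.GQ

variable {K : Type} [Field K] [NumberField K] [P : Pre K] [Q : Rec K]

omit Q in
theorem pl4b_norm_kb (e0 : ℕ) (e : Ideal (R K)) (h : R K) {s : R K} (hs : s ≠ 0) :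
    ‖kb e0 e h s‖ ≤ 1 := by
  have hN := Nr_pos hs
  have hq : 0 < Real.sqrt (Nr s) := Real.sqrt_pos.2 hN
  have h1 : ‖gs (fun x => chi s x ^ e0) s 1‖ ≤ Nr s :=
    norm_gs_le hs (fun x => by
      rw [norm_pow]; exact pow_le_one₀ (norm_nonneg _) (norm_chi_le _ _)) 1
  have h2 : ‖chi s (gen e) ^ e0‖ ≤ 1 := by
    rw [norm_pow]; exact pow_le_one₀ (norm_nonneg _) (norm_chi_le _ _)
  have h3 : ‖chi s h ^ (6 - e0)‖ ≤ 1 := by
    rw [norm_pow]; exact pow_le_one₀ (norm_nonneg _) (norm_chi_le _ _)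
  unfold kb g6
  rw [norm_div, norm_mul, norm_mul, norm_div, Complex.norm_real, Real.norm_eq_abs, abs_of_pos hq,
    div_le_one hq]
  have h4 : ‖gs (fun x => chi s x ^ e0) s 1‖ / Real.sqrt (Nr s) ≤ Real.sqrt (Nr s) := by
    rw [div_le_iff₀ hq, Real.mul_self_sqrt hN.le]; exact h1
  calc _ ≤ Real.sqrt (Nr s) * 1 * 1 := by gcongr
    _ = _ := by ring

omit Q in
theorem pl4b_gw (ρ : ℝ) (e : Ideal (R K)) (h s1 s2 : R K) :
    0 ≤ gw ρ e h s1 s2 ∧ gw ρ e h s1 s2 ≤ 1 := by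
  unfold gw
  refine ⟨(Real.exp_pos _).le, Real.exp_le_one_iff.2 (neg_nonpos.2 ?_)⟩
  have := Real.pi_pos
  positivity

omit Q in
theorem pl4b_sqrt {j : ℕ} (hj : 1 ≤ j) {c : K} (hc : c ≠ 0) {s : R K} (hs : s ∈ cls j c) :
    Real.sqrt (Nr s) = Real.exp (∑ v, lg (s : K) v) / Real.sqrt (NS c) := by
  have hs0 : s ≠ 0 := ne_zero_of_mem_cls hj hc hs
  have hs0' : (s : K) ≠ 0 := fun h => hs0 (Subtype.ext h)
  have h1 := Nm_coe s
  rw [NS_cls hj hc hs, Nm_eq_exp hs0'] at h1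
  have hN := NS_pos hc
  rw [eq_div_iff (Real.sqrt_pos.2 hN).ne', ← Real.sqrt_mul (Nr_nonneg s), ← h1, two_mul,
    Real.exp_add, Real.sqrt_mul_self (Real.exp_pos _).le]

omit Q in
theorem pl4b_real {j : ℕ} (hj : 1 ≤ j) {c : K} (hc : c ≠ 0) {ρ : ℝ} (hρ : 0 < ρ)
    {e f : Ideal (R K)} (he : gen e ≠ 0) (hf : gen f ≠ 0) {h : R K} (hh : h ≠ 0) {q1 q2 : R K}
    (h1 : gen f * q1 ∈ cls j c) (h2 : gen f * q2 ∈ cls j c) :
    (Real.sqrt (Nr (gen f * q1)))⁻¹ * (Real.sqrt (Nr (gen f * q2)))⁻¹ *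
        gw ρ e h (gen f * q1) (gen f * q2) =
      NS c / Nm (gen f : K) * Real.exp (-(∑ v, (lg (q1 : K) v + lg (q2 : K) v)) -
        Real.pi * ∑ v, Real.exp (2 * (xv ρ h e f v - lg (q1 : K) v - lg (q2 : K) v))) := by
  have hq1 : q1 ≠ 0 := right_ne_zero_of_mul (ne_zero_of_mem_cls hj hc h1)
  have hq2 : q2 ≠ 0 := right_ne_zero_of_mul (ne_zero_of_mem_cls hj hc h2)
  have hq1' : (q1 : K) ≠ 0 := fun h => hq1 (Subtype.ext h)
  have hq2' : (q2 : K) ≠ 0 := fun h => hq2 (Subtype.ext h)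
  have hf' : (gen f : K) ≠ 0 := fun h => hf (Subtype.ext h)
  have he' : (gen e : K) ≠ 0 := fun h => he (Subtype.ext h)
  have hh' : (h : K) ≠ 0 := fun h' => hh (Subtype.ext h')
  have hN := NS_pos hc
  have hex : ∀ (x : K), x ≠ 0 → ∀ v, ‖emb x v‖ = Real.exp (lg x v) := fun x hx v => by
    unfold lg
    rw [Real.exp_log (norm_pos_iff.2 (emb_ne_zero hx v))]
  have hg : gw ρ e h (gen f * q1) (gen f * q2) = Real.exp (-(Real.pi *
      ∑ v, Real.exp (2 * (xv ρ h e f v - lg (q1 : K) v - lg (q2 : K) v)))) := by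
    unfold gw
    congr 2
    rw [mul_comm 4, mul_assoc, Finset.mul_sum]
    congr 1
    refine Finset.sum_congr rfl fun v _ => ?_
    push_cast
    rw [hex _ hh', hex _ he', hex _ (mul_ne_zero hf' hq1'), hex _ (mul_ne_zero hf' hq2'),
      lg_mul hf' hq1', lg_mul hf' hq2']
    simp only [xv, Pi.add_apply]
    have e4 : (4 : ℝ) * ρ ^ 2 = Real.exp (Real.log (2 * ρ)) ^ 2 := by
      rw [Real.exp_log (by positivity)]; ring
    rw [← mul_div_assoc, ← mul_assoc, e4]
    simp only [← Real.exp_nat_mul, ← Real.exp_add, ← Real.exp_sub]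
    congr 1
    push_cast
    ring
  rw [hg, pl4b_sqrt hj hc h1, pl4b_sqrt hj hc h2, Nm_eq_exp hf']
  push_cast
  rw [lg_mul hf' hq1', lg_mul hf' hq2']
  simp only [Pi.add_apply, Finset.sum_add_distrib]
  have hs := Real.mul_self_sqrt hN.le
  rw [inv_div, inv_div, div_mul_div_comm, hs, sub_eq_add_neg, Real.exp_add (-(_ + _)),
    ← mul_assoc]
  congr 1
  rw [← Real.exp_add, div_eq_mul_inv, div_eq_mul_inv, mul_assoc, ← Real.exp_neg, ← Real.exp_neg,
    ← Real.exp_add]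
  congr 2
  ring

open Classical in
/-- The summand without the coprimality condition. -/
def pl4bW (e0 : ℕ) (a : R K → ℂ) (ρ : ℝ) (j : ℕ) (c : K) (lam : ℝ) (t ξ : Pl K → ℝ)
    (d e : Ideal (R K)) (h : R K) (p : R K × R K) : ℂ :=
  if p.1 ∈ cls j (c / (gen d : K)) ∧ p.2 ∈ cls j (c / (gen d : K)) then
    a (gen d * p.1) * conj (a (gen d * p.2)) * pk lam t ξ ((gen d * p.1 : R K) : K) *
      conj (pk lam t ξ ((gen d * p.2 : R K) : K)) *
      (kb e0 e h p.1 * conj (kb e0 e h p.2) * (gw ρ e h p.1 p.2 : ℂ))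
  else 0

open Classical in
theorem pl4b_inner (e0 : ℕ) (j : ℕ) (hj : Rec.k K ≤ j) (lam : ℝ) (a : R K → ℂ)
    (ρ : ℝ) (hρ : 0 < ρ) (c : K) (hc : c ≠ 0) (t ξ : Pl K → ℝ) (d : Ideal (R K))
    (hd : gen d ≠ 0) (e : Ideal (R K)) (he : gen e ≠ 0) (h : R K) (hh : h ≠ 0)
    (f : Ideal (R K)) (hf : gen f ≠ 0) :
    ∑' q : R K × R K, pl4bW e0 a ρ j c lam t ξ d e h (gen f * q.1, gen f * q.2) =
      ((NS (c / (gen d : K)) / Nm (gen f : K) : ℝ) : ℂ) *
        bil (dualF e0 a d e f (Ideal.span {h})) j (c / ((gen d : K) * (gen f : K)))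
          lam (t - lg ((gen d : K) * (gen f : K))) ξ (xv ρ h e f) := by
  have hj1 : 1 ≤ j := (Rec.hk (K := K)).trans hj
  have hd' : (gen d : K) ≠ 0 := fun h => hd (Subtype.ext h)
  have hf' : (gen f : K) ≠ 0 := fun h => hf (Subtype.ext h)
  have he' : (gen e : K) ≠ 0 := fun h => he (Subtype.ext h)
  have hh' : (h : K) ≠ 0 := fun h' => hh (Subtype.ext h')
  have hc' : c / (gen d : K) ≠ 0 := div_ne_zero hc hd'
  obtain ⟨β, hβ, hflip⟩ := chi_flip (K := K)
  set γ : ℂ := β (gen e : K) (c / (gen d : K)) ^ e0 * β (h : K) (c / (gen d : K)) ^ (6 - e0)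
    with hγ
  have hγ1 : γ * conj γ = 1 := fl_mul_conj (by rw [hγ, norm_mul, norm_pow, norm_pow, hβ, hβ]; simp)
  set φ : ℂ := Complex.exp (I * (∑ v, ξ v * lg ((gen d : K) * (gen f : K)) v : ℝ)) with hφ
  have hφ1 : φ * conj φ = 1 := fl_mul_conj (by rw [hφ, mul_comm, Complex.norm_exp_ofReal_mul_I])
  have hkb : ∀ q : R K, gen f * q ∈ cls j (c / (gen d : K)) →
      a (gen d * (gen f * q)) * kb e0 e h (gen f * q) =
        γ * dualF e0 a d e f (Ideal.span {h}) q * ((Real.sqrt (Nr (gen f * q)))⁻¹ : ℝ) := by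
    intro q hq
    unfold kb dualF
    rw [hflip j hj _ _ he' hc' (gen e) (self_mem_cls j _) _ hq,
      hflip j hj _ _ hh' hc' h (self_mem_cls j _) _ hq, chiI_span, hγ]
    unfold chiI
    push_cast
    ring
  have hpk : ∀ q : R K, q ≠ 0 → pk lam t ξ ((gen d * (gen f * q) : R K) : K) =
      φ * pk lam (t - lg ((gen d : K) * (gen f : K))) ξ (q : K) := by
    intro q hq
    have hq' : (q : K) ≠ 0 := fun h => hq (Subtype.ext h)
    rw [← pk_mul lam t ξ (mul_ne_zero hd' hf') hq']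
    push_cast
    rw [mul_assoc]
  unfold bil
  rw [← tsum_mul_left]
  refine tsum_congr fun q => ?_
  unfold pl4bW
  have e1 : ∀ n : R K, n ∈ cls j (c / ((gen d : K) * (gen f : K))) ↔
      gen f * n ∈ cls j (c / (gen d : K)) := fun n => by rw [mul_mem_cls_iff hf, div_div]
  simp only [e1]
  split_ifs with hq
  · obtain ⟨h1, h2⟩ := hq
    have hq1 : q.1 ≠ 0 := right_ne_zero_of_mul (ne_zero_of_mem_cls hj1 hc' h1)
    have hq2 : q.2 ≠ 0 := right_ne_zero_of_mul (ne_zero_of_mem_cls hj1 hc' h2)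
    have hr := pl4b_real hj1 hc' hρ he hf hh h1 h2
    have hr' := congrArg (fun x : ℝ => (x : ℂ)) hr
    simp only [Complex.ofReal_mul] at hr'
    have k1 := hkb q.1 h1
    have k2 := congrArg conj (hkb q.2 h2)
    simp only [map_mul, Complex.conj_ofReal] at k2
    rw [hpk q.1 hq1, hpk q.2 hq2, map_mul]
    set A1 := a (gen d * (gen f * q.1))
    set A2 := conj (a (gen d * (gen f * q.2)))
    set K1 := kb e0 e h (gen f * q.1)
    set K2 := conj (kb e0 e h (gen f * q.2))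
    set P1 := pk lam (t - lg ((gen d : K) * (gen f : K))) ξ (q.1 : K)
    set P2 := conj (pk lam (t - lg ((gen d : K) * (gen f : K))) ξ (q.2 : K))
    set D1 := dualF e0 a d e f (Ideal.span {h}) q.1
    set D2 := conj (dualF e0 a d e f (Ideal.span {h}) q.2)
    set G : ℂ := ((gw ρ e h (gen f * q.1) (gen f * q.2) : ℝ) : ℂ)
    set S1 : ℂ := (((Real.sqrt (Nr (gen f * q.1)))⁻¹ : ℝ) : ℂ)
    set S2 : ℂ := (((Real.sqrt (Nr (gen f * q.2)))⁻¹ : ℝ) : ℂ)
    calc A1 * A2 * (φ * P1) * (conj φ * P2) * (K1 * K2 * G)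
        = (A1 * K1) * (A2 * K2) * (φ * conj φ) * P1 * P2 * G := by ring
      _ = (γ * conj γ) * D1 * D2 * P1 * P2 * (S1 * S2 * G) := by rw [k1, k2, hφ1]; ring
      _ = _ := by rw [hγ1, hr']; ring
  · simp

omit Q in
open Classical in
theorem pl4b_normW (e0 : ℕ) {j : ℕ} (hj : 1 ≤ j) (lam : ℝ) {a : R K → ℂ} (ha : ∀ n, ‖a n‖ ≤ 1)
    (ρ : ℝ) {c : K} (hc : c ≠ 0) (t ξ : Pl K → ℝ) {d : Ideal (R K)}
    (hd : gen d ≠ 0) (e : Ideal (R K)) (h : R K) (p : R K × R K) :
    ‖pl4bW e0 a ρ j c lam t ξ d e h p‖ ≤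
      (if p.1 ∈ cls j (c / (gen d : K)) then ‖pk lam (t - lg (gen d : K)) ξ (p.1 : K)‖ else 0) *
      (if p.2 ∈ cls j (c / (gen d : K)) then ‖pk lam (t - lg (gen d : K)) ξ (p.2 : K)‖ else 0) := by
  have hd' : (gen d : K) ≠ 0 := fun h => hd (Subtype.ext h)
  have hc' : c / (gen d : K) ≠ 0 := div_ne_zero hc hd'
  have hpk : ∀ q : R K, q ≠ 0 → ‖pk lam t ξ ((gen d * q : R K) : K)‖ =
      ‖pk lam (t - lg (gen d : K)) ξ (q : K)‖ := by
    intro q hq
    have hq' : (q : K) ≠ 0 := fun h => hq (Subtype.ext h)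
    push_cast
    rw [pk_mul lam t ξ hd' hq', norm_mul, mul_comm I, Complex.norm_exp_ofReal_mul_I, one_mul]
  unfold pl4bW
  by_cases hp : p.1 ∈ cls j (c / (gen d : K)) ∧ p.2 ∈ cls j (c / (gen d : K))
  · rw [if_pos hp, if_pos hp.1, if_pos hp.2]
    have h1 := ne_zero_of_mem_cls hj hc' hp.1
    have h2 := ne_zero_of_mem_cls hj hc' hp.2
    simp only [norm_mul, Complex.norm_conj]
    rw [hpk _ h1, hpk _ h2, Complex.norm_real, Real.norm_eq_abs, abs_of_nonneg (pl4b_gw _ _ _ _ _).1]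
    have k1 := pl4b_norm_kb e0 e h h1
    have k2 := pl4b_norm_kb e0 e h h2
    obtain ⟨k3, k4⟩ := pl4b_gw ρ e h p.1 p.2
    have a1 := ha (gen d * p.1)
    have a2 := ha (gen d * p.2)
    calc _ ≤ 1 * 1 * ‖pk lam (t - lg (gen d : K)) ξ (p.1 : K)‖ *
          ‖pk lam (t - lg (gen d : K)) ξ (p.2 : K)‖ * (1 * 1 * 1) := by
          gcongr
      _ = _ := by ring
  · rw [if_neg hp, norm_zero]
    refine mul_nonneg ?_ ?_ <;> split_ifs <;> simp

open Classical in
theorem pl4b (e0 : ℕ) (he0 : e0 = 1 ∨ e0 = 3 ∨ e0 = 5) (j : ℕ) (hj : Rec.k K ≤ j) (lam : ℝ)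
    (hlam : 0 < lam) (a : R K → ℂ) (ha : ∀ n, ‖a n‖ ≤ 1) (hsf : ∀ n, a n ≠ 0 → Squarefree n)
    (ρ : ℝ) (hρ : 0 < ρ) (c : K) (hc : c ≠ 0) (t ξ : Pl K → ℝ) (d : Ideal (R K))
    (hd : Squarefree d) (e : Ideal (R K)) (he : e ∣ d) (h : R K) (hh : h ≠ 0) :
    ‖U4 e0 a ρ j c lam t ξ d e h‖ₑ ≤ ∑' f : Ideal (R K), if Squarefree (d * f) then
      ENNReal.ofReal (NS (c / (gen d : K)) / Nm (gen f : K)) *
        ‖bil (dualF e0 a d e f (Ideal.span {h})) j (c / ((gen d : K) * (gen f : K)))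
          lam (t - lg ((gen d : K) * (gen f : K))) ξ (xv ρ h e f)‖ₑ
      else 0 := by
  have hj1 : 1 ≤ j := (Rec.hk (K := K)).trans hj
  have hd0 : d ≠ ⊥ := hd.ne_zero
  have he0' : e ≠ ⊥ := ne_zero_of_dvd_ne_zero hd0 he
  have hgd := gen_ne_zero hd0
  have hge := gen_ne_zero he0'
  have hd' : (gen d : K) ≠ 0 := fun h => hgd (Subtype.ext h)
  have hc' : c / (gen d : K) ≠ 0 := div_ne_zero hc hd'
  set W := pl4bW e0 a ρ j c lam t ξ d e h with hW
  have hW0 : ∀ p : R K × R K, W p ≠ 0 → p.1 ≠ 0 ∧ a (gen d * p.1) ≠ 0 := by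
    intro p hp
    simp only [hW, pl4bW] at hp
    split_ifs at hp with h1
    · refine ⟨ne_zero_of_mem_cls hj1 hc' h1.1, fun h2 => hp ?_⟩
      rw [h2]; simp
    · exact absurd rfl hp
  set V : R K × R K → Ideal (R K) → ℂ := fun p f =>
    if gen f ∣ p.1 ∧ gen f ∣ p.2 then muR f * W p else 0 with hV
  have hmu : ∀ f : Ideal (R K), ‖muR f‖ ≤ 1 := fun f => by
    rw [← span_gen f, muR_span]; exact norm_mu_le _
  have hVs : ∀ p : R K × R K, ∀ f ∉ divs (Ideal.span {p.1}), V p f = 0 := by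
    intro p f hf
    simp only [hV]
    split_ifs with h1
    · by_cases h2 : W p = 0
      · rw [h2, mul_zero]
      · exact absurd ((mem_divs (by simpa using (hW0 p h2).1)).2 (gen_dvd_iff.1 h1.1)) hf
    · rfl
  have hU : U4 e0 a ρ j c lam t ξ d e h = ∑' p, ∑' f, V p f := by
    unfold U4
    refine tsum_congr fun p => ?_
    rw [tsum_eq_sum (hVs p)]
    by_cases h2 : W p = 0
    · have : ∑ f ∈ divs (Ideal.span {p.1}), V p f = 0 :=
        Finset.sum_eq_zero fun f _ => by simp [hV, h2]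
      rw [this]
      simp only [hW, pl4bW] at h2
      split_ifs with h3
      · rwa [if_pos ⟨h3.1, h3.2.1⟩] at h2
      · rfl
    · have hp1 := (hW0 p h2).1
      have e1 : ∑ f ∈ divs (Ideal.span {p.1}), V p f =
          (∑ f ∈ divs (Ideal.span {p.1}), if gen f ∣ p.2 then muR f else 0) * W p := by
        rw [Finset.sum_mul]
        refine Finset.sum_congr rfl fun f hf => ?_
        have h3 : gen f ∣ p.1 := gen_dvd_iff.2 ((mem_divs (by simpa using hp1)).1 hf)
        simp only [hV, h3, true_and]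
        split_ifs <;> simp
      rw [e1, sum_muR_dvd hp1]
      simp only [hW, pl4bW]
      by_cases h4 : IsCoprime p.1 p.2
      · simp only [h4, and_true, if_true, one_mul]
      · simp [h4]
  obtain ⟨Cd, hCd⟩ := card_divs_le (K := K) (ε := 1) one_pos
  obtain ⟨C1, -, hC1⟩ := triv_pk (K := K) lam hlam 1 2 zero_le_one (by norm_num)
  obtain ⟨C0, -, hC0⟩ := triv_pk (K := K) lam hlam 0 1 le_rfl (by norm_num)
  have s1 := (hC1 j hj1 _ hc' (t - lg (gen d : K)) ξ).1
  have s0 := (hC0 j hj1 _ hc' (t - lg (gen d : K)) ξ).1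
  have hsum : Summable (Function.uncurry V) := by
    refine Summable.of_norm ?_
    rw [summable_prod_of_nonneg (fun _ => norm_nonneg _)]
    refine ⟨fun p => summable_of_ne_finset_zero (s := divs (Ideal.span {p.1}))
      (fun f hf => by simp [hVs p f hf]), ?_⟩
    refine Summable.of_nonneg_of_le (fun p => tsum_nonneg fun _ => norm_nonneg _) (fun p => ?_)
      (((s1.mul_left |Cd|).mul_of_nonneg s0 (fun n => ?_) (fun n => ?_)))
    · simp only [Function.uncurry]
      rw [tsum_eq_sum (s := divs (Ideal.span {p.1})) (fun f hf => by simp [hVs p f hf])]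
      have h1 : ∑ f ∈ divs (Ideal.span {p.1}), ‖V p f‖ ≤
          (divs (Ideal.span {p.1})).card * ‖W p‖ := by
        rw [← nsmul_eq_mul]
        refine Finset.sum_le_card_nsmul _ _ _ fun f _ => ?_
        simp only [hV]
        split_ifs
        · rw [norm_mul]
          exact mul_le_of_le_one_left (norm_nonneg _) (hmu f)
        · simp
      refine h1.trans ?_
      have h2 := pl4b_normW e0 hj1 lam ha ρ hc t ξ hgd e h p
      by_cases h3 : p.1 ∈ cls j (c / (gen d : K))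
      · have hp1 := ne_zero_of_mem_cls hj1 hc' h3
        have h4 := hCd (Ideal.span {p.1}) (by simpa using hp1)
        rw [if_pos h3] at h2
        simp only [if_pos h3, Real.rpow_zero, one_mul]
        have h5 : ((divs (Ideal.span {p.1})).card : ℝ) ≤ |Cd| * Nr p.1 ^ (1 : ℝ) :=
          h4.trans (mul_le_mul_of_nonneg_right (le_abs_self _) (by positivity))
        calc _ ≤ (|Cd| * Nr p.1 ^ (1 : ℝ)) * (‖pk lam (t - lg (gen d : K)) ξ (p.1 : K)‖ *
            if p.2 ∈ cls j (c / (gen d : K)) then ‖pk lam (t - lg (gen d : K)) ξ (p.2 : K)‖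
              else 0) :=
              mul_le_mul h5 h2 (norm_nonneg _) ((Nat.cast_nonneg _).trans h5)
          _ = _ := by ring
      · rw [if_neg h3, zero_mul] at h2
        have h6 : ‖W p‖ = 0 := le_antisymm h2 (norm_nonneg _)
        simp [h3, h6]
    · have := Nr_nonneg n
      simp only [Pi.zero_apply]
      split_ifs <;> positivity
    · have := Nr_nonneg n
      simp only [Pi.zero_apply]
      split_ifs <;> positivity
  rw [hU, ← hsum.tsum_comm]
  refine enorm_tsum_le_tsum_enorm.trans (ENNReal.tsum_le_tsum fun f => ?_)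
  split_ifs with hdf
  · have hf0 : f ≠ ⊥ := right_ne_zero_of_mul hdf.ne_zero
    have hgf := gen_ne_zero hf0
    have hinj : Function.Injective (fun q : R K × R K => (gen f * q.1, gen f * q.2)) := by
      intro q q' hq
      simp only [Prod.mk.injEq] at hq
      exact Prod.ext (mul_left_cancel₀ hgf hq.1) (mul_left_cancel₀ hgf hq.2)
    have e1 : ∑' p, V p f = ∑' q : R K × R K, V (gen f * q.1, gen f * q.2) f := by
      refine (hinj.tsum_eq (f := fun p => V p f) fun p hp => ?_).symm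
      have h1 : gen f ∣ p.1 ∧ gen f ∣ p.2 := by
        by_contra h2
        exact hp (by simp only [hV, if_neg h2])
      obtain ⟨⟨q1, h2⟩, ⟨q2, h3⟩⟩ := h1
      exact ⟨(q1, q2), Prod.ext h2.symm h3.symm⟩
    have e2 : ∑' q : R K × R K, V (gen f * q.1, gen f * q.2) f =
        muR f * ∑' q : R K × R K, W (gen f * q.1, gen f * q.2) := by
      rw [← tsum_mul_left]
      exact tsum_congr fun q => by simp [hV]
    have hpos : 0 ≤ NS (c / (gen d : K)) / Nm (gen f : K) :=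
      (div_pos (NS_pos hc') (Nm_pos fun h => hgf (Subtype.ext h))).le
    rw [e1, e2, hW, pl4b_inner e0 j hj lam a ρ hρ c hc t ξ d hgd e hge h hh f hgf, enorm_mul,
      enorm_mul]
    have h1 : ‖muR f‖ₑ ≤ 1 := by
      rw [← ofReal_norm]
      exact ENNReal.ofReal_le_one.2 (hmu f)
    have h2 : ‖((NS (c / (gen d : K)) / Nm (gen f : K) : ℝ) : ℂ)‖ₑ =
        ENNReal.ofReal (NS (c / (gen d : K)) / Nm (gen f : K)) := by
      rw [← ofReal_norm, Complex.norm_real, Real.norm_eq_abs, abs_of_nonneg hpos]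
    rw [h2]
    exact mul_le_of_le_one_left' h1
  · have : ∀ p, V p f = 0 := by
      intro p
      simp only [hV]
      split_ifs with h1
      · by_cases h2 : W p = 0
        · rw [h2, mul_zero]
        · refine absurd ?_ hdf
          have h3 := hsf _ (hW0 p h2).2
          have h4 : Squarefree (gen d * gen f) :=
            h3.squarefree_of_dvd (mul_dvd_mul_left _ h1.1)
          exact squarefree_gen.1 ((associated_gen_mul d f).squarefree_iff.2 h4)
      · rfl
    simp [this]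

end Crest.Agent.GQ
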