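import Crest.Agent.GQ.ZTriv

/-!
# Project GQ, part B3: Poisson lemma, step 4: diagonal and elimination of the dual variable
-/

set_option autoImplicit false

noncomputable section

open NumberField Complex UniqueFactorizationMonoid MeasureTheory
open scoped ComplexConjugate ENNReal

namespace Crest.Agent.GQ

variable {K : Type} [Field K] [NumberField K] [P : Pre K] [Q : Rec K]

open Classical in
omit Q in
theorem pl5 (lam : ℝ) (hlam : 0 < lam) : ∃ C : ℝ, 0 ≤ C ∧ ∀ j : ℕ, 1 ≤ j → ∀ c : K, c ≠ 0 →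
    ∀ t ξ : Pl K → ℝ,
      (∑' d : Ideal (R K), if Squarefree d then dg j c lam t ξ d else 0) ≤
        ENNReal.ofReal (C * sz c t) := by
  obtain ⟨C₁, h₁⟩ := tsum_pk_assoc_le (K := K) hlam
  obtain ⟨C₂, hC₂, h₂⟩ := triv_pk (K := K) lam hlam 0 1 le_rfl (by norm_num)
  refine ⟨C₂ * |C₁|, by positivity, fun j hj c hc t ξ => ?_⟩
  obtain ⟨hs, hb⟩ := h₂ j hj c hc t ξ
  simp only [Real.rpow_zero, one_mul, add_zero, Real.rpow_one, min_self] at hs hb
  set g : R K × R K → ℝ≥0∞ := fun q =>
    ENNReal.ofReal (if q.1 ∈ cls j c then ‖pk lam t ξ (q.1 : K)‖ else 0) *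
      ENNReal.ofReal (if q.2 ∈ cls j c ∧ Associated q.2 q.1 then ‖pk lam t ξ (q.2 : K)‖ else 0)
    with hg
  have step1 : ∀ d : Ideal (R K), (if Squarefree d then dg j c lam t ξ d else 0) ≤
      ∑' q : R K × R K, if Ideal.span {q.1} = d then g q else 0 := by
    intro d
    split_ifs with hd
    swap
    · exact zero_le
    have hd0 : gen d ≠ 0 := gen_ne_zero hd.ne_zero
    have hinj : Function.Injective (fun p : R K × R K => (gen d * p.1, gen d * p.2)) := by
      intro p p' e
      exact Prod.ext (mul_left_cancel₀ hd0 (congrArg Prod.fst e))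
        (mul_left_cancel₀ hd0 (congrArg Prod.snd e))
    refine le_trans ?_ (ENNReal.tsum_comp_le_tsum_of_injective hinj
      (fun q : R K × R K => if Ideal.span {q.1} = d then g q else 0))
    refine ENNReal.tsum_le_tsum fun p => ?_
    split_ifs with h1 h2
    · obtain ⟨a1, a2, u1, u2⟩ := h1
      have hass : Associated (gen d * p.2) (gen d * p.1) :=
        (associated_mul_unit_left _ _ u2).trans (associated_mul_unit_right _ _ u1)
      simp only [hg]
      rw [if_pos ((mul_mem_cls_iff hd0).2 a1), if_pos ⟨(mul_mem_cls_iff hd0).2 a2, hass⟩,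
        ENNReal.ofReal_mul (norm_nonneg _)]
    · exact absurd (by rw [Ideal.span_singleton_mul_right_unit h1.2.2.1, span_gen]) h2
    · exact zero_le
    · exact zero_le
  have step2 : ∀ n₁ : R K, ∑' n₂ : R K, ENNReal.ofReal
      (if n₂ ∈ cls j c ∧ Associated n₂ n₁ then ‖pk lam t ξ (n₂ : K)‖ else 0) ≤
      ENNReal.ofReal |C₁| := by
    intro n₁
    have hnn : ∀ n₂ : R K,
        0 ≤ (if n₂ ∈ cls j c ∧ Associated n₂ n₁ then ‖pk lam t ξ (n₂ : K)‖ else 0) :=
      fun n₂ => by split_ifs <;> positivity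
    rw [← ENNReal.ofReal_tsum_of_nonneg hnn (Summable.of_nonneg_of_le hnn (fun n₂ => ?_) hs)]
    · exact ENNReal.ofReal_le_ofReal ((h₁ j hj c hc n₁ t ξ).trans (le_abs_self _))
    · split_ifs with h1 h2
      · rfl
      · exact absurd h1.1 h2
      · positivity
      · rfl
  calc _ ≤ ∑' d : Ideal (R K), ∑' q : R K × R K, if Ideal.span {q.1} = d then g q else 0 :=
        ENNReal.tsum_le_tsum step1
    _ = ∑' q : R K × R K, g q := by
        rw [ENNReal.tsum_comm]
        refine tsum_congr fun q => ?_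
        rw [tsum_eq_single (Ideal.span {q.1}) fun d hd => if_neg (Ne.symm hd), if_pos rfl]
    _ ≤ ∑' n₁ : R K, ENNReal.ofReal (if n₁ ∈ cls j c then ‖pk lam t ξ (n₁ : K)‖ else 0) *
          ENNReal.ofReal |C₁| := by
        rw [ENNReal.tsum_prod']
        refine ENNReal.tsum_le_tsum fun n₁ => ?_
        simp only [hg]
        rw [ENNReal.tsum_mul_left]
        exact mul_le_mul_right (step2 n₁) _
    _ ≤ ENNReal.ofReal (C₂ * sz c t) * ENNReal.ofReal |C₁| := by
        rw [ENNReal.tsum_mul_right, ← ENNReal.ofReal_tsum_of_nonneg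
          (fun n => by split_ifs <;> positivity) hs]
        exact mul_le_mul_left (ENNReal.ofReal_le_ofReal hb) _
    _ = _ := by
        rw [← ENNReal.ofReal_mul (mul_nonneg hC₂ (sz_pos hc t).le)]
        congr 1
        ring

omit Q in
theorem norm_dualF_le (e0 : ℕ) (he0 : e0 = 1 ∨ e0 = 3 ∨ e0 = 5) (a : R K → ℂ) (ha : ∀ n, ‖a n‖ ≤ 1)
    (hsf : ∀ n, a n ≠ 0 → Squarefree n) (d e f J : Ideal (R K)) (n : R K) :
    ‖dualF e0 a d e f J n‖ ≤ 1 := by
  unfold dualF
  by_cases h0 : a (gen d * (gen f * n)) = 0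
  · simp [h0]
  have hs : Squarefree (gen f * n) := (hsf _ h0).of_mul_right
  have h6 : ¬ 6 ∣ e0 := by rcases he0 with rfl | rfl | rfl <;> norm_num
  rw [norm_mul, norm_mul, norm_mul, norm_g6 hs h6, mul_one, norm_pow, norm_pow]
  exact mul_le_one₀ (mul_le_one₀ (ha _) (by positivity)
    (pow_le_one₀ (norm_nonneg _) (norm_chiI_le _ _))) (by positivity)
    (pow_le_one₀ (norm_nonneg _) (norm_chiI_le _ _))

end Crest.Agent.GQ
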