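import Crest.Agent.GQ.ZTriv
import Crest.Agent.GQ.ZMink

/-!
# Project GQ, part B3: recentring of packets
-/

set_option autoImplicit false

noncomputable section

open NumberField Complex UniqueFactorizationMonoid MeasureTheory
open scoped ComplexConjugate ENNReal

namespace Crest.Agent.GQ

variable {K : Type} [Field K] [NumberField K] [P : Pre K]

theorem zrc_gauss {ι : Type} [Fintype ι] {μ : ℝ} (hμ : 0 < μ) (z : ι → ℝ) :
    Integrable (fun s : ι → ℝ => Real.exp (-(μ * ∑ v, (s v - z v) ^ 2))) ∧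
      ∫ s : ι → ℝ, Real.exp (-(μ * ∑ v, (s v - z v) ^ 2)) =
        Real.sqrt (Real.pi / μ) ^ Fintype.card ι := by
  have e : (fun s : ι → ℝ => Real.exp (-(μ * ∑ v, (s v - z v) ^ 2))) =
      fun s => ∏ v, Real.exp (-μ * (s v - z v) ^ 2) := by
    funext s
    rw [← Real.exp_sum, ← Finset.mul_sum, neg_mul]
  rw [e]
  constructor
  · exact Integrable.fintype_prod (f := fun v x => Real.exp (-μ * (x - z v) ^ 2)) fun v =>
      (integrable_exp_neg_mul_sq hμ).comp_sub_right (z v)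
  · rw [integral_fintype_prod_volume_eq_prod (fun v x => Real.exp (-μ * (x - z v) ^ 2))]
    simp only [integral_sub_right_eq_self (fun x : ℝ => Real.exp (-μ * x ^ 2)), integral_gaussian]
    rw [Finset.prod_const, Finset.card_univ]

theorem zrc_pk (lam : ℝ) (s t ξ : Pl K → ℝ) (x : K) :
    (Real.exp (-(2 * lam * ∑ v, (s v - t v) ^ 2)) : ℂ) * pk (2 * lam) s ξ x =
      pk lam t ξ x * (Real.exp (-(4 * lam * ∑ v, (s v - (lg x v + t v) / 2) ^ 2)) : ℂ) := by
  rw [pk, pk, Complex.ofReal_exp, Complex.ofReal_exp, ← Complex.exp_sum, ← Complex.exp_sum,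
    ← Complex.exp_add, ← Complex.exp_add]
  congr 1
  push_cast
  rw [Finset.mul_sum, Finset.mul_sum, ← Finset.sum_neg_distrib, ← Finset.sum_neg_distrib,
    ← Finset.sum_add_distrib, ← Finset.sum_add_distrib]
  exact Finset.sum_congr rfl fun v _ => by ring

theorem zrc_norm_sq {ι : Type} [Fintype ι] (x : ι → ℝ) : ‖x‖ ^ 2 ≤ ∑ v, x v ^ 2 := by
  have h0 : 0 ≤ ∑ v, x v ^ 2 := Finset.sum_nonneg fun v _ => sq_nonneg _
  rw [← Real.le_sqrt (norm_nonneg _) h0, pi_norm_le_iff_of_nonneg (Real.sqrt_nonneg _)]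
  exact fun v => Real.abs_le_sqrt
    (Finset.single_le_sum (fun v _ => sq_nonneg (x v)) (Finset.mem_univ v))

theorem zrc_repr {lam : ℝ} (hlam : 0 < lam) {j : ℕ} (hj : 1 ≤ j) {b : R K → ℂ} (hb : Mod b)
    {c : K} (hc : c ≠ 0) (t ξ : Pl K → ℝ) :
    ∫ s : Pl K → ℝ, (Real.exp (-(2 * lam * ∑ v, (s v - t v) ^ 2)) : ℂ) * Sm b j c (2 * lam) s ξ =
      Sm b j c lam t ξ * ((Real.sqrt (Real.pi / (4 * lam)) ^ rr K : ℝ) : ℂ) := by
  classical
  have hG := fun n : R K => zrc_gauss (μ := 4 * lam) (by positivity)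
    fun v => (lg (n : K) v + t v) / 2
  have h1 : ∀ s : Pl K → ℝ,
      (Real.exp (-(2 * lam * ∑ v, (s v - t v) ^ 2)) : ℂ) * Sm b j c (2 * lam) s ξ =
      ∑' n : R K, (if n ∈ cls j c then b n * pk lam t ξ (n : K) else 0) *
        (Real.exp (-(4 * lam * ∑ v, (s v - (lg (n : K) v + t v) / 2) ^ 2)) : ℂ) := fun s => by
    rw [Sm, ← tsum_mul_left]
    refine tsum_congr fun n => ?_
    split_ifs
    · rw [mul_left_comm, zrc_pk, mul_assoc (b n)]
    · rw [mul_zero, zero_mul]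
  simp only [h1]
  rw [← integral_tsum_of_summable_integral_norm (fun n => (hG n).1.ofReal.const_mul _), Sm,
    ← tsum_mul_right]
  · refine tsum_congr fun n => ?_
    rw [integral_const_mul, integral_complex_ofReal, (hG n).2]
  · simp only [norm_mul, Complex.norm_real, Real.norm_eq_abs, Real.abs_exp, integral_const_mul,
      fun n => (hG n).2]
    exact (summable_norm_iff.2 (hb.summable hj hc hlam t ξ)).mul_right _

/-- A Gaussian packet is an average of packets of half the variance. -/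
theorem recentre (lam : ℝ) (hlam : 0 < lam) (C0 : ℝ) :
    ∃ C : ℝ, 0 ≤ C ∧ ∀ j : ℕ, 1 ≤ j → ∀ b : R K → ℂ, (∀ n, ‖b n‖ ≤ 1) → ∀ c : K, c ≠ 0 →
      ∀ t1 t0 ξ : Pl K → ℝ, ‖t1 - t0‖ ≤ C0 →
        ENNReal.ofReal (‖Sm b j c lam t1 ξ‖ ^ 2) ≤ ENNReal.ofReal C *
          ∫⁻ t' : Pl K → ℝ, ENNReal.ofReal (Real.exp (-(lam * ‖t' - t0‖ ^ 2)) *
            ‖Sm b j c (2 * lam) t' ξ‖ ^ 2) := by
  obtain ⟨g, hg⟩ : ∃ g : ℝ, g = Real.sqrt (Real.pi / (4 * lam)) ^ rr K := ⟨_, rfl⟩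
  have hg0 : 0 < g := by rw [hg]; have := Real.pi_pos; positivity
  refine ⟨(g ^ 2)⁻¹ * Real.sqrt (Real.pi / (2 * lam)) ^ rr K * Real.exp (2 * lam * C0 ^ 2),
    by positivity, fun j hj b hb c hc t1 t0 ξ h => ?_⟩
  have hb' := mod_of_le_one hb
  have hG := zrc_gauss (μ := 2 * lam) (by positivity) t1
  have hc' : Continuous fun s : Pl K → ℝ => ‖Sm b j c (2 * lam) s ξ‖ :=
    ((continuous_Sm hb' hj hc (lam := 2 * lam) (by positivity)).comp
      (continuous_id.prodMk continuous_const)).norm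
  have h1 := sq_norm_integral_le volume
    (fun s : Pl K → ℝ =>
      (Real.exp (-(2 * lam * ∑ v, (s v - t1 v) ^ 2)) : ℂ) * Sm b j c (2 * lam) s ξ)
    (fun s => Real.exp (-(2 * lam * ∑ v, (s v - t1 v) ^ 2))) (fun s => ‖Sm b j c (2 * lam) s ξ‖)
    (fun s => (Real.exp_pos _).le) (fun s => norm_nonneg _) hG.1 hc'.aestronglyMeasurable
    fun s => by rw [norm_mul, Complex.norm_real, Real.norm_eq_abs, Real.abs_exp]
  rw [zrc_repr hlam hj hb' hc, hG.2, ← hg, norm_mul, Complex.norm_real,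
    Real.norm_of_nonneg hg0.le] at h1
  have e : ‖Sm b j c lam t1 ξ‖ ^ 2 = (g ^ 2)⁻¹ * (‖Sm b j c lam t1 ξ‖ * g) ^ 2 := by field_simp
  rw [e, ENNReal.ofReal_mul (by positivity), ENNReal.ofReal_mul (by positivity),
    ENNReal.ofReal_mul (by positivity), mul_assoc, mul_assoc]
  gcongr
  refine h1.trans ?_
  gcongr
  rw [← lintegral_const_mul' _ _ ENNReal.ofReal_ne_top]
  refine lintegral_mono fun s => ?_
  rw [← ENNReal.ofReal_mul (by positivity), ← mul_assoc, ← Real.exp_add]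
  gcongr
  have k1 := zrc_norm_sq (s - t1)
  have k2 : ‖s - t0‖ ≤ ‖s - t1‖ + C0 := (norm_sub_le_norm_sub_add_norm_sub s t1 t0).trans (by gcongr)
  have k3 : ‖s - t0‖ ^ 2 ≤ (‖s - t1‖ + C0) ^ 2 := by gcongr
  simp only [Pi.sub_apply] at k1
  nlinarith [sq_nonneg (‖s - t1‖ - C0)]

end Crest.Agent.GQ
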