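import Crest.Agent.GQ.ZSep0
import Crest.Agent.GQ.ZRC

/-!
# Project GQ, part B3: separation of variables in the bilinear form
-/

set_option autoImplicit false

noncomputable section

open NumberField Complex UniqueFactorizationMonoid MeasureTheory
open scoped ComplexConjugate ENNReal

namespace Crest.Agent.GQ

variable {K : Type} [Field K] [NumberField K] [P : Pre K]

omit P in
theorem zsep_prod {ι : Type} [Fintype ι] (τ : ι → ℝ) : 1 + ‖τ‖ ≤ ∏ v, (1 + |τ v|) := by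
  have h1 : ∀ v, 1 ≤ 1 + |τ v| := fun v => le_add_of_nonneg_right (abs_nonneg _)
  have h2 : 1 ≤ ∏ v, (1 + |τ v|) := Finset.one_le_prod fun v _ => h1 v
  rw [← le_sub_iff_add_le', pi_norm_le_iff_of_nonneg (by linarith)]
  intro v
  have := Finset.prod_le_prod_of_subset_of_one_le (f := fun v => 1 + |τ v|)
    (Finset.subset_univ {v}) (fun _ _ => by positivity) fun w _ _ => h1 w
  rw [Finset.prod_singleton] at this
  rw [Real.norm_eq_abs]
  linarith

omit P in
theorem zsep_mellin {ι : Type} [Fintype ι] {δ B : ℝ} (hδ : 0 < δ) (hB : 0 < B) (N : ℝ) :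
    ∃ C : ℝ, 0 ≤ C ∧ ∀ σ : ι → ℝ, (∀ v, σ v = δ ∨ σ v = B) → ∃ κ : (ι → ℝ) → ℂ,
      Integrable κ ∧ (∀ τ, ‖κ τ‖ ≤ C * (1 + ‖τ‖) ^ (-N)) ∧ ∀ u : ι → ℝ,
        ((Real.exp (-(Real.pi * ∑ v, Real.exp (2 * u v))) : ℝ) : ℂ) =
          ∫ τ, κ τ * Complex.exp (∑ v, -((σ v : ℂ) + τ v * I) * u v) := by
  choose k hk1 hk2 hk3 using gauss_mellin
  have hint : ∀ σ hσ, Integrable (k σ hσ) := fun σ hσ => by
    obtain ⟨C, -, hC⟩ := hk2 σ hσ 2
    exact ((integrable_one_add_norm (by simp)).const_mul C).mono' (hk1 σ hσ).aestronglyMeasurable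
      (ae_of_all _ hC)
  obtain ⟨C1, a1, h1⟩ := hk2 δ hδ (max N 0)
  obtain ⟨C2, a2, h2⟩ := hk2 B hB (max N 0)
  refine ⟨(C1 + C2) ^ Fintype.card ι, by positivity, fun σ hσ => ?_⟩
  have hσ0 : ∀ v, 0 < σ v := fun v => by rcases hσ v with h | h <;> rwa [h]
  have hb : ∀ s (hs : 0 < s), s = δ ∨ s = B → ∀ t, ‖k s hs t‖ ≤ (C1 + C2) * (1 + |t|) ^ (-max N 0) := by
    rintro s hs (rfl | rfl) t
    · exact (h1 t).trans (mul_le_mul_of_nonneg_right (by linarith) (by positivity))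
    · exact (h2 t).trans (mul_le_mul_of_nonneg_right (by linarith) (by positivity))
  refine ⟨fun τ => ∏ v, k (σ v) (hσ0 v) (τ v), Integrable.fintype_prod fun v => hint _ _,
    fun τ => ?_, fun u => ?_⟩
  · rw [norm_prod]
    refine (Finset.prod_le_prod (fun v _ => norm_nonneg _)
      fun v _ => hb _ _ (hσ v) (τ v)).trans ?_
    rw [Finset.prod_mul_distrib, Finset.prod_const, Finset.card_univ,
      Real.finsetProd_rpow _ _ fun _ _ => by positivity]
    refine mul_le_mul_of_nonneg_left ((Real.rpow_le_rpow_of_nonpos (by positivity) (zsep_prod τ)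
      (by simp)).trans (Real.rpow_le_rpow_of_exponent_le ?_ (by simp))) (by positivity)
    exact le_add_of_nonneg_right (norm_nonneg _)
  · simp only [Complex.exp_sum, ← Finset.prod_mul_distrib]
    rw [integral_fintype_prod_volume_eq_prod
      (fun v t => k (σ v) (hσ0 v) t * Complex.exp (-((σ v : ℂ) + (t : ℝ) * I) * u v)),
      Finset.mul_sum, ← Finset.sum_neg_distrib, Real.exp_sum, Complex.ofReal_prod]
    exact Finset.prod_congr rfl fun v _ => hk3 _ _ _

open Classical in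
theorem zsep_id {lam : ℝ} (hlam : 0 < lam) {j : ℕ} (hj : 1 ≤ j) {b : R K → ℂ}
    (hb : ∀ n, ‖b n‖ ≤ 1) {c : K} (hc : c ≠ 0) (t1 ξ x σ : Pl K → ℝ) {κ : (Pl K → ℝ) → ℂ}
    (hκ : Integrable κ) (hm : ∀ u : Pl K → ℝ,
      ((Real.exp (-(Real.pi * ∑ v, Real.exp (2 * u v))) : ℝ) : ℂ) =
        ∫ τ, κ τ * Complex.exp (∑ v, -((σ v : ℂ) + τ v * I) * u v)) :
    bil b j c lam t1 ξ x = ∫ τ, κ τ * Complex.exp (∑ v, -((σ v : ℂ) + τ v * I) * x v) *
      (Real.exp (∑ v, ((σ v - 1) * t1 v + (σ v - 1) ^ 2 / (4 * lam))) : ℂ) ^ 2 *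
      (Sm b j c lam (fun v => t1 v + (σ v - 1) / (2 * lam)) (ξ + τ) *
        conj (Sm b j c lam (fun v => t1 v + (σ v - 1) / (2 * lam)) (ξ + -τ))) := by
  set t2 : Pl K → ℝ := fun v => t1 v + (σ v - 1) / (2 * lam) with ht2
  set A : ℝ := Real.exp (∑ v, ((σ v - 1) * t1 v + (σ v - 1) ^ 2 / (4 * lam))) with hA
  set E : (Pl K → ℝ) → ℂ := fun τ => Complex.exp (∑ v, -((σ v : ℂ) + τ v * I) * x v) with hE
  set a : (Pl K → ℝ) → R K → ℂ := fun τ n =>
    if n ∈ cls j c then b n * pk lam t2 (ξ + τ) (n : K) else 0 with ha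
  have hsum : ∀ τ, Summable fun n => ‖a τ n‖ := fun τ =>
    (summable_Sm (A := 0) (C := 1) (fun n _ => by simpa using hb n) hj hc hlam t2 (ξ + τ)).norm
  have hna : ∀ τ n, ‖a τ n‖ = ‖a 0 n‖ := fun τ n => by
    simp only [ha]
    split_ifs
    · rw [norm_mul, norm_mul, norm_pk, norm_pk]
    · rfl
  have hca : ∀ n, Continuous fun τ => a τ n := fun n => by
    simp only [ha]
    split_ifs
    · unfold pk; fun_prop
    · exact continuous_const
  have hnE : ∀ τ, ‖E τ‖ = ‖E 0‖ := fun τ => by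
    simp [hE, Complex.norm_exp]
  set F : R K × R K → (Pl K → ℝ) → ℂ := fun p τ =>
    κ τ * E τ * (A : ℂ) ^ 2 * (a τ p.1 * conj (a (-τ) p.2)) with hF
  have hnF : ∀ p τ, ‖F p τ‖ = ‖κ τ‖ * (‖E 0‖ * ‖(A : ℂ) ^ 2‖ * (‖a 0 p.1‖ * ‖a 0 p.2‖)) := by
    intro p τ
    simp only [hF, norm_mul, Complex.norm_conj, hna τ, hna (-τ), hnE τ]
    ring
  have hint : ∀ p, Integrable (F p) := fun p => by
    refine (hκ.norm.mul_const _).mono' ?_ (ae_of_all _ fun τ => (hnF p τ).le)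
    refine ((hκ.1.mul ?_).mul_const _).mul (Continuous.aestronglyMeasurable ?_)
    · exact Continuous.aestronglyMeasurable (by simp only [hE]; fun_prop)
    · exact (hca _).mul (continuous_conj.comp ((hca _).comp continuous_neg))
  have hs : Summable fun p => ∫ τ, ‖F p τ‖ := by
    simp only [hnF, integral_mul_const]
    exact (((hsum 0).mul_of_nonneg (hsum 0) (fun _ => norm_nonneg _)
      fun _ => norm_nonneg _).mul_left _).mul_left _
  have h1 : ∀ τ, ∑' p, F p τ = κ τ * E τ * (A : ℂ) ^ 2 *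
      (Sm b j c lam t2 (ξ + τ) * conj (Sm b j c lam t2 (ξ + -τ))) := fun τ => by
    simp only [hF]
    rw [tsum_mul_left, ← tsum_mul_tsum_of_summable_norm (f := a τ) (g := fun n => conj (a (-τ) n))
      (hsum τ) (by simpa using hsum (-τ)), ← Complex.conj_tsum]
    rfl
  rw [← integral_congr_ae (ae_of_all _ h1), ← integral_tsum_of_summable_integral_norm hint hs, bil]
  refine tsum_congr fun p => ?_
  split_ifs with hp
  · rw [sub_eq_add_neg, Real.exp_add, Complex.ofReal_mul,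
      hm fun v => x v - lg (p.1 : K) v - lg (p.2 : K) v, ← integral_const_mul,
      ← integral_const_mul]
    refine integral_congr_ae (ae_of_all _ fun τ => ?_)
    have e1 := pk_mul_exp hlam t1 ξ (fun v => σ v - 1) τ (p.1 : K)
    have e2 := congrArg conj (pk_mul_exp hlam t1 ξ (fun v => σ v - 1) (-τ) (p.2 : K))
    rw [map_mul, map_mul, Complex.conj_ofReal, ← Complex.exp_conj] at e2
    have e3 : (Real.exp (-∑ v, (lg (p.1 : K) v + lg (p.2 : K) v)) : ℂ) *
        Complex.exp (∑ v, -((σ v : ℂ) + τ v * I) * (x v - lg (p.1 : K) v - lg (p.2 : K) v : ℝ)) =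
        E τ * Complex.exp (∑ v, (((σ v - 1 : ℝ) : ℂ) + τ v * I) * (lg (p.1 : K) v : ℂ)) *
          Complex.exp (conj (∑ v, (((σ v - 1 : ℝ) : ℂ) + (-τ) v * I) * (lg (p.2 : K) v : ℂ))) := by
      simp only [hE, Complex.ofReal_exp, ← Complex.exp_add, map_sum, map_mul, map_add,
        Complex.conj_ofReal, Complex.conj_I, Pi.neg_apply]
      congr 1
      push_cast
      simp only [← Finset.sum_neg_distrib, ← Finset.sum_add_distrib]
      exact Finset.sum_congr rfl fun v _ => by ring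
    simp only [hF, ha, if_pos hp.1, if_pos hp.2, map_mul]
    linear_combination (b p.1 * conj (b p.2) * κ τ * pk lam t1 ξ p.1 * conj (pk lam t1 ξ p.2)) * e3 +
      (b p.1 * conj (b p.2) * κ τ * E τ * conj (pk lam t1 ξ p.2) *
        Complex.exp (conj (∑ v, (((σ v - 1 : ℝ) : ℂ) + (-τ) v * I) * (lg (p.2 : K) v : ℂ)))) * e1 +
      (b p.1 * conj (b p.2) * κ τ * E τ * A * pk lam t2 (ξ + τ) p.1) * e2
  · symm
    refine integral_eq_zero_of_ae (ae_of_all _ fun τ => ?_)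
    simp only [hF, ha]
    rcases not_and_or.1 hp with h | h <;> simp [h]

omit P in
theorem zsep_num {k e A w C D a b : ℝ} (he : 0 ≤ e) (hA : 0 ≤ A) (hw : 0 ≤ w) (ha : 0 ≤ a)
    (hb : 0 ≤ b) (hk : k ≤ C * w) (hD : C * (e * A) ≤ D) (hC : 0 ≤ C) :
    k * e * A * (a * b) ≤ D * (w * (a ^ 2 + b ^ 2)) :=
  calc _ ≤ C * w * e * A * (a ^ 2 + b ^ 2) := by
        gcongr ?_ * _ * _ * ?_
        nlinarith [sq_nonneg (a - b), mul_nonneg ha hb]
    _ = C * (e * A) * (w * (a ^ 2 + b ^ 2)) := by ring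
    _ ≤ _ := by gcongr

theorem sep_bil (lam : ℝ) (hlam : 0 < lam) (δ B N C0 : ℝ) (hδ : 0 < δ) (hB : 0 < B) :
    ∃ C : ℝ, 0 ≤ C ∧ ∀ j : ℕ, 1 ≤ j → ∀ b : R K → ℂ, (∀ n, ‖b n‖ ≤ 1) → ∀ c : K, c ≠ 0 →
      ∀ t1 t0 ξ x : Pl K → ℝ, ‖t1 - t0‖ ≤ C0 →
        ‖bil b j c lam t1 ξ x‖ₑ ≤
          ENNReal.ofReal (C * Real.exp (-(2 * ∑ v, t1 v)) * om δ B (fun v => x v - 2 * t1 v)) *
            Qav b j c lam N t0 ξ := by
  obtain ⟨C1, hC1, h1⟩ := zsep_mellin (ι := Pl K) hδ hB N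
  obtain ⟨C2, hC2, h2⟩ := recentre (K := K) lam hlam (C0 + (δ + B + 1) / (2 * lam))
  refine ⟨C1 * Real.exp (2 * (rr K * ((δ + B + 1) ^ 2 / (4 * lam)))) * 2 * C2, by positivity,
    fun j hj b hb c hc t1 t0 ξ x ht => ?_⟩
  set σ : Pl K → ℝ := fun v => if x v - 2 * t1 v ≤ 0 then δ else B with hσ
  have hσ1 : ∀ v, σ v = δ ∨ σ v = B := fun v => by simp only [hσ]; split_ifs <;> simp
  have hσ2 : ∀ v, |σ v - 1| ≤ δ + B + 1 := fun v => by
    rw [abs_le]; rcases hσ1 v with h | h <;> rw [h] <;> constructor <;> linarith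
  obtain ⟨κ, k1, k2, k3⟩ := h1 σ hσ1
  rw [zsep_id hlam hj hb hc t1 ξ x σ k1 k3]
  set t2 : Pl K → ℝ := fun v => t1 v + (σ v - 1) / (2 * lam) with ht2
  have ht' : ‖t2 - t0‖ ≤ C0 + (δ + B + 1) / (2 * lam) := by
    rw [show t2 - t0 = (t1 - t0) + fun v => (σ v - 1) / (2 * lam) by
      ext v; simp only [ht2, Pi.add_apply, Pi.sub_apply]; ring]
    refine norm_add_le_of_le ht ((pi_norm_le_iff_of_nonneg (by positivity)).2 fun v => ?_)
    rw [Real.norm_eq_abs, abs_div, abs_of_pos (by positivity : 0 < 2 * lam)]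
    exact div_le_div_of_nonneg_right (hσ2 v) (by positivity)
  set D : ℝ := C1 * Real.exp (2 * (rr K * ((δ + B + 1) ^ 2 / (4 * lam)))) *
    Real.exp (-(2 * ∑ v, t1 v)) * om δ B fun v => x v - 2 * t1 v with hD
  have hD0 : 0 ≤ D := by rw [hD, om]; positivity
  set g : (Pl K → ℝ) → ℝ≥0∞ := fun τ =>
    ENNReal.ofReal ((1 + ‖τ‖) ^ (-N) * ‖Sm b j c lam t2 (ξ + τ)‖ ^ 2) with hg
  have hcS := fun l (hl : 0 < l) => continuous_Sm (mod_of_le_one hb) hj hc hl
  have hgm : Measurable g := by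
    have : Continuous fun τ => Sm b j c lam t2 (ξ + τ) :=
      (hcS lam hlam).comp (f := fun τ => (t2, ξ + τ)) (by fun_prop)
    simp only [hg]
    fun_prop
  have hE : ∀ τ : Pl K → ℝ, C1 * (‖Complex.exp (∑ v, -((σ v : ℂ) + τ v * I) * x v)‖ *
      Real.exp (∑ v, ((σ v - 1) * t1 v + (σ v - 1) ^ 2 / (4 * lam))) ^ 2) ≤ D := fun τ => by
    rw [hD, mul_assoc, mul_assoc, om, Complex.norm_exp, ← Real.exp_nat_mul, ← Real.exp_add,
      ← Real.exp_add, ← Real.exp_add]
    refine mul_le_mul_of_nonneg_left (Real.exp_le_exp.2 ?_) hC1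
    rw [← nsmul_eq_mul (rr K), rr, ← Finset.card_univ, ← Finset.sum_const]
    simp only [re_sum, Finset.mul_sum, ← Finset.sum_neg_distrib, ← Finset.sum_add_distrib,
      ← Finset.sum_sub_distrib]
    refine Finset.sum_le_sum fun v _ => ?_
    have a1 : (σ v - 1) ^ 2 / (4 * lam) ≤ (δ + B + 1) ^ 2 / (4 * lam) :=
      div_le_div_of_nonneg_right (sq_le_sq' (abs_le.1 (hσ2 v)).1 (abs_le.1 (hσ2 v)).2)
        (by positivity)
    have a2 : δ * max (-(x v - 2 * t1 v)) 0 - B * max (x v - 2 * t1 v) 0 =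
        -(σ v * (x v - 2 * t1 v)) := by
      simp only [hσ]
      split_ifs with h
      · rw [max_eq_left (by linarith), max_eq_right h]; ring
      · rw [max_eq_right (by linarith), max_eq_left (by linarith)]; ring
    have a3 : (-((σ v : ℂ) + τ v * I) * x v).re = -(σ v * x v) := by simp
    rw [a2, a3]
    push_cast
    linarith
  have hQ : ∫⁻ τ, g τ ≤ ENNReal.ofReal C2 * Qav b j c lam N t0 ξ := by
    have hc2 : Continuous fun p : (Pl K → ℝ) × (Pl K → ℝ) => Sm b j c (2 * lam) p.1 (ξ + p.2) :=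
      (hcS (2 * lam) (by positivity)).comp
        (f := fun p : (Pl K → ℝ) × (Pl K → ℝ) => (p.1, ξ + p.2)) (by fun_prop)
    rw [Qav, Measure.volume_eq_prod, lintegral_prod_symm' _ (by
      exact (Measurable.mul (by fun_prop) (hc2.measurable.norm.pow_const 2)).ennreal_ofReal),
      ← lintegral_const_mul' _ _ ENNReal.ofReal_ne_top]
    refine lintegral_mono fun τ => ?_
    simp only [hg]
    rw [ENNReal.ofReal_mul (by positivity)]
    refine (mul_le_mul_right (h2 j hj b hb c hc t2 t0 (ξ + τ) ht') _).trans_eq ?_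
    rw [mul_left_comm, ← lintegral_const_mul' _ _ ENNReal.ofReal_ne_top]
    congr 1
    refine lintegral_congr fun t => ?_
    rw [← ENNReal.ofReal_mul (by positivity)]
    congr 1
    ring
  refine (enorm_integral_le_lintegral_enorm _).trans ?_
  calc _ ≤ ∫⁻ τ, ENNReal.ofReal D * (g τ + g (-τ)) := by
        refine lintegral_mono fun τ => ?_
        simp only [hg]
        rw [← ofReal_norm, ← ENNReal.ofReal_add (by positivity) (by positivity),
          ← ENNReal.ofReal_mul hD0, norm_neg, ← mul_add, norm_mul, norm_mul, norm_mul, norm_mul,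
          Complex.norm_conj, norm_pow, Complex.norm_real, Real.norm_eq_abs, Real.abs_exp]
        refine ENNReal.ofReal_le_ofReal ?_
        exact zsep_num (norm_nonneg _) (by positivity) (by positivity) (norm_nonneg _)
          (norm_nonneg _) (k2 τ) (hE τ) hC1
    _ = ENNReal.ofReal D * (2 * ∫⁻ τ, g τ) := by
        rw [lintegral_const_mul' _ _ ENNReal.ofReal_ne_top, lintegral_add_left hgm,
          lintegral_neg_eq_self, two_mul]
    _ ≤ ENNReal.ofReal D * (2 * (ENNReal.ofReal C2 * Qav b j c lam N t0 ξ)) := by gcongr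
    _ = _ := by
        rw [← mul_assoc, ← mul_assoc, mul_assoc _ 2, ← ENNReal.ofReal_ofNat 2,
          ← ENNReal.ofReal_mul (by norm_num), ← ENNReal.ofReal_mul hD0, hD]
        congr 2
        ring

end Crest.Agent.GQ
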