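import Crest.Agent.GQ.ZTriv

/-!
# Project GQ, part B3: sums over the generators of an ideal
-/

set_option autoImplicit false

noncomputable section

open NumberField Complex UniqueFactorizationMonoid MeasureTheory
open scoped ComplexConjugate ENNReal

namespace Crest.Agent.GQ

variable {K : Type} [Field K] [NumberField K] [P : Pre K]

open Classical in
theorem zwt_orbit (δ : ℝ) (hδ : 0 < δ) : ∃ C : ℝ, 0 ≤ C ∧ ∀ c : K, c ≠ 0 → ∀ (J : Ideal (R K))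
    (τ : Pl K → ℝ), (∑' h : R K, if h ∈ cls 1 c ∧ Ideal.span {h} = J then
      ENNReal.ofReal (Real.exp (-(δ * ∑ v, |lg (h : K) v - τ v|))) else 0) ≤ ENNReal.ofReal C := by
  obtain ⟨C, hC⟩ := unit_sum_le (K := K) hδ
  refine ⟨|C|, abs_nonneg C, fun c hc J τ => ?_⟩
  by_cases hex : ∃ n₁ : R K, n₁ ∈ cls 1 c ∧ Ideal.span {n₁} = J
  swap
  · rw [tsum_congr fun n => if_neg fun h => hex ⟨n, h⟩, tsum_zero]
    exact zero_le
  obtain ⟨n₁, h1, h2⟩ := hex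
  have h3 : (n₁ : K) ≠ 0 := by exact_mod_cast ne_zero_of_mem_cls le_rfl hc h1
  obtain ⟨s1, s2⟩ := hC (τ - lg (n₁ : K))
  set g : K → ℝ≥0∞ := Set.indicator {u : K | u ≠ 0 ∧ IsIntegral ℤ u ∧ IsIntegral ℤ u⁻¹}
    fun u => ENNReal.ofReal (Real.exp (-δ * ‖lg u - (τ - lg (n₁ : K))‖)) with hg
  have g2 : ∑' u, g u ≤ ENNReal.ofReal |C| := by
    refine (tsum_subtype _ _).symm.trans_le ?_
    refine le_trans (ENNReal.ofReal_tsum_of_nonneg (fun u => (Real.exp_pos _).le) s1).ge ?_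
    exact ENNReal.ofReal_le_ofReal (s2.trans (le_abs_self C))
  have hi : Function.Injective fun n : R K => (n : K) / n₁ := fun a b h =>
    Subtype.ext ((div_left_inj' h3).1 h)
  refine le_trans (ENNReal.tsum_le_tsum fun n => ?_)
    ((ENNReal.tsum_comp_le_tsum_of_injective hi g).trans g2)
  split_ifs with hn
  swap
  · exact zero_le
  have hU : (n : K) / n₁ ∈ U 1 :=
    (mem_cls_iff h3).1 (by rw [cls_eq_of_mem le_rfl hc h1]; exact hn.1)
  have hU0 := U_ne_zero le_rfl hU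
  obtain ⟨e, he⟩ := Ideal.span_singleton_eq_span_singleton.1 (h2.trans hn.2.symm)
  have he1 : (n : K) / n₁ = ((e : R K) : K) := by
    rw [← he]; push_cast; exact mul_div_cancel_left₀ _ h3
  have he2 : ((n : K) / n₁)⁻¹ = (((e⁻¹ : (R K)ˣ) : R K) : K) := by
    rw [he1]
    exact inv_eq_of_mul_eq_one_right (by exact_mod_cast congrArg Subtype.val e.mul_inv)
  have hmem : (n : K) / n₁ ∈ {u : K | u ≠ 0 ∧ IsIntegral ℤ u ∧ IsIntegral ℤ u⁻¹} :=
    ⟨hU0, int_of_mem (he1 ▸ (e : R K).2) (U_mem_T hU),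
      int_of_mem (he2 ▸ ((e⁻¹ : (R K)ˣ) : R K).2) (U_mem_T (U_inv le_rfl hU))⟩
  have hl : lg (n : K) = lg ((n : K) / n₁) + lg (n₁ : K) := by
    rw [← lg_mul hU0 h3, div_mul_cancel₀ _ h3]
  simp only [hg]
  rw [Set.indicator_of_mem hmem]
  refine ENNReal.ofReal_le_ofReal (Real.exp_le_exp.2 ?_)
  have hy : ‖lg ((n : K) / n₁) - (τ - lg (n₁ : K))‖ ≤ ∑ v, |lg (n : K) v - τ v| := by
    refine (pi_norm_le_iff_of_nonneg (Finset.sum_nonneg fun v _ => abs_nonneg _)).2 fun v => ?_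
    have e1 : (lg ((n : K) / n₁) - (τ - lg (n₁ : K))) v = lg (n : K) v - τ v := by
      rw [hl]; simp only [Pi.sub_apply, Pi.add_apply]; ring
    rw [e1, Real.norm_eq_abs]
    exact Finset.single_le_sum (f := fun v => |lg (n : K) v - τ v|)
      (fun v _ => abs_nonneg _) (Finset.mem_univ v)
  nlinarith

theorem zwt_scalar {δ B P N L k : ℝ} (hδ : 0 < δ) (hδ1 : δ ≤ 1) (hB : 0 ≤ B) (hP : 0 ≤ P)
    (hN : 0 ≤ N) (hL : 0 ≤ L) (h : 2 * (P - N) = L - k) :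
    δ * N - (2 * B + 3) * P ≤ -(δ / 2 * (P + N)) + L * -(δ / 2) + max 0 k * δ + min 0 k * B := by
  obtain rfl : L = 2 * (P - N) + k := by linarith
  rcases le_total 0 k with hk | hk
  · rw [max_eq_right hk, min_eq_left hk]
    nlinarith [mul_nonneg hδ.le hL, mul_nonneg hδ.le hk, mul_nonneg hB hP,
      mul_nonneg (sub_nonneg.2 hδ1) hP]
  · rw [max_eq_left hk, min_eq_right hk]
    nlinarith [mul_nonneg hB hL, mul_nonneg hδ.le (neg_nonneg.2 hk), mul_nonneg hB hN,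
      mul_nonneg (sub_nonneg.2 hδ1) hP, mul_nonneg hδ.le hL]

theorem zwt_point {δ B : ℝ} (hδ : 0 < δ) (hδ1 : δ ≤ 1) (hB : 0 ≤ B) {x : K} (hx : x ≠ 0)
    {h : R K} (hh : h ≠ 0) (hL : h ∈ Lat x) (τ : Pl K → ℝ) :
    om δ (2 * B + 3) (lg (h : K) - τ) ≤
      Real.exp (-(δ / 2 * ∑ v, |lg (h : K) v - τ v|)) * (NS (h : K) / NS x) ^ (-(δ / 2)) *
        (max 1 (sz x τ / Nr h) ^ δ * min 1 (sz x τ / Nr h) ^ B) := by
  have hh' : (h : K) ≠ 0 := by exact_mod_cast hh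
  have n1 := NS_pos hx
  have n2 := NS_pos hh'
  have n3 := Nr_pos hh
  have n4 := sz_pos hx τ
  have hν : 1 ≤ NS (h : K) / NS x := (one_le_div n1).2 (NS_le_of_InT hh' hL)
  have hκ : 0 < sz x τ / Nr h := div_pos n4 n3
  have e1 : Real.log (max 1 (sz x τ / Nr h)) = max 0 (Real.log (sz x τ / Nr h)) := by
    rcases le_total 1 (sz x τ / Nr h) with h1 | h1
    · rw [max_eq_right h1, max_eq_right (Real.log_nonneg h1)]
    · rw [max_eq_left h1, max_eq_left (Real.log_nonpos hκ.le h1), Real.log_one]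
  have e2 : Real.log (min 1 (sz x τ / Nr h)) = min 0 (Real.log (sz x τ / Nr h)) := by
    rcases le_total 1 (sz x τ / Nr h) with h1 | h1
    · rw [min_eq_left h1, min_eq_left (Real.log_nonneg h1), Real.log_one]
    · rw [min_eq_right h1, min_eq_right (Real.log_nonpos hκ.le h1)]
  rw [Real.rpow_def_of_pos (one_pos.trans_le hν), Real.rpow_def_of_pos (lt_max_of_lt_left one_pos),
    Real.rpow_def_of_pos (lt_min one_pos hκ), e1, e2, ← Real.exp_add, ← Real.exp_add,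
    ← Real.exp_add, om, Real.exp_le_exp, ← add_assoc]
  have e3 : ∑ v, |lg (h : K) v - τ v| =
      ∑ v, max ((lg (h : K) - τ) v) 0 + ∑ v, max (-(lg (h : K) - τ) v) 0 := by
    rw [← Finset.sum_add_distrib]
    refine Finset.sum_congr rfl fun v _ => ?_
    rw [Pi.sub_apply, max_zero_add_max_neg_zero_eq_abs_self]
  have e4 : ∑ v, max ((lg (h : K) - τ) v) 0 - ∑ v, max (-(lg (h : K) - τ) v) 0 =
      ∑ v, lg (h : K) v - ∑ v, τ v := by
    rw [← Finset.sum_sub_distrib, ← Finset.sum_sub_distrib]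
    refine Finset.sum_congr rfl fun v _ => ?_
    rw [Pi.sub_apply, max_zero_sub_max_neg_zero_eq_self]
  rw [e3]
  refine zwt_scalar hδ hδ1 hB (Finset.sum_nonneg fun v _ => le_max_right _ _)
    (Finset.sum_nonneg fun v _ => le_max_right _ _) (Real.log_nonneg hν) ?_
  have e5 : 2 * ∑ v, lg (h : K) v = Real.log (Nr h) + Real.log (NS (h : K)) := by
    rw [← Real.log_mul n3.ne' n2.ne', ← Nm_coe, Nm_eq_exp hh', Real.log_exp]
  rw [e4, Real.log_div n2.ne' n1.ne', Real.log_div n4.ne' n3.ne', sz,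
    Real.log_div (Real.exp_pos _).ne' n1.ne', Real.log_exp]
  linarith

open Classical in
/-- Sum over the generators of an ideal lying in a lattice. -/
theorem sunit_sum (δ : ℝ) (hδ : 0 < δ) : ∃ C : ℝ, 0 ≤ C ∧ ∀ x : K, x ≠ 0 → ∀ J : Ideal (R K),
    J ≠ ⊥ → ∀ τ : Pl K → ℝ,
      (∑' h : R K, if h ∈ Lat x ∧ Ideal.span {h} = J then
        ENNReal.ofReal (Real.exp (-(δ * ∑ v, |lg (h : K) v - τ v|)) * (NS (h : K) / NS x) ^ (-δ))
        else 0) ≤ ENNReal.ofReal C := by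
  obtain ⟨C₁, hC₁, h₁⟩ := zwt_orbit (K := K) δ hδ
  obtain ⟨C₂, h₂⟩ := class_reps (K := K) (j := 1) le_rfl
  refine ⟨|C₂ δ| * C₁, by positivity, fun x hx J hJ τ => ?_⟩
  obtain ⟨𝒞, -, h3, h4, h5⟩ := h₂ x hx
  obtain ⟨h6, h7⟩ := h5 δ hδ
  have h8 : ∀ c : 𝒞, 0 ≤ (NS c.1 / NS x) ^ (-δ) := fun c =>
    Real.rpow_nonneg (div_pos (NS_pos (h3 c.1 c.2).1) (NS_pos hx)).le _
  calc _ ≤ ∑' h : R K, ∑' c : 𝒞, ENNReal.ofReal ((NS c.1 / NS x) ^ (-δ)) *
          (if h ∈ cls 1 c.1 ∧ Ideal.span {h} = J then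
            ENNReal.ofReal (Real.exp (-(δ * ∑ v, |lg (h : K) v - τ v|))) else 0) := by
        refine ENNReal.tsum_le_tsum fun h => ?_
        split_ifs with hh
        swap
        · exact zero_le
        have h0 : h ≠ 0 := by
          rintro rfl
          exact hJ (by rw [← hh.2, Ideal.span_singleton_zero])
        obtain ⟨c, ⟨hc, hc'⟩, -⟩ := h4 h h0 hh.1
        refine le_trans ?_ (ENNReal.le_tsum (⟨c, hc⟩ : 𝒞))
        rw [if_pos ⟨hc', hh.2⟩, NS_cls le_rfl (h3 c hc).1 hc', mul_comm,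
          ENNReal.ofReal_mul (h8 ⟨c, hc⟩)]
    _ = ∑' c : 𝒞, ENNReal.ofReal ((NS c.1 / NS x) ^ (-δ)) * ∑' h : R K,
          (if h ∈ cls 1 c.1 ∧ Ideal.span {h} = J then
            ENNReal.ofReal (Real.exp (-(δ * ∑ v, |lg (h : K) v - τ v|))) else 0) := by
        rw [ENNReal.tsum_comm]
        exact tsum_congr fun c => ENNReal.tsum_mul_left
    _ ≤ ∑' c : 𝒞, ENNReal.ofReal ((NS c.1 / NS x) ^ (-δ)) * ENNReal.ofReal C₁ :=
        ENNReal.tsum_le_tsum fun c => mul_le_mul_right (h₁ c.1 (h3 c.1 c.2).1 J τ) _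
    _ ≤ _ := by
        rw [ENNReal.tsum_mul_right, ← ENNReal.ofReal_tsum_of_nonneg h8 h6,
          ENNReal.ofReal_mul (abs_nonneg _)]
        exact mul_le_mul_left (ENNReal.ofReal_le_ofReal (h7.trans (le_abs_self _))) _

open Classical in
theorem wt_sum (δ B : ℝ) (hδ : 0 < δ) (hδ1 : δ ≤ 1) (hB : 0 ≤ B) : ∃ C : ℝ, 0 ≤ C ∧ ∀ x : K, x ≠ 0 →
    ∀ J : Ideal (R K), J ≠ ⊥ → ∀ τ : Pl K → ℝ,
      (∑' h : R K, if h ∈ Lat x ∧ Ideal.span {h} = J then
        ENNReal.ofReal (om δ (2 * B + 3) (lg (h : K) - τ)) else 0) ≤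
        ENNReal.ofReal (C * max 1 (sz x τ / NI J) ^ δ * min 1 (sz x τ / NI J) ^ B) := by
  obtain ⟨C, hC, h₁⟩ := sunit_sum (K := K) (δ / 2) (half_pos hδ)
  refine ⟨C, hC, fun x hx J hJ τ => ?_⟩
  rw [mul_assoc, ENNReal.ofReal_mul hC]
  refine le_trans ?_ (mul_le_mul_left (h₁ x hx J hJ τ) _)
  rw [← ENNReal.tsum_mul_right]
  refine ENNReal.tsum_le_tsum fun h => ?_
  split_ifs with hh
  swap
  · exact zero_le
  have h0 : h ≠ 0 := by
    rintro rfl
    exact hJ (by rw [← hh.2, Ideal.span_singleton_zero])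
  have h1 : NI J = Nr h := by rw [← hh.2]; rfl
  have h2 : 0 ≤ (NS (h : K) / NS x) ^ (-(δ / 2)) :=
    Real.rpow_nonneg (div_pos (NS_pos (by exact_mod_cast h0)) (NS_pos hx)).le _
  rw [← ENNReal.ofReal_mul (mul_nonneg (Real.exp_pos _).le h2), h1]
  exact ENNReal.ofReal_le_ofReal (zwt_point hδ hδ1 hB hx h0 hh.1 τ)

end Crest.Agent.GQ
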