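import Crest.Agent.GQ.ZPL1
import Crest.Agent.GQ.ZPL2
import Crest.Agent.GQ.ZPL4
import Crest.Agent.GQ.ZPL5
import Crest.Agent.GQ.ZSep
import Crest.Agent.GQ.ZWt

/-!
# Project GQ, part B3: Poisson lemma, step 4: diagonal and elimination of the dual variable
-/

set_option autoImplicit false

noncomputable section

open NumberField Complex UniqueFactorizationMonoid MeasureTheory
open scoped ComplexConjugate ENNReal

namespace Crest.Agent.GQ

variable {K : Type} [Field K] [NumberField K] [P : Pre K] [Q : Rec K]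

omit Q in
theorem pl6_dist (t : Pl K → ℝ) {d f : Ideal (R K)} (hd : d ≠ ⊥) (hf : f ≠ ⊥) {Z : ℝ}
    (h1 : NI d * NI f ≤ 4 * Z) (h2 : Z ≤ NI d * NI f) :
    ‖(t - lg ((gen d : K) * (gen f : K))) - tc t Z‖ ≤ 2 * balC K + 2 := by
  have pd := NI_pos hd
  have pf := NI_pos hf
  have hZ : 0 < Z := by nlinarith [mul_pos pd pf]
  have hr : (1 : ℝ) ≤ rr K := by exact_mod_cast rr_pos (K := K)
  have l1 : Real.log Z ≤ Real.log (NI d) + Real.log (NI f) := by
    rw [← Real.log_mul pd.ne' pf.ne']; exact Real.log_le_log hZ h2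
  have l2 : Real.log (NI d) + Real.log (NI f) ≤ 3 + Real.log Z := by
    rw [← Real.log_mul pd.ne' pf.ne']
    refine (Real.log_le_log (mul_pos pd pf) h1).trans ?_
    rw [Real.log_mul (by norm_num) hZ.ne']
    linarith [Real.log_le_sub_one_of_pos (show (0 : ℝ) < 4 by norm_num)]
  refine (pi_norm_le_iff_of_nonneg (by positivity)).2 fun v => ?_
  have b1 := abs_le.1 ((isBal_gen hd).2.2.2 v)
  have b2 := abs_le.1 ((isBal_gen hf).2.2.2 v)
  have gd : ((gen d : R K) : K) ≠ 0 := fun h => gen_ne_zero hd (Subtype.ext h)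
  have gf : ((gen f : R K) : K) ≠ 0 := fun h => gen_ne_zero hf (Subtype.ext h)
  have e1 : (Real.log (NI d) + Real.log (NI f) - Real.log Z) / (2 * rr K) ≤ 2 := by
    rw [div_le_iff₀ (by positivity)]; linarith
  have e2 : 0 ≤ (Real.log (NI d) + Real.log (NI f) - Real.log Z) / (2 * rr K) :=
    div_nonneg (by linarith) (by positivity)
  rw [sub_div, add_div] at e1 e2
  rw [lg_mul gd gf, Real.norm_eq_abs, abs_le]
  simp only [Pi.sub_apply, Pi.add_apply, tc]
  unfold NI at e1 e2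
  constructor <;> linarith [b1.1, b1.2, b2.1, b2.2]

theorem pl6_maxmin {A z δ B : ℝ} (hA : 0 ≤ A) (hz : 0 ≤ z) (hδ : 0 ≤ δ) (hB : 0 ≤ B) :
    max 1 (A * z) ^ δ * min 1 (A * z) ^ B ≤
      max 1 A ^ δ * max 1 A ^ B * (max 1 z ^ δ * min 1 z ^ B) := by
  have m1 : 1 ≤ max 1 A := le_max_left _ _
  have m2 : A ≤ max 1 A := le_max_right _ _
  have h1 : max 1 (A * z) ≤ max 1 A * max 1 z :=
    max_le (one_le_mul_of_one_le_of_one_le m1 (le_max_left _ _))
      (mul_le_mul m2 (le_max_right _ _) hz (by linarith))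
  have h2 : min 1 (A * z) ≤ max 1 A * min 1 z := by
    rcases le_total 1 z with h | h
    · rw [min_eq_left h, mul_one]; exact (min_le_left _ _).trans m1
    · rw [min_eq_right h]; exact (min_le_right _ _).trans (mul_le_mul_of_nonneg_right m2 hz)
  calc _ ≤ (max 1 A * max 1 z) ^ δ * (max 1 A * min 1 z) ^ B := by gcongr
    _ = _ := by
      rw [Real.mul_rpow (by positivity) (by positivity),
        Real.mul_rpow (by positivity) (by positivity)]
      ring

open Classical in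
omit Q in
theorem pl6_inner (e0 : ℕ) (he0 : e0 = 1 ∨ e0 = 3 ∨ e0 = 5) (j : ℕ) (hj : 1 ≤ j) (lam : ℝ)
    (hlam : 0 < lam) (δ B N : ℝ) (hδ : 0 < δ) (hδ1 : δ ≤ 1) (hB : 0 ≤ B) (A : ℝ) (hA : 0 < A) :
    ∃ C : ℝ, 0 ≤ C ∧ ∀ a : R K → ℂ, (∀ n, ‖a n‖ ≤ 1) → (∀ n, a n ≠ 0 → Squarefree n) →
      ∀ c : K, c ≠ 0 → ∀ (t ξ : Pl K → ℝ) (H ρ : ℝ), 0 < H → 0 < ρ → ρ ^ (2 * rr K) = A * H →
      ∀ d e f : Ideal (R K), e ∣ d → Squarefree (d * f) → ∀ Z : ℝ, NI d * NI f ≤ 4 * Z →
        Z ≤ NI d * NI f →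
        (∑' h : R K, if h ≠ 0 ∧ h ∈ Lat ((c / (gen d : K)) ^ 2 * (gen e : K) / dl K) then
          ENNReal.ofReal (NS (c / (gen d : K)) / (NI e * Nm (gen f : K))) *
            ‖bil (dualF e0 a d e f (Ideal.span {h})) j (c / ((gen d : K) * (gen f : K)))
              lam (t - lg ((gen d : K) * (gen f : K))) ξ (xv ρ h e f)‖ₑ else 0) ≤
        ∑' J : Ideal (R K), if J ≠ ⊥ then
          ENNReal.ofReal (C * (NI d / (NI e * sz c t)) *
            max 1 (NI e * sz c t ^ 2 / (H * NI d ^ 2) / NI J) ^ δ *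
            min 1 (NI e * sz c t ^ 2 / (H * NI d ^ 2) / NI J) ^ B) *
          Qav (dualF e0 a d e f J) j (c / ((gen d : K) * (gen f : K))) lam N (tc t Z) ξ
        else 0 := by
  obtain ⟨Cs, hCs, hs⟩ := sep_bil (K := K) lam hlam δ (2 * B + 3) N (2 * balC K + 2) hδ
    (by positivity)
  obtain ⟨Cw, hCw, hw⟩ := wt_sum (K := K) δ B hδ hδ1 hB
  set C' := NS (dl K) / (2 ^ (2 * rr K) * A) with hC'
  have hdl := NS_pos (dl_ne_zero (K := K))
  have hC0 : 0 ≤ C' := by positivity
  refine ⟨Cs * Cw * (max 1 C' ^ δ * max 1 C' ^ B), by positivity,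
    fun a ha hsf c hc t ξ H ρ hH hρ hρH d e f hed hdf Z hZ1 hZ2 => ?_⟩
  have hd : d ≠ ⊥ := hdf.of_mul_left.ne_zero
  have hf : f ≠ ⊥ := hdf.of_mul_right.ne_zero
  have he : e ≠ ⊥ := ne_zero_of_dvd_ne_zero hd hed
  have gd : ((gen d : R K) : K) ≠ 0 := fun h => gen_ne_zero hd (Subtype.ext h)
  have ge : ((gen e : R K) : K) ≠ 0 := fun h => gen_ne_zero he (Subtype.ext h)
  have gf : ((gen f : R K) : K) ≠ 0 := fun h => gen_ne_zero hf (Subtype.ext h)
  have pd := NI_pos hd
  have pe := NI_pos he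
  have sd := NS_pos gd
  have se := NS_pos ge
  have sc := NS_pos hc
  have mf := Nm_pos gf
  have hX := sz_pos hc t
  have md : Nm ((gen d : R K) : K) = NI d * NS ((gen d : R K) : K) := by rw [Nm_coe, Nr_gen']
  have me : Nm ((gen e : R K) : K) = NI e * NS ((gen e : R K) : K) := by rw [Nm_coe, Nr_gen']
  set x := (c / (gen d : K)) ^ 2 * (gen e : K) / dl K with hx
  have hx0 : x ≠ 0 := div_ne_zero (mul_ne_zero (pow_ne_zero 2 (div_ne_zero hc gd)) ge) dl_ne_zero
  set τ : Pl K → ℝ := fun v => 2 * t v - 2 * lg (gen d : K) v + lg (gen e : K) v - Real.log (2 * ρ)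
    with hτ
  have e1 : NS (c / (gen d : K)) / (NI e * Nm (gen f : K)) *
      Real.exp (-(2 * ∑ v, (t - lg ((gen d : K) * (gen f : K))) v)) = NI d / (NI e * sz c t) := by
    simp only [Pi.sub_apply, Finset.sum_sub_distrib, mul_sub, neg_sub, Real.exp_sub]
    rw [← Nm_eq_exp (mul_ne_zero gd gf), Nm_mul, md, NS_div, sz]
    field_simp
  have e2 : ∀ h : R K, (fun v => xv ρ h e f v - 2 * (t - lg ((gen d : K) * (gen f : K))) v) =
      lg (h : K) - τ := fun h => by
    funext v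
    simp only [xv, hτ, lg_mul gd gf, Pi.sub_apply, Pi.add_apply]
    ring
  have e3 : sz x τ = C' * (NI e * sz c t ^ 2 / (H * NI d ^ 2)) := by
    have : 2 * ∑ v, τ v = (2 * ∑ v, t v + 2 * ∑ v, t v + 2 * ∑ v, lg (gen e : K) v) -
        (2 * ∑ v, lg (gen d : K) v + 2 * ∑ v, lg (gen d : K) v +
          ((2 * rr K : ℕ) : ℝ) * Real.log (2 * ρ)) := by
      simp only [hτ, Finset.sum_sub_distrib, Finset.sum_add_distrib, ← Finset.mul_sum,
        Finset.sum_const, Finset.card_univ, nsmul_eq_mul]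
      push_cast
      ring
    rw [sz, this, Real.exp_sub, Real.exp_add, Real.exp_add, Real.exp_add, Real.exp_add,
      ← Nm_eq_exp gd, ← Nm_eq_exp ge, Real.exp_nat_mul, Real.exp_log (by positivity), mul_pow, hρH,
      md, me, hx, NS_div, NS_mul, NS_pow, NS_div, hC', sz]
    field_simp
  calc _ ≤ ∑' h : R K, ∑' J : Ideal (R K), ENNReal.ofReal (Cs * (NI d / (NI e * sz c t))) *
          ((if J ≠ ⊥ then (if h ∈ Lat x ∧ Ideal.span {h} = J then
            ENNReal.ofReal (om δ (2 * B + 3) (lg (h : K) - τ)) else 0) else 0) *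
          Qav (dualF e0 a d e f J) j (c / ((gen d : K) * (gen f : K))) lam N (tc t Z) ξ) := by
        refine ENNReal.tsum_le_tsum fun h => ?_
        split_ifs with hh
        swap
        · exact zero_le
        refine le_trans ?_ (ENNReal.le_tsum (Ideal.span {h}))
        rw [if_pos (by rw [Ne, Ideal.span_singleton_eq_bot]; exact hh.1), if_pos ⟨hh.2, rfl⟩]
        refine (mul_le_mul_right (hs j hj _ (norm_dualF_le e0 he0 a ha hsf d e f _) _
          (div_ne_zero hc (mul_ne_zero gd gf)) _ _ ξ _ (pl6_dist t hd hf hZ1 hZ2)) _).trans_eq ?_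
        have := NS_pos (div_ne_zero hc gd)
        rw [e2, ← mul_assoc, ← mul_assoc, ← ENNReal.ofReal_mul (by positivity),
          ← ENNReal.ofReal_mul (by positivity), ← e1]
        congr 2
        ring
    _ ≤ _ := by
        rw [ENNReal.tsum_comm]
        refine ENNReal.tsum_le_tsum fun J => ?_
        rw [ENNReal.tsum_mul_left, ENNReal.tsum_mul_right]
        split_ifs with hJ
        swap
        · simp
        rw [← mul_assoc]
        refine mul_le_mul_left ((mul_le_mul_right (hw x hx0 J hJ τ) _).trans ?_) _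
        rw [← ENNReal.ofReal_mul (by positivity)]
        refine ENNReal.ofReal_le_ofReal ?_
        have pJ := NI_pos hJ
        have := pl6_maxmin (z := NI e * sz c t ^ 2 / (H * NI d ^ 2) / NI J) hC0 (by positivity)
          hδ.le hB
        rw [e3, mul_div_assoc C']
        calc _ = Cs * Cw * (NI d / (NI e * sz c t)) *
              (max 1 (C' * (NI e * sz c t ^ 2 / (H * NI d ^ 2) / NI J)) ^ δ *
                min 1 (C' * (NI e * sz c t ^ 2 / (H * NI d ^ 2) / NI J)) ^ B) := by ring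
          _ ≤ _ := (mul_le_mul_of_nonneg_left this (by positivity)).trans_eq (by ring)

open Classical in
theorem pl6 (e0 : ℕ) (he0 : e0 = 1 ∨ e0 = 3 ∨ e0 = 5) (j : ℕ) (hj : Rec.k K ≤ j) (lam : ℝ)
    (hlam : 0 < lam) (δ B N : ℝ) (hδ : 0 < δ) (hδ1 : δ ≤ 1) (hB : 0 ≤ B) :
    ∃ C : ℝ, 0 ≤ C ∧ ∀ a : R K → ℂ, (∀ n, ‖a n‖ ≤ 1) → (∀ n, a n ≠ 0 → Squarefree n) →
      ∀ c : K, c ≠ 0 → ∀ (t ξ : Pl K → ℝ) (H : ℝ), 1 ≤ H →
      ∀ Z : Ideal (R K) → Ideal (R K) → ℝ,
        (∀ d f, d ≠ ⊥ → f ≠ ⊥ → NI d * NI f ≤ 4 * Z d f ∧ Z d f ≤ NI d * NI f) →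
        ENNReal.ofReal (∑ J ∈ rows K H, ‖Sm (fun n => a n * chiI J n ^ e0) j c lam t ξ‖ ^ 2) ≤
          ENNReal.ofReal (C * H * sz c t) +
          ∑' x : (Ideal (R K) × Ideal (R K) × Ideal (R K)) × Ideal (R K),
            if x.1.2.1 ∣ x.1.1 ∧ Squarefree (x.1.1 * x.1.2.2) ∧ x.2 ≠ ⊥ then
              ENNReal.ofReal (C * (H * NI x.1.1 / (NI x.1.2.1 * sz c t)) *
                max 1 (NI x.1.2.1 * sz c t ^ 2 / (H * NI x.1.1 ^ 2) / NI x.2) ^ δ *
                min 1 (NI x.1.2.1 * sz c t ^ 2 / (H * NI x.1.1 ^ 2) / NI x.2) ^ B) *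
              Qav (dualF e0 a x.1.1 x.1.2.1 x.1.2.2 x.2) j
                (c / ((gen x.1.1 : K) * (gen x.1.2.2 : K))) lam N (tc t (Z x.1.1 x.1.2.2)) ξ
            else 0 := by
  have hj1 : 1 ≤ j := Q.hk.trans hj
  obtain ⟨C1, C2, hC1, hC2, h1⟩ := pl1 (K := K)
  obtain ⟨C4, hC4, h4⟩ := pl4 (K := K)
  obtain ⟨C5, hC5, h5⟩ := pl5 (K := K) lam hlam
  have hA : 0 < C1 ^ (2 * rr K) := by positivity
  obtain ⟨C6, hC6, h6⟩ := pl6_inner (K := K) e0 he0 j hj1 lam hlam δ B N hδ hδ1 hB _ hA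
  refine ⟨C2 * C4 * C1 ^ (2 * rr K) * (C5 + C6), by positivity,
    fun a ha hsf c hc t ξ H hH Z hZ => ?_⟩
  have hH0 : 0 < H := by linarith
  have hX := sz_pos hc t
  set ρ := C1 * H ^ (1 / (2 * rr K) : ℝ) with hρ
  have hρ0 : 0 < ρ := by positivity
  have hρH : ρ ^ (2 * rr K) = C1 ^ (2 * rr K) * H := by
    have hr : (2 * rr K : ℝ) ≠ 0 := by have := rr_pos (K := K); positivity
    rw [hρ, mul_pow, ← Real.rpow_natCast (H ^ _), ← Real.rpow_mul hH0.le]
    push_cast
    rw [one_div_mul_cancel hr, Real.rpow_one]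
  have hD : 0 ≤ C2 * C4 * C1 ^ (2 * rr K) * H := by positivity
  calc _ ≤ ENNReal.ofReal (C2 * latMS e0 a ρ j c lam t ξ) :=
        ENNReal.ofReal_le_ofReal (h1 e0 j hj lam hlam a ha c hc t ξ H hH)
    _ ≤ ENNReal.ofReal C2 * ∑' d : Ideal (R K), ENNReal.ofReal (C4 * ρ ^ (2 * rr K)) *
          ((if Squarefree d then dg j c lam t ξ d else 0) +
            (if Squarefree d then offd e0 a ρ j c lam t ξ d else 0)) := by
        rw [ENNReal.ofReal_mul hC2]
        refine mul_le_mul_right ((pl2 e0 j hj1 lam hlam a ha hsf ρ hρ0 c hc t ξ).trans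
          (ENNReal.tsum_le_tsum fun d => ?_)) _
        split_ifs with hd
        · exact h4 e0 he0 j hj lam hlam a ha hsf ρ hρ0 c hc t ξ d hd
        · exact zero_le
    _ = ENNReal.ofReal (C2 * C4 * C1 ^ (2 * rr K) * H) *
          (∑' d : Ideal (R K), if Squarefree d then dg j c lam t ξ d else 0) +
        ∑' d : Ideal (R K), ENNReal.ofReal (C2 * C4 * C1 ^ (2 * rr K) * H) *
          (if Squarefree d then offd e0 a ρ j c lam t ξ d else 0) := by
        rw [ENNReal.tsum_mul_left, ENNReal.tsum_mul_left, ENNReal.tsum_add, ← mul_assoc,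
          ← ENNReal.ofReal_mul hC2, hρH, mul_add, mul_assoc, mul_assoc C2]
    _ ≤ _ := by
        refine add_le_add ?_ ?_
        · refine (mul_le_mul_right (h5 j hj1 c hc t ξ) _).trans ?_
          rw [← ENNReal.ofReal_mul hD]
          refine ENNReal.ofReal_le_ofReal ?_
          have : 0 ≤ C2 * C4 * C1 ^ (2 * rr K) * C6 * H * sz c t := by positivity
          nlinarith
        · rw [ENNReal.tsum_prod', ENNReal.tsum_prod']
          refine ENNReal.tsum_le_tsum fun d => ?_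
          split_ifs with hd
          swap
          · rw [mul_zero]; exact zero_le
          rw [offd, ENNReal.tsum_prod', ENNReal.tsum_prod', ← ENNReal.tsum_mul_left]
          refine ENNReal.tsum_le_tsum fun e => ?_
          rw [ENNReal.tsum_prod', ← ENNReal.tsum_mul_left]
          refine ENNReal.tsum_le_tsum fun f => ?_
          by_cases hc' : e ∣ d ∧ Squarefree (d * f)
          swap
          · rw [ENNReal.tsum_eq_zero.2 fun h => if_neg fun h' => hc' ⟨h'.1, h'.2.1⟩, mul_zero]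
            exact zero_le
          have hd0 : d ≠ ⊥ := hd.ne_zero
          have hf0 : f ≠ ⊥ := hc'.2.of_mul_right.ne_zero
          have h7 := h6 a ha hsf c hc t ξ H ρ hH0 hρ0 hρH d e f hc'.1 hc'.2 _ (hZ d f hd0 hf0).1
            (hZ d f hd0 hf0).2
          simp only [hc'.1, hc'.2, true_and]
          refine (mul_le_mul_right h7 _).trans ?_
          rw [← ENNReal.tsum_mul_left]
          refine ENNReal.tsum_le_tsum fun J => ?_
          split_ifs with hJ
          swap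
          · rw [mul_zero]
          rw [← mul_assoc, ← ENNReal.ofReal_mul hD]
          refine mul_le_mul_left (ENNReal.ofReal_le_ofReal ?_) _
          have p1 := NI_nonneg d
          have p2 := NI_nonneg e
          have p3 := NI_nonneg J
          have p4 : 0 ≤ max 1 (NI e * sz c t ^ 2 / (H * NI d ^ 2) / NI J) ^ δ := by positivity
          have p5 : 0 ≤ min 1 (NI e * sz c t ^ 2 / (H * NI d ^ 2) / NI J) ^ B := by positivity
          generalize max 1 (NI e * sz c t ^ 2 / (H * NI d ^ 2) / NI J) ^ δ = u at p4 ⊢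
          generalize min 1 (NI e * sz c t ^ 2 / (H * NI d ^ 2) / NI J) ^ B = w at p5 ⊢
          rw [mul_div_assoc H]
          have p6 : 0 ≤ NI d / (NI e * sz c t) := by positivity
          generalize NI d / (NI e * sz c t) = z at p6 ⊢
          have : 0 ≤ C2 * C4 * C1 ^ (2 * rr K) * C5 * H * z * u * w := by positivity
          nlinarith

end Crest.Agent.GQ
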