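import Crest.Agent.GQ.ZTW
import Crest.Agent.GQ.ZDWC
import Crest.Agent.GQ.ZConv

/-!
# Project GQ, part B3: Polya-Vinogradov bounds
-/

set_option autoImplicit false

noncomputable section

open NumberField Complex UniqueFactorizationMonoid MeasureTheory
open scoped ComplexConjugate ENNReal

namespace Crest.Agent.GQ

variable {K : Type} [Field K] [NumberField K] [P : Pre K] [Q : Rec K]

omit Q in
open Classical in
theorem pv_summable (j : ℕ) (hj : 1 ≤ j) (c : K) (hc : c ≠ 0) (lam : ℝ) (hlam : 0 < lam)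
    (t ξ : Pl K → ℝ) (g : Ideal (R K)) :
    Summable (fun n : R K =>
      if n ∈ cls j c ∧ gen g ∣ n then ‖Gf n‖ * ‖pk lam t ξ (n : K)‖ else 0) := by
  have h := (mod_Gf.summable hj hc hlam t ξ).norm
  refine Summable.of_nonneg_of_le (fun n => by split_ifs <;> positivity) (fun n => ?_) h
  by_cases h1 : n ∈ cls j c
  · rw [if_pos h1, norm_mul]
    split_ifs
    · exact le_rfl
    · positivity
  · rw [if_neg (fun h => h1 h.1)]
    exact norm_nonneg _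

omit Q in
/-- trivial bound for a twisted sum of `Gf` -/
theorem pv_triv (lam : ℝ) (hlam : 0 < lam) : ∃ C : ℝ, 0 ≤ C ∧ ∀ j : ℕ, 1 ≤ j → ∀ c : K, c ≠ 0 →
    ∀ t ξ : Pl K → ℝ, ∀ ψ : R K → ℂ, (∀ n, ‖ψ n‖ ≤ 1) →
      ‖Sm (fun n => Gf n * ψ n) j c lam t ξ‖ ≤ C * sz c t := by
  classical
  obtain ⟨C, hC, h⟩ := triv_Gf (K := K) lam hlam
  refine ⟨C, hC, fun j hj c hc t ξ ψ hψ => ?_⟩
  have h1 := h j hj c hc t ξ ⊤ (by rw [← Ideal.one_eq_top]; exact squarefree_one)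
  have h2 : NI (⊤ : Ideal (R K)) = 1 := by rw [NI, nmI_top, Nat.cast_one]
  rw [h2, div_one] at h1
  refine le_trans ?_ h1
  unfold Sm
  refine tsum_of_norm_bounded (pv_summable j hj c hc lam hlam t ξ ⊤).hasSum fun n => ?_
  have h3 : gen (⊤ : Ideal (R K)) ∣ n := gen_dvd_iff.2 (by rw [← Ideal.one_eq_top]; exact one_dvd _)
  by_cases h1 : n ∈ cls j c
  · rw [if_pos h1, if_pos ⟨h1, h3⟩, norm_mul, norm_mul]
    have := hψ n
    have h4 := norm_nonneg (Gf n)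
    have h5 := norm_nonneg (pk lam t ξ (n : K))
    gcongr
    exact mul_le_of_le_one_right h4 this
  · rw [if_neg h1, if_neg (fun h => h1 h.1), norm_zero]

omit Q in
theorem pv_norm_sqrt (x : ℝ) : ‖((Real.sqrt x : ℝ) : ℂ)‖ = Real.sqrt x := by
  rw [Complex.norm_real, Real.norm_of_nonneg (Real.sqrt_nonneg _)]

omit Q in
/-- trivial bound for a sum of `Gf` twisted by a Ramanujan sum -/
theorem pv_ram (lam : ℝ) (hlam : 0 < lam) : ∃ C : ℝ, 0 ≤ C ∧ ∀ j : ℕ, 1 ≤ j → ∀ c : K, c ≠ 0 →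
    ∀ t ξ : Pl K → ℝ, ∀ (ψ χ : R K → ℂ), (∀ n, ‖ψ n‖ ≤ 1) → (∀ n, ‖χ n‖ ≤ 1) →
      ∀ b : Ideal (R K), Squarefree b →
      ‖Sm (fun n => Gf n * (ψ n * (χ n * (ram b n / (Real.sqrt (NI b) : ℂ))))) j c lam t ξ‖ ≤
        C * (divs b).card * sz c t / Real.sqrt (NI b) := by
  classical
  obtain ⟨C, hC, h⟩ := triv_Gf (K := K) lam hlam
  refine ⟨C, hC, fun j hj c hc t ξ ψ χ hψ hχ b hb => ?_⟩
  have hb0 : b ≠ ⊥ := hb.ne_zero
  have hs : 0 < Real.sqrt (NI b) := Real.sqrt_pos.2 (NI_pos hb0)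
  set F : Ideal (R K) → R K → ℝ := fun g n =>
    if n ∈ cls j c ∧ gen g ∣ n then ‖Gf n‖ * ‖pk lam t ξ (n : K)‖ else 0 with hF
  have hsum : HasSum (fun n => ∑ g ∈ divs b, NI g / Real.sqrt (NI b) * F g n)
      (∑ g ∈ divs b, NI g / Real.sqrt (NI b) * ∑' n, F g n) :=
    hasSum_sum fun g _ => (pv_summable j hj c hc lam hlam t ξ g).hasSum.mul_left _
  have h1 : ‖Sm (fun n => Gf n * (ψ n * (χ n * (ram b n / (Real.sqrt (NI b) : ℂ))))) j c lam t ξ‖ ≤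
      ∑ g ∈ divs b, NI g / Real.sqrt (NI b) * ∑' n, F g n := by
    unfold Sm
    refine tsum_of_norm_bounded hsum fun n => ?_
    by_cases h1 : n ∈ cls j c
    · rw [if_pos h1]
      simp only [norm_mul, norm_div, pv_norm_sqrt]
      have h2 := norm_ram_le b n
      have h3 : ‖ψ n‖ * (‖χ n‖ * (‖ram b n‖ / Real.sqrt (NI b))) ≤
          (∑ g ∈ divs b, if gen g ∣ n then NI g else 0) / Real.sqrt (NI b) := by
        refine (mul_le_of_le_one_left (by positivity) (hψ n)).trans ?_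
        refine (mul_le_of_le_one_left (by positivity) (hχ n)).trans ?_
        gcongr
      calc ‖Gf n‖ * (‖ψ n‖ * (‖χ n‖ * (‖ram b n‖ / Real.sqrt (NI b)))) * ‖pk lam t ξ (n : K)‖
          ≤ ‖Gf n‖ * ((∑ g ∈ divs b, if gen g ∣ n then NI g else 0) / Real.sqrt (NI b)) *
            ‖pk lam t ξ (n : K)‖ := by gcongr
        _ = _ := by
          rw [Finset.sum_div, Finset.mul_sum, Finset.sum_mul]
          refine Finset.sum_congr rfl fun g _ => ?_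
          simp only [hF, h1, true_and]
          split_ifs
          · ring
          · simp
    · rw [if_neg h1, norm_zero]
      refine Finset.sum_nonneg fun g _ => mul_nonneg (div_nonneg (NI_nonneg _) hs.le) ?_
      simp only [hF]
      split_ifs <;> positivity
  refine h1.trans ?_
  calc ∑ g ∈ divs b, NI g / Real.sqrt (NI b) * ∑' n, F g n
      ≤ ∑ _g ∈ divs b, C * sz c t / Real.sqrt (NI b) := by
        refine Finset.sum_le_sum fun g hg => ?_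
        have hgb := (mem_divs hb0).1 hg
        have hgs : Squarefree g := hb.squarefree_of_dvd hgb
        have hg0 := NI_pos (K := K) hgs.ne_zero
        have h2 := h j hj c hc t ξ g hgs
        calc NI g / Real.sqrt (NI b) * ∑' n, F g n
            ≤ NI g / Real.sqrt (NI b) * (C * sz c t / NI g) := by gcongr
          _ = _ := by field_simp
    _ = _ := by rw [Finset.sum_const, nsmul_eq_mul]; ring

omit Q in
theorem pv_mod (ψ χ : R K → ℂ) (hψ : ∀ n, ‖ψ n‖ ≤ 1) (hχ : ∀ n, ‖χ n‖ ≤ 1) (b : Ideal (R K)) :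
    Mod (fun n => Gf n * (ψ n * (χ n * (ram b n / (Real.sqrt (NI b) : ℂ))))) := by
  classical
  refine mod_Gf.mul_bdd (C := (∑ g ∈ divs b, NI g) / Real.sqrt (NI b)) fun n => ?_
  simp only [norm_mul, norm_div, pv_norm_sqrt]
  refine (mul_le_of_le_one_left (by positivity) (hψ n)).trans ?_
  refine (mul_le_of_le_one_left (by positivity) (hχ n)).trans ?_
  gcongr
  refine (norm_ram_le b n).trans (Finset.sum_le_sum fun g _ => ?_)
  split_ifs
  · exact le_rfl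
  · exact NI_nonneg _

omit Q in
/-- one dual term -/
theorem pv_dual (j' : ℕ) (hj' : 1 ≤ j') (C1 : ℝ) (hC1 : 0 ≤ C1) (lam : ℝ) (hlam : 0 < lam) :
    ∃ C A : ℝ, 0 ≤ C ∧ 0 ≤ A ∧ ∀ (h b : Ideal (R K)) (κ ψ χ : R K → ℂ) (c : K) (t ξ : Pl K → ℝ),
      c ≠ 0 → h ≠ ⊥ → Squarefree b → (∀ n, ‖ψ n‖ ≤ 1) → (∀ n, ‖χ n‖ ≤ 1) →
      KapOK j' C1 c (gen h) κ →
      ‖dualS κ (fun n => Gf n * (ψ n * (χ n * (ram b n / (Real.sqrt (NI b) : ℂ))))) lam t ξ c
        (gen h)‖ ≤ C * (1 + ‖ξ‖) ^ A * ((divs b).card * NI h / Real.sqrt (NI b)) := by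
  obtain ⟨C, A, hC, hA, H⟩ := DWC (K := K) j' hj' C1 hC1 lam hlam 1 zero_le_one
  obtain ⟨D, hD, hr⟩ := pv_ram (K := K) 1 one_pos
  refine ⟨Real.sqrt C * D, A, by positivity, hA, fun h b κ ψ χ c t ξ hc hh hb hψ hχ hκ => ?_⟩
  have hb0 : b ≠ ⊥ := hb.ne_zero
  have hs : 0 < Real.sqrt (NI b) := Real.sqrt_pos.2 (NI_pos hb0)
  have hX := sz_pos hc t
  have hH := one_le_NI hh
  set Y := NI h ^ 2 / sz c t with hY
  have hY0 : 0 < Y := by positivity
  have h1 := H Unit Finset.univ (fun _ => h) (fun _ => κ)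
    (fun _ n => Gf n * (ψ n * (χ n * (ram b n / (Real.sqrt (NI b) : ℂ))))) c t ξ (NI h)
    ((D * (divs b).card * Y / Real.sqrt (NI b)) ^ 2) hc hH (by positivity)
    (fun _ _ => ⟨pv_mod ψ χ hψ hχ b, hκ, le_rfl, by linarith⟩) (fun c' hc' t' ξ' => by
      rw [Finset.sum_const, Finset.card_univ, Fintype.card_unit, one_smul, Real.rpow_one, ← hY]
      have h2 := hr j' hj' c' hc' t' ξ' ψ χ hψ hχ b hb
      have hX' := sz_pos hc' t'
      have h3 : sz c' t' / Y ≤ max 1 (sz c' t' / Y) * (1 + ‖ξ'‖) :=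
        (le_max_right _ _).trans (le_mul_of_one_le_right
          (le_trans zero_le_one (le_max_left _ _)) (by linarith [norm_nonneg ξ']))
      calc _ ≤ (D * (divs b).card * sz c' t' / Real.sqrt (NI b)) ^ 2 := by gcongr
        _ = (D * (divs b).card * Y / Real.sqrt (NI b)) ^ 2 * (sz c' t' / Y) * (sz c' t' / Y) := by
          field_simp
        _ ≤ _ := by gcongr)
  rw [Finset.sum_const, Finset.card_univ, Fintype.card_unit, one_smul] at h1
  have hu : 1 ≤ (1 + ‖ξ‖) ^ A := Real.one_le_rpow (by linarith [norm_nonneg ξ]) hA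
  refine le_of_sq_le_sq (h1.trans ?_) (by positivity)
  have h4 : (Real.sqrt C * D * (1 + ‖ξ‖) ^ A * ((divs b).card * NI h / Real.sqrt (NI b))) ^ 2 =
      C * ((1 + ‖ξ‖) ^ A * (1 + ‖ξ‖) ^ A) * (D * (divs b).card * Y / Real.sqrt (NI b)) ^ 2 *
        (sz c t / NI h) ^ 2 := by
    rw [hY, mul_pow, mul_pow, mul_pow, Real.sq_sqrt hC]
    field_simp
  rw [h4]
  gcongr
  exact le_mul_of_one_le_right (by positivity) hu

theorem PV (hcv : CV K) (j : ℕ) (hj : Rec.k K ≤ j) (lam : ℝ) (hlam : 0 < lam) (ε : ℝ) (hε : 0 < ε) :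
    ∃ C A : ℝ, 0 ≤ C ∧ 0 ≤ A ∧ ∀ e : ℤ, (e = 1 ∨ e = -1) → ∀ J ρ b : Ideal (R K), J ≠ ⊥ → ρ ≠ ⊥ →
      radI J ∣ ρ → b ∣ bpart J → ∀ c : K, c ≠ 0 → ∀ t ξ : Pl K → ℝ,
        ‖Sm (fun n => Gf n * (ang (n : K) ^ e * chiI J n)) j c lam t ξ‖ ≤
          C * (1 + ‖ξ‖) ^ A * (NI ρ ^ (1 + ε) / Real.sqrt (NI b)) := by
  have hj1 : 1 ≤ j := (Rec.hk (K := K)).trans hj
  obtain ⟨j', C1, hjj, hC1, H⟩ := TW hcv j hj
  obtain ⟨C, A, hC, hA, hd⟩ := pv_dual (K := K) j' (hj1.trans hjj) C1 hC1 lam hlam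
  obtain ⟨D, hD⟩ := card_divs_le (K := K) (half_pos hε)
  refine ⟨C * |D| ^ 2, A, by positivity, hA, fun e he J ρ b hJ hρ hJρ hb c hc t ξ => ?_⟩
  obtain ⟨κ, hκ, H1⟩ := H e he c hc
  obtain ⟨𝒯, J', hT, H2⟩ := H1 J hJ
  obtain ⟨η, hη, H3⟩ := H2 ⊤ (by rw [← Ideal.one_eq_top]; exact squarefree_one)
    (by rw [← Ideal.one_eq_top]; exact isCoprime_one_left)
  have H4 := H3 lam hlam t ξ
  simp only [chiI_top, one_pow, one_mul, Ideal.top_mul] at H4
  rw [H4]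
  have hb0 := squarefree_bpart J
  have hbρ : bpart J ∣ ρ := (bpart_dvd_radI J).trans hJρ
  have hρ0 := NI_pos hρ
  have hdiv : ∀ I : Ideal (R K), I ∣ ρ → ((divs I).card : ℝ) ≤ |D| * NI ρ ^ (ε / 2) := by
    intro I hI
    have hI0 : I ≠ ⊥ := ne_zero_of_dvd_ne_zero hρ hI
    refine (hD I hI0).trans ?_
    have h1 : NI I ≤ NI ρ := NI_le_of_dvd hρ hI
    have h2 := NI_nonneg I
    change D * NI I ^ (ε / 2) ≤ _
    gcongr
    exact le_abs_self D
  have hbb : b ≠ ⊥ := ne_zero_of_dvd_ne_zero hb0.ne_zero hb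
  have hs : 0 < Real.sqrt (NI b) := Real.sqrt_pos.2 (NI_pos hbb)
  have hs1 : Real.sqrt (NI b) ≤ Real.sqrt (NI (bpart J)) :=
    Real.sqrt_le_sqrt (NI_le_of_dvd hb0.ne_zero hb)
  have hcard : (𝒯.card : ℝ) ≤ |D| * NI ρ ^ (ε / 2) := by
    refine le_trans ?_ (hdiv _ hJρ)
    exact Nat.cast_le.2 (Finset.card_le_card fun h' hh => (mem_divs (radI_ne_bot J)).2 (hT h' hh).1)
  refine (norm_sum_le _ _).trans ?_
  calc _ ≤ ∑ _h' ∈ 𝒯, C * (1 + ‖ξ‖) ^ A * (|D| * NI ρ ^ (ε / 2) * NI ρ / Real.sqrt (NI b)) := by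
        refine Finset.sum_le_sum fun h' hh => ?_
        have hh1 : h' ∣ ρ := (hT h' hh).1.trans hJρ
        have hh0 : h' ≠ ⊥ := ne_zero_of_dvd_ne_zero hρ hh1
        rw [norm_mul]
        refine (mul_le_of_le_one_left (norm_nonneg _) (hη h' hh)).trans ?_
        refine (hd h' (bpart J) (κ (gen h')) (fun r => ang (r : K) ^ (-e)) (chiI (J' h')) c t ξ hc
          hh0 hb0 (fun n => norm_ang_zpow_le _ _) (norm_chiI_le _)
          (hκ _ (gen_ne_zero hh0))).trans ?_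
        have h1 := hdiv _ hbρ
        have h2 : NI h' ≤ NI ρ := NI_le_of_dvd hρ hh1
        have h3 := NI_nonneg h'
        gcongr
    _ = 𝒯.card * (C * (1 + ‖ξ‖) ^ A * (|D| * NI ρ ^ (ε / 2) * NI ρ / Real.sqrt (NI b))) := by
        rw [Finset.sum_const, nsmul_eq_mul]
    _ ≤ (|D| * NI ρ ^ (ε / 2)) *
          (C * (1 + ‖ξ‖) ^ A * (|D| * NI ρ ^ (ε / 2) * NI ρ / Real.sqrt (NI b))) := by gcongr
    _ = _ := by
        have h1 : NI ρ ^ (1 + ε) = NI ρ * (NI ρ ^ (ε / 2) * NI ρ ^ (ε / 2)) := by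
          rw [← Real.rpow_add hρ0, add_halves, Real.rpow_add hρ0, Real.rpow_one]
        rw [h1]
        ring

theorem PVsf (hcv : CV K) (j : ℕ) (hj : Rec.k K ≤ j) (lam : ℝ) (hlam : 0 < lam) (ε : ℝ)
    (hε : 0 < ε) (hε1 : ε ≤ 1) :
    ∃ C A : ℝ, 0 ≤ C ∧ 0 ≤ A ∧ ∀ e : ℤ, (e = 1 ∨ e = -1) → ∀ J ρ b : Ideal (R K), J ≠ ⊥ → ρ ≠ ⊥ →
      radI J ∣ ρ → b ∣ bpart J → ∀ c : K, c ≠ 0 → ∀ t ξ : Pl K → ℝ,
        ‖Sm (fun n => Gsf n * (ang (n : K) ^ e * chiI J n)) j c lam t ξ‖ ^ 2 ≤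
          C * (1 + ‖ξ‖) ^ A * sz c t ^ (1 + ε) * (NI ρ ^ (1 + ε) / Real.sqrt (NI b)) := by
  have hj1 : 1 ≤ j := (Rec.hk (K := K)).trans hj
  obtain ⟨C, A, hC, hA, H⟩ := PV hcv j hj lam hlam ε hε
  obtain ⟨D, hD, hT⟩ := pv_triv (K := K) lam hlam
  have hσ : (1 : ℝ) < 1 + 3 * ε / 2 := by linarith
  have hS := summable_nmI (K := K) hσ
  set S := ∑' I : Ideal (R K), (nmI I : ℝ) ^ (-(1 + 3 * ε / 2)) with hSdef
  refine ⟨(C + 1) * D ^ (1 + ε) * S ^ 2, A, by positivity, hA,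
    fun e he J ρ b hJ hρ hJρ hb c hc t ξ => ?_⟩
  have hb0 := squarefree_bpart J
  have hbρ : b ∣ ρ := hb.trans ((bpart_dvd_radI J).trans hJρ)
  have hbb : b ≠ ⊥ := ne_zero_of_dvd_ne_zero hρ hbρ
  have hρ1 := one_le_NI hρ
  have hb1 := one_le_NI hbb
  have hs : 0 < Real.sqrt (NI b) := Real.sqrt_pos.2 (NI_pos hbb)
  set V := NI ρ ^ (1 + ε) / Real.sqrt (NI b) with hV
  have hV1 : 1 ≤ V := by
    rw [hV, le_div_iff₀ hs, one_mul]
    calc Real.sqrt (NI b) ≤ NI b := Real.sqrt_le_self_iff.2 (Or.inr hb1)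
      _ ≤ NI ρ := NI_le_of_dvd hρ hbρ
      _ = NI ρ ^ (1 : ℝ) := (Real.rpow_one _).symm
      _ ≤ _ := Real.rpow_le_rpow_of_exponent_le hρ1 (by linarith)
  have hu : 1 ≤ (1 + ‖ξ‖) ^ A := Real.one_le_rpow (by linarith [norm_nonneg ξ]) hA
  set W := (C + 1) * (1 + ‖ξ‖) ^ A * V with hW
  have hW1 : 1 ≤ W := one_le_mul_of_one_le_of_one_le
    (one_le_mul_of_one_le_of_one_le (by linarith) hu) hV1
  have hX := sz_pos hc t
  set ψ : R K → ℂ := fun n => ang (n : K) ^ e * chiI J n with hψ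
  have hψ1 : ∀ n, ‖ψ n‖ ≤ 1 := fun n => by
    rw [hψ, norm_mul]
    exact mul_le_one₀ (norm_ang_zpow_le _ _) (norm_nonneg _) (norm_chiI_le _ _)
  set φ : Ideal (R K) → ℂ := fun I => muR I * (Real.sqrt (NI I) : ℂ) with hφ
  have hφ1 : ∀ I, ‖φ I‖ ≤ Real.sqrt (NI I) := fun I => by
    rw [hφ, norm_mul, pv_norm_sqrt]
    exact mul_le_of_le_one_left (Real.sqrt_nonneg _) (norm_mu_le _)
  set E := W ^ ((1 - ε) / 2) * (D * sz c t) ^ ((1 + ε) / 2) with hE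
  have hE0 : 0 ≤ E := by positivity
  set w : Ideal (R K) → ℝ := fun I => E * NI I ^ (-(3 * ((1 + ε) / 2))) with hw
  have hw0 : ∀ I, 0 ≤ w I := fun I => mul_nonneg hE0 (Real.rpow_nonneg (NI_nonneg _) _)
  have hφw : ∀ I, ‖φ I‖ * w I ≤ E * (nmI I : ℝ) ^ (-(1 + 3 * ε / 2)) := fun I => by
    refine (mul_le_mul_of_nonneg_right (hφ1 I) (hw0 I)).trans ?_
    by_cases hI : I = ⊥
    · have : NI I = 0 := by rw [hI, NI, nmI_bot, Nat.cast_zero]
      rw [this, Real.sqrt_zero, zero_mul]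
      positivity
    · have h0 := NI_pos hI
      change _ ≤ E * NI I ^ (-(1 + 3 * ε / 2))
      rw [hw, Real.sqrt_eq_rpow, mul_left_comm, ← Real.rpow_add h0]
      apply le_of_eq
      congr 2
      ring
  have hsum : Summable fun I => ‖φ I‖ * w I :=
    Summable.of_nonneg_of_le (fun I => mul_nonneg (norm_nonneg _) (hw0 I)) hφw (hS.mul_left E)
  have h1 : Sm (fun n => Gsf n * ψ n) j c lam t ξ =
      Sm (fun n => cnv 3 φ Gf n * ψ n) j c lam t ξ :=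
    Sm_congr (fun n hn => by rw [Gsf_eq_cv (ne_zero_of_mem_cls hj1 hc hn)]) lam t ξ
  have h2 := conv1 3 (by norm_num) j hj1 c hc lam hlam t ξ Gf ψ mod_Gf hψ1
    (fun x y _ _ => by
      simp only [hψ]
      push_cast
      rw [ang_mul, mul_zpow, chiI_mul_right]
      ring) φ
    ⟨1, fun I hI => (hφ1 I).trans (by
      have := one_le_NI hI
      rw [one_mul]
      exact (Real.sqrt_le_self_iff.2 (Or.inr this)).trans (by nlinarith))⟩ w hw0 hsum
    (fun I hI _ => by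
      have hc' : c / ((gen I ^ 3 : R K) : K) ≠ 0 :=
        div_ne_zero hc fun h => pow_ne_zero 3 (gen_ne_zero hI) (Subtype.ext h)
      have h3 := H e he J ρ b hJ hρ hJρ hb _ hc' (t - lg ((gen I ^ 3 : R K) : K)) ξ
      have h4 := hT j hj1 _ hc' (t - lg ((gen I ^ 3 : R K) : K)) ξ ψ hψ1
      rw [sz_div_gen_pow 3 c hc t I hI] at h4
      have h0 := NI_pos hI
      set z := ‖Sm (fun n => Gf n * ψ n) j (c / ((gen I ^ 3 : R K) : K)) lam
        (t - lg ((gen I ^ 3 : R K) : K)) ξ‖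
      have hz : 0 ≤ z := norm_nonneg _
      have h5 : z ≤ W := h3.trans (by rw [hW]; gcongr; linarith)
      have h6 : z = z ^ ((1 - ε) / 2) * z ^ ((1 + ε) / 2) := by
        rw [← Real.rpow_add' hz (by linarith), show (1 - ε) / 2 + (1 + ε) / 2 = 1 by ring,
          Real.rpow_one]
      have h7 : w I = W ^ ((1 - ε) / 2) * (D * (sz c t / NI I ^ 3)) ^ ((1 + ε) / 2) := by
        rw [← mul_div_assoc D, Real.div_rpow (by positivity) (by positivity),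
          ← Real.rpow_natCast (NI I) 3, ← Real.rpow_mul h0.le, hw, hE]
        simp only
        rw [Real.rpow_neg h0.le]
        push_cast
        ring
      rw [h6, h7]
      have h8 : 0 ≤ (1 - ε) / 2 := by linarith
      have h9 : 0 ≤ (1 + ε) / 2 := by linarith
      gcongr)
  have h3 : ∑' I, ‖φ I‖ * w I ≤ E * S := by
    rw [hSdef, ← tsum_mul_left]
    exact hsum.tsum_le_tsum hφw (hS.mul_left E)
  have h4 : E ^ 2 ≤ W * (D ^ (1 + ε) * sz c t ^ (1 + ε)) := by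
    rw [hE, mul_pow, ← Real.rpow_natCast, ← Real.rpow_natCast, ← Real.rpow_mul (by positivity),
      ← Real.rpow_mul (by positivity), Real.mul_rpow hD hX.le]
    push_cast
    rw [div_mul_cancel₀ _ two_ne_zero, div_mul_cancel₀ _ two_ne_zero]
    gcongr
    calc W ^ (1 - ε) ≤ W ^ (1 : ℝ) := Real.rpow_le_rpow_of_exponent_le hW1 (by linarith)
      _ = W := Real.rpow_one _
  calc _ = ‖Sm (fun n => cnv 3 φ Gf n * ψ n) j c lam t ξ‖ ^ 2 := by rw [← h1]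
    _ ≤ (E * S) ^ 2 := by gcongr; exact h2.trans h3
    _ = E ^ 2 * S ^ 2 := mul_pow _ _ _
    _ ≤ W * (D ^ (1 + ε) * sz c t ^ (1 + ε)) * S ^ 2 := by gcongr
    _ = _ := by rw [hW]; ring

end Crest.Agent.GQ
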