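import Crest.Agent.GQ.ZTriv
import Crest.Agent.R017.Poisson2

/-!
# Project GQ, part B3: separation of variables in the bilinear form
-/

set_option autoImplicit false

noncomputable section

open NumberField Complex UniqueFactorizationMonoid MeasureTheory
open scoped ComplexConjugate ENNReal

namespace Crest.Agent.GQ

variable {K : Type} [Field K] [NumberField K] [P : Pre K]

omit P in
/-- Mellin-Barnes representation of `exp (-π e^{2u})` with a rapidly decaying kernel. -/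
theorem gauss_mellin (σ : ℝ) (hσ : 0 < σ) : ∃ k : ℝ → ℂ, Continuous k ∧
    (∀ N : ℝ, ∃ C : ℝ, 0 ≤ C ∧ ∀ τ : ℝ, ‖k τ‖ ≤ C * (1 + |τ|) ^ (-N)) ∧
    ∀ u : ℝ, ((Real.exp (-(Real.pi * Real.exp (2 * u))) : ℝ) : ℂ) =
      ∫ τ : ℝ, k τ * Complex.exp (-((σ : ℂ) + τ * I) * u) := by
  have hπ := Real.pi_pos
  have hσ2 : 0 < σ / 2 := by positivity
  refine ⟨fun τ => (1 / (4 * Real.pi) : ℂ) * (Gamma ((σ / 2 : ℝ) + (τ / 2 : ℝ) * I) *
    Complex.exp (-(((σ / 2 : ℝ) : ℂ) + (τ / 2 : ℝ) * I) * Real.log Real.pi)), ?_, fun N => ?_,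
    fun u => ?_⟩
  · have := (R017.p2_continuous_Gamma hσ2).comp (continuous_id.div_const (2 : ℝ))
    exact continuous_const.mul (this.mul (by fun_prop))
  · obtain ⟨C, hC⟩ := R017.norm_Gamma_le hσ2 (max N 0)
    have hC0 : 0 ≤ C := by simpa using (norm_nonneg _).trans (hC 0)
    refine ⟨1 / (4 * Real.pi) * (C * 2 ^ max N 0 * Real.exp (-(σ / 2) * Real.log Real.pi)),
      by positivity, fun τ => ?_⟩
    have h1 : (1 + |τ / 2|) ^ (-max N 0) ≤ 2 ^ max N 0 * (1 + |τ|) ^ (-N) := by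
      have h0 := abs_nonneg τ
      calc (1 + |τ / 2|) ^ (-max N 0) ≤ ((1 + |τ|) / 2) ^ (-max N 0) := by
            refine Real.rpow_le_rpow_of_nonpos (by positivity) ?_ (neg_nonpos.2 (le_max_right _ _))
            rw [abs_div, abs_two]; linarith
        _ = 2 ^ max N 0 * (1 + |τ|) ^ (-max N 0) := by
            rw [Real.div_rpow (by positivity) (by norm_num), Real.rpow_neg (x := 2) (by norm_num),
              div_inv_eq_mul, mul_comm]
        _ ≤ _ := by
            refine mul_le_mul_of_nonneg_left ?_ (by positivity)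
            exact Real.rpow_le_rpow_of_exponent_le (by linarith) (neg_le_neg (le_max_left _ _))
    have h2 : ‖(1 / (4 * Real.pi) : ℂ)‖ = 1 / (4 * Real.pi) := by
      simp [abs_of_pos hπ]
    have h3 : (-(((σ / 2 : ℝ) : ℂ) + (τ / 2 : ℝ) * I) * Real.log Real.pi).re =
        -(σ / 2) * Real.log Real.pi := by
      simp only [mul_re, neg_re, add_re, ofReal_re, ofReal_im, I_re, I_im]; ring
    rw [norm_mul, norm_mul, h2, Complex.norm_exp, h3]
    calc _ ≤ 1 / (4 * Real.pi) * (C * (2 ^ max N 0 * (1 + |τ|) ^ (-N)) *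
          Real.exp (-(σ / 2) * Real.log Real.pi)) := by
          gcongr
          exact (hC _).trans (mul_le_mul_of_nonneg_left h1 hC0)
      _ = _ := by ring
  · have hx : 0 < Real.pi * Real.exp (2 * u) := by positivity
    rw [R017.p2_exp_mellin hσ2 hx]
    have h := Measure.integral_comp_div (fun t : ℝ => Gamma ((σ / 2 : ℝ) + t * I) *
      ((Real.pi * Real.exp (2 * u) : ℝ) : ℂ) ^ (-(((σ / 2 : ℝ) : ℂ) + t * I))) 2
    have h4 : ∀ τ : ℝ, (1 / (4 * Real.pi) : ℂ) * (Gamma ((σ / 2 : ℝ) + (τ / 2 : ℝ) * I) *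
        Complex.exp (-(((σ / 2 : ℝ) : ℂ) + (τ / 2 : ℝ) * I) * Real.log Real.pi)) *
        Complex.exp (-((σ : ℂ) + τ * I) * u) = (1 / (4 * Real.pi) : ℂ) *
        (Gamma ((σ / 2 : ℝ) + (τ / 2 : ℝ) * I) * ((Real.pi * Real.exp (2 * u) : ℝ) : ℂ) ^
          (-(((σ / 2 : ℝ) : ℂ) + (τ / 2 : ℝ) * I))) := by
      intro τ
      rw [cpow_def_of_ne_zero (ofReal_ne_zero.2 hx.ne'), ← ofReal_log hx.le,
        Real.log_mul hπ.ne' (Real.exp_pos _).ne', Real.log_exp, mul_assoc, mul_assoc,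
        ← Complex.exp_add]
      congr 3
      push_cast
      ring
    simp_rw [h4]
    rw [integral_const_mul, h, abs_two, real_smul]
    push_cast
    ring

end Crest.Agent.GQ
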