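import Crest.Agent.GQ.ZStep3

/-!
# Project GQ, part B3: the inductive step
-/

set_option autoImplicit false

noncomputable section

open NumberField Complex UniqueFactorizationMonoid MeasureTheory
open scoped ComplexConjugate ENNReal

namespace Crest.Agent.GQ

variable {K : Type} [Field K] [NumberField K] [P : Pre K] [Q : Rec K]

theorem step (hcv : CV K) {θ θ' : ℝ} (hθ' : 1 + 1 / 500 ≤ θ') (hθ : θ - 1 / 4000000 ≤ θ')
    (hθ2 : θ ≤ 2) (hA : Acond K θ) : Acond K θ' := by
  rcases le_or_gt θ θ' with hle | hlt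
  · exact acond_mono hle hA
  intro j hj lam hlam
  have hj1 : 1 ≤ j := le_trans Rec.hk hj
  obtain ⟨C1, A, hC1, hA0, h1⟩ := step_hyp hcv (θ := θ) (θ' := θ' - 1 / 4000000) (by linarith)
    (by linarith) (by linarith) hθ2 hA j hj (2 * lam) (by linarith) (1 / 8000000) (by norm_num)
  obtain ⟨C2, hC2, h2⟩ := PL (K := K) 1 (Or.inl rfl) j hj lam hlam A hA0 (1 / 8000000)
    (by norm_num)
  obtain ⟨C3, hC3, h3⟩ := norm_Sm_le (K := K) hlam (B := 1) le_rfl
  obtain ⟨C4, hC4, h4⟩ := b3b_card_rows (K := K)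
  refine ⟨C2 * (1 + C1) + C4 * C3 ^ 2, A, by positivity, hA0, fun c hc t ξ H hH hXH => ?_⟩
  have hX := sz_pos hc t
  have hξ : 1 ≤ (1 + ‖ξ‖) ^ A := Real.one_le_rpow (by linarith [norm_nonneg ξ]) hA0
  have hH0 : 0 ≤ H := by linarith
  have hXθ : 0 ≤ sz c t ^ θ' := Real.rpow_nonneg hX.le _
  rcases le_total (sz c t) 1 with hX1 | hX1
  · have hb : ∀ J ∈ rows K H, ‖Sm (fun n => mu n * chiI J n) j c lam t ξ‖ ^ 2 ≤
        C3 ^ 2 * sz c t ^ θ' := by
      intro J _
      have hb1 := h3 (fun n => mu n * chiI J n) (fun n => by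
        rw [norm_mul]
        exact mul_le_one₀ (norm_mu_le n) (norm_nonneg _) (norm_chiI_le J n)) j hj1 c hc t ξ
      have hb2 : ‖Sm (fun n => mu n * chiI J n) j c lam t ξ‖ ≤ C3 * sz c t :=
        hb1.trans (mul_le_mul_of_nonneg_left (min_le_left _ _) hC3.le)
      have hb3 : sz c t ^ 2 ≤ sz c t ^ θ' := by
        rw [← Real.rpow_two]
        exact Real.rpow_le_rpow_of_exponent_ge hX hX1 (by linarith)
      calc _ ≤ (C3 * sz c t) ^ 2 := pow_le_pow_left₀ (norm_nonneg _) hb2 2
        _ = C3 ^ 2 * sz c t ^ 2 := by ring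
        _ ≤ _ := mul_le_mul_of_nonneg_left hb3 (by positivity)
    calc _ ≤ ((rows K H).card : ℝ) * (C3 ^ 2 * sz c t ^ θ') := by
          rw [← nsmul_eq_mul]; exact Finset.sum_le_card_nsmul _ _ _ hb
      _ ≤ (C4 * H) * (C3 ^ 2 * sz c t ^ θ') :=
          mul_le_mul_of_nonneg_right (h4 H hH0) (by positivity)
      _ = (C4 * C3 ^ 2) * 1 * H * sz c t ^ θ' := by ring
      _ ≤ _ := by
          gcongr
          have : 0 ≤ C2 * (1 + C1) := by positivity
          linarith
  · have hb := h2 Unit Finset.univ (fun _ => (mu : R K → ℂ)) (fun _ n => norm_mu_le n)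
      (fun _ n hn => by
        by_contra h
        exact hn (mu_eq_zero.2 h)) c hc t ξ H (C1 * H * sz c t ^ (θ' - 1 / 4000000 + 1 / 8000000))
      hH (by positivity) hX1 (h1 _ H hX1 hXH)
    simp only [Finset.univ_unique, Finset.sum_singleton, pow_one, Finset.card_singleton,
      Nat.cast_one, one_mul] at hb
    have e1 : sz c t ^ (1 / 8000000 : ℝ) * sz c t ≤ sz c t ^ θ' := by
      rw [← Real.rpow_add_one hX.ne']
      exact Real.rpow_le_rpow_of_exponent_le hX1 (by linarith)
    have e2 : sz c t ^ (1 / 8000000 : ℝ) * sz c t ^ (θ' - 1 / 4000000 + 1 / 8000000) =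
        sz c t ^ θ' := by
      rw [← Real.rpow_add hX]
      congr 1
      ring
    have e0 : 0 ≤ (1 + ‖ξ‖) ^ A := by linarith
    calc _ ≤ _ := hb
      _ = C2 * (1 + ‖ξ‖) ^ A * H * (sz c t ^ (1 / 8000000 : ℝ) * sz c t + C1 *
            (sz c t ^ (1 / 8000000 : ℝ) * sz c t ^ (θ' - 1 / 4000000 + 1 / 8000000))) := by ring
      _ ≤ C2 * (1 + ‖ξ‖) ^ A * H * (sz c t ^ θ' + C1 * sz c t ^ θ') := by
          rw [e2]; gcongr
      _ = (C2 * (1 + C1)) * (1 + ‖ξ‖) ^ A * H * sz c t ^ θ' := by ring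
      _ ≤ _ := by
          gcongr
          have : 0 ≤ C4 * C3 ^ 2 := by positivity
          linarith

theorem acond_final (hcv : CV K) : Acond K (1 + 1 / 500) := by
  have key : ∀ n : ℕ, Acond K (max (1 + 1 / 500) (2 - (n : ℝ) / 4000000)) := by
    intro n
    induction n with
    | zero =>
      have : max (1 + 1 / 500 : ℝ) (2 - ((0 : ℕ) : ℝ) / 4000000) = 2 := by
        rw [Nat.cast_zero, zero_div, sub_zero, max_eq_right (by norm_num)]
      rw [this]; exact acond_two
    | succ n ih =>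
      refine step hcv (le_max_left _ _) ?_ ?_ ih
      · rw [sub_le_iff_le_add, max_le_iff]
        constructor
        · linarith [le_max_left (1 + 1 / 500 : ℝ) (2 - ((n + 1 : ℕ) : ℝ) / 4000000)]
        · have := le_max_right (1 + 1 / 500 : ℝ) (2 - ((n + 1 : ℕ) : ℝ) / 4000000)
          push_cast at this ⊢
          linarith
      · rw [max_le_iff]
        refine ⟨by norm_num, ?_⟩
        have : (0 : ℝ) ≤ (n : ℝ) / 4000000 := by positivity
        linarith
  have h := key 4000000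
  rwa [max_eq_left (by norm_num)] at h

end Crest.Agent.GQ
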