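import Crest.Agent.GQ.ZBA

/-!
# Project GQ, part B3: the inductive step, large common divisors and the cube tail
-/

set_option autoImplicit false

noncomputable section

open NumberField Complex UniqueFactorizationMonoid MeasureTheory
open scoped ComplexConjugate ENNReal

namespace Crest.Agent.GQ

variable {K : Type} [Field K] [NumberField K] [P : Pre K] [Q : Rec K]

/-- The dual sums for `e0 = 1`. -/
theorem norm_Sm_dualF1 {d e f J : Ideal (R K)} (he : e ∣ d) (hdf : Squarefree (d * f)) (hJ : J ≠ ⊥)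
    {j : ℕ} (hj : Rec.k K ≤ j) {c : K} (hc : c ≠ 0) (lam : ℝ) (t ξ : Pl K → ℝ) :
    ‖Sm (dualF 1 mu d e f J) j c lam t ξ‖ ≤
      ‖Sm (fun n => Gsf n * psi1 d e f J n) j c lam t ξ‖ := by
  classical
  have hdf0 : d * f ≠ ⊥ := hdf.ne_zero
  have hd : d ≠ ⊥ := left_ne_zero_of_mul hdf0
  have hf : f ≠ ⊥ := right_ne_zero_of_mul hdf0
  have he0 : e ≠ ⊥ := ne_zero_of_dvd_ne_zero hd he
  have hF : gen f ≠ 0 := gen_ne_zero hf
  have hD : gen d ≠ 0 := gen_ne_zero hd
  have hFK : (gen f : K) ≠ 0 := fl_coe_ne hF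
  have hsf : Squarefree (gen f) := squarefree_gen.2 hdf.of_mul_right
  obtain ⟨β, hβ, Hβ⟩ := key_identity hj (mul_ne_zero hFK hc)
  obtain ⟨β', hβ', Hβ'⟩ := Gsf_mul_cls hsf hj hc
  have key : ∀ n ∈ cls j c, dualF 1 mu d e f J n =
      (mu (gen d) * chiI d (gen f) ^ 6 * β * ang (gen f : K) * β' * chiI e (gen f) *
        chiI J (gen f) ^ 5) * (Gsf n * psi1 d e f J n) := by
    intro n hn
    have h1 := Hβ (gen f * n) (mul_mem_cls (self_mem_cls j (gen f)) hn)
    have h2 := Hβ' n hn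
    have h3 : mu (gen d * (gen f * n)) =
        mu (gen d) * mu (gen f * n) * chiI d (gen f * n) ^ 6 := by
      rw [mu_mul', chiI, chi_pow_six hD]
      split_ifs <;> simp
    have h4 : chiI (f ^ 2 * e) n = chi (gen f) n ^ 2 * chiI e n := by
      rw [chiI_mul (pow_ne_zero 2 hf) he0, chiI_pow hf]
      rfl
    have h5 : ang ((gen f * n : R K) : K) = ang (gen f : K) * ang (n : K) := by
      rw [← ang_mul]
      rfl
    rw [h2, h5] at h1
    rw [dualF, psi1, h3, h4]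
    simp only [chiI_mul_right, mul_pow]
    calc _ = mu (gen d) * (chiI d (gen f) ^ 6 * chiI d n ^ 6) *
          (mu (gen f * n) * g6 1 (gen f * n)) * (chiI e (gen f) * chiI e n) *
          (chiI J (gen f) ^ 5 * chiI J n ^ 5) := by ring
      _ = _ := by rw [h1]; ring
  rw [Sm_congr_mul key, norm_mul]
  refine mul_le_of_le_one_left (norm_nonneg _) ?_
  simp only [norm_mul, norm_pow, hβ, hβ', norm_ang hFK, mul_one]
  have a1 := norm_mu_le (gen d)
  have a2 : ‖chiI d (gen f)‖ ^ 6 ≤ 1 := pow_le_one₀ (norm_nonneg _) (norm_chiI_le _ _)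
  have a3 := norm_chiI_le e (gen f)
  have a4 : ‖chiI J (gen f)‖ ^ 5 ≤ 1 := pow_le_one₀ (norm_nonneg _) (norm_chiI_le _ _)
  exact mul_le_one₀ (mul_le_one₀ (mul_le_one₀ a1 (by positivity) a2) (norm_nonneg _) a3)
    (by positivity) a4

omit Q in
open Classical in
theorem zs1_sum_le {D E F : ℝ}
    (G : Ideal (R K) → Ideal (R K) → Ideal (R K) → ℝ) (hG : ∀ d e f, 0 ≤ G d e f) :
    ∑ x ∈ Tri K D E F, G x.1 x.2.1 x.2.2 ≤
      ∑ d ∈ rows K (2 * D), ∑ e ∈ (divs d).filter (fun e => NI e ≤ 2 * E),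
        ∑ f ∈ rows K (2 * F), G d e f := by
  have h1 : ∑ x ∈ Tri K D E F, G x.1 x.2.1 x.2.2 ≤
      ∑ x ∈ (rows K (2 * D) ×ˢ rows K (2 * E) ×ˢ rows K (2 * F)).filter (fun x => x.2.1 ∣ x.1),
        G x.1 x.2.1 x.2.2 := by
    refine Finset.sum_le_sum_of_subset_of_nonneg ?_ fun x _ _ => hG _ _ _
    intro x hx
    rw [Tri, Finset.mem_filter] at hx
    exact Finset.mem_filter.2 ⟨hx.1, hx.2.2.2.2.1⟩
  refine h1.trans (le_of_eq ?_)
  rw [Finset.sum_filter, Finset.sum_product]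
  refine Finset.sum_congr rfl fun d hd => ?_
  have hd0 := (mem_rows'.1 hd).1
  have h2 : (divs d).filter (fun e => NI e ≤ 2 * E) = (rows K (2 * E)).filter (fun e => e ∣ d) := by
    ext e
    simp only [Finset.mem_filter, mem_divs hd0, mem_rows']
    exact ⟨fun h => ⟨⟨ne_zero_of_dvd_ne_zero hd0 h.1, h.2⟩, h.1⟩, fun h => ⟨h.2, h.1.2⟩⟩
  rw [Finset.sum_product, h2, Finset.sum_filter]
  refine Finset.sum_congr rfl fun e _ => ?_
  split_ifs with h
  · simp
  · simp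

omit Q in
theorem zs1_inj {e : Ideal (R K)} (he : e ≠ ⊥) (H : ℝ) :
    Set.InjOn (fun f : Ideal (R K) => f ^ 2 * e) (rows K H : Set (Ideal (R K))) := by
  intro f hf f' hf' h
  have h0 := (mem_rows'.1 hf).1
  have h0' := (mem_rows'.1 hf').1
  have h1 : f ^ 2 = f' ^ 2 := mul_right_cancel₀ he h
  refine ar_ext h0 h0' fun p hp => ?_
  have h2 := congrArg (multiplicity p) h1
  rw [ar_pow hp h0, ar_pow hp h0'] at h2
  omega

/-- `BA` summed over a dyadic block. -/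
theorem BA_tri {θ : ℝ} (hθ1 : 1 ≤ θ) (hθ2 : θ ≤ 2) (hA : Acond K θ) (j : ℕ) (hj : Rec.k K ≤ j)
    (lam : ℝ) (hlam : 0 < lam) (ε : ℝ) (hε : 0 < ε) (hε1 : ε ≤ 1) :
    ∃ C A : ℝ, 0 ≤ C ∧ 0 ≤ A ∧ ∀ D E F K' : ℝ, 1 ≤ D → 1 ≤ E → 1 ≤ F → 1 ≤ K' → E ≤ 2 * D →
      ∀ c : K, c ≠ 0 → ∀ t ξ : Pl K → ℝ,
        ∑ x ∈ Tri K D E F, ∑ J ∈ rows K K',
          ‖Sm (fun n => Gsf n * psi1 x.1 x.2.1 x.2.2 J n) j c lam t ξ‖ ^ 2 ≤
          C * (1 + ‖ξ‖) ^ A * (D * F) ^ (3 * ε) * sz c t ^ ε * D *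
            (F * K' * sz c t + F ^ 2 * E * sz c t ^ (1 + θ) + K' * sz c t ^ (7 / 36 + θ)) := by
  classical
  obtain ⟨C, A, hC, hA0, H⟩ := BA hθ1 hθ2 hA j hj lam hlam ε hε hε1
  obtain ⟨Cr, hCr⟩ := card_rows_le (K := K)
  obtain ⟨Cd, hCd⟩ := card_divs_le (K := K) hε
  have hCr0 : 0 ≤ Cr := by simpa using (Nat.cast_nonneg _).trans (hCr 1 zero_le_one)
  have hCd0 : 0 ≤ Cd := by
    have := (Nat.cast_nonneg _).trans (hCd ⊤ top_ne_bot)
    simpa [nmI_top] using this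
  refine ⟨C * 32 * (2 * Cr + 8) * (4 * Cr * Cd), A, by positivity, hA0, ?_⟩
  intro D E F K' hD hE hF hK hED c hc t ξ
  have hX := sz_pos hc t
  set X := sz c t with hXdef
  have hDF : 1 ≤ D * F := one_le_mul_of_one_le_of_one_le hD hF
  set T := F * K' * X + F ^ 2 * E * X ^ (1 + θ) + K' * X ^ (7 / 36 + θ) with hT
  have hT0 : 0 ≤ T := by positivity
  set B := C * (1 + ‖ξ‖) ^ A * (32 * (D * F) ^ (2 * ε)) * X ^ ε * ((2 * Cr + 8) * T) with hB
  have hB0 : 0 ≤ B := by positivity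
  refine (zs1_sum_le (fun d e f => ∑ J ∈ rows K K',
    ‖Sm (fun n => Gsf n * psi1 d e f J n) j c lam t ξ‖ ^ 2)
    (fun _ _ _ => Finset.sum_nonneg fun _ _ => by positivity)).trans ?_
  have inner : ∀ d ∈ rows K (2 * D), ∀ e ∈ (divs d).filter (fun e => NI e ≤ 2 * E),
      ∑ f ∈ rows K (2 * F), ∑ J ∈ rows K K',
        ‖Sm (fun n => Gsf n * psi1 d e f J n) j c lam t ξ‖ ^ 2 ≤ B := by
    intro d hd e he
    obtain ⟨hd0, hd1⟩ := mem_rows'.1 hd
    obtain ⟨he1, he2⟩ := Finset.mem_filter.1 he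
    have he0 : e ≠ ⊥ := ne_zero_of_dvd_ne_zero hd0 ((mem_divs hd0).1 he1)
    have hZ : 1 ≤ 8 * F ^ 2 * E := by nlinarith [one_le_pow₀ hF (n := 2)]
    have h1 := H ((rows K (2 * F)).image (fun f => f ^ 2 * e)) (8 * F ^ 2 * E) d hZ (by
      intro z hz
      obtain ⟨f, hf, rfl⟩ := Finset.mem_image.1 hz
      obtain ⟨hf0, hf1⟩ := mem_rows'.1 hf
      refine ⟨mul_ne_zero (pow_ne_zero 2 hf0) he0, ?_⟩
      rw [NI_mul, NI_pow]
      calc NI f ^ 2 * NI e ≤ (2 * F) ^ 2 * (2 * E) :=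
            mul_le_mul (pow_le_pow_left₀ (NI_nonneg f) hf1 2) he2 (NI_nonneg e) (by positivity)
        _ = 8 * F ^ 2 * E := by ring) hd0 c hc t ξ K' hK
    rw [Finset.sum_image (zs1_inj he0 _), Finset.card_image_of_injOn (zs1_inj he0 _)] at h1
    refine le_trans (le_of_eq ?_) (h1.trans ?_)
    · refine Finset.sum_congr rfl fun f _ => Finset.sum_congr rfl fun J _ => ?_
      simp only [psi1, mul_assoc]
    · have b1 : (8 * F ^ 2 * E * NI d) ^ ε ≤ 32 * (D * F) ^ (2 * ε) := by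
        have c1 : 8 * F ^ 2 * E * NI d ≤ 32 * (D * F) ^ 2 := by
          calc 8 * F ^ 2 * E * NI d ≤ 8 * F ^ 2 * (2 * D) * (2 * D) := by
                have := NI_nonneg d
                gcongr
            _ = 32 * (D * F) ^ 2 := by ring
        calc (8 * F ^ 2 * E * NI d) ^ ε ≤ (32 * (D * F) ^ 2) ^ ε :=
              Real.rpow_le_rpow (by have := NI_nonneg d; positivity) c1 hε.le
          _ = 32 ^ ε * (D * F) ^ (2 * ε) := by
              rw [Real.mul_rpow (by norm_num) (by positivity), Real.rpow_mul (by positivity),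
                Real.rpow_two]
          _ ≤ 32 * (D * F) ^ (2 * ε) := by
              have : (32 : ℝ) ^ ε ≤ 32 := by
                simpa using Real.rpow_le_rpow_of_exponent_le (x := 32) (by norm_num) hε1
              gcongr
      have b2 : ((rows K (2 * F)).card : ℝ) * K' * X + 8 * F ^ 2 * E * X ^ (1 + θ) +
          K' * X ^ (7 / 36 + θ) ≤ (2 * Cr + 8) * T := by
        have c1 : ((rows K (2 * F)).card : ℝ) * K' * X ≤ Cr * (2 * F) * K' * X := by
          have := hCr (2 * F) (by positivity)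
          gcongr
        have c2 : 0 ≤ F * K' * X := by positivity
        have c3 : 0 ≤ F ^ 2 * E * X ^ (1 + θ) := by positivity
        have c4 : 0 ≤ K' * X ^ (7 / 36 + θ) := by positivity
        rw [hT]
        nlinarith [mul_nonneg hCr0 c3, mul_nonneg hCr0 c4]
      rw [hB]
      gcongr
  have hcard : ∀ d ∈ rows K (2 * D),
      (((divs d).filter (fun e => NI e ≤ 2 * E)).card : ℝ) ≤ Cd * (2 * (D * F) ^ ε) := by
    intro d hd
    obtain ⟨hd0, hd1⟩ := mem_rows'.1 hd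
    have c1 : (((divs d).filter (fun e => NI e ≤ 2 * E)).card : ℝ) ≤ (divs d).card := by
      exact_mod_cast Finset.card_filter_le _ _
    refine c1.trans ((hCd d hd0).trans (mul_le_mul_of_nonneg_left ?_ hCd0))
    calc (nmI d : ℝ) ^ ε ≤ (2 * (D * F)) ^ ε :=
          Real.rpow_le_rpow (Nat.cast_nonneg _) (hd1.trans (by nlinarith)) hε.le
      _ = 2 ^ ε * (D * F) ^ ε := Real.mul_rpow (by norm_num) (by positivity)
      _ ≤ 2 * (D * F) ^ ε := by
          have : (2 : ℝ) ^ ε ≤ 2 := by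
            simpa using Real.rpow_le_rpow_of_exponent_le (x := 2) (by norm_num) hε1
          gcongr
  calc _ ≤ ∑ d ∈ rows K (2 * D), Cd * (2 * (D * F) ^ ε) * B := by
        refine Finset.sum_le_sum fun d hd => ?_
        refine (Finset.sum_le_card_nsmul _ _ B (inner d hd)).trans ?_
        rw [nsmul_eq_mul]
        exact mul_le_mul_of_nonneg_right (hcard d hd) hB0
    _ = (rows K (2 * D)).card * (Cd * (2 * (D * F) ^ ε) * B) := by
        rw [Finset.sum_const, nsmul_eq_mul]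
    _ ≤ Cr * (2 * D) * (Cd * (2 * (D * F) ^ ε) * B) :=
        mul_le_mul_of_nonneg_right (hCr _ (by positivity)) (by positivity)
    _ = _ := by
        rw [hB, show 3 * ε = 2 * ε + ε by ring, Real.rpow_add (by positivity)]
        ring

end Crest.Agent.GQ
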