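import Crest.Agent.GQ.ZV1
import Crest.Agent.GQ.ZRam

/-!
# Project GQ, part B3: mean square of the twisted theta coefficients
-/

set_option autoImplicit false

noncomputable section

open NumberField Complex UniqueFactorizationMonoid MeasureTheory
open scoped ComplexConjugate ENNReal

namespace Crest.Agent.GQ

variable {K : Type} [Field K] [NumberField K] [P : Pre K] [Q : Rec K]

theorem zv_cover {α β : Type} {s : Finset β} {T : Finset α} {g : α → β} {F : β → ℝ}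
    (hF : ∀ b, 0 ≤ F b) (h : ∀ b ∈ s, ∃ x ∈ T, g x = b) : ∑ b ∈ s, F b ≤ ∑ x ∈ T, F (g x) := by
  classical
  refine le_trans (Finset.sum_le_sum_of_subset_of_nonneg (t := T.image g)
    (fun b hb => Finset.mem_image.2 (h b hb)) fun b _ _ => hF b) ?_
  exact Finset.sum_image_le_of_nonneg fun b _ => hF b

theorem zv_geom {Y : ℝ} (hY : 0 ≤ Y) {S : Finset ℕ} (h : ∀ a ∈ S, (2 : ℝ) ^ a ≤ Y) :
    ∑ a ∈ S, (2 : ℝ) ^ a ≤ 2 * Y := by
  rcases S.eq_empty_or_nonempty with rfl | hS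
  · simp only [Finset.sum_empty]; positivity
  have h1 : S ⊆ Finset.range (S.max' hS + 1) := fun a ha =>
    Finset.mem_range.2 (Nat.lt_succ_of_le (S.le_max' a ha))
  refine (Finset.sum_le_sum_of_subset_of_nonneg h1 fun _ _ _ => by positivity).trans ?_
  rw [geom_sum_eq (by norm_num), pow_succ]
  have := h _ (S.max'_mem hS)
  norm_num
  linarith

theorem zv_real {H1 ρ X H : ℝ} (h1 : 0 < H1) (hρ : 1 ≤ ρ) (hX : 0 < X) (h : H1 * ρ ^ 2 ≤ H) :
    ((H1 * ρ) ^ 2 / X) ^ (8 / 5 : ℝ) * ρ ^ (2 / 5 : ℝ) ≤ H1 / H * (H ^ 2 / X) ^ (8 / 5 : ℝ) := by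
  have hρ0 : 0 < ρ := by linarith
  have hH : 0 < H := lt_of_lt_of_le (by positivity) h
  have h2 := Real.log_le_log (by positivity) h
  have h3 := Real.log_nonneg hρ
  rw [Real.log_mul h1.ne' (by positivity), Real.log_pow] at h2
  rw [← Real.log_le_log_iff (by positivity) (by positivity),
    Real.log_mul (by positivity) (by positivity), Real.log_mul (by positivity) (by positivity),
    Real.log_rpow (by positivity), Real.log_rpow hρ0, Real.log_rpow (by positivity),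
    Real.log_div (by positivity) hX.ne', Real.log_div (by positivity) hX.ne',
    Real.log_div h1.ne' hH.ne', Real.log_pow, Real.log_pow, Real.log_mul h1.ne' hρ0.ne']
  push_cast at h2 ⊢
  linarith

omit Q in
theorem zv_triv (lam : ℝ) (hlam : 0 < lam) : ∃ C : ℝ, 0 ≤ C ∧ ∀ j : ℕ, 1 ≤ j → ∀ c : K, c ≠ 0 →
    ∀ (t ξ : Pl K → ℝ) (J : Ideal (R K)),
      ‖Sm (fun n => Gf n * (ang (n : K) * chiI J n ^ 5)) j c lam t ξ‖ ≤ C * sz c t := by
  classical
  obtain ⟨C, hC, h⟩ := triv_Gf (K := K) lam hlam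
  refine ⟨C, hC, fun j hj c hc t ξ J => ?_⟩
  have h1 := h j hj c hc t ξ ⊤ (by simpa using (squarefree_one : Squarefree (1 : Ideal (R K))))
  have h2 : NI (⊤ : Ideal (R K)) = 1 := by unfold NI; rw [nmI_top, Nat.cast_one]
  have h3 : ∀ n : R K, gen (⊤ : Ideal (R K)) ∣ n := fun n =>
    gen_dvd_iff.2 (Ideal.dvd_iff_le.2 le_top)
  rw [h2, div_one] at h1
  simp only [h3, and_true] at h1
  refine le_trans ?_ h1
  have hs : Summable fun n : R K => if n ∈ cls j c then ‖Gf n‖ * ‖pk lam t ξ (n : K)‖ else 0 := by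
    refine (summable_norm_iff.2 (mod_Gf.summable hj hc hlam t ξ)).congr fun n => ?_
    split_ifs <;> simp
  unfold Sm
  refine tsum_of_norm_bounded hs.hasSum fun n => ?_
  split_ifs with hn
  · rw [norm_mul, norm_mul, norm_mul, norm_pow]
    have h4 : ‖ang (n : K)‖ ≤ 1 := by simpa using norm_ang_zpow_le (n : K) 1
    have h5 : ‖chiI J n‖ ^ 5 ≤ 1 := pow_le_one₀ (norm_nonneg _) (norm_chiI_le J n)
    calc ‖Gf n‖ * (‖ang (n : K)‖ * ‖chiI J n‖ ^ 5) * ‖pk lam t ξ (n : K)‖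
        ≤ ‖Gf n‖ * (1 * 1) * ‖pk lam t ξ (n : K)‖ := by gcongr
      _ = _ := by ring
  · simp

theorem VV (hcv : CV K) (j : ℕ) (hj : Rec.k K ≤ j) (lam : ℝ) (hlam : 0 < lam) (ε : ℝ) (hε : 0 < ε) :
    ∃ C A : ℝ, 0 ≤ C ∧ 0 ≤ A ∧ ∀ c : K, c ≠ 0 → ∀ (t ξ : Pl K → ℝ) (H : ℝ), 1 ≤ H →
        ∑ J ∈ rows K H, ‖Sm (fun n => Gf n * (ang (n : K) * chiI J n ^ 5)) j c lam t ξ‖ ^ 2 ≤
          C * (1 + ‖ξ‖) ^ A * H ^ ε * sz c t * (H + (H ^ 2 / sz c t) ^ (8 / 5 : ℝ)) := by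
  classical
  have hj1 : 1 ≤ j := (Rec.hk (K := K)).trans hj
  obtain ⟨C, A, hC, hA, hV⟩ := V1 hcv j hj lam hlam (min ε 1) (lt_min hε one_pos) (min_le_right _ _)
  obtain ⟨C0, hC0, hT⟩ := zv_triv (K := K) lam hlam
  obtain ⟨C1, hC1⟩ := card_rows_le (K := K)
  obtain ⟨C2, hC2⟩ := ar_pow2_sum_le (K := K) (σ := 3 / 4) (by norm_num)
  have hC2' : 0 ≤ C2 := by simpa using hC2 ∅ (by simp)
  refine ⟨2 * C * C2 + C0 ^ 2 * |C1|, A, by positivity, hA, fun c hc t ξ H hH => ?_⟩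
  have hX := sz_pos hc t
  set X := sz c t with hXdef
  have hH0 : 0 < H := by linarith
  set W : ℝ := H + (H ^ 2 / X) ^ (8 / 5 : ℝ) with hW
  have hHW : H ≤ W := le_add_of_nonneg_right (by positivity)
  have hW0 : 0 ≤ W := hH0.le.trans hHW
  have hξ : 1 ≤ (1 + ‖ξ‖) ^ A := Real.one_le_rpow (by linarith [norm_nonneg ξ]) hA
  have hHε : 1 ≤ H ^ ε := Real.one_le_rpow hH hε.le
  set M : ℝ := (1 + ‖ξ‖) ^ A * H ^ ε * X * W with hM
  have hM0 : 0 ≤ M := by positivity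
  have hgoal : (2 * C * C2 + C0 ^ 2 * |C1|) * (1 + ‖ξ‖) ^ A * H ^ ε * X * W =
      2 * C * C2 * M + C0 ^ 2 * |C1| * M := by rw [hM]; ring
  rw [hgoal]
  set F : Ideal (R K) → ℝ := fun J =>
    ‖Sm (fun n => Gf n * (ang (n : K) * chiI J n ^ 5)) j c lam t ξ‖ ^ 2 with hF
  change ∑ J ∈ rows K H, F J ≤ _
  rcases le_total X 1 with hX1 | hX1
  · have h1 : ∑ J ∈ rows K H, F J ≤ (rows K H).card • (C0 ^ 2 * X) := by
      refine Finset.sum_le_card_nsmul _ _ _ fun J _ => ?_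
      have h2 := hT j hj1 c hc t ξ J
      calc F J ≤ (C0 * X) ^ 2 := pow_le_pow_left₀ (norm_nonneg _) h2 2
        _ = C0 ^ 2 * X * X := by ring
        _ ≤ C0 ^ 2 * X * 1 := by gcongr
        _ = C0 ^ 2 * X := mul_one _
    rw [nsmul_eq_mul] at h1
    have h3 : ((rows K H).card : ℝ) ≤ |C1| * H :=
      (hC1 H hH0.le).trans (mul_le_mul_of_nonneg_right (le_abs_self _) hH0.le)
    have h4 : X * H ≤ M := by
      calc X * H = 1 * 1 * X * H := by ring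
        _ ≤ M := by rw [hM]; gcongr
    have h5 : 0 ≤ 2 * C * C2 * M := by positivity
    calc ∑ J ∈ rows K H, F J ≤ |C1| * H * (C0 ^ 2 * X) :=
          h1.trans (mul_le_mul_of_nonneg_right h3 (by positivity))
      _ = C0 ^ 2 * |C1| * (X * H) := by ring
      _ ≤ C0 ^ 2 * |C1| * M := by gcongr
      _ ≤ _ := le_add_of_nonneg_left h5
  · set P2 := (rows K H).filter (fun h2 => Pow2 h2) with hP2
    set As : Ideal (R K) → Finset ℕ := fun h2 =>
      (Finset.range (⌊H⌋₊ + 1)).filter (fun a => (2 : ℝ) ^ a ≤ H / NI h2) with hAs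
    set S1 : Ideal (R K) → ℕ → Finset (Ideal (R K)) := fun h2 a =>
      (rows K (2 * (2 : ℝ) ^ a)).filter
        (fun h1 => (2 : ℝ) ^ a ≤ NI h1 ∧ Squarefree h1 ∧ IsCoprime h1 h2) with hS1
    have hF0 : ∀ J, 0 ≤ F J := fun J => sq_nonneg _
    have h1 : ∑ J ∈ rows K H, F J ≤ ∑ h2 ∈ P2, ∑ a ∈ As h2, ∑ h1 ∈ S1 h2 a, F (h1 * h2) := by
      simp only [Finset.sum_sigma']
      refine zv_cover (g := fun x : (Σ _ : Ideal (R K), Σ _ : ℕ, Ideal (R K)) => x.2.2 * x.1)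
        hF0 fun J hJ => ?_
      obtain ⟨hJ0, hJH⟩ := mem_rows'.1 hJ
      obtain ⟨h1, h2, hs, hp, hco, rfl⟩ := exists_sqf_pow2 hJ0
      have h10 : h1 ≠ ⊥ := fun e => hJ0 (by rw [e]; simp)
      have h20 : h2 ≠ ⊥ := hp.1
      rw [NI_mul] at hJH
      have hn1 := one_le_NI h10
      have hn2 := one_le_NI h20
      have hl : (2 : ℝ) ^ Nat.log 2 (nmI h1) ≤ NI h1 := by
        unfold NI
        exact_mod_cast Nat.pow_log_le_self 2 (nmI_pos h10).ne'
      have hu : NI h1 ≤ 2 * (2 : ℝ) ^ Nat.log 2 (nmI h1) := by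
        unfold NI
        have := Nat.lt_pow_succ_log_self (b := 2) (by norm_num) (nmI h1)
        rw [pow_succ'] at this
        exact_mod_cast this.le
      refine ⟨⟨h2, Nat.log 2 (nmI h1), h1⟩, ?_, rfl⟩
      simp only [Finset.mem_sigma, hP2, hAs, hS1, Finset.mem_filter, Finset.mem_range, mem_rows']
      refine ⟨⟨⟨h20, by nlinarith⟩, hp⟩, ⟨?_, ?_⟩, ⟨h10, hu⟩, hl, hs, hco⟩
      · refine Nat.lt_succ_of_le ((Nat.log_le_self 2 _).trans (Nat.le_floor ?_))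
        change NI h1 ≤ H
        nlinarith
      · rw [le_div_iff₀ (by linarith)]
        nlinarith
    have h2 : ∀ h2 ∈ P2, ∑ a ∈ As h2, ∑ h1 ∈ S1 h2 a, F (h1 * h2) ≤
        2 * C * M * (nmI h2 : ℝ) ^ (-(3 / 4 : ℝ)) := by
      intro h2 hh2
      have hp : Pow2 h2 := (Finset.mem_filter.1 hh2).2
      have h20 : h2 ≠ ⊥ := hp.1
      have hn2 := one_le_NI h20
      have hn0 : 0 < NI h2 := by linarith
      have hρ := one_le_NI (radI_ne_bot h2)
      have hρ2 : NI (radI h2) ^ 2 ≤ NI h2 := by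
        rw [← NI_pow]; exact NI_le_of_dvd h20 hp.radI_sq_dvd
      have hb : NI (bpart (h2 ^ 5)) ≤ NI h2 ^ (1 / 4 : ℝ) := by
        have h3 : NI (bpart (h2 ^ 5)) ^ 4 ≤ NI h2 := by
          rw [← NI_pow]; exact NI_le_of_dvd h20 (bpart_pow_five h20)
        have h4 := Real.rpow_le_rpow (pow_nonneg (NI_nonneg _) 4) h3 (by norm_num : (0 : ℝ) ≤ 1 / 4)
        rwa [← Real.rpow_natCast, ← Real.rpow_mul (NI_nonneg _),
          show ((4 : ℕ) : ℝ) * (1 / 4) = 1 by norm_num, Real.rpow_one] at h4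
      have hterm : ∀ a ∈ As h2, ∑ h1 ∈ S1 h2 a, F (h1 * h2) ≤
          C * M * NI h2 ^ (1 / 4 : ℝ) / H * (2 : ℝ) ^ a := by
        intro a ha
        have ha' : (2 : ℝ) ^ a ≤ H / NI h2 := (Finset.mem_filter.1 ha).2
        have ha1 : (1 : ℝ) ≤ 2 ^ a := one_le_pow₀ (by norm_num)
        rw [le_div_iff₀ hn0] at ha'
        have h5 : (2 : ℝ) ^ a * NI (radI h2) ^ 2 ≤ H :=
          (mul_le_mul_of_nonneg_left hρ2 (by positivity)).trans ha'
        have h6 : ((2 : ℝ) ^ a * NI (radI h2)) ^ min ε 1 ≤ H ^ ε := by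
          refine le_trans (Real.rpow_le_rpow (by positivity) ?_ (lt_min hε one_pos).le)
            (Real.rpow_le_rpow_of_exponent_le hH (min_le_left _ _))
          refine le_trans (mul_le_mul_of_nonneg_left ?_ (by positivity)) h5
          nlinarith
        have h7 := zv_real (by positivity : (0 : ℝ) < 2 ^ a) hρ hX h5
        have h8 : (2 : ℝ) ^ a + (((2 : ℝ) ^ a * NI (radI h2)) ^ 2 / X) ^ (8 / 5 : ℝ) *
            NI (radI h2) ^ (2 / 5 : ℝ) ≤ 2 ^ a / H * W := by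
          rw [hW, mul_add, div_mul_cancel₀ _ hH0.ne']
          linarith
        have hb0 := NI_nonneg (bpart (h2 ^ 5))
        refine (hV h2 h20 c hc t ξ (2 ^ a) ha1 hX1).trans ?_
        calc _ ≤ C * (1 + ‖ξ‖) ^ A * NI h2 ^ (1 / 4 : ℝ) * H ^ ε * X * (2 ^ a / H * W) := by
              gcongr
          _ = _ := by rw [hM]; ring
      have hsum : ∑ a ∈ As h2, (2 : ℝ) ^ a ≤ 2 * (H / NI h2) :=
        zv_geom (by positivity) fun a ha => (Finset.mem_filter.1 ha).2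
      have hpow : (nmI h2 : ℝ) ^ (-(3 / 4 : ℝ)) = NI h2 ^ (1 / 4 : ℝ) / NI h2 := by
        change NI h2 ^ (-(3 / 4 : ℝ)) = _
        rw [← Real.rpow_sub_one hn0.ne']
        norm_num
      calc _ ≤ ∑ a ∈ As h2, C * M * NI h2 ^ (1 / 4 : ℝ) / H * (2 : ℝ) ^ a :=
            Finset.sum_le_sum hterm
        _ = C * M * NI h2 ^ (1 / 4 : ℝ) / H * ∑ a ∈ As h2, (2 : ℝ) ^ a := by rw [Finset.mul_sum]
        _ ≤ C * M * NI h2 ^ (1 / 4 : ℝ) / H * (2 * (H / NI h2)) := by gcongr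
        _ = _ := by rw [hpow]; field_simp
    have h3 := hC2 P2 fun x hx => (Finset.mem_filter.1 hx).2
    have h5 : 0 ≤ C0 ^ 2 * |C1| * M := by positivity
    calc ∑ J ∈ rows K H, F J ≤ ∑ h2 ∈ P2, 2 * C * M * (nmI h2 : ℝ) ^ (-(3 / 4 : ℝ)) :=
          h1.trans (Finset.sum_le_sum h2)
      _ = 2 * C * M * ∑ h2 ∈ P2, (nmI h2 : ℝ) ^ (-(3 / 4 : ℝ)) := by rw [Finset.mul_sum]
      _ ≤ 2 * C * M * C2 := by gcongr
      _ = 2 * C * C2 * M := by ring
      _ ≤ _ := le_add_of_nonneg_right h5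

end Crest.Agent.GQ
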