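import Crest.Agent.GQ.ZStep1
import Crest.Agent.GQ.ZV

/-!
# Project GQ, part B3: the inductive step, large common divisors and the cube tail
-/

set_option autoImplicit false

noncomputable section

open NumberField Complex UniqueFactorizationMonoid MeasureTheory
open scoped ComplexConjugate ENNReal

namespace Crest.Agent.GQ

variable {K : Type} [Field K] [NumberField K] [P : Pre K] [Q : Rec K]

omit Q in
theorem zs2_psi1_mul (d e f J : Ideal (R K)) (x y : R K) :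
    psi1 d e f J (x * y) = psi1 d e f J x * psi1 d e f J y := by
  unfold psi1
  simp only [chiI_mul_right, Subring.coe_mul, ang_mul, mul_pow]
  ring

omit Q in
theorem zs2_norm_psi1 (d e f J : Ideal (R K)) (x : R K) : ‖psi1 d e f J x‖ ≤ 1 := by
  unfold psi1
  have h1 : ‖ang (x : K)‖ ≤ 1 := by simpa using norm_ang_zpow_le (x : K) 1
  simp only [norm_mul, norm_pow]
  refine mul_le_one₀ (mul_le_one₀ h1 (by positivity) (mul_le_one₀ (norm_chiI_le _ _)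
    (by positivity) (pow_le_one₀ (norm_nonneg _) (norm_chiI_le _ _)))) (by positivity)
    (pow_le_one₀ (norm_nonneg _) (norm_chiI_le _ _))

omit Q in
theorem zs2_psi1_eq {d e f J : Ideal (R K)} (hd : d ≠ ⊥) (he : e ≠ ⊥) (hf : f ≠ ⊥) (hJ : J ≠ ⊥)
    (n : R K) : psi1 d e f J n = ang (n : K) * chiI (J * (e ^ 5 * f ^ 4 * d ^ 6)) n ^ 5 := by
  have h5 : e ^ 5 ≠ ⊥ := pow_ne_zero 5 he
  have h4 : f ^ 4 ≠ ⊥ := pow_ne_zero 4 hf
  have h6 : d ^ 6 ≠ ⊥ := pow_ne_zero 6 hd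
  have h54 : e ^ 5 * f ^ 4 ≠ ⊥ := mul_ne_zero h5 h4
  have hp : ∀ (I : Ideal (R K)) (k m : ℕ), k ≠ 0 → chiI I n ^ (k + 6 * m) = chiI I n ^ k := by
    intro I k m hk
    induction m with
    | zero => simp
    | succ m ih =>
      rw [show k + 6 * (m + 1) = (k + 6 * m) + 6 by ring, ← ih]
      exact chi_pow_add_six _ _ (by omega)
  unfold psi1
  rw [chiI_mul hJ (mul_ne_zero h54 h6), chiI_mul h54 h6, chiI_mul h5 h4,
    chiI_mul (pow_ne_zero 2 hf) he, chiI_pow he, chiI_pow hf, chiI_pow hf, chiI_pow hd]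
  have e1 := hp e 1 4 one_ne_zero
  have e2 := hp f 2 3 two_ne_zero
  have e3 := hp d 6 4 (by norm_num)
  rw [pow_one] at e1
  rw [mul_pow, mul_pow, mul_pow, ← pow_mul, ← pow_mul, ← pow_mul]
  norm_num only at e1 e2 e3 ⊢
  rw [e1, e2, e3]
  ring

theorem zs2_inj {α : Type} (s t : Finset α) (g : α → α) (hg : Set.InjOn g s)
    (hst : ∀ a ∈ s, g a ∈ t) (f f' : α → ℝ) (hf : ∀ a, 0 ≤ f a) (hf' : ∀ a ∈ s, f' a = f (g a)) :
    ∑ a ∈ s, f' a ≤ ∑ a ∈ t, f a := by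
  classical
  rw [Finset.sum_congr rfl hf', ← Finset.sum_image hg]
  exact Finset.sum_le_sum_of_subset_of_nonneg (Finset.image_subset_iff.2 hst) fun _ _ _ => hf _

theorem zs2_tail_num {X m M0 θ ε a b c : ℝ} (hX : 0 < X) (hM0 : 1 ≤ M0) (hm : M0 ≤ m)
    (hθ : 1 ≤ θ) (hb : 0 ≤ b) (hc : 0 ≤ c) :
    (X / m ^ 3) ^ ε * (a * (X / m ^ 3) + b * (X / m ^ 3) ^ (1 + θ) + c * (X / m ^ 3) ^ (7 / 36 + θ)) ≤
      X ^ ε * (a * X + (b * X ^ (1 + θ) + c * X ^ (7 / 36 + θ)) * M0 ^ (-(7 / 12) : ℝ)) *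
        (m ^ (-(3 / 2 + 3 * ε / 2))) ^ 2 := by
  have hm1 : 1 ≤ m := hM0.trans hm
  have hm0 : 0 < m := by linarith
  have hpow : ∀ s : ℝ, (X / m ^ 3) ^ s = X ^ s * m ^ (-(3 * s)) := fun s => by
    rw [Real.div_rpow hX.le (by positivity), ← Real.rpow_natCast m 3, ← Real.rpow_mul hm0.le,
      Real.rpow_neg hm0.le, div_eq_mul_inv]
    norm_num
  have h0 : X / m ^ 3 = X * m ^ (-3 : ℝ) := by
    have := hpow 1
    rwa [Real.rpow_one, Real.rpow_one, mul_one] at this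
  have hM : m ^ (-(7 / 12) : ℝ) ≤ M0 ^ (-(7 / 12) : ℝ) :=
    Real.rpow_le_rpow_of_nonpos (by linarith) hm (by norm_num)
  have hk : ∀ s : ℝ, 43 / 36 ≤ s → m ^ (-(3 * s)) ≤ M0 ^ (-(7 / 12) : ℝ) * m ^ (-3 : ℝ) := by
    intro s hs
    refine le_trans ?_ (mul_le_mul_of_nonneg_right hM (by positivity))
    rw [← Real.rpow_add hm0]
    exact Real.rpow_le_rpow_of_exponent_le hm1 (by linarith)
  have hw : (m ^ (-(3 / 2 + 3 * ε / 2))) ^ 2 = m ^ (-(3 * ε)) * m ^ (-3 : ℝ) := by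
    rw [← Real.rpow_natCast, ← Real.rpow_mul hm0.le, ← Real.rpow_add hm0]
    congr 1
    push_cast
    ring
  rw [hpow ε, hpow (1 + θ), hpow (7 / 36 + θ), h0, hw]
  have h1 := mul_le_mul_of_nonneg_left (hk (1 + θ) (by linarith))
    (show 0 ≤ b * X ^ (1 + θ) by positivity)
  have h2 := mul_le_mul_of_nonneg_left (hk (7 / 36 + θ) (by linarith))
    (show 0 ≤ c * X ^ (7 / 36 + θ) by positivity)
  calc _ ≤ X ^ ε * m ^ (-(3 * ε)) * (a * (X * m ^ (-3 : ℝ)) +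
        b * X ^ (1 + θ) * (M0 ^ (-(7 / 12) : ℝ) * m ^ (-3 : ℝ)) +
        c * X ^ (7 / 36 + θ) * (M0 ^ (-(7 / 12) : ℝ) * m ^ (-3 : ℝ))) := by
        refine mul_le_mul_of_nonneg_left ?_ (by positivity)
        linarith
    _ = _ := by ring

theorem zs2_head_num {X m M0 L : ℝ} (hX : 0 < X) (hm1 : 1 ≤ m) (hm : m ≤ M0) (hL : 0 ≤ L) :
    X / m ^ 3 * (2 ^ 15 * L + ((2 ^ 15 * L) ^ 2 / (X / m ^ 3)) ^ (8 / 5 : ℝ)) ≤
      2 ^ 60 * X * (L + (L ^ 2 / X) ^ (8 / 5 : ℝ) * M0 ^ (24 / 5 : ℝ)) *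
        (m ^ (-(3 / 2) : ℝ)) ^ 2 := by
  have hm0 : 0 < m := by linarith
  have hw : (m ^ (-(3 / 2) : ℝ)) ^ 2 = (m ^ 3)⁻¹ := by
    rw [← Real.rpow_natCast, ← Real.rpow_mul hm0.le, ← Real.rpow_natCast m 3,
      ← Real.rpow_neg hm0.le]
    norm_num
  have h1 : (2 ^ 15 * L) ^ 2 / (X / m ^ 3) = 2 ^ 30 * (L ^ 2 / X) * m ^ 3 := by
    field_simp
  have h2 : ((2 : ℝ) ^ 30) ^ (8 / 5 : ℝ) ≤ 2 ^ 60 := by
    refine (Real.rpow_le_rpow_of_exponent_le (by norm_num) (show (8 / 5 : ℝ) ≤ (2 : ℕ) by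
      norm_num)).trans_eq ?_
    rw [Real.rpow_natCast]
    norm_num
  have h3 : (m ^ 3) ^ (8 / 5 : ℝ) ≤ M0 ^ (24 / 5 : ℝ) := by
    rw [← Real.rpow_natCast m 3, ← Real.rpow_mul hm0.le]
    norm_num
    exact Real.rpow_le_rpow hm0.le hm (by norm_num)
  have h4 : ((2 ^ 15 * L) ^ 2 / (X / m ^ 3)) ^ (8 / 5 : ℝ) ≤
      2 ^ 60 * (L ^ 2 / X) ^ (8 / 5 : ℝ) * M0 ^ (24 / 5 : ℝ) := by
    have p1 : 0 ≤ L ^ 2 / X := by positivity
    have p2 : 0 ≤ (L ^ 2 / X) ^ (8 / 5 : ℝ) := Real.rpow_nonneg p1 _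
    have p3 : (0 : ℝ) ≤ 2 ^ 30 := by norm_num
    have p4 : (0 : ℝ) ≤ 2 ^ 60 := by norm_num
    have p5 : 0 ≤ m ^ 3 := by positivity
    rw [h1, Real.mul_rpow (mul_nonneg p3 p1) p5, Real.mul_rpow p3 p1]
    exact mul_le_mul (mul_le_mul_of_nonneg_right h2 p2) h3 (Real.rpow_nonneg p5 _)
      (mul_nonneg p4 p2)
  rw [hw]
  calc _ ≤ X / m ^ 3 * (2 ^ 60 * L + 2 ^ 60 * (L ^ 2 / X) ^ (8 / 5 : ℝ) * M0 ^ (24 / 5 : ℝ)) := by
        refine mul_le_mul_of_nonneg_left ?_ (by positivity)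
        linarith
    _ = _ := by ring

/-- The tail of the cube inversion. -/
theorem step_tail {θ : ℝ} (hθ1 : 1 ≤ θ) (hθ2 : θ ≤ 2) (hA : Acond K θ) (j : ℕ) (hj : Rec.k K ≤ j)
    (lam : ℝ) (hlam : 0 < lam) (ε : ℝ) (hε : 0 < ε) (hε1 : ε ≤ 1) :
    ∃ C A : ℝ, 0 ≤ C ∧ 0 ≤ A ∧ ∀ D E F K' M0 : ℝ, 1 ≤ D → 1 ≤ E → 1 ≤ F → 1 ≤ K' → 1 ≤ M0 →
      E ≤ 2 * D → ∀ c : K, c ≠ 0 → ∀ t ξ : Pl K → ℝ,
        ∑ x ∈ Tri K D E F, ∑ J ∈ rows K K',
          ‖Sm (fun n => cnv 3 (ph2 M0) Gsf n * psi1 x.1 x.2.1 x.2.2 J n) j c lam t ξ‖ ^ 2 ≤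
          C * (1 + ‖ξ‖) ^ A * (D * F) ^ (3 * ε) * sz c t ^ ε * D *
            (F * K' * sz c t + (F ^ 2 * E * sz c t ^ (1 + θ) + K' * sz c t ^ (7 / 36 + θ)) *
              M0 ^ (-(7 / 12) : ℝ)) := by
  classical
  obtain ⟨C, A, hC, hA0, h⟩ := BA_tri hθ1 hθ2 hA j hj lam hlam ε hε hε1
  obtain ⟨C1, hC1⟩ := card_divs_le (K := K) hε
  obtain ⟨C0, hC0⟩ := card_divs_le_sq (K := K)
  have hS := (summable_nmI (K := K) (σ := 1 + ε / 2) (by linarith)).mul_left |C1|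
  set S := ∑' I : Ideal (R K), |C1| * (nmI I : ℝ) ^ (-(1 + ε / 2)) with hSdef
  refine ⟨C * S ^ 2, A, by positivity, hA0, fun D E F K' M0 hD hE hF hK hM0 hED c hc t ξ => ?_⟩
  have hX := sz_pos hc t
  have hb : ∀ J : Ideal (R K), ‖ph2 M0 J‖ * NI J ^ (-(3 / 2 + 3 * ε / 2)) ≤
      |C1| * (nmI J : ℝ) ^ (-(1 + ε / 2)) := by
    intro J
    by_cases hJ : J = ⊥
    · have : ph2 M0 J = 0 := by
        unfold ph2
        rw [if_pos]
        rw [hJ, NI, nmI_bot, Nat.cast_zero]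
        linarith
      rw [this, norm_zero, zero_mul]
      positivity
    have hm := NI_pos hJ
    have h1 : ((divs J).card : ℝ) ≤ |C1| * NI J ^ ε :=
      (hC1 J hJ).trans (mul_le_mul_of_nonneg_right (le_abs_self _) (by positivity))
    calc _ ≤ |C1| * NI J ^ ε * Real.sqrt (NI J) * NI J ^ (-(3 / 2 + 3 * ε / 2)) := by
          refine mul_le_mul_of_nonneg_right ((norm_ph2_le M0 J).trans ?_) (by positivity)
          exact mul_le_mul_of_nonneg_right h1 (Real.sqrt_nonneg _)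
      _ = |C1| * NI J ^ (-(1 + ε / 2)) := by
          rw [Real.sqrt_eq_rpow, mul_assoc, mul_assoc, ← Real.rpow_add hm, ← Real.rpow_add hm]
          congr 2
          ring
  have hw0 : ∀ J : Ideal (R K), 0 ≤ NI J ^ (-(3 / 2 + 3 * ε / 2)) := fun J =>
    Real.rpow_nonneg (NI_nonneg J) _
  have hw : Summable fun J : Ideal (R K) => ‖ph2 M0 J‖ * NI J ^ (-(3 / 2 + 3 * ε / 2)) :=
    hS.of_nonneg_of_le (fun J => mul_nonneg (norm_nonneg _) (hw0 J)) hb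
  have key := conv2 3 (by norm_num) j (Q.hk.trans hj) c hc lam hlam t ξ (Tri K D E F ×ˢ rows K K')
    (fun _ => Gsf) (fun i => psi1 i.1.1 i.1.2.1 i.1.2.2 i.2)
    (fun _ _ => mod_of_le_one norm_Gsf_le) (fun _ _ n => zs2_norm_psi1 _ _ _ _ n)
    (fun _ _ x y _ _ => zs2_psi1_mul _ _ _ _ x y) (ph2 M0)
    ⟨C0, fun J hJ => (norm_ph2_le M0 J).trans (hC0 J hJ)⟩ _ hw0 hw
    (C * (1 + ‖ξ‖) ^ A * (D * F) ^ (3 * ε) * sz c t ^ ε * D *
      (F * K' * sz c t + (F ^ 2 * E * sz c t ^ (1 + θ) + K' * sz c t ^ (7 / 36 + θ)) *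
        M0 ^ (-(7 / 12) : ℝ))) (by positivity) fun J hJ hφ => by
      have hm : M0 ≤ NI J := by
        by_contra h'
        exact hφ (by unfold ph2; rw [if_pos (not_le.1 h').le])
      have hc' : c / ((gen J ^ 3 : R K) : K) ≠ 0 := div_ne_zero hc (by
        simpa using gen_ne_zero hJ)
      have h1 := h D E F K' hD hE hF hK hED _ hc' (t - lg ((gen J ^ 3 : R K) : K)) ξ
      rw [sz_div_gen_pow 3 c hc t J hJ] at h1
      rw [Finset.sum_product]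
      refine h1.trans ?_
      have h2 := mul_le_mul_of_nonneg_left (zs2_tail_num (ε := ε) (a := F * K') (b := F ^ 2 * E)
        (c := K') hX hM0 hm hθ1 (by positivity) (by positivity))
        (show 0 ≤ C * (1 + ‖ξ‖) ^ A * (D * F) ^ (3 * ε) * D by positivity)
      calc _ = _ := by ring
        _ ≤ _ := h2
        _ = _ := by ring
  rw [Finset.sum_product] at key
  refine key.trans ?_
  have h3 : (∑' J : Ideal (R K), ‖ph2 M0 J‖ * NI J ^ (-(3 / 2 + 3 * ε / 2))) ^ 2 ≤ S ^ 2 :=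
    pow_le_pow_left₀ (tsum_nonneg fun J => mul_nonneg (norm_nonneg _) (hw0 J))
      (hw.tsum_le_tsum hb hS) 2
  refine (mul_le_mul_of_nonneg_left h3 (by positivity)).trans_eq ?_
  ring

/-- The head of the cube inversion. -/
theorem step_head (hcv : CV K) (j : ℕ) (hj : Rec.k K ≤ j) (lam : ℝ) (hlam : 0 < lam) (ε : ℝ)
    (hε : 0 < ε) :
    ∃ C A : ℝ, 0 ≤ C ∧ 0 ≤ A ∧ ∀ D E F K' M0 : ℝ, 1 ≤ D → 1 ≤ E → 1 ≤ F → 1 ≤ K' → 1 ≤ M0 →
      ∀ c : K, c ≠ 0 → ∀ t ξ : Pl K → ℝ,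
        ∑ x ∈ Tri K D E F, ∑ J ∈ rows K K',
          ‖Sm (fun n => cnv 3 (ph1 M0) Gf n * psi1 x.1 x.2.1 x.2.2 J n) j c lam t ξ‖ ^ 2 ≤
          C * (1 + ‖ξ‖) ^ A * (M0 * (K' * E ^ 5 * F ^ 4 * D ^ 6)) ^ ε * (D * F) * sz c t *
            (K' * E ^ 5 * F ^ 4 * D ^ 6 +
              ((K' * E ^ 5 * F ^ 4 * D ^ 6) ^ 2 / sz c t) ^ (8 / 5 : ℝ) * M0 ^ (24 / 5 : ℝ)) := by
  classical
  obtain ⟨C, A, hC, hA0, h⟩ := VV hcv j hj lam hlam (ε / 2) (by linarith)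
  obtain ⟨C2, hC2, hT⟩ := card_Tri_le (K := K) (ε := ε / 2) (by linarith)
  obtain ⟨C3, hC3⟩ := sum_rows_inv_le (K := K) (ε := ε / 2) (by linarith)
  refine ⟨C2 * C * (2 ^ 15) ^ (ε / 2) * 2 ^ 60 * C3 ^ 2, A, by positivity, hA0,
    fun D E F K' M0 hD hE hF hK hM0 c hc t ξ => ?_⟩
  have hX := sz_pos hc t
  set L := K' * E ^ 5 * F ^ 4 * D ^ 6 with hL
  have hDL : D ≤ L := by
    have h1 : D ≤ D ^ 6 := le_self_pow₀ hD (by norm_num)
    have h2 : 1 ≤ K' * E ^ 5 * F ^ 4 := one_le_mul_of_one_le_of_one_le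
      (one_le_mul_of_one_le_of_one_le hK (one_le_pow₀ hE)) (one_le_pow₀ hF)
    exact h1.trans (le_mul_of_one_le_left (by positivity) h2)
  have hL1 : 1 ≤ L := hD.trans hDL
  have hw0 : ∀ J : Ideal (R K), 0 ≤ NI J ^ (-(3 / 2) : ℝ) := fun J =>
    Real.rpow_nonneg (NI_nonneg J) _
  have hz : ∀ J ∉ rows K M0, ‖ph1 M0 J‖ * NI J ^ (-(3 / 2) : ℝ) = 0 := by
    intro J hJ
    rw [mem_rows', not_and_or, not_not] at hJ
    rcases hJ with hJ | hJ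
    · rw [hJ, NI, nmI_bot, Nat.cast_zero, Real.zero_rpow (by norm_num), mul_zero]
    · unfold ph1
      rw [if_neg hJ, norm_zero, zero_mul]
  have hw : Summable fun J : Ideal (R K) => ‖ph1 M0 J‖ * NI J ^ (-(3 / 2) : ℝ) :=
    summable_of_ne_finset_zero hz
  have hsum : ∑' J : Ideal (R K), ‖ph1 M0 J‖ * NI J ^ (-(3 / 2) : ℝ) ≤ C3 * M0 ^ (ε / 2) := by
    rw [tsum_eq_sum hz]
    refine le_trans (Finset.sum_le_sum fun J hJ => ?_) (hC3 M0 (by linarith))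
    have hm := NI_pos (mem_rows'.1 hJ).1
    refine (mul_le_mul_of_nonneg_right (norm_ph1_le M0 J) (hw0 J)).trans_eq ?_
    rw [Real.sqrt_eq_rpow, ← Real.rpow_add hm]
    norm_num
    rw [Real.rpow_neg_one]
    rfl
  have key := conv2 3 (by norm_num) j (Q.hk.trans hj) c hc lam hlam t ξ (Tri K D E F ×ˢ rows K K')
    (fun _ => Gf) (fun i => psi1 i.1.1 i.1.2.1 i.1.2.2 i.2)
    (fun _ _ => mod_Gf) (fun _ _ n => zs2_norm_psi1 _ _ _ _ n)
    (fun _ _ x y _ _ => zs2_psi1_mul _ _ _ _ x y) (ph1 M0)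
    ⟨1, fun J hJ => (norm_ph1_le M0 J).trans (by
      have h1 := one_le_NI hJ
      rw [one_mul, Real.sqrt_le_left (by positivity), ← pow_mul]
      exact le_self_pow₀ h1 (by norm_num))⟩ _ hw0 hw
    (C2 * D ^ (1 + ε / 2) * F * (C * (1 + ‖ξ‖) ^ A * (2 ^ 15 * L) ^ (ε / 2) * (2 ^ 60 * sz c t *
      (L + (L ^ 2 / sz c t) ^ (8 / 5 : ℝ) * M0 ^ (24 / 5 : ℝ))))) (by positivity) fun J0 hJ0 hφ => by
      have hm : NI J0 ≤ M0 := by
        by_contra h'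
        exact hφ (by unfold ph1; rw [if_neg h'])
      have hc' : c / ((gen J0 ^ 3 : R K) : K) ≠ 0 := div_ne_zero hc (by
        simpa using gen_ne_zero hJ0)
      have h1 := h _ hc' (t - lg ((gen J0 ^ 3 : R K) : K)) ξ (2 ^ 15 * L) (by linarith)
      rw [sz_div_gen_pow 3 c hc t J0 hJ0] at h1
      have h2 := mul_le_mul_of_nonneg_left (zs2_head_num (L := L) hX (one_le_NI hJ0) hm
        (by linarith)) (show 0 ≤ C * (1 + ‖ξ‖) ^ A * (2 ^ 15 * L) ^ (ε / 2) by positivity)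
      rw [← mul_assoc] at h2
      have h3 := h1.trans h2
      rw [Finset.sum_product]
      refine (Finset.sum_le_card_nsmul _ _ _ fun x hx => le_trans ?_ h3).trans ?_
      · obtain ⟨⟨d1, d2⟩, ⟨e1, e2⟩, ⟨f1, f2⟩, -, -⟩ := mem_Tri.1 hx
        have hne : ∀ I : Ideal (R K), 1 ≤ NI I → I ≠ ⊥ := fun I hI h0 => by
          rw [h0, NI, nmI_bot, Nat.cast_zero] at hI
          linarith
        have hd := hne _ (hD.trans d1)
        have he := hne _ (hE.trans e1)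
        have hf := hne _ (hF.trans f1)
        have hZ : x.2.1 ^ 5 * x.2.2 ^ 4 * x.1 ^ 6 ≠ 0 :=
          mul_ne_zero (mul_ne_zero (pow_ne_zero 5 he) (pow_ne_zero 4 hf)) (pow_ne_zero 6 hd)
        refine zs2_inj _ _ (fun J => J * (x.2.1 ^ 5 * x.2.2 ^ 4 * x.1 ^ 6))
          (fun J _ J' _ hJ => mul_right_cancel₀ hZ hJ) (fun J hJ => ?_) _ _
          (fun J => by positivity) fun J hJ => by
            simp only [zs2_psi1_eq hd he hf (mem_rows'.1 hJ).1]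
        obtain ⟨hJ1, hJ2⟩ := mem_rows'.1 hJ
        refine mem_rows'.2 ⟨mul_ne_zero hJ1 hZ, ?_⟩
        rw [NI_mul, NI_mul, NI_mul, NI_pow, NI_pow, NI_pow]
        have := NI_nonneg x.1
        have := NI_nonneg x.2.1
        have := NI_nonneg x.2.2
        calc _ ≤ K' * ((2 * E) ^ 5 * (2 * F) ^ 4 * (2 * D) ^ 6) := by gcongr
          _ = _ := by rw [hL]; ring
      · rw [nsmul_eq_mul]
        refine (mul_le_mul_of_nonneg_right (hT D E F hD hF) (by positivity)).trans_eq ?_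
        ring
  rw [Finset.sum_product] at key
  refine key.trans ?_
  have h3 : (∑' J : Ideal (R K), ‖ph1 M0 J‖ * NI J ^ (-(3 / 2) : ℝ)) ^ 2 ≤
      (C3 * M0 ^ (ε / 2)) ^ 2 :=
    pow_le_pow_left₀ (tsum_nonneg fun J => mul_nonneg (norm_nonneg _) (hw0 J)) hsum 2
  refine (mul_le_mul_of_nonneg_left h3 (by positivity)).trans ?_
  have e1 : D ^ (1 + ε / 2) ≤ D * L ^ (ε / 2) := by
    rw [Real.rpow_add (by linarith), Real.rpow_one]
    exact mul_le_mul_of_nonneg_left (Real.rpow_le_rpow (by linarith) hDL (by linarith))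
      (by linarith)
  have e2 : (M0 * L) ^ ε = (M0 ^ (ε / 2)) ^ 2 * (L ^ (ε / 2) * L ^ (ε / 2)) := by
    rw [Real.mul_rpow (by linarith) (by linarith), sq, ← Real.rpow_add (by linarith),
      ← Real.rpow_add (by linarith), add_halves]
  rw [e2, Real.mul_rpow (by norm_num) (by linarith)]
  calc _ ≤ C2 * (D * L ^ (ε / 2)) * F * (C * (1 + ‖ξ‖) ^ A * ((2 ^ 15) ^ (ε / 2) * L ^ (ε / 2)) *
        (2 ^ 60 * sz c t * (L + (L ^ 2 / sz c t) ^ (8 / 5 : ℝ) * M0 ^ (24 / 5 : ℝ)))) *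
        (C3 * M0 ^ (ε / 2)) ^ 2 := by gcongr
    _ = _ := by ring

end Crest.Agent.GQ
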