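import Crest.Agent.GQ.ZStep2

/-!
# Project GQ, part B3: the inductive step
-/

set_option autoImplicit false

noncomputable section

open NumberField Complex UniqueFactorizationMonoid MeasureTheory
open scoped ComplexConjugate ENNReal

namespace Crest.Agent.GQ

variable {K : Type} [Field K] [NumberField K] [P : Pre K] [Q : Rec K]

omit Q in
theorem zs3_log {x : ℝ} (hx : 0 < x) : ∃ a : ℝ, x = Real.exp a := ⟨Real.log x, (Real.exp_log hx).symm⟩

/-- Exponent bookkeeping for the bilinear bounds. -/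
theorem zs3_A {a d e f k w z g θ θ' η ε : ℝ} (ha : 0 ≤ a) (hd : 0 ≤ d) (hf : 0 ≤ f) (hw : 0 ≤ w)
    (h1 : d + f ≤ 2 * a) (h3 : k ≤ w + e + 29 / 36 * a - 2 * d) (h4 : z ≤ a + w - d - f)
    (hθ' : 1 + 1 / 1000 ≤ θ') (hθ : θ - 1 / 2000000 ≤ θ') (hθθ : θ' < θ) (hθ2 : θ ≤ 2)
    (hε : 0 < ε) (hε1 : ε ≤ 1) (hεη : 7 * ε ≤ η)
    (hg : (1 - θ) * (d + f) + g ≤ -(1 / 2000000) * a) :
    (Real.exp d * Real.exp f) ^ (3 * ε) * Real.exp z ^ ε * Real.exp d *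
      (Real.exp f * Real.exp k * Real.exp z + (Real.exp f ^ 2 * Real.exp e * Real.exp z ^ (1 + θ) +
        Real.exp k * Real.exp z ^ (7 / 36 + θ)) * Real.exp g) ≤
      3 * (Real.exp a ^ (θ' + η) * (Real.exp e * Real.exp a / Real.exp d) * Real.exp w ^ (5 : ℝ)) := by
  have hp : (d + f) * (3 * ε) + z * ε ≤ η * a + w := by
    have e1 : (d + f) * (3 * ε) ≤ 2 * a * (3 * ε) := by gcongr
    have e2 : z * ε ≤ (a + w) * ε := by gcongr; linarith
    have e3 : w * ε ≤ w := mul_le_of_le_one_right hw hε1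
    have e4 : 7 * ε * a ≤ η * a := by gcongr
    nlinarith
  have k1 : (1 + 1 / 1000) * a ≤ θ' * a := by gcongr
  have k2 : (θ - 1 / 2000000) * a ≤ θ' * a := by gcongr
  have k3 : z * (1 + θ) ≤ (a + w - d - f) * (1 + θ) := by gcongr; linarith
  have k4 : z * (7 / 36 + θ) ≤ (a + w - d - f) * (7 / 36 + θ) := by gcongr; linarith
  have k5 : θ * w ≤ 2 * w := by gcongr
  have k6 : 1 * (d + f) ≤ θ * (d + f) := by gcongr; linarith
  simp only [← Real.exp_add, ← Real.exp_mul, ← Real.exp_nat_mul, ← Real.exp_sub, mul_add, add_mul]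
  have t1 : Real.exp (d * (3 * ε) + f * (3 * ε) + z * ε + d + (f + k + z)) ≤
      Real.exp (a * θ' + a * η + (e + a - d) + w * 5) := Real.exp_le_exp.2 (by nlinarith)
  have t2 : Real.exp (d * (3 * ε) + f * (3 * ε) + z * ε + d +
      ((2 : ℕ) * f + e + (z * 1 + z * θ) + g)) ≤
      Real.exp (a * θ' + a * η + (e + a - d) + w * 5) := Real.exp_le_exp.2 (by push_cast; nlinarith)
  have t3 : Real.exp (d * (3 * ε) + f * (3 * ε) + z * ε + d + (k + (z * (7 / 36) + z * θ) + g)) ≤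
      Real.exp (a * θ' + a * η + (e + a - d) + w * 5) := Real.exp_le_exp.2 (by nlinarith)
  exact (add_le_add t1 (add_le_add t2 t3)).trans (le_of_eq (by ring))

/-- Exponent bookkeeping for the head. -/
theorem zs3_B {a d e f k w z l θ' η ε : ℝ} (ha : 0 ≤ a) (_hd : 0 ≤ d) (he : 0 ≤ e) (hf : 0 ≤ f)
    (hw : 0 ≤ w) (hl : 0 ≤ l) (h1 : d + f ≤ a * (1 / 2000)) (h2 : e ≤ l + d)
    (h3 : k ≤ w + e + 29 / 36 * a - 2 * d) (h4 : z ≤ a + w - d - f) (h5 : a - d - f - w ≤ z)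
    (hθ' : 1 + 1 / 1000 ≤ θ') (hε : 0 < ε) (hε1 : ε ≤ 1) (hεη : 7 * ε ≤ η) :
    (Real.exp (a * (1 / 2000)) * (Real.exp k * Real.exp e ^ 5 * Real.exp f ^ 4 * Real.exp d ^ 6)) ^ ε *
      (Real.exp d * Real.exp f) * Real.exp z *
      (Real.exp k * Real.exp e ^ 5 * Real.exp f ^ 4 * Real.exp d ^ 6 +
        ((Real.exp k * Real.exp e ^ 5 * Real.exp f ^ 4 * Real.exp d ^ 6) ^ 2 / Real.exp z) ^
          (8 / 5 : ℝ) * Real.exp (a * (1 / 2000)) ^ (24 / 5 : ℝ)) ≤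
      2 * Real.exp (26 * l) *
        (Real.exp a ^ (θ' + η) * (Real.exp e * Real.exp a / Real.exp d) * Real.exp w ^ (5 : ℝ)) := by
  have e0 : Real.exp k * Real.exp e ^ 5 * Real.exp f ^ 4 * Real.exp d ^ 6 =
      Real.exp (k + 5 * e + 4 * f + 6 * d) := by
    simp only [← Real.exp_add, ← Real.exp_nat_mul]
    norm_num
  rw [e0]
  have hh : k + 5 * e + 4 * f + 6 * d ≤ w + 6 * l + (29 / 36 + 10 / 2000) * a := by linarith
  generalize k + 5 * e + 4 * f + 6 * d = h at hh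
  have hp : (a * (1 / 2000) + h) * ε ≤ η * a + w + 6 * l := by
    have e1 : (a * (1 / 2000) + h) * ε ≤ (a + w + 6 * l) * ε :=
      mul_le_mul_of_nonneg_right (by linarith) hε.le
    have e3 : w * ε ≤ w := mul_le_of_le_one_right hw hε1
    have e3' : l * ε ≤ l := mul_le_of_le_one_right hl hε1
    have e4 : ε * a ≤ η * a := by gcongr; linarith
    nlinarith
  have k1 : (1 + 1 / 1000) * a ≤ θ' * a := by gcongr
  rw [mul_add, mul_assoc 2]
  simp only [← Real.exp_add, ← Real.exp_mul, ← Real.exp_nat_mul, ← Real.exp_sub]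
  have t1 : Real.exp ((a * (1 / 2000) + h) * ε + (d + f) + z + h) ≤
      Real.exp (26 * l + (a * (θ' + η) + (e + a - d) + w * 5)) := Real.exp_le_exp.2 (by nlinarith)
  have t2 : Real.exp ((a * (1 / 2000) + h) * ε + (d + f) + z +
      (((2 : ℕ) * h - z) * (8 / 5) + a * (1 / 2000) * (24 / 5))) ≤
      Real.exp (26 * l + (a * (θ' + η) + (e + a - d) + w * 5)) :=
    Real.exp_le_exp.2 (by push_cast; nlinarith)
  linarith

omit Q in
theorem zs3_psi (d e f J : Ideal (R K)) (n : R K) : ‖psi1 d e f J n‖ ≤ 1 := by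
  unfold psi1
  have h1 : ‖ang (n : K)‖ ≤ 1 := by simpa using norm_ang_zpow_le (n : K) 1
  have h2 := norm_chiI_le (f ^ 2 * e) n
  have h3 := pow_le_one₀ (n := 6) (norm_nonneg _) (norm_chiI_le d n)
  have h4 := pow_le_one₀ (n := 5) (norm_nonneg _) (norm_chiI_le J n)
  rw [norm_mul, norm_mul, norm_mul, norm_pow, norm_pow]
  exact mul_le_one₀ (mul_le_one₀ h1 (by positivity) (mul_le_one₀ h2 (by positivity) h3))
    (by positivity) h4

omit Q in
theorem zs3_split {M0 : ℝ} (hM0 : 1 ≤ M0) (d e f J : Ideal (R K)) {j : ℕ} (hj : 1 ≤ j) {c : K}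
    (hc : c ≠ 0) {lam : ℝ} (hlam : 0 < lam) (t ξ : Pl K → ℝ) :
    ‖Sm (fun n => Gsf n * psi1 d e f J n) j c lam t ξ‖ ^ 2 ≤
      2 * ‖Sm (fun n => cnv 3 (ph1 M0) Gf n * psi1 d e f J n) j c lam t ξ‖ ^ 2 +
      2 * ‖Sm (fun n => cnv 3 (ph2 M0) Gsf n * psi1 d e f J n) j c lam t ξ‖ ^ 2 := by
  have h1 := Sm_add ((mod_cv_ph1 M0).mul_bdd (zs3_psi d e f J))
    ((mod_cv_ph2 M0).mul_bdd (zs3_psi d e f J)) hj hc hlam t ξ
  have h2 := Sm_congr_mul (a := fun n => Gsf n * psi1 d e f J n)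
    (b := fun n => cnv 3 (ph1 M0) Gf n * psi1 d e f J n + cnv 3 (ph2 M0) Gsf n * psi1 d e f J n)
    (η := 1) (j := j) (c := c) (fun n hn => by
      rw [one_mul, ← add_mul, ← Gsf_eq_cv_trunc hM0 (ne_zero_of_mem_cls hj hc hn)]) lam t ξ
  rw [h2, one_mul, h1]
  have h3 := pow_le_pow_left₀ (norm_nonneg _) (norm_add_le
    (Sm (fun n => cnv 3 (ph1 M0) Gf n * psi1 d e f J n) j c lam t ξ)
    (Sm (fun n => cnv 3 (ph2 M0) Gsf n * psi1 d e f J n) j c lam t ξ)) 2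
  nlinarith [sq_nonneg (‖Sm (fun n => cnv 3 (ph1 M0) Gf n * psi1 d e f J n) j c lam t ξ‖ -
    ‖Sm (fun n => cnv 3 (ph2 M0) Gsf n * psi1 d e f J n) j c lam t ξ‖)]

/-- The hypothesis of the Poisson lemma for `μ`. -/
theorem step_hyp (hcv : CV K) {θ θ' : ℝ} (hθ' : 1 + 1 / 1000 ≤ θ') (hθ : θ - 1 / 2000000 ≤ θ')
    (hθθ : θ' < θ) (hθ2 : θ ≤ 2) (hA : Acond K θ) (j : ℕ) (hj : Rec.k K ≤ j) (lam : ℝ)
    (hlam : 0 < lam) (η : ℝ) (hη : 0 < η) :
    ∃ C A : ℝ, 0 ≤ C ∧ 0 ≤ A ∧ ∀ X H : ℝ, 1 ≤ X → X ^ (43 / 36 : ℝ) ≤ H →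
      PLHyp 1 (Finset.univ : Finset Unit) (fun _ => (mu : R K → ℂ)) j lam X H
        (C * H * X ^ (θ' + η)) A := by
  have hθ1 : 1 ≤ θ := by linarith
  have hj1 : 1 ≤ j := Q.hk.trans hj
  set ε := min 1 (η / 7) with hεd
  have hε : 0 < ε := lt_min one_pos (by positivity)
  have hε1 : ε ≤ 1 := min_le_left _ _
  have hεη : 7 * ε ≤ η := by
    have : ε ≤ η / 7 := min_le_right _ _
    linarith
  obtain ⟨C1, A1, hC1, hA1, H1⟩ := BA_tri hθ1 hθ2 hA j hj lam hlam ε hε hε1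
  obtain ⟨C2, A2, hC2, hA2, H2⟩ := step_tail hθ1 hθ2 hA j hj lam hlam ε hε hε1
  obtain ⟨C3, A3, hC3, hA3, H3⟩ := step_head hcv j hj lam hlam ε hε
  refine ⟨3 * C1 + 6 * C2 + 4 * Real.exp (26 * Real.log 2) * C3, A1 + A2 + A3 + 5,
    by positivity, by positivity, fun X H hX hH => ?_⟩
  intro D E F K' y hD hE hF hK hy hDF hED hK' c hc t ξ hz1 hz2
  have hH0 : 0 < H := lt_of_lt_of_le (by positivity) hH
  have hξ : 1 ≤ 1 + ‖ξ‖ := le_add_of_nonneg_right (norm_nonneg _)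
  have hred : ∑ i ∈ (Finset.univ : Finset Unit), ∑ x ∈ Tri K D E F, ∑ J ∈ rows K K',
      ‖Sm (dualF 1 ((fun _ => (mu : R K → ℂ)) i) x.1 x.2.1 x.2.2 J) j c lam t ξ‖ ^ 2 ≤
      ∑ x ∈ Tri K D E F, ∑ J ∈ rows K K',
        ‖Sm (fun n => Gsf n * psi1 x.1 x.2.1 x.2.2 J n) j c lam t ξ‖ ^ 2 := by
    rw [Finset.univ_unique, Finset.sum_singleton]
    refine Finset.sum_le_sum fun x hx => Finset.sum_le_sum fun J hJ => ?_
    have h := mem_Tri.1 hx
    exact pow_le_pow_left₀ (norm_nonneg _)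
      (norm_Sm_dualF1 h.2.2.2.1 h.2.2.2.2 (mem_rows'.1 hJ).1 hj hc lam t ξ) 2
  refine hred.trans ?_
  have B1 := H1 D E F K' hD hE hF hK hED c hc t ξ
  have hM0 : 1 ≤ X ^ (1 / 2000 : ℝ) := Real.one_le_rpow hX (by norm_num)
  have B2 := H2 D E F K' _ hD hE hF hK hM0 hED c hc t ξ
  have B3 := H3 D E F K' _ hD hE hF hK hM0 c hc t ξ
  have B4 : ∑ x ∈ Tri K D E F, ∑ J ∈ rows K K',
      ‖Sm (fun n => Gsf n * psi1 x.1 x.2.1 x.2.2 J n) j c lam t ξ‖ ^ 2 ≤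
      2 * ∑ x ∈ Tri K D E F, ∑ J ∈ rows K K',
        ‖Sm (fun n => cnv 3 (ph1 (X ^ (1 / 2000 : ℝ))) Gf n * psi1 x.1 x.2.1 x.2.2 J n)
          j c lam t ξ‖ ^ 2 +
      2 * ∑ x ∈ Tri K D E F, ∑ J ∈ rows K K',
        ‖Sm (fun n => cnv 3 (ph2 (X ^ (1 / 2000 : ℝ))) Gsf n * psi1 x.1 x.2.1 x.2.2 J n)
          j c lam t ξ‖ ^ 2 := by
    simp only [Finset.mul_sum, ← Finset.sum_add_distrib]
    exact Finset.sum_le_sum fun x _ => Finset.sum_le_sum fun J _ =>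
      zs3_split hM0 _ _ _ _ hj1 hc hlam t ξ
  have hK2 : K' ≤ y * (E * X ^ 2 / (X ^ (43 / 36 : ℝ) * D ^ 2)) := by
    refine hK'.trans ?_
    gcongr
  have hZ := sz_pos hc t
  generalize (∑ x ∈ Tri K D E F, ∑ J ∈ rows K K',
      ‖Sm (fun n => Gsf n * psi1 x.1 x.2.1 x.2.2 J n) j c lam t ξ‖ ^ 2) = S0 at B1 B4 ⊢
  generalize (∑ x ∈ Tri K D E F, ∑ J ∈ rows K K',
        ‖Sm (fun n => cnv 3 (ph1 (X ^ (1 / 2000 : ℝ))) Gf n * psi1 x.1 x.2.1 x.2.2 J n)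
          j c lam t ξ‖ ^ 2) = S1 at B3 B4
  generalize (∑ x ∈ Tri K D E F, ∑ J ∈ rows K K',
        ‖Sm (fun n => cnv 3 (ph2 (X ^ (1 / 2000 : ℝ))) Gsf n * psi1 x.1 x.2.1 x.2.2 J n)
          j c lam t ξ‖ ^ 2) = S2 at B2 B4
  generalize sz c t = Z at hz1 hz2 B1 B2 B3 hZ
  generalize 1 + ‖ξ‖ = u at hξ B1 B2 B3 ⊢
  have hT : ∀ C : ℝ, C * H * X ^ (θ' + η) * (E * X / (H * D)) * (y * u) ^ (A1 + A2 + A3 + 5) =
      C * (X ^ (θ' + η) * (E * X / D) * y ^ (A1 + A2 + A3 + 5)) * u ^ (A1 + A2 + A3 + 5) := by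
    intro C
    rw [Real.mul_rpow (by linarith) (by linarith)]
    field_simp
  rw [hT]
  have hu1 : u ^ A1 ≤ u ^ (A1 + A2 + A3 + 5) := Real.rpow_le_rpow_of_exponent_le hξ (by linarith)
  have hu2 : u ^ A2 ≤ u ^ (A1 + A2 + A3 + 5) := Real.rpow_le_rpow_of_exponent_le hξ (by linarith)
  have hu3 : u ^ A3 ≤ u ^ (A1 + A2 + A3 + 5) := Real.rpow_le_rpow_of_exponent_le hξ (by linarith)
  have hy5 : y ^ (5 : ℝ) ≤ y ^ (A1 + A2 + A3 + 5) :=
    Real.rpow_le_rpow_of_exponent_le hy (by linarith)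
  have hu0 : 0 ≤ u := by linarith
  obtain ⟨a, rfl⟩ := zs3_log (one_pos.trans_le hX)
  obtain ⟨d, rfl⟩ := zs3_log (one_pos.trans_le hD)
  obtain ⟨e, rfl⟩ := zs3_log (one_pos.trans_le hE)
  obtain ⟨f, rfl⟩ := zs3_log (one_pos.trans_le hF)
  obtain ⟨k, rfl⟩ := zs3_log (one_pos.trans_le hK)
  obtain ⟨w, rfl⟩ := zs3_log (one_pos.trans_le hy)
  obtain ⟨z, rfl⟩ := zs3_log hZ
  rw [Real.one_le_exp_iff] at hX hD hE hF hK hy
  have h2 : e ≤ Real.log 2 + d := by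
    rw [← Real.exp_le_exp, Real.exp_add, Real.exp_log two_pos]
    exact hED
  simp only [← Real.exp_add, ← Real.exp_mul, ← Real.exp_nat_mul, ← Real.exp_sub,
    Real.exp_le_exp] at hDF hK2 hz1 hz2
  push_cast at hDF hK2
  have h3 : k ≤ w + e + 29 / 36 * a - 2 * d := by linarith
  have h4 : z ≤ a + w - d - f := by linarith
  have h5 : a - d - f - w ≤ z := by linarith
  set T := Real.exp a ^ (θ' + η) * (Real.exp e * Real.exp a / Real.exp d) * Real.exp w ^ (5 : ℝ)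
    with hTd
  set T' := Real.exp a ^ (θ' + η) * (Real.exp e * Real.exp a / Real.exp d) *
    Real.exp w ^ (A1 + A2 + A3 + 5) with hTd'
  have hT0 : 0 ≤ T := by positivity
  have hTT : T ≤ T' := mul_le_mul_of_nonneg_left hy5 (by positivity)
  set U := u ^ (A1 + A2 + A3 + 5) with hU
  have hU0 : 0 ≤ U := Real.rpow_nonneg hu0 _
  have hT'0 : 0 ≤ T' := hT0.trans hTT
  have hL : 0 ≤ Real.exp (26 * Real.log 2) := (Real.exp_pos _).le
  by_cases hcase : a * (1 / 2000) ≤ d + f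
  · have hg : (1 - θ) * (d + f) + 0 ≤ -(1 / 2000000) * a := by
      have : 1 / 1000 * (a * (1 / 2000)) ≤ (θ - 1) * (d + f) := by
        exact mul_le_mul (by linarith) hcase (by positivity) (by linarith)
      linarith
    have hA' := zs3_A hX hD hF hy hDF h3 h4 hθ' hθ hθθ hθ2 hε hε1 hεη hg
    rw [Real.exp_zero, mul_one, ← add_assoc, ← hTd] at hA'
    refine B1.trans ?_
    calc _ = C1 * u ^ A1 * ((Real.exp d * Real.exp f) ^ (3 * ε) * Real.exp z ^ ε * Real.exp d *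
          (Real.exp f * Real.exp k * Real.exp z + Real.exp f ^ 2 * Real.exp e * Real.exp z ^ (1 + θ) +
            Real.exp k * Real.exp z ^ (7 / 36 + θ))) := by ring
      _ ≤ C1 * U * (3 * T') := by
          refine mul_le_mul (mul_le_mul_of_nonneg_left hu1 hC1) (hA'.trans (by linarith))
            (by positivity) (by positivity)
      _ = (3 * C1) * T' * U := by ring
      _ ≤ _ := by
          gcongr
          have : 0 ≤ 4 * Real.exp (26 * Real.log 2) * C3 := by positivity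
          linarith
  · have hcase' : d + f ≤ a * (1 / 2000) := (not_le.1 hcase).le
    have hg : (1 - θ) * (d + f) + a * (1 / 2000) * (-(7 / 12)) ≤ -(1 / 2000000) * a := by
      have : 0 ≤ (θ - 1) * (d + f) := mul_nonneg (by linarith) (by linarith)
      linarith
    have hA' := zs3_A hX hD hF hy hDF h3 h4 hθ' hθ hθθ hθ2 hε hε1 hεη hg
    have hB' := zs3_B hX hD hE hF hy (Real.log_nonneg one_le_two) hcase' h2 h3 h4 h5 hθ' hε hε1 hεη
    rw [← hTd] at hA' hB'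
    rw [← Real.exp_mul a] at B2 B3
    rw [← Real.exp_mul (a * (1 / 2000))] at B2
    have c2 : S2 ≤ C2 * U * (3 * T') := by
      refine B2.trans ?_
      rw [mul_assoc (C2 * u ^ A2), mul_assoc (C2 * u ^ A2), mul_assoc (C2 * u ^ A2)]
      exact mul_le_mul (mul_le_mul_of_nonneg_left hu2 hC2) (hA'.trans (by linarith))
        (by positivity) (by positivity)
    have c3 : S1 ≤ C3 * U * (2 * Real.exp (26 * Real.log 2) * T') := by
      refine B3.trans ?_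
      rw [mul_assoc (C3 * u ^ A3), mul_assoc (C3 * u ^ A3), mul_assoc (C3 * u ^ A3)]
      exact mul_le_mul (mul_le_mul_of_nonneg_left hu3 hC3) (hB'.trans (by gcongr))
        (by positivity) (by positivity)
    have c1 : 0 ≤ C1 * T' * U := by positivity
    refine B4.trans ?_
    nlinarith

end Crest.Agent.GQ
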