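import Crest.Agent.GQ.ZTWa
import Crest.Agent.GQ.ZDW0

/-!
# Project GQ, part B3: Voronoi formula for multiplicative twists
-/

set_option autoImplicit false

noncomputable section

open NumberField Complex UniqueFactorizationMonoid MeasureTheory
open scoped ComplexConjugate ENNReal

namespace Crest.Agent.GQ

variable {K : Type} [Field K] [NumberField K] [P : Pre K] [Q : Rec K]

omit Q in
theorem ztw_inv {h : R K} (hh : h ≠ 0) {f g : R K → ℂ} (hf : ∀ x, ¬ IsCoprime h x → f x = 0)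
    (hg : ∀ x, ¬ IsCoprime h x → g x = 0) (H : ∀ x y, h ∣ x * y - 1 → f x = g y) :
    ∑ x ∈ reps h, f x = ∑ y ∈ reps h, g y := by
  classical
  have key : ∀ (x : R K) (z : ℂ), (¬ IsCoprime h x → z = 0) →
      z = ∑ y ∈ reps h, if h ∣ x * y - 1 then z else 0 := fun x z hz => by
    by_cases hx : IsCoprime h x
    · obtain ⟨a, b, hab⟩ := hx
      obtain ⟨y, ⟨hy, hy'⟩, hu⟩ := reps_existsUnique hh b
      have e : ∀ y, h ∣ x * y - 1 ↔ h ∣ y - b := fun y =>
        ⟨fun ⟨k, hk⟩ => ⟨a * y + b * k, by linear_combination b * hk - y * hab⟩,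
          fun ⟨k, hk⟩ => ⟨x * k - a, by linear_combination x * hk + hab⟩⟩
      rw [Finset.sum_eq_single_of_mem y hy fun y' h1 h2 =>
        if_neg fun h3 => h2 (hu y' ⟨h1, (e y').1 h3⟩), if_pos ((e y).2 hy')]
    · simp [hz hx]
  rw [Finset.sum_congr rfl fun x _ => key x _ (hf x), Finset.sum_comm]
  refine Finset.sum_congr rfl fun y _ => ?_
  rw [key y _ (hg y)]
  exact Finset.sum_congr rfl fun x _ => if_ctx_congr (by rw [mul_comm]) (fun h1 =>
    H x y (by rwa [mul_comm])) fun _ => rfl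

omit Q in
theorem ztw_gs_bd (f : R K → ℂ) (h : R K) : ∃ C : ℝ, ∀ n, ‖gs f h n‖ ≤ C :=
  ⟨∑ x ∈ reps h, ‖f x‖, fun n => (norm_sum_le _ _).trans (Finset.sum_le_sum fun x _ => by
    rw [norm_mul, norm_eS, mul_one])⟩

omit Q in
theorem ztw_core {j j' : ℕ} (hj : 1 ≤ j) {C : ℝ} {e : ℤ} {c : K} (hc : c ≠ 0) {J0 : Ideal (R K)}
    (hJ : J0 ≠ ⊥) {κ : R K → ℂ} (hκ : KapOK j' C c (gen (radI J0)) κ) {lam : ℝ} (hlam : 0 < lam)
    (t ξ : Pl K → ℝ)
    (H : ∀ a b : R K, gen (radI J0) ∣ a * b - 1 →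
      Sm (fun n => Gf n * eS ((n : K) * a / gen (radI J0)) * ang (n : K) ^ e) j c lam t ξ =
        kap (gen (radI J0)) a * ((NS (gen (radI J0) : K) / NS c : ℝ) : ℂ) *
          ∑' r : R K, κ r * Gf r * eS (-((r : K) * b / gen (radI J0))) * ang (r : K) ^ (-e) *
            Wd lam t ξ (gen (radI J0) : K) (r : K)) :
    Sm (fun n => Gf n * (ang (n : K) ^ e * gs (chiI J0) (gen (radI J0)) n)) j c lam t ξ =
      dualS κ (fun r => Gf r * (ang (r : K) ^ (-e) *
        gs (chiI ((J0 * radI J0 ^ 2) ^ 5)) (gen (radI J0)) (-r))) lam t ξ c (gen (radI J0)) := by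
  have hr := radI_ne_bot J0
  have hψ : ∀ y, chiI ((J0 * radI J0 ^ 2) ^ 5) y = (chiI J0 y * kap (gen (radI J0)) y) ^ 5 :=
    fun y => by
      rw [chiI_pow (mul_ne_zero hJ (pow_ne_zero _ hr)), chiI_mul hJ (pow_ne_zero _ hr),
        chiI_pow hr, ← chi_sq]
      rfl
  have hp : ∀ p : R K, Prime p → p ∣ gen J0 → p ∣ gen (radI J0) := fun p hp h => by
    rw [← (associated_gen_span p).dvd_iff_dvd_left, gen_dvd_gen] at h ⊢
    exact (prime_dvd_radI hJ (Ideal.prime_span_singleton_iff.2 hp)).2 h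
  have hd : gen (radI J0) ∣ gen J0 := gen_dvd_gen.2 (radI_dvd hJ)
  have hh := gen_ne_zero hr
  generalize gen (radI J0) = h at *
  have hM : ∀ (z : R K → K) (e : ℤ), Mod fun n : R K => Gf n * eS (z n) * ang (n : K) ^ e :=
    fun z e => (mod_Gf.mul_bdd fun n => (norm_eS _).le).mul_bdd fun n => norm_ang_zpow_le _ _
  calc _ = ∑ x ∈ reps h, chiI J0 x *
        Sm (fun n => Gf n * eS ((n : K) * x / h) * ang (n : K) ^ e) j c lam t ξ := by
        simp only [← Sm_const_mul]
        rw [← Sm_sum _ (fun x _ => ?_) hj hc hlam]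
        · refine Sm_congr (fun n _ => ?_) _ _ _
          rw [gs, Finset.mul_sum, Finset.mul_sum]
          exact Finset.sum_congr rfl fun x _ => by ring
        · simpa only [mul_comm (chiI J0 x)] using (hM _ e).mul_bdd fun _ => norm_chiI_le J0 x
    _ = ∑ y ∈ reps h, (chiI J0 y * kap h y) ^ 5 * (((NS (h : K) / NS c : ℝ) : ℂ) *
        ∑' r : R K, κ r * (Gf r * eS (-((r : K) * y / h)) * ang (r : K) ^ (-e)) *
          Wd lam t ξ (h : K) (r : K)) := by
        refine ztw_inv hh (fun x hx => ?_) (fun x hx => ?_) fun x y hxy => ?_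
        · rw [chiI, (chi_eq_zero (gen_ne_zero hJ)).2 fun h1 => hx (h1.of_isCoprime_of_dvd_left hd),
            zero_mul]
        · rw [(kap_eq_zero hh).2 hx, mul_zero, zero_pow (by norm_num), zero_mul]
        · have e1 : chiI J0 x * chiI J0 y = 1 := by
            rw [← chiI_mul_right, ← chi_one_right (gen J0)]
            exact chi_congr (gen_ne_zero hJ) fun p h1 h2 => (hp p h1 h2).trans hxy
          have e2 : kap h x * kap h y = 1 := by
            rw [← kap_mul_right, ← kap_one_right h]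
            exact kap_congr' hxy
          have e3 : chiI J0 y ^ 6 = 1 := sy_chi_six (right_ne_zero_of_mul_eq_one e1)
          have e4 : kap h y ^ 3 = 1 := kap_cube (right_ne_zero_of_mul_eq_one e2)
          have e5 : chiI J0 x = chiI J0 y ^ 5 := by
            linear_combination chiI J0 y ^ 5 * e1 - chiI J0 x * e3
          have e6 : kap h x = kap h y ^ 5 := by
            linear_combination kap h y ^ 5 * e2 - kap h x * (kap h y ^ 3 + 1) * e4
          rw [H x y hxy, e5, e6]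
          simp only [mul_assoc, mul_pow]
    _ = _ := by
        simp only [dualS, mul_left_comm (_ ^ 5 : ℂ), ← Finset.mul_sum]
        congr 1
        simp only [← tsum_mul_left]
        rw [← Summable.tsum_finsetSum fun y _ =>
          (summable_dual hc hh hκ (hM _ _) hlam t ξ).mul_left _]
        refine tsum_congr fun r => ?_
        simp only [gs, hψ, Finset.mul_sum, Finset.sum_mul]
        refine Finset.sum_congr rfl fun y _ => ?_
        push_cast
        rw [neg_mul, neg_div]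
        ring

theorem TW (hcv : CV K) (j : ℕ) (hj : Rec.k K ≤ j) : ∃ (j' : ℕ) (C : ℝ), j ≤ j' ∧ 0 ≤ C ∧
    ∀ e : ℤ, (e = 1 ∨ e = -1) → ∀ c : K, c ≠ 0 → ∃ κ : R K → R K → ℂ,
      (∀ h : R K, h ≠ 0 → KapOK j' C c h (κ h)) ∧
      ∀ J : Ideal (R K), J ≠ ⊥ → ∃ (𝒯 : Finset (Ideal (R K))) (J' : Ideal (R K) → Ideal (R K)),
        (∀ h' ∈ 𝒯, h' ∣ radI J ∧ J' h' ≠ ⊥ ∧ radI (J' h') ∣ radI J) ∧
        ∀ h1 : Ideal (R K), Squarefree h1 → IsCoprime h1 J → ∃ η : Ideal (R K) → ℂ,
          (∀ h' ∈ 𝒯, ‖η h'‖ ≤ 1) ∧ ∀ lam : ℝ, 0 < lam → ∀ t ξ : Pl K → ℝ,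
            Sm (fun n => Gf n * (ang (n : K) ^ e * (chiI h1 n ^ 5 * chiI J n))) j c lam t ξ =
              ∑ h' ∈ 𝒯, η h' * dualS (κ (gen (h1 * h')))
                (fun r => Gf r * (ang (r : K) ^ (-e) * (chiI h1 r ^ 3 * chiI (J' h') r *
                  (ram (bpart J) r / (Real.sqrt (NI (bpart J)) : ℂ)))))
                lam t ξ c (gen (h1 * h')) := by
  obtain ⟨j', C, hjj, H⟩ := hcv j hj
  have hj1 : 1 ≤ j := Q.hk.trans hj
  refine ⟨j', max C 0, hjj, le_max_right _ _, fun e he c hc => ?_⟩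
  choose! κ k1 k2 k3 k4 using H e he c hc
  have hκ : ∀ h : R K, h ≠ 0 → KapOK j' (max C 0) c h (κ h) := fun h hh => by
    refine ⟨k1 h hh, k2 h hh, fun r => ?_⟩
    by_cases hr : κ h r = 0
    · rw [hr, norm_zero]
      refine mul_nonneg (le_max_right _ _) (Real.rpow_nonneg (div_nonneg
        (mul_nonneg ?_ (NS_pos hc).le) (sq_nonneg _)) _)
      by_cases h0 : r = 0
      · simp [h0, NS, Nm, emb]
      · exact (NS_pos (by exact_mod_cast h0)).le
    · refine (k3 h hh r).trans (mul_le_mul_of_nonneg_right (le_max_left _ _) (Real.rpow_nonneg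
        (div_nonneg (mul_pos (NS_pos ?_) (NS_pos hc)).le (sq_nonneg _)) _))
      exact_mod_cast (k2 h hh r hr).1
  refine ⟨κ, hκ, fun J hJ => ?_⟩
  obtain ⟨𝒯, J', h1, h2⟩ := twa hJ
  refine ⟨𝒯, J', h1, fun a ha hca => ?_⟩
  obtain ⟨α, η, J0, h3, h4, h5⟩ := h2 a ha hca
  refine ⟨η, fun b hb => (h3 b hb).2.2, fun lam hlam t ξ => ?_⟩
  calc _ = ∑ b ∈ 𝒯, α b * Sm (fun n => Gf n * (ang (n : K) ^ e *
        gs (chiI (J0 b)) (gen (a * b)) n)) j c lam t ξ := by
        simp only [← Sm_const_mul]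
        rw [← Sm_sum _ (fun b _ => ?_) hj1 hc hlam]
        · refine Sm_congr (fun n _ => ?_) _ _ _
          rw [h4, Finset.mul_sum, Finset.mul_sum]
          exact Finset.sum_congr rfl fun x _ => by ring
        · obtain ⟨D, hD⟩ := ztw_gs_bd (chiI (J0 b)) (gen (a * b))
          have := ((mod_Gf.mul_bdd fun n : R K => norm_ang_zpow_le (n : K) e).mul_bdd hD).mul_bdd
            (b := fun _ => α b) fun _ => le_rfl
          simpa only [mul_comm (α b), mul_assoc] using this
    _ = _ := by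
        refine Finset.sum_congr rfl fun b hb => ?_
        obtain ⟨g1, g2, -⟩ := h3 b hb
        have h6 := h5 b hb
        rw [← g2] at h6 ⊢
        have hh := gen_ne_zero (radI_ne_bot (J0 b))
        rw [ztw_core (e := e) hj1 hc g1 (hκ (gen (radI (J0 b))) hh) hlam t ξ
          fun x y hxy => k4 (gen (radI (J0 b))) hh x y hxy lam hlam t ξ]
        simp only [dualS]
        rw [mul_left_comm, mul_left_comm (η b)]
        congr 1
        rw [← tsum_mul_left, ← tsum_mul_left]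
        refine tsum_congr fun r => ?_
        linear_combination κ (gen (radI (J0 b))) r * Gf r * ang (r : K) ^ (-e) *
          Wd lam t ξ (gen (radI (J0 b)) : K) r * h6 r

end Crest.Agent.GQ
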