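import Crest.Agent.GQ.ZCid
import Crest.Agent.GQ.ZRam

/-!
# Project GQ, part B3: expansion of characters into Gauss sums
-/

set_option autoImplicit false

noncomputable section

open NumberField Complex UniqueFactorizationMonoid MeasureTheory
open scoped ComplexConjugate ENNReal

namespace Crest.Agent.GQ

variable {K : Type} [Field K] [NumberField K] [P : Pre K]

theorem twa_rad_dvd {J Z : Ideal (R K)} (hZ : Z ≠ ⊥) (h : J ∣ Z) : radI J ∣ radI Z :=
  ar_rad_dvd_of fun _ hp hd => (prime_dvd_radI hZ hp).2 (hd.trans h)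

theorem twa_rad_mul {J1 J2 : Ideal (R K)} (hJ1 : J1 ≠ ⊥) (hJ2 : J2 ≠ ⊥)
    (hc : IsCoprime (radI J1) (radI J2)) : radI (J1 * J2) = radI J1 * radI J2 :=
  dvd_antisymm (radI_mul_dvd hJ1 hJ2)
    (hc.mul_dvd (twa_rad_dvd (mul_ne_zero hJ1 hJ2) (dvd_mul_right _ _))
      (twa_rad_dvd (mul_ne_zero hJ1 hJ2) (dvd_mul_left _ _)))

theorem twa_dvd_gen {p : R K} {J : Ideal (R K)} : p ∣ gen J ↔ Ideal.span {p} ∣ J := by
  rw [← Ideal.span_singleton_dvd_span_singleton_iff_dvd, span_gen]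

theorem twa_homog {J : Ideal (R K)} (hJ : J ≠ ⊥) : Homog (gen (radI J)) (chiI J) (chiI J) where
  per x y h := chi_congr (gen_ne_zero hJ) fun p hp hd =>
    (twa_dvd_gen.2 ((prime_dvd_radI hJ (Ideal.prime_span_singleton_iff.2 hp)).2
      (twa_dvd_gen.1 hd))).trans h
  hom u x _ := chiI_mul_right J u x
  abs u hu := norm_chi (ga_chi_ne (ar_coprime_gen.2 ((ar_coprime_iff hJ).2 fun p hp hd =>
    (ar_coprime_iff (radI_ne_bot J)).1 (ar_coprime_gen.1 hu.symm) p hp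
      ((prime_dvd_radI hJ hp).2 hd))).symm)

/-- Gauss sums of `chiI` are multiplicative up to a unimodular constant. -/
theorem gs_chiI_mul {J1 J2 h1 h2 : Ideal (R K)} (hJ1 : J1 ≠ ⊥) (hJ2 : J2 ≠ ⊥) (e1 : radI J1 = h1)
    (e2 : radI J2 = h2) (hc : IsCoprime h1 h2) : ∃ η : ℂ, ‖η‖ = 1 ∧ ∀ n : R K,
      gs (chiI (J1 * J2)) (gen (h1 * h2)) n = η * gs (chiI J1) (gen h1) n * gs (chiI J2) (gen h2) n := by
  subst e1 e2
  have hr := twa_rad_mul hJ1 hJ2 hc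
  have H := twa_homog (mul_ne_zero hJ1 hJ2)
  rw [hr] at H
  obtain ⟨u, hu⟩ := associated_gen_mul (radI J1) (radI J2)
  have hg := isCoprime_gen.2 hc
  have n1 := (twa_homog hJ1).abs _ hg.symm
  have n2 := (twa_homog hJ2).abs _ hg
  have n3 := H.abs _ (ga_unit_coprime u.isUnit _)
  have h0 : chiI (J1 * J2) u ≠ 0 := norm_ne_zero_iff.1 (by rw [n3]; exact one_ne_zero)
  refine ⟨chiI J1 (gen (radI J2)) * chiI J2 (gen (radI J1)) / chiI (J1 * J2) u,
    by rw [norm_div, norm_mul, n1, n2, n3]; norm_num, fun n => ?_⟩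
  have h1 := H.gs_unit (gen_ne_zero (mul_ne_zero (radI_ne_bot J1) (radI_ne_bot J2))) u.isUnit n
  have h2 := gs_mul_coprime (gen_ne_zero (radI_ne_bot J1)) (gen_ne_zero (radI_ne_bot J2)) hg
    (twa_homog hJ1) (twa_homog hJ2) n
  rw [show (fun x => chiI J1 x * chiI J2 x) = chiI (J1 * J2) from
    (funext (chiI_mul hJ1 hJ2)).symm, ← hu, mul_comm _ (u : R K), h1] at h2
  field_simp
  linear_combination h2

/-- One term of the expansions. -/
def twaLoc (t J0 : Ideal (R K)) (α η : ℂ) (V : R K → ℂ) : Prop :=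
  J0 ≠ ⊥ ∧ radI J0 = t ∧ ‖η‖ ≤ 1 ∧
    ∀ r : R K, α * gs (chiI ((J0 * t ^ 2) ^ 5)) (gen t) (-r) = η * V r

theorem twa_rad_dual {J : Ideal (R K)} (hJ : J ≠ ⊥) :
    (J * radI J ^ 2) ^ 5 ≠ ⊥ ∧ radI ((J * radI J ^ 2) ^ 5) = radI J := by
  have h0 : J * radI J ^ 2 ≠ ⊥ := mul_ne_zero hJ (pow_ne_zero _ (radI_ne_bot J))
  refine ⟨pow_ne_zero _ h0, ?_⟩
  rw [radI_pow (by norm_num)]
  refine dvd_antisymm (ar_rad_dvd_of fun p hp hd => ?_) (twa_rad_dvd h0 (dvd_mul_right _ _))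
  rcases hp.dvd_or_dvd hd with h | h
  exacts [(prime_dvd_radI hJ hp).2 h, hp.dvd_of_dvd_pow h]

theorem twaLoc.mul {t1 t2 J1 J2 : Ideal (R K)} {α1 α2 η1 η2 : ℂ} {V1 V2 : R K → ℂ}
    (hc : IsCoprime t1 t2) (h1 : twaLoc t1 J1 α1 η1 V1) (h2 : twaLoc t2 J2 α2 η2 V2) :
    ∃ α η : ℂ, twaLoc (t1 * t2) (J1 * J2) α η (fun r => V1 r * V2 r) ∧
      ∀ n, α * gs (chiI (J1 * J2)) (gen (t1 * t2)) n =
        α1 * gs (chiI J1) (gen t1) n * (α2 * gs (chiI J2) (gen t2) n) := by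
  obtain ⟨a1, rfl, b1, c1⟩ := h1
  obtain ⟨a2, rfl, b2, c2⟩ := h2
  obtain ⟨e, he, h⟩ := gs_chiI_mul a1 a2 rfl rfl hc
  obtain ⟨e', he', h'⟩ := gs_chiI_mul (twa_rad_dual a1).1 (twa_rad_dual a2).1 (twa_rad_dual a1).2
    (twa_rad_dual a2).2 hc
  have he0 : e ≠ 0 := norm_ne_zero_iff.1 (by rw [he]; exact one_ne_zero)
  refine ⟨α1 * α2 / e, e' / e * η1 * η2, ⟨mul_ne_zero a1 a2, twa_rad_mul a1 a2 hc, ?_, fun r => ?_⟩,
    fun n => ?_⟩
  · rw [norm_mul, norm_mul, norm_div, he, he', div_one, one_mul]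
    exact mul_le_one₀ b1 (norm_nonneg _) b2
  · rw [show (J1 * J2 * (radI J1 * radI J2) ^ 2) ^ 5 =
      (J1 * radI J1 ^ 2) ^ 5 * (J2 * radI J2 ^ 2) ^ 5 by ring, h']
    linear_combination (e' / e * (α2 * gs (chiI ((J2 * radI J2 ^ 2) ^ 5)) (gen (radI J2)) (-r))) *
      c1 r + (e' / e * η1 * V1 r) * c2 r
  · rw [h]
    field_simp

theorem twa_gs_pow {h : Ideal (R K)} (hs : Squarefree h) {i : ℕ} (hi : ¬ 6 ∣ i) :
    ∃ g : ℂ, ‖g‖ = Real.sqrt (NI h) ∧
      ∀ n, gs (chiI (h ^ i)) (gen h) n = chiI h n ^ (5 * i) * g := by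
  have e : chiI (h ^ i) = fun x => chi (gen h) x ^ i := funext (chiI_pow hs.ne_zero i)
  refine ⟨gs (fun x => chi (gen h) x ^ i) (gen h) 1, ?_, fun n => ?_⟩
  · rw [norm_gs_chi_pow (squarefree_gen.2 hs) hi, Nr_gen']
  · rw [e, gs_chi_pow (squarefree_gen.2 hs) hi, map_pow, conj_chi, ← pow_mul]
    rfl

open Classical in
theorem twa_gs_six {q : Ideal (R K)} (hq : Prime q) {i : ℕ} (hi : i ≠ 0) (n : R K) :
    gs (chiI (q ^ (6 * i))) (gen q) n = if gen q ∣ n then (NI q : ℂ) - 1 else -1 := by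
  have hp := prime_gen.2 hq
  have e : chiI (q ^ (6 * i)) = fun x => if gen q ∣ x then 0 else 1 := funext fun x => by
    rw [chiI_pow hq.ne_zero, pow_mul, chiI, chi_pow_six hp.ne_zero, hp.coprime_iff_not_dvd]
    by_cases h : gen q ∣ x <;> simp [h, hi]
  rw [e, gs_coprime_prime hp, Nr_gen']

theorem twa_gs_top (n : R K) : gs (chiI (⊤ : Ideal (R K))) (gen ⊤) n = 1 := by
  rw [gs_unit_mod (Ideal.span_singleton_eq_top.1 (span_gen ⊤)) _
    (fun x y => by rw [chiI_top, chiI_top]), chiI_top]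

theorem twa_rad_top : radI (⊤ : Ideal (R K)) = ⊤ :=
  radI_eq_self (by rw [← Ideal.one_eq_top]; exact squarefree_one)

theorem twa_loc_top {α : ℂ} (hα : ‖α‖ ≤ 1) : twaLoc (⊤ : Ideal (R K)) ⊤ α α fun _ => 1 :=
  ⟨top_ne_bot, twa_rad_top, hα, fun r => by simp [Ideal.top_pow, twa_gs_top]⟩

theorem twa_top_dvd (q : Ideal (R K)) : ⊤ ∣ q := Ideal.dvd_iff_le.2 le_top

theorem twa_loc_pow {h : Ideal (R K)} (hs : Squarefree h) {i : ℕ} (hi : i ≠ 0) (hi' : ¬ 6 ∣ i + 2)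
    {α : ℂ} (hα : ‖α‖ * Real.sqrt (NI h) ≤ 1) :
    ∃ η : ℂ, twaLoc h (h ^ i) α η fun r => chiI h r ^ (i + 2) := by
  obtain ⟨g, hg, e⟩ := twa_gs_pow hs (i := 5 * (i + 2)) (by omega)
  refine ⟨α * g * chiI h (-1) ^ (5 * (5 * (i + 2))), pow_ne_zero _ hs.ne_zero,
    by rw [radI_pow hi, radI_eq_self hs], ?_, fun r => ?_⟩
  · rw [norm_mul, norm_mul, hg, norm_pow]
    exact mul_le_one₀ hα (by positivity) (pow_le_one₀ (norm_nonneg _) (norm_chiI_le _ _))
  · have e2 : chiI h r ^ (5 * (5 * (i + 2))) = chiI h r ^ (i + 2) :=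
      ga_chi_pow_mod _ _ (by omega) (by omega) (by omega)
    rw [show (h ^ i * h ^ 2) ^ 5 = h ^ (5 * (i + 2)) by ring, e, ← neg_one_mul r, chiI_mul_right,
      mul_pow, e2]
    ring

theorem twa_inv {h : Ideal (R K)} (hs : Squarefree h) {i : ℕ} (hi : ¬ 6 ∣ i) :
    ∃ α : ℂ, ‖α‖ * Real.sqrt (NI h) = 1 ∧
      ∀ n, chiI h n ^ (5 * i) = α * gs (chiI (h ^ i)) (gen h) n := by
  obtain ⟨g, hg, e⟩ := twa_gs_pow hs hi
  have h0 : 0 < Real.sqrt (NI h) := Real.sqrt_pos.2 (NI_pos hs.ne_zero)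
  have h1 : g ≠ 0 := norm_ne_zero_iff.1 (by rw [hg]; exact h0.ne')
  refine ⟨g⁻¹, by rw [norm_inv, hg, inv_mul_cancel₀ h0.ne'], fun n => ?_⟩
  rw [e]
  field_simp

/-- The expansions without the factor `h1`. -/
def twaTW (Z : Ideal (R K)) (F W : R K → ℂ) : Prop :=
  ∃ (ι : Type) (_ : Nonempty ι) (s : Finset ι) (t J0 J' : ι → Ideal (R K)) (α η : ι → ℂ),
    Set.InjOn t s ∧ (∀ a ∈ s, t a ∣ Z ∧ J' a ≠ ⊥ ∧ radI (J' a) ∣ Z ∧
      twaLoc (t a) (J0 a) (α a) (η a) fun r => chiI (J' a) r * W r) ∧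
    ∀ n, F n = ∑ a ∈ s, α a * gs (chiI (J0 a)) (gen (t a)) n

theorem twaTW.single {Z t J0 J' : Ideal (R K)} {F W : R K → ℂ} {α η : ℂ} (h1 : t ∣ Z)
    (h2 : J' ≠ ⊥) (h3 : radI J' ∣ Z) (h4 : twaLoc t J0 α η fun r => chiI J' r * W r)
    (h5 : ∀ n, F n = α * gs (chiI J0) (gen t) n) : twaTW Z F W :=
  ⟨Unit, inferInstance, Finset.univ, fun _ => t, fun _ => J0, fun _ => J', fun _ => α, fun _ => η,
    fun _ _ _ _ _ => rfl, fun _ _ => ⟨h1, h2, h3, h4⟩, fun n => by simp [h5]⟩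

theorem twaTW.mul {Z1 Z2 : Ideal (R K)} {F1 F2 W1 W2 : R K → ℂ} (hc : IsCoprime Z1 Z2)
    (h1 : twaTW Z1 F1 W1) (h2 : twaTW Z2 F2 W2) :
    twaTW (Z1 * Z2) (fun n => F1 n * F2 n) fun r => W1 r * W2 r := by
  obtain ⟨ι1, _, s1, t1, J1, J1', α1, η1, i1, a1, e1⟩ := h1
  obtain ⟨ι2, _, s2, t2, J2, J2', α2, η2, i2, a2, e2⟩ := h2
  have hco : ∀ a ∈ s1, ∀ b ∈ s2, IsCoprime (t1 a) (t2 b) := fun a ha b hb =>
    (hc.of_isCoprime_of_dvd_left (a1 a ha).1).of_isCoprime_of_dvd_right (a2 b hb).1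
  have key : ∀ p : ι1 × ι2, p ∈ s1 ×ˢ s2 → _ := fun p hp =>
    (a1 p.1 (Finset.mem_product.1 hp).1).2.2.2.mul
      (hco _ (Finset.mem_product.1 hp).1 _ (Finset.mem_product.1 hp).2)
      (a2 p.2 (Finset.mem_product.1 hp).2).2.2.2
  choose! α η hL hα using key
  refine ⟨ι1 × ι2, inferInstance, s1 ×ˢ s2, fun p => t1 p.1 * t2 p.2, fun p => J1 p.1 * J2 p.2,
    fun p => J1' p.1 * J2' p.2, α, η, ?_, fun p hp => ?_, fun n => ?_⟩
  · intro p hp p' hp' h
    obtain ⟨ha, hb⟩ := Finset.mem_product.1 (Finset.mem_coe.1 hp)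
    obtain ⟨ha', hb'⟩ := Finset.mem_product.1 (Finset.mem_coe.1 hp')
    have h' : t1 p.1 * t2 p.2 = t1 p'.1 * t2 p'.2 := h
    refine Prod.ext (i1 ha ha' (dvd_antisymm ?_ ?_)) (i2 hb hb' (dvd_antisymm ?_ ?_))
    · exact (hco _ ha _ hb').dvd_of_dvd_mul_right (h' ▸ dvd_mul_right _ _)
    · exact (hco _ ha' _ hb).dvd_of_dvd_mul_right (h' ▸ dvd_mul_right _ _)
    · exact (hco _ ha' _ hb).symm.dvd_of_dvd_mul_left (h' ▸ dvd_mul_left _ _)
    · exact (hco _ ha _ hb').symm.dvd_of_dvd_mul_left (h' ▸ dvd_mul_left _ _)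
  · obtain ⟨ha, hb⟩ := Finset.mem_product.1 hp
    obtain ⟨b1, b2, b3, -⟩ := a1 _ ha
    obtain ⟨c1, c2, c3, -⟩ := a2 _ hb
    refine ⟨mul_dvd_mul b1 c1, mul_ne_zero b2 c2, (radI_mul_dvd b2 c2).trans (mul_dvd_mul b3 c3), ?_⟩
    convert hL p hp using 2 with r
    rw [chiI_mul b2 c2]
    ring
  · simp only
    rw [e1, e2, Finset.sum_mul_sum, ← Finset.sum_product']
    exact Finset.sum_congr rfl fun p hp => (hα p hp n).symm

open Classical in
/-- The local factor of the normalised Ramanujan sum. -/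
def twaW (q : Ideal (R K)) (r : R K) : ℂ :=
  (if gen q ∣ r then (NI q : ℂ) - 1 else -1) / (Real.sqrt (NI q) : ℂ)

theorem twa_prime {q : Ideal (R K)} (hq : Prime q) {v : ℕ} (hv : v ≠ 0) :
    twaTW q (fun n => chiI q n ^ v) fun r => if v % 6 = 2 then twaW q r else 1 := by
  classical
  have hs := hq.squarefree
  have hN := one_le_NI hq.ne_zero
  have hrad : ∀ k : ℕ, k ≠ 0 → radI (q ^ k) = q := fun k hk => by rw [radI_pow hk, radI_eq_self hs]
  by_cases h0 : v % 6 = 0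
  · have hN' : (NI q : ℂ) ≠ 0 := Complex.ofReal_ne_zero.2 (by linarith)
    obtain ⟨η, hη⟩ := twa_loc_pow hs (i := 6) (by norm_num) (by norm_num) (α := -(NI q : ℂ)⁻¹) (by
      rw [norm_neg, norm_inv, Complex.norm_real, Real.norm_eq_abs, abs_of_pos (by linarith),
        inv_mul_le_one₀ (by linarith)]
      exact Real.sqrt_le_self_iff.2 (Or.inr hN))
    have h1 : ‖1 - (NI q : ℂ)⁻¹‖ ≤ 1 := by
      have := inv_le_one_of_one_le₀ hN
      have : 0 < (NI q)⁻¹ := inv_pos.2 (by linarith)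
      rw [← Complex.ofReal_inv, ← Complex.ofReal_one, ← Complex.ofReal_sub, Complex.norm_real,
        Real.norm_eq_abs, abs_le]
      constructor <;> linarith
    refine ⟨Bool, inferInstance, Finset.univ, fun b => cond b q ⊤, fun b => cond b (q ^ 6) ⊤,
      fun b => cond b (q ^ 8) ⊤, fun b => cond b (-(NI q : ℂ)⁻¹) (1 - (NI q : ℂ)⁻¹),
      fun b => cond b η (1 - (NI q : ℂ)⁻¹), ?_, ?_, fun n => ?_⟩
    · have hne : q ≠ ⊤ := fun h => hq.ne_one (h.trans Ideal.one_eq_top.symm)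
      rintro (_ | _) - (_ | _) - h
      exacts [rfl, absurd h.symm hne, absurd h hne, rfl]
    · rintro (_ | _) -
      · refine ⟨twa_top_dvd q, top_ne_bot, ?_, ?_⟩
        · simp only [cond_false, twa_rad_top]
          exact twa_top_dvd q
        · simpa [chiI_top, h0] using twa_loc_top (K := K) h1
      · refine ⟨dvd_rfl, pow_ne_zero _ hq.ne_zero, (hrad 8 (by norm_num)).dvd, ?_⟩
        simpa [chiI_pow hq.ne_zero, h0] using hη
    · have e1 : chiI q n ^ v = chiI q n ^ 6 := ga_chi_pow_mod _ _ hv (by norm_num) h0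
      have e2 := twa_gs_six hq one_ne_zero n
      rw [mul_one] at e2
      simp only [Fintype.sum_bool, cond_true, cond_false, twa_gs_top, e1, e2]
      rw [chiI, chi_pow_six (gen_ne_zero hq.ne_zero), (prime_gen.2 hq).coprime_iff_not_dvd]
      by_cases h : gen q ∣ n
      · simp only [h, not_true, if_true, if_false]
        field_simp
        ring
      · simp only [h, not_false_iff, if_true, if_false]
        ring
  obtain ⟨α, hα, e⟩ := twa_inv hs (i := 6 - v % 6) (by omega)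
  have e' : ∀ n, chiI q n ^ v = α * gs (chiI (q ^ (6 - v % 6))) (gen q) n := fun n =>
    (ga_chi_pow_mod _ _ hv (by omega) (by omega)).trans (e n)
  by_cases h2 : v % 6 = 2
  · have hS : (Real.sqrt (NI q) : ℂ) ≠ 0 :=
      Complex.ofReal_ne_zero.2 (Real.sqrt_pos.2 (by linarith)).ne'
    refine twaTW.single (η := α * Real.sqrt (NI q)) dvd_rfl top_ne_bot
      (twa_rad_top.dvd.trans (twa_top_dvd q))
      ⟨pow_ne_zero _ hq.ne_zero, hrad _ (by omega), ?_, fun r => ?_⟩ e'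
    · rw [norm_mul, Complex.norm_real, Real.norm_eq_abs, abs_of_nonneg (Real.sqrt_nonneg _), hα]
    · simp only [h2, if_true, chiI_top, twaW]
      rw [show (q ^ (6 - 2) * q ^ 2) ^ 5 = q ^ (6 * 5) by ring, twa_gs_six hq (by norm_num)]
      simp only [dvd_neg]
      field_simp
  · obtain ⟨η, hη⟩ := twa_loc_pow hs (i := 6 - v % 6) (by omega) (by omega) hα.le
    refine twaTW.single (η := η) (J' := q ^ (6 - v % 6 + 2)) dvd_rfl (pow_ne_zero _ hq.ne_zero)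
      (hrad _ (by omega)).dvd ?_ e'
    simpa [chiI_pow hq.ne_zero, h2] using hη

theorem twa_prod (v : Ideal (R K) → ℕ) (S : Finset (Ideal (R K))) (hS : ∀ q ∈ S, Prime q ∧ v q ≠ 0) :
    twaTW (∏ q ∈ S, q) (fun n => ∏ q ∈ S, chiI q n ^ v q)
      fun r => ∏ q ∈ S, if v q % 6 = 2 then twaW q r else 1 := by
  classical
  induction S using Finset.induction_on with
  | empty =>
    refine twaTW.single (t := ⊤) (J0 := ⊤) (J' := ⊤) (α := 1) (η := 1) (by simp) top_ne_bot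
      (by simp [twa_rad_top]) ?_ fun n => by simp [twa_gs_top]
    simpa [chiI_top] using twa_loc_top (K := K) (α := 1) (by simp)
  | insert q S hq ih =>
    have h1 := hS q (Finset.mem_insert_self _ _)
    have h2 := fun p hp => hS p (Finset.mem_insert_of_mem hp)
    simp only [Finset.prod_insert hq]
    exact (twa_prime h1.1 h1.2).mul (IsCoprime.prod_right fun p hp =>
      ar_coprime h1.1 (h2 p hp).1 fun h => hq (h ▸ hp)) (ih h2)

theorem twa_chiI_prod (S : Finset (Ideal (R K))) (f : Ideal (R K) → Ideal (R K))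
    (hf : ∀ q ∈ S, f q ≠ ⊥) (n : R K) : chiI (∏ q ∈ S, f q) n = ∏ q ∈ S, chiI (f q) n := by
  classical
  induction S using Finset.induction_on with
  | empty => simp [chiI_top]
  | insert q S hq ih =>
    have h2 := fun p hp => hf p (Finset.mem_insert_of_mem hp)
    rw [Finset.prod_insert hq, Finset.prod_insert hq,
      chiI_mul (hf q (Finset.mem_insert_self _ _)) (Finset.prod_ne_zero_iff.2 h2), ih h2]

theorem twa_main {J : Ideal (R K)} (hJ : J ≠ ⊥) :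
    twaTW (radI J) (chiI J) fun r => ram (bpart J) r / (Real.sqrt (NI (bpart J)) : ℂ) := by
  classical
  have hmem : ∀ q, q ∈ pfs J ↔ q ∈ normalizedFactors J := fun q => by
    rw [mem_pfs hJ, UniqueFactorizationMonoid.mem_normalizedFactors_iff hJ]
  have h := twa_prod (fun q => (normalizedFactors J).count q) (pfs J) fun q hq =>
    ⟨(ar_of_mem_pfs hq).1, Multiset.count_ne_zero.2 ((hmem q).1 hq)⟩
  have e1 : ∏ q ∈ pfs J, q ^ (normalizedFactors J).count q = J := by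
    rw [show pfs J = (normalizedFactors J).toFinset from
      Finset.ext fun q => by rw [hmem, Multiset.mem_toFinset], ← Finset.prod_multiset_count,
      Ideal.prod_normalizedFactors_eq_self hJ]
  set S := (pfs J).filter (fun q => (normalizedFactors J).count q % 6 = 2) with hS
  have hb : bpart J = ∏ q ∈ S, q := by rw [bpart, hS]
  have hp : ∀ q ∈ S, Prime q := fun q hq => (ar_of_mem_pfs (Finset.mem_filter.1 hq).1).1
  have e2 : pfs (bpart J) = S := by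
    ext q
    rw [mem_pfs (squarefree_bpart J).ne_zero, hb]
    refine ⟨fun ⟨h1, h2⟩ => ?_, fun hq => ⟨hp q hq, Finset.dvd_prod_of_mem _ hq⟩⟩
    obtain ⟨p, hp1, hp2⟩ := (h1.dvd_finsetProd_iff _).1 h2
    rwa [(prime_dvd_prime_iff_eq h1 (hp p hp1)).1 hp2]
  convert h using 2 with n r
  · rfl
  · conv_lhs => rw [← e1]
    rw [twa_chiI_prod _ _ fun q hq => pow_ne_zero _ (ar_of_mem_pfs hq).1.ne_zero]
    exact Finset.prod_congr rfl fun q hq => chiI_pow (ar_of_mem_pfs hq).1.ne_zero _ _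
  · rw [← Finset.prod_filter, ← hS, ram_eq_prod (squarefree_bpart J), e2, hb, NI, ar_nmI_prod,
      Real.sqrt_prod _ fun _ _ => Nat.cast_nonneg _, Complex.ofReal_prod, ← Finset.prod_div_distrib]
    rfl

/-- The primal and the dual expansion. -/
theorem twa {J : Ideal (R K)} (hJ : J ≠ ⊥) : ∃ (𝒯 : Finset (Ideal (R K)))
    (J' : Ideal (R K) → Ideal (R K)),
    (∀ h' ∈ 𝒯, h' ∣ radI J ∧ J' h' ≠ ⊥ ∧ radI (J' h') ∣ radI J) ∧
    ∀ h1 : Ideal (R K), Squarefree h1 → IsCoprime h1 J →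
      ∃ (α η : Ideal (R K) → ℂ) (J0 : Ideal (R K) → Ideal (R K)),
        (∀ h' ∈ 𝒯, J0 h' ≠ ⊥ ∧ radI (J0 h') = h1 * h' ∧ ‖η h'‖ ≤ 1) ∧
        (∀ n : R K, chiI h1 n ^ 5 * chiI J n =
          ∑ h' ∈ 𝒯, α h' * gs (chiI (J0 h')) (gen (h1 * h')) n) ∧
        ∀ h' ∈ 𝒯, ∀ r : R K,
          α h' * gs (chiI ((J0 h' * (h1 * h') ^ 2) ^ 5)) (gen (h1 * h')) (-r) =
            η h' * (chiI h1 r ^ 3 * chiI (J' h') r *
              (ram (bpart J) r / (Real.sqrt (NI (bpart J)) : ℂ))) := by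
  classical
  obtain ⟨ι, _, s, t, J0, J', α, η, hinj, ha, he⟩ := twa_main hJ
  have hφ : ∀ h' ∈ s.image t, Function.invFunOn t s h' ∈ s ∧ t (Function.invFunOn t s h') = h' :=
    fun h' hh => Function.invFunOn_pos (by simpa using hh)
  refine ⟨s.image t, fun h' => J' (Function.invFunOn t s h'), fun h' hh => ?_, fun h1 hs hc => ?_⟩
  · obtain ⟨b1, b2, b3, -⟩ := ha _ (hφ h' hh).1
    exact ⟨(hφ h' hh).2 ▸ b1, b2, b3⟩
  obtain ⟨α1, hα1, e1⟩ := twa_inv hs (i := 1) (by norm_num)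
  obtain ⟨η1, hη1⟩ := twa_loc_pow hs (i := 1) one_ne_zero (by norm_num) hα1.le
  rw [pow_one] at e1 hη1
  have key : ∀ a, a ∈ s → _ := fun a h => hη1.mul
    (hc.of_isCoprime_of_dvd_right ((ha a h).1.trans (radI_dvd hJ))) (ha a h).2.2.2
  choose! α' η' hL hα' using key
  refine ⟨fun h' => α' (Function.invFunOn t s h'), fun h' => η' (Function.invFunOn t s h'),
    fun h' => h1 * J0 (Function.invFunOn t s h'), fun h' hh => ?_, fun n => ?_, fun h' hh r => ?_⟩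
  · obtain ⟨b1, b2, b3, -⟩ := hL _ (hφ h' hh).1
    exact ⟨b1, by rw [b2, (hφ h' hh).2], b3⟩
  · rw [Finset.sum_image hinj, he, Finset.mul_sum]
    refine Finset.sum_congr rfl fun a h => ?_
    simp only
    rw [hinj.leftInvOn_invFunOn h, hα' a h, ← e1]
  · have := (hL _ (hφ h' hh).1).2.2.2 r
    rw [(hφ h' hh).2] at this
    rw [this]
    ring

end Crest.Agent.GQ
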