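import Crest.Agent.GQ.ZDefs

/-!
# Project GQ, part B3: trivial bounds for smooth sums
-/

set_option autoImplicit false

noncomputable section

open NumberField Complex UniqueFactorizationMonoid MeasureTheory
open scoped ComplexConjugate ENNReal

namespace Crest.Agent.GQ

variable {K : Type} [Field K] [NumberField K] [P : Pre K]

theorem NI_pos {J : Ideal (R K)} (hJ : J ≠ ⊥) : 0 < NI J := by
  exact Nat.cast_pos.2 (nmI_pos hJ)

theorem one_le_NI {J : Ideal (R K)} (hJ : J ≠ ⊥) : 1 ≤ NI J := by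
  exact ar_one_le_nmI hJ

theorem NI_nonneg (J : Ideal (R K)) : 0 ≤ NI J := by
  exact Nat.cast_nonneg _

theorem NI_mul (J J' : Ideal (R K)) : NI (J * J') = NI J * NI J' := by
  simp only [NI, nmI_mul, Nat.cast_mul]

theorem NI_pow (J : Ideal (R K)) (k : ℕ) : NI (J ^ k) = NI J ^ k := by
  simp only [NI, nmI_pow, Nat.cast_pow]

theorem NI_le_of_dvd {J J' : Ideal (R K)} (hJ : J' ≠ ⊥) (h : J ∣ J') : NI J ≤ NI J' := by
  exact Nat.cast_le.2 (nmI_le_of_dvd hJ h)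

theorem Nr_gen' (J : Ideal (R K)) : Nr (gen J) = NI J := by
  exact Nr_gen J

theorem mem_rows' {H : ℝ} {J : Ideal (R K)} : J ∈ rows K H ↔ J ≠ ⊥ ∧ NI J ≤ H := by
  exact mem_rows

theorem mem_Tri {D E F : ℝ} {x : Ideal (R K) × Ideal (R K) × Ideal (R K)} :
    x ∈ Tri K D E F ↔ (D ≤ NI x.1 ∧ NI x.1 ≤ 2 * D) ∧ (E ≤ NI x.2.1 ∧ NI x.2.1 ≤ 2 * E) ∧
      (F ≤ NI x.2.2 ∧ NI x.2.2 ≤ 2 * F) ∧ x.2.1 ∣ x.1 ∧ Squarefree (x.1 * x.2.2) := by
  classical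
  simp only [Tri, Finset.mem_filter, Finset.mem_product, mem_rows']
  constructor
  · rintro ⟨⟨h1, h2, h3⟩, a, b, c, d, e⟩
    exact ⟨⟨a, h1.2⟩, ⟨b, h2.2⟩, ⟨c, h3.2⟩, d, e⟩
  · rintro ⟨h1, h2, h3, d, e⟩
    have h0 := e.ne_zero
    have n1 : x.1 ≠ ⊥ := left_ne_zero_of_mul h0
    have n3 : x.2.2 ≠ ⊥ := right_ne_zero_of_mul h0
    have n2 : x.2.1 ≠ ⊥ := ne_zero_of_dvd_ne_zero n1 d
    exact ⟨⟨⟨n1, h1.2⟩, ⟨n2, h2.2⟩, n3, h3.2⟩, h1.1, h2.1, h3.1, d, e⟩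

/-- The number of dyadic triples. -/
theorem card_Tri_le {ε : ℝ} (hε : 0 < ε) : ∃ C : ℝ, 0 ≤ C ∧ ∀ D E F : ℝ, 1 ≤ D → 1 ≤ F →
    ((Tri K D E F).card : ℝ) ≤ C * D ^ (1 + ε) * F := by
  classical
  obtain ⟨C₁, h₁⟩ := card_divs_le (K := K) hε
  obtain ⟨C₂, hC₂, h₂⟩ := b3b_card_rows (K := K)
  refine ⟨4 * 2 ^ ε * |C₁| * C₂ ^ 2, by positivity, fun D E F hD hF => ?_⟩
  have hsub : Tri K D E F ⊆ (rows K (2 * D)).biUnion
      (fun d => {d} ×ˢ divs d ×ˢ rows K (2 * F)) := by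
    intro x hx
    have hx' := hx
    simp only [Tri, Finset.mem_filter, Finset.mem_product] at hx'
    obtain ⟨⟨a, -, c⟩, -, -, -, d, -⟩ := hx'
    refine Finset.mem_biUnion.2 ⟨x.1, a, ?_⟩
    simp only [Finset.mem_product, Finset.mem_singleton, true_and]
    exact ⟨(mem_divs (mem_rows.1 a).1).2 d, c⟩
  have hD0 : 0 < D := by linarith
  have hterm : ∀ d ∈ rows K (2 * D),
      ((({d} ×ˢ divs d ×ˢ rows K (2 * F)).card : ℕ) : ℝ) ≤
        |C₁| * (2 * D) ^ ε * (C₂ * (2 * F)) := fun d hd => by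
    obtain ⟨hd0, hdD⟩ := mem_rows.1 hd
    rw [Finset.card_product, Finset.card_product, Finset.card_singleton, one_mul, Nat.cast_mul]
    refine mul_le_mul ((h₁ d hd0).trans ?_) (h₂ _ (by linarith)) (Nat.cast_nonneg _)
      (by positivity)
    exact mul_le_mul (le_abs_self _) (Real.rpow_le_rpow (Nat.cast_nonneg _) hdD hε.le)
      (by positivity) (abs_nonneg _)
  calc ((Tri K D E F).card : ℝ)
      ≤ ∑ d ∈ rows K (2 * D), ((({d} ×ˢ divs d ×ˢ rows K (2 * F)).card : ℕ) : ℝ) := by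
        exact_mod_cast (Finset.card_le_card hsub).trans Finset.card_biUnion_le
    _ ≤ (rows K (2 * D)).card • (|C₁| * (2 * D) ^ ε * (C₂ * (2 * F))) :=
        Finset.sum_le_card_nsmul _ _ _ hterm
    _ ≤ C₂ * (2 * D) * (|C₁| * (2 * D) ^ ε * (C₂ * (2 * F))) := by
        rw [nsmul_eq_mul]
        exact mul_le_mul_of_nonneg_right (h₂ _ (by linarith)) (by positivity)
    _ = _ := by
        rw [Real.mul_rpow two_pos.le hD0.le, Real.rpow_add hD0, Real.rpow_one]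
        ring

open Classical in
/-- Lattice points of a class weighted by a packet and a power of the norm. -/
theorem triv_pk (lam : ℝ) (hlam : 0 < lam) (A B : ℝ) (hA : 0 ≤ A) (hB : 1 + A ≤ B) :
    ∃ C : ℝ, 0 ≤ C ∧ ∀ j : ℕ, 1 ≤ j → ∀ c : K, c ≠ 0 → ∀ t ξ : Pl K → ℝ,
      Summable (fun n : R K => if n ∈ cls j c then Nr n ^ A * ‖pk lam t ξ (n : K)‖ else 0) ∧
      (∑' n : R K, if n ∈ cls j c then Nr n ^ A * ‖pk lam t ξ (n : K)‖ else 0) ≤
        C * min (sz c t ^ (1 + A)) (sz c t ^ B) := by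
  obtain ⟨C, hC, h⟩ := tsum_pk_le (K := K) hlam hA hB
  refine ⟨C, hC.le, fun j hj c hc t ξ => ?_⟩
  have h0 : ∀ n : R K, 0 ≤ if n ∈ cls j c then Nr n ^ A * ‖pk lam t ξ (n : K)‖ else 0 := fun n => by
    have := Nr_nonneg n
    split_ifs <;> positivity
  have hle : ∀ n : R K, (if n ∈ cls j c then Nr n ^ A * ‖pk lam t ξ (n : K)‖ else 0) ≤
      if n ∈ Lat c ∧ n ≠ 0 then Nr n ^ A * ‖pk lam t ξ (n : K)‖ else 0 := fun n => by
    by_cases hn : n ∈ cls j c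
    · rw [if_pos hn, if_pos ⟨mem_Lat_of_mem_cls hn, ne_zero_of_mem_cls hj hc hn⟩]
    · rw [if_neg hn]
      exact pk_nonneg lam A c t ξ n
  have hs := summable_pk hlam A hc t ξ
  have hs' := Summable.of_nonneg_of_le h0 hle hs
  exact ⟨hs', (hs'.tsum_le_tsum hle hs).trans (h c hc t ξ)⟩

open Classical in
theorem Mod.summable {a : R K → ℂ} (ha : Mod a) {j : ℕ} (hj : 1 ≤ j) {c : K} (hc : c ≠ 0)
    {lam : ℝ} (hlam : 0 < lam) (t ξ : Pl K → ℝ) :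
    Summable (fun n : R K => if n ∈ cls j c then a n * pk lam t ξ (n : K) else 0) := by
  obtain ⟨C, hC⟩ := ha
  exact summable_Sm (A := 1) (C := C) (fun n hn => by rw [Real.rpow_one]; exact hC n hn) hj hc
    hlam t ξ

theorem mod_of_le_one {a : R K → ℂ} (ha : ∀ n, ‖a n‖ ≤ 1) : Mod a := by
  exact ⟨1, fun n hn => by rw [one_mul]; exact (ha n).trans (one_le_Nr hn)⟩

theorem mod_Gf : Mod (Gf : R K → ℂ) := by
  refine ⟨1, fun n hn => (norm_Gf_le n).trans ?_⟩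
  rw [one_mul]
  exact Real.rpow_le_self_of_one_le (one_le_Nr hn) (by norm_num)

theorem Mod.mul_bdd {a b : R K → ℂ} (ha : Mod a) {C : ℝ} (hb : ∀ n, ‖b n‖ ≤ C) :
    Mod (fun n => a n * b n) := by
  obtain ⟨C₀, h⟩ := ha
  refine ⟨C₀ * C, fun n hn => ?_⟩
  rw [norm_mul, mul_right_comm]
  exact mul_le_mul (h n hn) (hb n) (norm_nonneg _) ((norm_nonneg _).trans (h n hn))

theorem Mod.add {a b : R K → ℂ} (ha : Mod a) (hb : Mod b) : Mod (fun n => a n + b n) := by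
  obtain ⟨C, h⟩ := ha
  obtain ⟨C', h'⟩ := hb
  refine ⟨C + C', fun n hn => (norm_add_le _ _).trans ?_⟩
  rw [add_mul]
  exact add_le_add (h n hn) (h' n hn)

theorem Mod.of_le {a b : R K → ℂ} (ha : Mod a) (h : ∀ n, n ≠ 0 → ‖b n‖ ≤ ‖a n‖) : Mod b := by
  obtain ⟨C, hC⟩ := ha
  exact ⟨C, fun n hn => (h n hn).trans (hC n hn)⟩

theorem continuous_Sm {a : R K → ℂ} (ha : Mod a) {j : ℕ} (hj : 1 ≤ j) {c : K} (hc : c ≠ 0)
    {lam : ℝ} (hlam : 0 < lam) :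
    Continuous (fun p : (Pl K → ℝ) × (Pl K → ℝ) => Sm a j c lam p.1 p.2) := by
  classical
  obtain ⟨C, hC⟩ := ha
  have hC' : ∀ n, n ≠ 0 → ‖a n‖ ≤ C * Nr n ^ (1 : ℝ) := fun n hn => by
    rw [Real.rpow_one]; exact hC n hn
  refine continuous_iff_continuousAt.2 fun p₀ => ?_
  have hU : {p : (Pl K → ℝ) × (Pl K → ℝ) | ‖p.1 - p₀.1‖ < 1} ∈ nhds p₀ :=
    (isOpen_lt (by fun_prop) continuous_const).mem_nhds (by simp)
  refine ContinuousOn.continuousAt ?_ hU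
  refine continuousOn_tsum (fun n => Continuous.continuousOn ?_)
    (((summable_pk (half_pos hlam) 1 hc p₀.1 p₀.2).mul_left (Real.exp (lam * rr K))).mul_left |C|)
    fun n p hp => (pk_term_le hC' hj hc lam p.1 p.2 n).trans ?_
  · split_ifs
    · unfold pk
      fun_prop
    · fun_prop
  · refine mul_le_mul_of_nonneg_left ?_ (abs_nonneg C)
    split_ifs with hn
    · rw [mul_left_comm]
      refine mul_le_mul_of_nonneg_left ?_ (Real.rpow_nonneg (Nr_nonneg n) _)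
      rw [norm_pk, norm_pk, ← Real.exp_add, Real.exp_le_exp]
      have hv : ∀ v, (lg (n : K) v - p₀.1 v) ^ 2 / 2 - 1 ≤ (lg (n : K) v - p.1 v) ^ 2 := fun v => by
        have h1 : |p.1 v - p₀.1 v| ≤ 1 := (norm_le_pi_norm (p.1 - p₀.1) v).trans (le_of_lt hp)
        have h2 : (p.1 v - p₀.1 v) ^ 2 ≤ 1 := by
          rw [← sq_abs]
          exact pow_le_one₀ (abs_nonneg _) h1
        nlinarith [sq_nonneg (lg (n : K) v - p.1 v - (p.1 v - p₀.1 v))]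
      have hs := Finset.sum_le_sum (s := Finset.univ) fun v _ => hv v
      rw [Finset.sum_sub_distrib, ← Finset.sum_div, Finset.sum_const, Finset.card_univ,
        nsmul_eq_mul, mul_one] at hs
      have := mul_le_mul_of_nonneg_left hs hlam.le
      simp only [rr]
      linarith
    · simp

theorem Sm_congr_mul {a b : R K → ℂ} {η : ℂ} {j : ℕ} {c : K} (h : ∀ n ∈ cls j c, a n = η * b n)
    (lam : ℝ) (t ξ : Pl K → ℝ) : Sm a j c lam t ξ = η * Sm b j c lam t ξ := by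
  rw [Sm_congr h, Sm_const_mul]

theorem Sm_add {a b : R K → ℂ} (ha : Mod a) (hb : Mod b) {j : ℕ} (hj : 1 ≤ j) {c : K} (hc : c ≠ 0)
    {lam : ℝ} (hlam : 0 < lam) (t ξ : Pl K → ℝ) :
    Sm (fun n => a n + b n) j c lam t ξ = Sm a j c lam t ξ + Sm b j c lam t ξ := by
  unfold Sm
  rw [← (ha.summable hj hc hlam t ξ).tsum_add (hb.summable hj hc hlam t ξ)]
  refine tsum_congr fun n => ?_
  split_ifs
  · ring
  · simp

theorem ZTriv_mod_sum {ι : Type} (s : Finset ι) {a : ι → R K → ℂ} (ha : ∀ i ∈ s, Mod (a i)) :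
    Mod (fun n => ∑ i ∈ s, a i n) := by
  classical
  induction s using Finset.induction_on with
  | empty => exact mod_of_le_one fun n => by simp
  | insert i s hi ih =>
    simp only [Finset.sum_insert hi]
    exact (ha i (Finset.mem_insert_self _ _)).add
      (ih fun k hk => ha k (Finset.mem_insert_of_mem hk))

theorem Sm_sum {ι : Type} (s : Finset ι) {a : ι → R K → ℂ} (ha : ∀ i ∈ s, Mod (a i)) {j : ℕ}
    (hj : 1 ≤ j) {c : K} (hc : c ≠ 0) {lam : ℝ} (hlam : 0 < lam) (t ξ : Pl K → ℝ) :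
    Sm (fun n => ∑ i ∈ s, a i n) j c lam t ξ = ∑ i ∈ s, Sm (a i) j c lam t ξ := by
  classical
  induction s using Finset.induction_on with
  | empty => simp [Sm]
  | insert i s hi ih =>
    have h' : ∀ k ∈ s, Mod (a k) := fun k hk => ha k (Finset.mem_insert_of_mem hk)
    simp only [Finset.sum_insert hi]
    rw [Sm_add (ha i (Finset.mem_insert_self _ _)) (ZTriv_mod_sum s h') hj hc hlam, ih h']

theorem Sm_cls_eq (a : R K → ℂ) {j : ℕ} {c c' : K} (h : cls j c = cls j c') (lam : ℝ)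
    (t ξ : Pl K → ℝ) : Sm a j c lam t ξ = Sm a j c' lam t ξ := by
  unfold Sm
  rw [h]

theorem norm_ph (ξ : Pl K → ℝ) (x : K) : ‖ph ξ x‖ = 1 := by
  rw [ph, mul_comm, Complex.norm_exp_ofReal_mul_I]

/-- The trivial bound for a mean square. -/
theorem sum_sq_Sm_le {lam : ℝ} (hlam : 0 < lam) : ∃ C : ℝ, 0 ≤ C ∧ ∀ (ι : Type) (s : Finset ι)
    (a : ι → R K → ℂ), (∀ i ∈ s, ∀ n, ‖a i n‖ ≤ 1) → ∀ j : ℕ, 1 ≤ j → ∀ c : K, c ≠ 0 →
    ∀ t ξ : Pl K → ℝ, ∑ i ∈ s, ‖Sm (a i) j c lam t ξ‖ ^ 2 ≤ C * s.card * sz c t ^ 2 := by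
  obtain ⟨C, hC, h⟩ := norm_Sm_le (K := K) hlam (B := 1) le_rfl
  refine ⟨C ^ 2, by positivity, fun ι s a ha j hj c hc t ξ => ?_⟩
  have hb : ∀ i ∈ s, ‖Sm (a i) j c lam t ξ‖ ^ 2 ≤ (C * sz c t) ^ 2 := fun i hi =>
    pow_le_pow_left₀ (norm_nonneg _) ((h (a i) (ha i hi) j hj c hc t ξ).trans
      (mul_le_mul_of_nonneg_left (min_le_left _ _) hC.le)) 2
  refine (Finset.sum_le_card_nsmul _ _ _ hb).trans (le_of_eq ?_)
  rw [nsmul_eq_mul]
  ring

theorem ZTriv_fiber {α β : Type} {F : α → ℝ} {W : β → ℝ} (hF : ∀ n, 0 ≤ F n) (hW : ∀ p, 0 ≤ W p)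
    (hs : Summable W) (Q : β → α → Prop) (hQ : ∀ n, F n ≠ 0 → ∃ p, Q p n)
    (h : ∀ p, ∀ s : Finset α, s.Nonempty → (∀ n ∈ s, Q p n) → ∑ n ∈ s, F n ≤ W p) :
    ∑' n, F n ≤ ∑' p, W p := by
  classical
  refine Real.tsum_le_of_sum_le hF fun s => ?_
  rw [← Finset.sum_filter_ne_zero]
  set s' := s.filter fun n => F n ≠ 0 with hs'
  have hex : ∀ n : s', ∃ p, Q p n := fun n => hQ n (Finset.mem_filter.1 n.2).2
  choose f hf using hex
  rw [← Finset.sum_coe_sort s', ← Finset.sum_fiberwise_of_maps_to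
    (s := Finset.univ) (t := Finset.univ.image f) (g := f)
    (fun n _ => Finset.mem_image_of_mem f (Finset.mem_univ n))]
  refine le_trans (Finset.sum_le_sum fun p hp => ?_) (hs.sum_le_tsum _ fun p _ => hW p)
  obtain ⟨n₀, -, hn₀⟩ := Finset.mem_image.1 hp
  have := h p ((Finset.univ.filter fun n => f n = p).map (Function.Embedding.subtype _))
    ⟨n₀, Finset.mem_map.2 ⟨n₀, by simp [hn₀], rfl⟩⟩ fun n hn => by
      obtain ⟨m, hm, rfl⟩ := Finset.mem_map.1 hn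
      have := hf m
      rwa [(Finset.mem_filter.1 hm).2] at this
  rwa [Finset.sum_map] at this

theorem ZTriv_multiples {lam : ℝ} (hlam : 0 < lam) : ∃ C : ℝ, 0 ≤ C ∧ ∀ j : ℕ, 1 ≤ j →
    ∀ c : K, c ≠ 0 → ∀ t ξ : Pl K → ℝ, ∀ L : Ideal (R K), L ≠ ⊥ → ∀ s : Finset (R K),
      (∀ n ∈ s, n ∈ cls j c ∧ gen L ∣ n) →
        ∑ n ∈ s, ‖pk lam t ξ (n : K)‖ ≤ C * sz c t / NI L := by
  classical
  obtain ⟨C, hC, h⟩ := pk_fin (K := K) hlam (A := 0) (E := 1) le_rfl (by norm_num)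
  refine ⟨C, hC.le, fun j hj c hc t ξ L hL s hs => ?_⟩
  have hd := gen_ne_zero hL
  have hd' : ((gen L : R K) : K) ≠ 0 := fun h0 => hd (Subtype.ext h0)
  have hc' : c / (gen L : K) ≠ 0 := div_ne_zero hc hd'
  have h1 := h (c / (gen L : K)) hc' (t - lg (gen L : K)) ξ (s.image fun n => rdiv n (gen L))
  rw [Real.rpow_one, sz_div hc hd, Nr_gen', ← mul_div_assoc, Finset.sum_image] at h1
  · refine le_trans (le_of_eq (Finset.sum_congr rfl fun n hn => ?_)) h1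
    obtain ⟨hn1, hn2⟩ := hs n hn
    have e := rdiv_spec hn2
    have hm : rdiv n (gen L) ∈ cls j (c / (gen L : K)) := (mul_mem_cls_iff hd).1 (e ▸ hn1)
    have hm0 := ne_zero_of_mem_cls hj hc' hm
    rw [if_pos ⟨mem_Lat_of_mem_cls hm, hm0⟩, Real.rpow_zero, one_mul]
    conv_lhs => rw [e]
    rw [Subring.coe_mul, pk_mul lam t ξ hd' (fun h0 => hm0 (Subtype.ext h0)), norm_mul, mul_comm I,
      Complex.norm_exp_ofReal_mul_I, one_mul]
  · intro n hn n' hn' he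
    rw [rdiv_spec (hs n hn).2, rdiv_spec (hs n' hn').2]
    exact congrArg _ he

theorem ZTriv_rpow {x : ℝ} (hx : 0 < x) : x ^ (-(3 / 2 : ℝ)) = Real.sqrt x / x ^ 2 := by
  rw [Real.sqrt_eq_rpow, ← Real.rpow_natCast, ← Real.rpow_sub hx]
  norm_num

open Classical in
/-- Trivial bound for the theta coefficients on multiples of a squarefree ideal. -/
theorem triv_Gf (lam : ℝ) (hlam : 0 < lam) :
    ∃ C : ℝ, 0 ≤ C ∧ ∀ j : ℕ, 1 ≤ j → ∀ c : K, c ≠ 0 → ∀ t ξ : Pl K → ℝ,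
      ∀ g : Ideal (R K), Squarefree g →
        (∑' n : R K, if n ∈ cls j c ∧ gen g ∣ n then ‖Gf n‖ * ‖pk lam t ξ (n : K)‖ else 0) ≤
          C * sz c t / NI g := by
  obtain ⟨C, hC, hm⟩ := ZTriv_multiples (K := K) hlam
  have hs1 := summable_nmI (K := K) (σ := 3 / 2) (by norm_num)
  have h0 : ∀ I : Ideal (R K), 0 ≤ (nmI I : ℝ) ^ (-(3 / 2 : ℝ)) := fun I => by positivity
  have hs2 : Summable fun p : Ideal (R K) × Ideal (R K) =>
      (nmI p.1 : ℝ) ^ (-(3 / 2 : ℝ)) * (nmI p.2 : ℝ) ^ (-(3 / 2 : ℝ)) :=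
    hs1.mul_of_nonneg hs1 h0 h0
  refine ⟨C * ∑' p : Ideal (R K) × Ideal (R K),
    (nmI p.1 : ℝ) ^ (-(3 / 2 : ℝ)) * (nmI p.2 : ℝ) ^ (-(3 / 2 : ℝ)),
    mul_nonneg hC (tsum_nonneg fun p => mul_nonneg (h0 _) (h0 _)),
    fun j hj c hc t ξ g hg => ?_⟩
  have hg0 : g ≠ ⊥ := hg.ne_zero
  have hX := sz_pos hc t
  have hN := NI_pos hg0
  refine (ZTriv_fiber (W := fun p : Ideal (R K) × Ideal (R K) => C * sz c t / NI g *
      ((nmI p.1 : ℝ) ^ (-(3 / 2 : ℝ)) * (nmI p.2 : ℝ) ^ (-(3 / 2 : ℝ))))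
    (fun n => by split_ifs <;> positivity) (fun p => by positivity) (hs2.mul_left _)
    (fun p n => (n ∈ cls j c ∧ gen g ∣ n) ∧ p.1 ∣ g ∧ p.2 ≠ ⊥ ∧
      ‖Gf n‖ = Real.sqrt (NI p.1) * Real.sqrt (NI p.2) ∧
      ∀ a', g = p.1 * a' → gen (a' * (p.1 * p.2) ^ 3) ∣ n) (fun n hn => ?_)
    (fun p s hs h => ?_)).trans (le_of_eq ?_)
  · have hn1 : n ∈ cls j c ∧ gen g ∣ n := by
      by_contra h
      exact hn (if_neg h)
    have hG : Gf n ≠ 0 := fun h => hn (by simp [h])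
    obtain ⟨n₀, m, hsq, hm0, rfl⟩ : ∃ n₀ m : R K, Squarefree n₀ ∧ m ≠ 0 ∧ n = n₀ * m ^ 3 := by
      by_contra h
      exact hG (Gf_eq_zero h)
    have hJ : Ideal.span {m} ≠ (⊥ : Ideal (R K)) := by rwa [Ne, Ideal.span_singleton_eq_bot]
    obtain ⟨a, a', ha, hcop, e⟩ := ar_exists_part hg0 hJ
    have hsa : Squarefree a := hg.squarefree_of_dvd ⟨a', e⟩
    rw [radI_eq_self hsa] at ha
    obtain ⟨b, hb⟩ := ha
    have hb0 : b ≠ ⊥ := fun h => hJ (by rw [hb, h, Ideal.mul_bot])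
    refine ⟨(a, b), hn1, ⟨a', e⟩, hb0, ?_, fun a'' e' => ?_⟩
    · rw [Gf_eq hsq hm0, norm_mul, norm_Gsf hsq, mul_one, Complex.norm_real,
        Real.norm_of_nonneg (Real.sqrt_nonneg _), ← Real.sqrt_mul (NI_nonneg _), ← NI_mul, ← hb]
      rfl
    · obtain rfl : a' = a'' := mul_left_cancel₀ hsa.ne_zero (e.symm.trans e')
      rw [gen_dvd_iff, ← hb]
      refine (hcop.pow_right (n := 3)).mul_dvd ?_ ?_
      · exact (Dvd.intro_left a e.symm).trans (gen_dvd_iff.1 hn1.2)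
      · rw [Ideal.span_singleton_pow, Ideal.dvd_iff_le, Ideal.span_singleton_le_span_singleton]
        exact Dvd.intro_left n₀ rfl
  · obtain ⟨n₀, hn₀⟩ := hs
    obtain ⟨-, ⟨a', e⟩, hb0, -, -⟩ := h n₀ hn₀
    have ha0 : p.1 ≠ ⊥ := left_ne_zero_of_mul (e ▸ hg.ne_zero)
    have ha' : a' ≠ ⊥ := right_ne_zero_of_mul (e ▸ hg.ne_zero)
    have hL : a' * (p.1 * p.2) ^ 3 ≠ ⊥ :=
      mul_ne_zero ha' (pow_ne_zero 3 (mul_ne_zero ha0 hb0))
    have h1 := hm j hj c hc t ξ _ hL s fun n hn => ⟨(h n hn).1.1, (h n hn).2.2.2.2 a' e⟩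
    have h2 : ∑ n ∈ s, (if n ∈ cls j c ∧ gen g ∣ n then ‖Gf n‖ * ‖pk lam t ξ (n : K)‖ else 0) =
        Real.sqrt (NI p.1) * Real.sqrt (NI p.2) * ∑ n ∈ s, ‖pk lam t ξ (n : K)‖ := by
      rw [Finset.mul_sum]
      exact Finset.sum_congr rfl fun n hn => by rw [if_pos (h n hn).1, (h n hn).2.2.2.1]
    have hx := NI_pos ha0
    have hy := one_le_NI hb0
    have hz := NI_pos ha'
    have hy0 := NI_pos hb0
    rw [h2]
    refine (mul_le_mul_of_nonneg_left h1 (by positivity)).trans ?_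
    change _ ≤ C * sz c t / NI g * (NI p.1 ^ (-(3 / 2 : ℝ)) * NI p.2 ^ (-(3 / 2 : ℝ)))
    rw [ZTriv_rpow hx, ZTriv_rpow hy0, e, NI_mul, NI_mul, NI_pow, NI_mul]
    have e1 : Real.sqrt (NI p.1) * Real.sqrt (NI p.2) *
        (C * sz c t / (NI a' * (NI p.1 * NI p.2) ^ 3)) =
        C * sz c t / (NI p.1 * NI a') * (Real.sqrt (NI p.1) / NI p.1 ^ 2 *
          (Real.sqrt (NI p.2) / NI p.2 ^ 2)) / NI p.2 := by
      field_simp
    rw [e1]
    exact div_le_self (by positivity) hy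
  · rw [tsum_mul_left]
    ring

end Crest.Agent.GQ
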