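import Crest.Agent.GQ.ZCCG

/-!
# Project GQ, part B3: mean square of the twisted theta coefficients
-/

set_option autoImplicit false

noncomputable section

open NumberField Complex UniqueFactorizationMonoid MeasureTheory
open scoped ComplexConjugate ENNReal

namespace Crest.Agent.GQ

variable {K : Type} [Field K] [NumberField K] [P : Pre K] [Q : Rec K]

theorem zv1_mod (e : ℤ) (h1 J b : Ideal (R K)) : Mod (fun r : R K => Gf r * (ang (r : K) ^ e *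
    (chiI h1 r ^ 3 * chiI J r * (ram b r / (Real.sqrt (NI b) : ℂ))))) := by
  refine mod_Gf.mul_bdd (C := 1 * (1 * 1 * ((∑ g ∈ divs b, NI g) / ‖(Real.sqrt (NI b) : ℂ)‖)))
    fun r => ?_
  rw [norm_mul, norm_mul, norm_mul, norm_div, norm_pow]
  gcongr
  · exact norm_ang_zpow_le _ _
  · exact pow_le_one₀ (norm_nonneg _) (norm_chiI_le _ _)
  · exact norm_chiI_le _ _
  · refine (norm_ram_le b r).trans (Finset.sum_le_sum fun g _ => ?_)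
    split_ifs
    exacts [le_rfl, NI_nonneg g]

theorem zv1_hyp {Y X' H B r u A e : ℝ} (hY : 0 < Y) (hX : 0 < X') (hH : 0 ≤ H) (hB : 0 ≤ B)
    (hr : 0 ≤ r) (hu : 1 ≤ u) (hA : 0 ≤ A) (he : 0 ≤ e) (he1 : e ≤ 1) :
    u ^ A * B * X' ^ (1 + e) * (H + X' ^ (8 / 5 : ℝ) * r) ≤
      B * Y ^ (1 + e) * (H + Y ^ (8 / 5 : ℝ) * r) * (X' / Y) * (max 1 (X' / Y) * u) ^ (A + 3) := by
  obtain ⟨w, rfl⟩ : ∃ w, X' = Y * w := ⟨X' / Y, by field_simp⟩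
  have hw : 0 < w := (mul_pos_iff_of_pos_left hY).1 hX
  rw [mul_div_cancel_left₀ _ hY.ne']
  set M := max 1 w
  have hM : 1 ≤ M := le_max_left _ _
  have hwM : w ≤ M := le_max_right _ _
  have hM0 : 0 < M := by linarith
  have h1 : w ^ e ≤ M := (Real.rpow_le_rpow hw.le hwM he).trans
    ((Real.rpow_le_rpow_of_exponent_le hM he1).trans_eq (Real.rpow_one M))
  have h2 : w ^ (8 / 5 : ℝ) ≤ M ^ 2 := (Real.rpow_le_rpow hw.le hwM (by norm_num)).trans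
    ((Real.rpow_le_rpow_of_exponent_le hM (by norm_num)).trans_eq (Real.rpow_two M))
  have h3 : (1 : ℝ) ≤ M ^ 2 := one_le_pow₀ hM
  have h4 : u ^ A * M ^ 3 ≤ (M * u) ^ (A + 3) := by
    rw [Real.rpow_add (by positivity), show (3 : ℝ) = (3 : ℕ) by norm_num, Real.rpow_natCast]
    gcongr
    · exact le_mul_of_one_le_left (by linarith) hM
    · exact le_mul_of_one_le_right hM0.le hu
  rw [Real.mul_rpow hY.le hw.le, Real.mul_rpow hY.le hw.le, Real.rpow_add hw, Real.rpow_one]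
  calc _ ≤ u ^ A * B * (Y ^ (1 + e) * (w * M)) * (H * M ^ 2 + Y ^ (8 / 5 : ℝ) * M ^ 2 * r) := by
        gcongr
        exact le_mul_of_one_le_right hH h3
    _ = B * Y ^ (1 + e) * (H + Y ^ (8 / 5 : ℝ) * r) * w * (u ^ A * M ^ 3) := by ring
    _ ≤ _ := by gcongr

theorem zv1_fin {X H m r e B : ℝ} (hX : 1 ≤ X) (hH : 1 ≤ H) (hm : 1 ≤ m) (hmr : m ≤ r)
    (he : 0 ≤ e) (hB : 0 ≤ B) :
    B * r ^ (2 * e) * ((H * m) ^ 2 / X) ^ (1 + e) *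
        (2 * H + ((H * m) ^ 2 / X) ^ (8 / 5 : ℝ) * r ^ (2 / 5 : ℝ)) * (X / (H * m)) ^ 2 ≤
      2 * B * (H * r) ^ (4 * e) * X * (H + ((H * r) ^ 2 / X) ^ (8 / 5 : ℝ) * r ^ (2 / 5 : ℝ)) := by
  have hr : 1 ≤ r := hm.trans hmr
  have hX0 : 0 < X := by linarith
  have hH0 : 0 < H := by linarith
  have hm0 : 0 < m := by linarith
  have hr0 : 0 < r := by linarith
  set Y := (H * m) ^ 2 / X with hY
  have hY0 : 0 < Y := by positivity
  have h1 : Y ≤ (H * r) ^ 2 / X := by rw [hY]; gcongr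
  have h2 : Y ^ e ≤ (H * r) ^ (2 * e) := by
    rw [Real.rpow_mul (by positivity), Real.rpow_two]
    exact Real.rpow_le_rpow hY0.le (h1.trans (div_le_self (by positivity) hX)) he
  have h3 : r ^ (2 * e) ≤ (H * r) ^ (2 * e) :=
    Real.rpow_le_rpow hr0.le (le_mul_of_one_le_left hr0.le hH) (by positivity)
  have h4 : (X / (H * m)) ^ 2 = X / Y := by rw [hY]; field_simp
  have h5 : 0 ≤ ((H * r) ^ 2 / X) ^ (8 / 5 : ℝ) * r ^ (2 / 5 : ℝ) := by positivity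
  rw [h4, Real.rpow_add hY0, Real.rpow_one, show 4 * e = 2 * e + 2 * e by ring,
    Real.rpow_add (by positivity)]
  calc _ = B * r ^ (2 * e) * Y ^ e * X * (2 * H + Y ^ (8 / 5 : ℝ) * r ^ (2 / 5 : ℝ)) := by
        field_simp
    _ ≤ B * (H * r) ^ (2 * e) * (H * r) ^ (2 * e) * X *
          (2 * (H + ((H * r) ^ 2 / X) ^ (8 / 5 : ℝ) * r ^ (2 / 5 : ℝ))) := by
        have : Y ^ (8 / 5 : ℝ) * r ^ (2 / 5 : ℝ) ≤
            ((H * r) ^ 2 / X) ^ (8 / 5 : ℝ) * r ^ (2 / 5 : ℝ) := by gcongr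
        gcongr
        linarith
    _ = _ := by ring

open Classical in
/-- A fixed powerful part and a dyadic range for the squarefree part. -/
theorem V1 (hcv : CV K) (j : ℕ) (hj : Rec.k K ≤ j) (lam : ℝ) (hlam : 0 < lam) (ε : ℝ) (hε : 0 < ε)
    (hε1 : ε ≤ 1) :
    ∃ C A : ℝ, 0 ≤ C ∧ 0 ≤ A ∧ ∀ h2 : Ideal (R K), h2 ≠ ⊥ → ∀ c : K, c ≠ 0 →
      ∀ (t ξ : Pl K → ℝ) (H1 : ℝ), 1 ≤ H1 → 1 ≤ sz c t →
        ∑ h1 ∈ (rows K (2 * H1)).filter (fun h1 => H1 ≤ NI h1 ∧ Squarefree h1 ∧ IsCoprime h1 h2),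
          ‖Sm (fun n => Gf n * (ang (n : K) * chiI (h1 * h2) n ^ 5)) j c lam t ξ‖ ^ 2 ≤
          C * (1 + ‖ξ‖) ^ A * NI (bpart (h2 ^ 5)) * (H1 * NI (radI h2)) ^ ε * sz c t *
            (H1 + ((H1 * NI (radI h2)) ^ 2 / sz c t) ^ (8 / 5 : ℝ) * NI (radI h2) ^ (2 / 5 : ℝ)) := by
  obtain ⟨j', C1, hjj, hC1, hTW⟩ := TW hcv j hj
  have hj' : Rec.k K ≤ j' := hj.trans hjj
  have he : 0 < ε / 6 := by positivity
  obtain ⟨C3, A3, hC3, hA3, hCC⟩ := CCR hcv j' hj' 1 one_pos (ε / 6) he (by linarith)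
  obtain ⟨C4, A4, hC4, hA4, hDW⟩ := DWC (K := K) j' (Q.hk.trans hj') C1 hC1 lam hlam (A3 + 3)
    (by positivity)
  obtain ⟨C2, hC2⟩ := card_divs_le (K := K) he
  refine ⟨C2 ^ 2 * C4 * (2 * C3), A4, by positivity, hA4, fun h2 hh2 c hc t ξ H1 hH1 hX => ?_⟩
  obtain ⟨κ, hκ, hJ⟩ := hTW 1 (Or.inl rfl) c hc
  have hJ0 : h2 ^ 5 ≠ ⊥ := pow_ne_zero 5 hh2
  obtain ⟨𝒯, J', h𝒯, hη⟩ := hJ (h2 ^ 5) hJ0
  rw [radI_pow (by norm_num)] at h𝒯
  set ρ := radI h2 with hρ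
  have hρ0 : ρ ≠ ⊥ := radI_ne_bot h2
  set b := bpart (h2 ^ 5) with hb
  set s := (rows K (2 * H1)).filter (fun h1 => H1 ≤ NI h1 ∧ Squarefree h1 ∧ IsCoprime h1 h2)
  set X := sz c t with hXd
  have hr : 1 ≤ NI ρ := one_le_NI hρ0
  have hbρ : b ∣ ρ := by
    have := bpart_dvd_radI (h2 ^ 5)
    rwa [radI_pow (by norm_num)] at this
  have hNb := NI_nonneg b
  set D : Ideal (R K) → Ideal (R K) → ℂ := fun h1 h' => dualS (κ (gen (h1 * h')))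
    (fun r => Gf r * (ang (r : K) ^ (-1 : ℤ) * (chiI h1 r ^ 3 * chiI (J' h') r *
      (ram b r / (Real.sqrt (NI b) : ℂ))))) lam t ξ c (gen (h1 * h')) with hD
  have step1 : ∀ h1 ∈ s, ‖Sm (fun n => Gf n * (ang (n : K) * chiI (h1 * h2) n ^ 5)) j c lam t ξ‖ ^ 2 ≤
      𝒯.card * ∑ h' ∈ 𝒯, ‖D h1 h'‖ ^ 2 := by
    intro h1 hh1
    obtain ⟨a1, -, a2, a3⟩ := Finset.mem_filter.1 hh1
    obtain ⟨η, hη1, hη2⟩ := hη h1 a2 a3.pow_right
    have e : (fun n : R K => Gf n * (ang (n : K) * chiI (h1 * h2) n ^ 5)) =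
        fun n : R K => Gf n * (ang (n : K) ^ (1 : ℤ) * (chiI h1 n ^ 5 * chiI (h2 ^ 5) n)) := by
      funext n
      rw [chiI_mul (mem_rows.1 a1).1 hh2, chiI_pow hh2, mul_pow, zpow_one]
    rw [e, hη2 lam hlam t ξ]
    refine le_trans ?_ sq_sum_le_card_mul_sum_sq
    refine pow_le_pow_left₀ (norm_nonneg _) ((norm_sum_le _ _).trans
      (Finset.sum_le_sum fun h' hh' => ?_)) 2
    rw [norm_mul]
    exact mul_le_of_le_one_left (norm_nonneg _) (hη1 h' hh')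
  set Z := (H1 + ((H1 * NI ρ) ^ 2 / X) ^ (8 / 5 : ℝ) * NI ρ ^ (2 / 5 : ℝ)) with hZ
  have hX0 : 0 < X := by linarith
  have hH0 : 0 < H1 := by linarith
  have hr0 : 0 < NI ρ := by linarith
  have hZ0 : 0 ≤ Z := by positivity
  have step2 : ∀ h' ∈ 𝒯, ∑ h1 ∈ s, ‖D h1 h'‖ ^ 2 ≤
      C4 * (1 + ‖ξ‖) ^ A4 * (2 * (C3 * NI b) * (H1 * NI ρ) ^ (4 * (ε / 6)) * X * Z) := by
    intro h' hh'
    obtain ⟨a1, a2, a3⟩ := h𝒯 h' hh'
    have a4 : h' ≠ ⊥ := ne_zero_of_dvd_ne_zero hρ0 a1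
    have hm := one_le_NI a4
    have hmr := NI_le_of_dvd hρ0 a1
    have hm0 : 0 < NI h' := by linarith
    have hY : 0 < (H1 * NI h') ^ 2 / X := by positivity
    refine (hDW _ s (fun h1 => h1 * h') (fun h1 => κ (gen (h1 * h'))) _ c t ξ (H1 * NI h')
      (C3 * NI b * NI ρ ^ (2 * (ε / 6)) * ((H1 * NI h') ^ 2 / X) ^ (1 + ε / 6) *
        (2 * H1 + ((H1 * NI h') ^ 2 / X) ^ (8 / 5 : ℝ) * NI ρ ^ (2 / 5 : ℝ))) hc
      (one_le_mul_of_one_le_of_one_le hH1 hm) (by positivity) (fun h1 hh1 => ?_)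
      fun c' hc' t' ξ' => ?_).trans ?_
    · obtain ⟨b1, b2, -⟩ := Finset.mem_filter.1 hh1
      obtain ⟨b3, b4⟩ := mem_rows'.1 b1
      refine ⟨zv1_mod _ _ _ _, hκ _ (gen_ne_zero (mul_ne_zero b3 a4)), ?_, ?_⟩
      · rw [NI_mul]; gcongr
      · rw [NI_mul, ← mul_assoc]; gcongr
    · refine ((Finset.sum_le_sum_of_subset_of_nonneg (Finset.filter_subset _ _)
        fun _ _ _ => by positivity).trans (hCC (J' h') ρ b a2 hρ0 a3 (squarefree_bpart _) hbρ c' hc'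
          t' ξ' (2 * H1) (by linarith))).trans ?_
      refine le_trans (le_of_eq (by ring)) (zv1_hyp (B := C3 * NI b * NI ρ ^ (2 * (ε / 6)))
        (u := 1 + ‖ξ'‖) hY (sz_pos hc' t') (by positivity) (by positivity) (by positivity)
        (le_add_of_nonneg_right (norm_nonneg _)) hA3 he.le (by linarith))
    · rw [mul_assoc]
      exact mul_le_mul_of_nonneg_left (zv1_fin hX hH1 hm hmr he.le (by positivity))
        (by positivity)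
  have hcard : (𝒯.card : ℝ) ≤ C2 * NI ρ ^ (ε / 6) := le_trans (by
    exact_mod_cast Finset.card_le_card fun h' hh' => (mem_divs hρ0).2 (h𝒯 h' hh').1) (hC2 ρ hρ0)
  have hcard2 : (𝒯.card : ℝ) ^ 2 ≤ C2 ^ 2 * (H1 * NI ρ) ^ (2 * (ε / 6)) := by
    refine (pow_le_pow_left₀ (Nat.cast_nonneg _) hcard 2).trans ?_
    rw [mul_pow, ← Real.rpow_two (NI ρ ^ (ε / 6)), ← Real.rpow_mul hr0.le, mul_comm (ε / 6)]
    gcongr
    exact le_mul_of_one_le_left hr0.le hH1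
  calc _ ≤ ∑ h1 ∈ s, 𝒯.card * ∑ h' ∈ 𝒯, ‖D h1 h'‖ ^ 2 := Finset.sum_le_sum step1
    _ = 𝒯.card * ∑ h' ∈ 𝒯, ∑ h1 ∈ s, ‖D h1 h'‖ ^ 2 := by rw [← Finset.mul_sum, Finset.sum_comm]
    _ ≤ 𝒯.card * (𝒯.card * (C4 * (1 + ‖ξ‖) ^ A4 *
          (2 * (C3 * NI b) * (H1 * NI ρ) ^ (4 * (ε / 6)) * X * Z))) := by
        refine mul_le_mul_of_nonneg_left ?_ (Nat.cast_nonneg _)
        rw [← nsmul_eq_mul]
        exact Finset.sum_le_card_nsmul _ _ _ step2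
    _ = (𝒯.card : ℝ) ^ 2 * (C4 * (1 + ‖ξ‖) ^ A4 *
          (2 * (C3 * NI b) * (H1 * NI ρ) ^ (4 * (ε / 6)) * X * Z)) := by ring
    _ ≤ C2 ^ 2 * (H1 * NI ρ) ^ (2 * (ε / 6)) * (C4 * (1 + ‖ξ‖) ^ A4 *
          (2 * (C3 * NI b) * (H1 * NI ρ) ^ (4 * (ε / 6)) * X * Z)) := by gcongr
    _ = _ := by
        rw [show (H1 * NI ρ) ^ ε = (H1 * NI ρ) ^ (2 * (ε / 6)) * (H1 * NI ρ) ^ (4 * (ε / 6)) by
          rw [← Real.rpow_add (by positivity)]; congr 1; ring]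
        ring

end Crest.Agent.GQ
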